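import Mathlib
attribute [-instance] DenselyNormedField.toNontriviallyNormedField RCLike.toDenselyNormedField DenselyNormedField.toNormedField NontriviallyNormedField.toNormedField NormedField.toNormedDivisionRing littleWedderburn NormedDivisionRing.toDivisionRing NormedField.toField IdemCommSemiring.toIdemSemiring KleeneAlgebra.toIdemSemiring SemiRingCat.instSemiringObjForgetRingHomCarrier CommCStarAlgebra.toNormedCommRing NormedField.toNormedCommRing CommCStarAlgebra.toCStarAlgebra CStarAlgebra.toNormedRing NormedCommRing.toNormedRing NormedDivisionRing.toNormedRing BooleanRing.toRing NormedCommRing.toSeminormedCommRing NormedRing.toSeminormedRing SeminormedCommRing.toSeminormedRing Field.toEuclideanDomain BooleanRing.toCommRing EuclideanDomain.toCommRing NormedCommRing.toCommRing SeminormedCommRing.toCommRing NormedRing.toRing SeminormedRing.toRing Ring.toNonAssocRing CommCStarAlgebra.toNonUnitalCommCStarAlgebra NonUnitalCommCStarAlgebra.toNonUnitalNormedCommRing NormedCommRing.toNonUnitalNormedCommRing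 CStarAlgebra.toNonUnitalCStarAlgebra NonUnitalCommCStarAlgebra.toNonUnitalCStarAlgebra NonUnitalCStarAlgebra.toNonUnitalNormedRing NonUnitalNormedCommRing.toNonUnitalNormedRing NormedRing.toNonUnitalNormedRing CommRing.toAddCommGroupWithOne NonAssocRing.toAddCommGroupWithOne CommSemiring.toNonAssocCommSemiring NonAssocCommRing.toNonAssocCommSemiring NonAssocCommSemiring.toNonAssocSemiring LeftPreLieRing.instLieAdmissibleRing RightPreLieRing.instLieAdmissibleRing AddCommGroupWithOne.toAddCommMonoidWithOne NonUnitalNormedCommRing.toNonUnitalSeminormedCommRing SeminormedCommRing.toNonUnitalSeminormedCommRing NonUnitalNormedRing.toNonUnitalSeminormedRing NonUnitalSeminormedCommRing.toNonUnitalSeminormedRing SeminormedRing.toNonUnitalSeminormedRing LeftPreLieRing.toNonUnitalNonAssocRing LieAdmissibleRing.toNonUnitalNonAssocRing RightPreLieRing.toNonUnitalNonAssocRing NonUnitalNormedCommRing.toNonUnitalCommRing NonUnitalSeminormedCommRing.toNonUnitalCommRing NonUnitalCommRing.toNonUnitalRing NonUnitalNormedRing.toNonUnitalRing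 NonUnitalSeminormedRing.toNonUnitalRing Ring.toNonUnitalRing NonAssocCommRing.toNonUnitalNonAssocCommRing LinearOrderedAddCommGroupWithTop.instLinearOrderedAddCommMonoidWithTop NonAssocRing.toNonUnitalNonAssocRing NonUnitalRing.toNonUnitalNonAssocRing LinearOrderedAddCommGroupWithTop.toAddCommMonoid NonUnitalRing.toNonUnitalSemiring NonAssocCommSemiring.toNonUnitalNonAssocCommSemiring NonUnitalNonAssocCommSemiring.toNonUnitalNonAssocSemiring NonUnitalSemiring.toNonUnitalNonAssocSemiring CommSemiRingCat.FilteredColimits.colimitCommSemiring AddCommMonCat.FilteredColimits.colimitAddCommMonoid TopologicalSpace.Compacts.instSetLike CategoryTheory.CommGrpObj.toGrpObj CategoryTheory.Preadditive.instGrpObj CategoryTheory.CommGrpObj.mk AddCommGroupWithOne.toAddGroupWithOne CategoryTheory.instBraidedCategoryType CategoryTheory.Abelian.toPreadditive NonUnitalNormedRing.toNormedAddCommGroup Pi.nonUnitalNonAssocSemiring LinearOrderedAddCommGroupWithTop.toSubNegMonoid CategoryTheory.BimonObj.toMonObj CategoryTheory.CommRingObj.toRingObj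 CategoryTheory.GrpObj.toMonObj CategoryTheory.HopfObj.toBimonObj CategoryTheory.RingObj.toMonObj MonTypeEquivalenceMon.monMonoid NormedCommGroup.toNormedGroup AlgebraicGeometry.Scheme.instPreorderCarrierCarrierCommRingCat NormedCommGroup.toSeminormedCommGroup NormedGroup.toSeminormedGroup SeminormedCommGroup.toSeminormedGroup instCoeT MulSemiringAction.toDistribMulAction instCommGroupOfIsSimpleGroupOfIsNilpotent CommGroup.toGroup CommGrpTypeEquivalenceCommGrp.commGrpCommGroup GrpTypeEquivalenceGrp.grpGroup NormedCommGroup.toCommGroup NormedGroup.toGroup SeminormedCommGroup.toCommGroup SeminormedGroup.toGroup LieAdmissibleRing.instLieRing ModuleCat.isModule BoxIntegral.Box.instMembershipForallReal instCoeTOfCoeDep LieRing.toAddCommGroup AddMonCat.addMonoidObj Bialgebra.toAlgebra NormedAlgebra.toAlgebra NormedAddCommGroup.toNormedAddGroup CommSemiring.toBialgebra CommSemiring.toHopfAlgebra HopfAlgebra.toHopfAlgebraStruct HopfAlgebraStruct.toBialgebra ContDiffMapSupportedInClass.toDFunLike RKHS.instFunLike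 TestFunctionClass.toDFunLike Complex.instRCLike NonUnitalSeminormedRing.toSeminormedAddCommGroup NormedAddCommGroup.toSeminormedAddCommGroup SemiNormedGrp.str instDistribSMul LinearOrderedCommGroupWithZero.toLinearOrderedCommMonoidWithZero LinearOrderedCommGroupWithZero.toCommGroupWithZero CommGroupWithZero.toGroupWithZero instCoeHTC instCoeHTCT Pi.nonAssocSemiring instSMulZeroClass SSet.stdSimplex.instFunLikeObjOppositeSimplexCategoryMkOpFinHAddNatOfNat NormedAddGroup.toSeminormedAddGroup SeminormedAddCommGroup.toSeminormedAddGroup instCoeTC instCoeTCOfCoe PartOrdEmb.str MonCat.monoidObj instNonUnitalCStarAlgebraForall GradedMonoid.GradeZero.smul AddCommGroupWithOne.toAddCommGroup NonUnitalNonAssocRing.toAddCommGroup NormedAddCommGroup.toAddCommGroup SeminormedAddCommGroup.toAddCommGroup CompleteAtomicBooleanAlgebra.toCompletelyDistribLattice CommGroupWithZero.toCommMonoidWithZero CommMonoidWithZero.toMonoidWithZero CommSemiring.toCommMonoidWithZero LinearOrderedCommMonoidWithZero.toCommMonoidWithZero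 NormedAlgebra.id MonoidWithZero.toSemigroupWithZero Invertible.toNeZero NeZero.of_gt' Nat.AtLeastTwo.toNeZero SemigroupWithZero.toMulZeroClass NonUnitalNormedRing.toMetricSpace NormedAddCommGroup.toMetricSpace NormedAddGroup.toMetricSpace NormedCommGroup.toMetricSpace NormedDivisionRing.toMetricSpace NormedField.toMetricSpace NormedGroup.toMetricSpace NormedRing.toMetricSpace TopologicalSpace.UpgradedIsCompletelyMetrizableSpace.toMetricSpace CompleteBooleanAlgebra.toCompleteDistribLattice CompletelyDistribLattice.toCompleteDistribLattice NormedAddGroup.toAddGroup SeminormedAddGroup.toAddGroup Action.instMulAction Torsor.toMulAction Action.FintypeCat.instMulActionObjFiniteOf GradedMonoid.GradeZero.mulAction EMetricSpace.toPseudoEMetricSpace IsValuativeTopology.instValuedValueGroupWithZeroOfIsUniformAddGroup MetricSpace.toEMetricSpace MetricSpace.toPseudoMetricSpace NonUnitalSeminormedRing.toPseudoMetricSpace PseudoEMetricSpace.toUniformSpace PseudoMetricSpace.toPseudoEMetricSpace PseudoMetricSpace.toUniformSpace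 SeminormedAddCommGroup.toPseudoMetricSpace SeminormedAddGroup.toPseudoMetricSpace SeminormedCommGroup.toPseudoMetricSpace SeminormedGroup.toPseudoMetricSpace SeminormedRing.toPseudoMetricSpace UniformSpace.toTopologicalSpace UpgradedStandardBorel.toTopologicalSpace Valued.toUniformSpace WithIdeal.instTopologicalSpace WithIdeal.instUniformSpace TopologicalSpace.UpgradedIsCompletelyPseudoMetrizableSpace.toPseudoMetricSpace RingCat.FilteredColimits.colimitRing ContinuousAddMonoidHom.instCoeOutOfAddMonoidHomClassOfContinuousMapClass ContinuousMonoidHom.instCoeOutOfMonoidHomClassOfContinuousMapClass HomeomorphClass.instCoeOutHomeomorph IsometryClass.instCoeOutIsometryEquiv LinearOrderedAddCommGroupWithTop.toSubtractionMonoid SubNegZeroMonoid.toSubNegMonoid CompleteBooleanAlgebra.toBooleanAlgebra CompleteDistribLattice.toCoframe CompleteDistribLattice.toFrame CategoryTheory.Limits.Concrete.instUniqueToTypeTerminal LeftPreLieAlgebra.toModule LieAdmissibleAlgebra.toModule LieAlgebra.toModule NormedSpace.toModule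 RightPreLieAlgebra.toModule boolToProp AddCancelCommMonoid.toAddCommMonoid ESeminormedAddCommMonoid.toAddCommMonoid Std.DTreeMap.Raw.instInsertSigma ENormedAddCommMonoid.toESeminormedAddCommMonoid NormedAddCommGroup.toENormedAddCommMonoid BooleanAlgebra.toBiheytingAlgebra CompleteDistribLattice.toBiheytingAlgebra CompleteLinearOrder.toBiheytingAlgebra CompletelyDistribLattice.toBiheytingAlgebra CompleteLinearOrder.toCompleteLattice Order.Coframe.toCompleteLattice Order.Frame.toCompleteLattice AddCancelCommMonoid.toAddCancelMonoid AddCancelMonoid.toAddLeftCancelMonoid AddLeftCancelMonoid.toAddMonoid AddRightCancelMonoid.toAddMonoid ENormedAddCommMonoid.toENormedAddMonoid ENormedAddMonoid.toESeminormedAddMonoid ESeminormedAddCommMonoid.toESeminormedAddMonoid ESeminormedAddMonoid.toAddMonoid NormedAddGroup.toENormedAddMonoid RightPreLieAlgebra.instLieAdmissibleAlgebra Nat.instNontrivial Nat.Prime.one_lt' MonoidWithZero.toMulActionWithZero instRingHomSurjectiveForallEvalRingHom BooleanAlgebra.toGeneralizedBooleanAlgebra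 BiheytingAlgebra.toCoheytingAlgebra BiheytingAlgebra.toHeytingAlgebra Order.Coframe.toCoheytingAlgebra Order.Frame.toHeytingAlgebra Pi.instTopForall Fin.completeLinearOrder AddOpposite.instAddZero CoheytingAlgebra.toGeneralizedCoheytingAlgebra GeneralizedBooleanAlgebra.toGeneralizedCoheytingAlgebra HeytingAlgebra.toGeneralizedHeytingAlgebra CommRing.toGrindCommRing Field.toGrindField Ring.toGrindRing SetLike.GradeZero.instCommSemiring SubfieldClass.toNormedField AddCommGroup.toGrindIntModule instConditionallyCompletePartialOrderSup ChainCompletePartialOrder.instOfCompleteLattice ChainCompletePartialOrder.instOmegaCompletePartialOrder ChainCompletePartialOrder.toPartialOrder CompletePartialOrder.toOmegaCompletePartialOrder OmegaCompletePartialOrder.toPartialOrder CommMonTypeEquivalenceCommMon.commMonCommMonoid CategoryTheory.Mat_.fintype instNonUnitalAlgHomClassOfNonUnitalAlgEquivClass Pi.nonUnitalSemiring RingConeClass.toSubsemiringClass SubfieldClass.toDivisionRing SubfieldClass.toField instSubsingleton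 Group.IsPerfect.subsingleton_of_isMulCommutative BooleanAlgebra.toDistribLattice CompleteLattice.toLattice CompleteSemilatticeInf.toPartialOrder ConditionallyCompletePartialOrderInf.toPartialOrder GeneralizedBooleanAlgebra.toDistribLattice GeneralizedCoheytingAlgebra.toDistribLattice GeneralizedCoheytingAlgebra.toLattice GeneralizedHeytingAlgebra.toDistribLattice GeneralizedHeytingAlgebra.toLattice Order.Coframe.toDistribLattice Order.Frame.toDistribLattice IsEmpty.instSubsingleton ProfiniteAddGrp.addGroup Turing.FinTM2.decidableEqK Fin.instBiheytingAlgebra MulSemiringAction.toMulDistribMulAction MulActionWithZero.toMulAction MulDistribMulAction.toMulAction TopRep.hV1 CommSemiring.toGrindCommSemiring Semiring.toGrindSemiring ENormedCommMonoid.toESeminormedCommMonoid NormedCommGroup.toENormedCommMonoid MulZeroClass.toSMulWithZero CompleteLinearOrder.toLinearOrder ConditionallyCompleteLinearOrder.toLinearOrder LinearOrderedAddCommGroupWithTop.toLinearOrder LinearOrderedAddCommMonoidWithTop.toLinearOrder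 LinearOrderedCommMonoidWithZero.toLinearOrder CentroidHomClass.toAddMonoidHomClass MulSemiringActionSemiHomClass.toDistribMulActionSemiHomClass NonUnitalAlgSemiHomClass.toDistribMulActionSemiHomClass Subalgebra.instSMulMemClass OrderAddMonoidHom.instAddMonoidHomClass SetLike.GradeZero.instSemiring LeftPreLieAlgebra.instLieAdmissibleAlgebra LieAdmissibleAlgebra.instLieAlgebra LieAlgebra.ofAssociativeAlgebra AddCommMonoid.toGrindNatModule AddQuantale.instAddLeftMono Pi.addMonoidWithOne BialgEquivClass.toBialgHomClass CategoryTheory.instFinCategoryOfFintypeOfIsThin FinEnum.instFintype SetLike.instFintype Unique.fintype CategoryTheory.FinCategory.fintypeObj RootedTree.orderBot AlgEquivClass.toAlgHomClass BialgHomClass.toAlgHomClass Pi.normedAddCommGroup OrderDual.instDivisionSemiring Quaternion.instDivisionRing instMulActionSemiHomClassMulActionHom CancelCommMonoid.toCancelMonoid CommGroup.toCancelCommMonoid Group.toCancelMonoid OrderDual.instPow_1 Pi.subtractionMonoid CancelCommMonoid.toCommMonoid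 CancelCommMonoid.toLeftCancelMonoid CancelMonoid.toLeftCancelMonoid CancelMonoid.toRightCancelMonoid CommGroup.toCommMonoid CommGroup.toDivisionCommMonoid CommMonoidWithZero.toCommMonoid DivInvMonoid.toMonoid DivInvOneMonoid.toDivInvMonoid DivisionCommMonoid.toCommMonoid DivisionMonoid.toDivInvMonoid DivisionRing.toDivInvMonoid ENormedCommMonoid.toENormedMonoid ENormedMonoid.toESeminormedMonoid ESeminormedCommMonoid.toCommMonoid ESeminormedCommMonoid.toESeminormedMonoid ESeminormedMonoid.toMonoid Group.toDivInvMonoid Group.toDivisionMonoid GroupWithZero.toDivisionMonoid LeftCancelMonoid.toMonoid MonoidWithZero.toMonoid NormedGroup.toENormedMonoid RightCancelMonoid.toMonoid GradedMonoid.GradeZero.commMonoid GradedMonoid.GradeZero.monoid MulZeroClass.negZeroClass Fin.instCoheytingAlgebra Fin.instHeytingAlgebra Pi.smulZeroClass' Semigrp.str AbsoluteValue.zeroHomClass instNonemptyOfMonad ValuationClass.toMonoidWithZeroHomClass Pi.normedRing instInhabitedOfMonad Nontrivial.to_nonempty Torsor.nonempty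 Unique.instInhabited CategoryTheory.IsConnected.is_nonempty Pi.mulZeroOneClass AddHom.addHomClass ModuleCat.CoextendScalars.hasSMul PerfectClosure.instDivisionRing PerfectClosure.instField CommMonCat.str MulEquivClass.toMonoidWithZeroHomClass MulRingSeminormClass.toMonoidWithZeroHomClass Pi.distribSMul' instMonadLiftT instMonadLiftTOfMonadLift Pi.mulOneClass Pi.mulZeroClass Std.Time.WallTime.instHAddOffset_1 instIsDedekindDomainOfIsDomainOfIsDedekindRing instIsDomain DivisionRing.isDomain EuclideanDomain.instIsDomain Field.isDomain IsDedekindDomain.toIsDomain IsDedekindDomainDvr.isDedekindDomain IsPrincipalIdealRing.isDedekindDomain IsStrictOrderedRing.isDomain Pi.instCompl LinOrd.str AlgHomClass.toRingHomClass MulSemiringActionSemiHomClass.toRingHomClass RingEquivClass.toRingHomClass Std.DTreeMap.Raw.instSingletonSigma Field.instIsLocalRing IsDiscreteValuationRing.toIsLocalRing IsOrderedRing.toIsStrictOrderedRing ValuationRing.isLocalRing AlgHom.instContinuousLinearMapClassOfAlgHomClass BialgHomClass.toCoalgHomClass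 CoalgEquivClass.toCoalgHomClass CoalgHomClass.toSemilinearMapClass ContinuousSemilinearEquivClass.continuousSemilinearMapClass ContinuousSemilinearMapClass.toSemilinearMapClass PositiveLinearMap.instContinuousLinearMapClassComplexOfLinearMapClassOfOrderHomClass RingHomClass.toLinearMapClassNNRat RingHomClass.toLinearMapClassRat SemilinearIsometryClass.toContinuousSemilinearMapClass SemilinearIsometryClass.toSemilinearMapClass bot_nonempty infSet_to_nonempty supSet_to_nonempty top_nonempty ConnectedSpace.toNonempty IrreducibleSpace.toNonempty One.instNonempty Zero.instNonempty AddQuantale.instAddRightMono Quantale.instMulRightMono AlgHomClass.linearMapClass NonUnitalAlgHomClass.instSemilinearMapClassOfNonUnitalAlgSemiHomClassToMonoidHomRingHom CompleteLattice.toPartialOrder' LinearOrder.toLattice FirstOrder.Language.instDecidableEqFunctions FirstOrder.Language.instDecidableEqRelations Vector.instHMul instInfiniteOfUncountable instNontrivialOfCharZero CategoryTheory.isConnected_of_nonempty_and_subsingleton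 CharZero.infinite Denumerable.instInfinite DivisionRing.toNontrivial EuclideanDomain.toNontrivial Group.instTorsor GroupWithZero.toNontrivial Infinite.instNontrivial IsAlgClosed.instInfinite IsDomain.toNontrivial IsSimpleAddGroup.toNontrivial IsSimpleGroup.toNontrivial IsSimpleOrder.toNontrivial IsSimpleRing.instNontrivial IsStrictOrderedRing.toNontrivial LinearOrderedAddCommGroupWithTop.toNontrivial NoMaxOrder.infinite NoMinOrder.infinite NontriviallyNormedField.infinite NormedAddTorsor.toAddTorsor Preorder.smallCategory SeminormedAddCommGroup.toNormedAddTorsor CategoryTheory.Groupoid.toCategory CategoryTheory.IsSifted.instIsConnected CategoryTheory.StrictBicategory.category FirstOrder.Language.instInfiniteOfModelDloOrderOfNonempty AddCommSemigroup.toAddSemigroup AddLeftCancelSemigroup.toAddSemigroup AddRightCancelSemigroup.toAddSemigroup Semiring.toNatAlgebra InvOneClass.toOne One.ofOfNat1 UnitalShelf.toOne Pi.instMaxForall_mathlib FinEnum.decEq FunLike.toDecidableEq RCLike.toDecidableEq PadicComplex.normedField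 MonoidWithZeroHomClass.toZeroHomClass Fin.addCommGroup SMulMemClass.toModule Subalgebra.instModuleSubtypeMem Subalgebra.module' SubmoduleClass.module' Quantale.instMulLeftMono AddGroupConeClass.toAddSubmonoidClass Subalgebra.algebra' SubalgebraClass.toAlgebra TwoSidedIdeal.instIsTwoSidedCoeOrderHomIdealAsIdeal Submodule.instIdemCommSemiring Pi.instMinForall_mathlib instCoeHTCOfCoeHeadOfCoeOTC SemilatSupCat.isSemilatticeSup BialgEquivClass.toCoalgEquivClass decidableEq_of_subsingleton SimpleGraph.TripartiteFromTriangles.graph.instDecidableRelAdj Pi.commMagma RingConeClass.toAddGroupConeClass Std.Time.Duration.instHMulInt_1 RCLike.toInnerProductSpaceReal BooleanAlgebra.toBot GeneralizedBooleanAlgebra.toBot Set.instAddLeftMono Set.instAddRightMono Fin.addCommMonoid BooleanAlgebra.toBoundedOrder BooleanAlgebra.toTop BoundedOrder.toOrderBot BoundedOrder.toOrderTop CoheytingAlgebra.toBoundedOrder CoheytingAlgebra.toOrderTop CompleteLattice.toBoundedOrder CompletePartialOrder.toOrderBot CompletePartialOrder.toSupSet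 CompleteSemilatticeSup.toSupSet ConditionallyCompleteLattice.toInfSet ConditionallyCompleteLattice.toSupSet ConditionallyCompleteLinearOrderBot.toOrderBot ConditionallyCompletePartialOrderSup.toSupSet GeneralizedBooleanAlgebra.toOrderBot GeneralizedCoheytingAlgebra.toOrderBot GeneralizedHeytingAlgebra.toOrderTop HeytingAlgebra.toBoundedOrder HeytingAlgebra.toOrderBot IdemSemiring.toOrderBot IrreducibleSpace.connectedSpace LinearOrderedAddCommGroupWithTop.toOrderTop LinearOrderedAddCommMonoidWithTop.toOrderTop LinearOrderedCommMonoidWithZero.toOrderBot NormedAddTorsor.toAddTorsor' PathConnectedSpace.connectedSpace RootedTree.semilatticeInf RCLike.innerProductSpace NumberField.to_charZero Pi.instBotForall Pi.instCanonicallyOrderedAddForall instTopologicalSpaceFin ContractibleSpace.instOfNonemptyOfIndiscreteTopology ContractibleSpace.instOfNonemptyOfSubsingleton ContractibleSpace.instPathConnectedSpace Convex.instPathConnectedSpace Fin.instBoundedOrder Fin.instCommMonoid Fin.instInhabited Fin.instNontrivial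 NormedSpace.instPathConnectedSpace RealTopologicalVectorSpace.contractibleSpace SimplyConnectedSpace.instPathConnectedSpace SimplyConnectedSpace.ofContractible CategoryTheory.IsSifted.isSifted_of_hasBinaryCoproducts_and_nonempty SaturatedAddSubmonoid.instAddSubmonoidClass LeftPreLieAlgebra.toIsScalarTower LieAdmissibleAlgebra.toIsScalarTower LieRinehartAlgebra.toIsScalarTower RightPreLieAlgebra.toIsScalarTower instCoeHTCTOfCoeTailOfCoeHTC instCoeOutOfCoeFun instCoeTailIntOfIntCast instCoeTailNatOfNatCast instCoeTailRatOfRatCast BialgEquivClass.instCoeToBialgEquiv BialgHomClass.instCoeToBialgHom CoalgEquivClass.instCoeToCoalgEquiv CoalgHomClass.instCoeToCoalgHom CompletelyPositiveMapClass.instCoeToCompletelyPositiveMap DivisionRing.toNNRatCast DivisionRing.toRatCast DivisionSemiring.toNNRatCast LinearMapClass.instCoeToLinearMap NNRatCast.toCoeTail NonUnitalStarRingHomClass.instCoeHeadNonUnitalStarRingHom SemilinearMapClass.instCoeToSemilinearMap StarAlgEquivClass.instCoeHead StarRingEquivClass.instCoeHead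 OrderRingHom.instRingHomClass StarSubalgebra.commCStarAlgebra StarSubalgebra.cstarAlgebra Pi.negZeroClass CompleteLat.str Compactum.instTopologicalSpaceA Pi.instLocallyFiniteOrderBot SubalgebraClass.normedRing SubringClass.toNormedCommRing SubringClass.toNormedRing instMulActionNatOfAddMonoid AddCommMonoid.toNatModule AddMonoid.natSMulWithZero LieRing.instLieAlgebra NSMul.ofSMul ZSMul.ofSMul PositiveLinearMap.instInnerProductSpaceComplexPreGNS Matrix.instIntCastOfZero Matrix.instNatCastOfZero Matrix.SpecialLinearGroup.hasCoeToMatrix Matrix.UnitaryGroup.coeMatrix MulOpposite.instMulOne SemilinearIsometryEquivClass.toSemilinearIsometryClass AlgebraicGeometry.instOrderTopCarrierCarrierCommRingCatOfIsIntegral NonUnitalAlgHomClass.toNonUnitalRingHomClass RingEquivClass.toNonUnitalRingHomClass Nat.instCeilDiv Nat.instFloorDiv Subalgebra.moduleLeft SubalgebraClass.seminormedRing SubringClass.toSeminormedCommRing SubringClass.toSeminormedRing SetLike.GradeZero.instAlgebraSubtypeMemOfNat Monoid.End.instMonoidHomClass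 CommMonoid.toCommSemigroup CommSemigroup.toSemigroup LeftCancelMonoid.toLeftCancelSemigroup LeftCancelSemigroup.toSemigroup RightCancelMonoid.toRightCancelSemigroup RightCancelSemigroup.toSemigroup FirstOrder.Language.graph.instSubsingleton PUnit.instLinearOrderedAddCommMonoidWithTop Subalgebra.normedCommRing Subalgebra.normedRing SetLike.GradeZero.instMonoid QuotientAddGroup.instHasQuotientAddSubgroup instSMulCommClassOfIsScalarTower LeftPreLieAlgebra.toSMulCommClass LieAdmissibleAlgebra.toSMulCommClass RightPreLieAlgebra.toSMulCommClass Matrix.instAddCommGroupWithOne Matrix.instAddCommMonoidWithOne Matrix.instAddGroupWithOne Matrix.instAddMonoidWithOne Matrix.instNonAssocRing Matrix.instRing Matrix.nonAssocSemiring Matrix.semiring Ideal.Quotient.normedCommRing BialgHomClass.toMonoidHomClass MulCharClass.toMonoidHomClass MulDistribMulActionSemiHomClass.toMonoidHomClass NonUnitalRingHomClass.toAddMonoidHomClass SemilinearMapClass.instAddMonoidHomClass Std.LinearOrderPackage.toLinearPreorderPackage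 Std.LinearPreorderPackage.toPreorderPackage instIsBotOneClass instCharZeroOfIsSemireal IsStrictOrderedRing.toCharZero RCLike.charZero_rclike ConvexCone.instAddMemClass Subalgebra.seminormedCommRing Subalgebra.seminormedRing AlgHom.instRingHomCompTripleComp TensorProduct.instModuleFstSnd Submodule.Quotient.instSMul WithTop.instIsBotZeroClass Pi.nonAssocRing instIsSemirealOfIsStrictOrderedRingOfExistsAddOfLE IsRealClosed.toIsSemireal Subalgebra.instSubringClass -- iprune

set_option linter.all false

section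

/-!
P202, mixed characteristic: the ring `B = W(C)/(p - [t])` attached to a perfect ring `C` of
characteristic `p` and an element `t`, roots, the base rings.
-/

namespace Vale.Agent.P202.Mix

open Polynomial

universe u

section

variable (p : ℕ) [Fact p.Prime]

/-- the ring `W(C)/(p - [t])`. -/
def Bt (C : Type u) [CommRing C] (t : C) : Type u :=
  WittVector p C ⧸ Ideal.span {(p : WittVector p C) - WittVector.teichmuller p t}

variable (C : Type u) [CommRing C] (t : C)

noncomputable instance : CommRing (Bt p C t) :=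
  inferInstanceAs (CommRing (WittVector p C ⧸ _))

/-- the projection `W(C) → B`. -/
noncomputable def toB : WittVector p C →+* Bt p C t := Ideal.Quotient.mk _

/-- the class of the Teichmueller representative. -/
noncomputable def te (c : C) : Bt p C t := toB p C t (WittVector.teichmuller p c)

variable {C} in
/-- the `p^e`-th root in a perfect ring. -/
noncomputable def rt [CharP C p] [PerfectRing C p] (e : ℕ) (c : C) : C :=
  (iterateFrobeniusEquiv C p e).symm c

/-- the ring `k[[t, u_1, .., u_r]]`. -/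
abbrev R0 (k : Type u) [Field k] (r : ℕ) : Type u := MvPowerSeries (Fin (r + 1)) k

/-- the ring `W(k)[[u_1, .., u_r]]`. -/
abbrev La (k : Type u) [Field k] (r : ℕ) : Type u := MvPowerSeries (Fin r) (WittVector p k)

end

section

variable (p : ℕ) [Fact p.Prime] (k : Type u) [Field k] [CharP k p] (r : ℕ)

instance : CharP (R0 k r) p :=
  charP_of_injective_ringHom (f := (MvPowerSeries.C : k →+* R0 k r))
    (MvPowerSeries.C_injective) p

/-- the perfection of `k[[t, u_1, .., u_r]]`. -/
abbrev Rp : Type u := PerfectClosure (R0 k r) p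

/-- the variables `t = x_0`, `u_i = x_i` in the perfection. -/
noncomputable def xp (i : Fin (r + 1)) : Rp p k r :=
  PerfectClosure.of (R0 k r) p (MvPowerSeries.X i)

end

end Vale.Agent.P202.Mix
end

section

/-!
P202, mixed characteristic: the base ring `Λ → W(Rp)`, the rings `B_N = W(C)/(p - [t], p^N)`, the
data `CData` (cover of `Λ` on which the `F_j` split into Teichmueller representatives).
-/

namespace Vale.Agent.P202.Mix

open Polynomial

universe u

section

variable (p : ℕ) [Fact p.Prime] (k : Type u) [Field k] [CharP k p] (r : ℕ)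

/-- A base: `Λ` with elements `u_i` and a homomorphism `ψ : Λ → W(Rp)`, `u_i ↦ [u_i]`, whose
reduction modulo `p` comes from a flat injective homomorphism `Λ/p → k[[t, u]]/t`. -/
structure IsBase (Λ : Type u) [CommRing Λ] (u : Fin r → Λ)
    (ψ : Λ →+* WittVector p (Rp p k r))
    (red : Λ →+* R0 k r ⧸ Ideal.span {(MvPowerSeries.X 0 : R0 k r)}) : Prop where
  psi_u : ∀ i, ψ (u i) = WittVector.teichmuller p (xp p k r i.succ)
  red_coeff : ∀ l, ∃ (g : R0 k r) (y : Rp p k r), red l = Ideal.Quotient.mk _ g ∧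
    (ψ l).coeff 0 = PerfectClosure.of (R0 k r) p g + xp p k r 0 * y
  red_p : ∀ l ∈ Ideal.span {(p : Λ)}, red l = 0
  red_ker : ∀ l, red l = 0 → l ∈ Ideal.span {(p : Λ)}
  red_flat : (Ideal.Quotient.lift (Ideal.span {(p : Λ)}) red red_p).Flat

/-- the element `t` of an `Rp`-algebra. -/
noncomputable abbrev tC (C : Type u) [CommRing C] [Algebra (Rp p k r) C] : C :=
  algebraMap (Rp p k r) C (xp p k r 0)

variable {p k r} {Λ : Type u} [CommRing Λ] (ψ : Λ →+* WittVector p (Rp p k r))
variable (C : Type u) [CommRing C] [Algebra (Rp p k r) C]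

/-- `Λ → B = W(C)/(p - [t])`. -/
noncomputable def laB : Λ →+* Bt p C (tC p k r C) :=
  (toB p C (tC p k r C)).comp ((WittVector.map (algebraMap (Rp p k r) C)).comp ψ)

/-- the ring `B/p^N`. -/
def BN (N : ℕ) : Type u :=
  (fun _ : Λ →+* WittVector p (Rp p k r) =>
    Bt p C (tC p k r C) ⧸ Ideal.span {(p : Bt p C (tC p k r C)) ^ N}) ψ

noncomputable instance (N : ℕ) : CommRing (BN ψ C N) :=
  inferInstanceAs (CommRing (Bt p C (tC p k r C) ⧸ Ideal.span {(p : Bt p C (tC p k r C)) ^ N}))

/-- the projection `B → B/p^N`. -/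
noncomputable def mkN (N : ℕ) : Bt p C (tC p k r C) →+* BN ψ C N :=
  Ideal.Quotient.mk (Ideal.span {(p : Bt p C (tC p k r C)) ^ N})

noncomputable instance (N : ℕ) : Algebra Λ (BN ψ C N) :=
  ((mkN ψ C N).comp (laB ψ C)).toAlgebra

/-- the class of a Teichmueller representative in `B/p^N`. -/
noncomputable def teN (N : ℕ) (c : C) : BN ψ C N := mkN ψ C N (te p C (tC p k r C) c)

end

section

variable {p : ℕ} [Fact p.Prime] {k : Type u} [Field k] [CharP k p] {r : ℕ}

/-- a flat integral perfect `Rp`-algebra of finite rank. -/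
structure PExt (p : ℕ) [Fact p.Prime] (k : Type u) [Field k] [CharP k p] (r r0 : ℕ) where
  C : Type u
  [commRing : CommRing C]
  [charP : CharP C p]
  [perfect : PerfectRing C p]
  [nontriv : Nontrivial C]
  [algebra : Algebra (Rp p k r) C]
  flat : Module.Flat (Rp p k r) C
  integral : Algebra.IsIntegral (Rp p k r) C
  inj : Function.Injective (algebraMap (Rp p k r) C)
  fin : ∀ t : Finset C, ∃ v : Fin r0 → C, (t : Set C) ⊆ Submodule.span (Rp p k r) (Set.range v)

attribute [instance] PExt.commRing PExt.charP PExt.perfect PExt.nontriv PExt.algebra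

/-- The covers: the polynomials `F_j` split into Teichmueller representatives modulo `p^(I+1)`,
`[δ_π] = π(E)`, `[δ'_π] = π(g - E)` modulo `p^(I+1)` for every choice `π` of roots. -/
structure CData {Λ : Type u} [CommRing Λ] (ψ : Λ →+* WittVector p (Rp p k r)) {s D : ℕ}
    (F : Fin s → Λ[X]) (E : MvPolynomial (Fin s) Λ) (g : Λ) (I r0 : ℕ) extends
    PExt p k r r0 where
  c : Fin s → Fin D → C
  δ : (Fin s → Fin D) → C
  δ' : (Fin s → Fin D) → C
  split : ∀ j n, ((F j).map (laB ψ C) -
    ∏ i, (X - Polynomial.C (te p C (tC p k r C) (c j i)))).coeff n ∈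
      Ideal.span {(p : Bt p C (tC p k r C)) ^ (I + 1)}
  hδ : ∀ π, te p C (tC p k r C) (δ π) -
    MvPolynomial.eval₂ (laB ψ C) (fun j => te p C (tC p k r C) (c j (π j))) E ∈
      Ideal.span {(p : Bt p C (tC p k r C)) ^ (I + 1)}
  hδ' : ∀ π, te p C (tC p k r C) (δ' π) - (laB ψ C g -
    MvPolynomial.eval₂ (laB ψ C) (fun j => te p C (tC p k r C) (c j (π j))) E) ∈
      Ideal.span {(p : Bt p C (tC p k r C)) ^ (I + 1)}

end

end Vale.Agent.P202.Mix
end

section

/-!
Relative lengths of submodules.
-/

namespace Vale.Agent.P202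

open Submodule

section
variable {A : Type*} [CommRing A] {M M' : Type*} [AddCommGroup M] [Module A M]
  [AddCommGroup M'] [Module A M']

/-- relative length: the length of `N / (K ∩ N)`. -/
noncomputable def rl (K N : Submodule A M) : ℕ∞ := Module.length A (↥N ⧸ K.submoduleOf N)

end

end Vale.Agent.P202
end

section

/-!
P202-CHARP, definitions: relative homology of graded families of submodules, total complexes,
Koszul matrices, base change of families, windows.
-/

namespace Vale.Agent.P202.CharP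

open Submodule TensorProduct

section LES

variable {S 𝕋 : Type*} [CommRing S] [AddCommGroup 𝕋] [Module S 𝕋]

/-- `D`-stability (homological degree `-1`) of a graded family of submodules. -/
def Stab (D : 𝕋 →ₗ[S] 𝕋) (X : ℤ → Submodule S 𝕋) : Prop := ∀ δ x, x ∈ X δ → D x ∈ X (δ - 1)

/-- relative boundaries of `Y / X` in degree `δ`. -/
def bb (D : 𝕋 →ₗ[S] 𝕋) (Y X : ℤ → Submodule S 𝕋) (δ : ℤ) : Submodule S 𝕋 :=
  (Y (δ + 1)).map D ⊔ X δ

/-- cohomological version: `d` raises the degree by one. -/
def cz (d : 𝕋 →ₗ[S] 𝕋) (Y X : ℤ → Submodule S 𝕋) (p : ℤ) : Submodule S 𝕋 :=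
  Y p ⊓ (X (p + 1)).comap d

/-- cohomological version: `d` raises the degree by one. -/
def cb (d : 𝕋 →ₗ[S] 𝕋) (Y X : ℤ → Submodule S 𝕋) (p : ℤ) : Submodule S 𝕋 :=
  (Y (p - 1)).map d ⊔ X p

/-- exactness of `Y / X` in cohomological degree `p`. -/
def Ex (d : 𝕋 →ₗ[S] 𝕋) (Y X : ℤ → Submodule S 𝕋) (p : ℤ) : Prop := cz d Y X p ≤ cb d Y X p

/-- `d`-stability, cohomological version. -/
def CStab (d : 𝕋 →ₗ[S] 𝕋) (X : ℤ → Submodule S 𝕋) : Prop := ∀ p x, x ∈ X p → d x ∈ X (p + 1)

end LES

section Tot

variable {S : Type*} [CommRing S] {ι : Type*} [Fintype ι]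

/-- the action of a matrix on `M^ι`. -/
def act (Q : Matrix ι ι S) (M : Type*) [AddCommGroup M] [Module S M] :
    (ι → M) →ₗ[S] (ι → M) where
  toFun f a := ∑ b, Q a b • f b
  map_add' f g := by ext a; simp [Finset.sum_add_distrib]
  map_smul' c f := by
    ext a
    simp only [Pi.smul_apply, RingHom.id_apply, Finset.smul_sum]
    exact Finset.sum_congr rfl fun b _ => smul_comm _ _ _

variable {M : Type*} [AddCommGroup M] [Module S M]

/-- the graded family of submodules of `M^ι` attached to a graded family of `M`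
(total degree `δ = deg - p`). -/
def lift (deg : ι → ℤ) (X : ℤ → Submodule S M) (δ : ℤ) : Submodule S (ι → M) :=
  Submodule.pi Set.univ fun a => X (deg a - δ)

end Tot

section Koszul

/-- index set of the Koszul complex. -/
def KIdx : ℕ → Type
  | 0 => PUnit
  | n + 1 => KIdx n ⊕ KIdx n

variable {S : Type*} [CommRing S]

end Koszul

section Windows

variable {A : Type*} [CommRing A] {V : Type*} [AddCommGroup V] [Module A V]

/-- position of the cohomology of the window `-j`. -/
def pdeg (m j : ℕ) : ℤ := if j ≤ m then (j : ℤ) else (j : ℤ) - 1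

/-- the window conditions on a chain `Winf ≤ W 0 ≤ W 1 ≤ W 2 ≤ ...` of families of submodules
(`W 0` is the level `1`, `W (j + 1)` the level `-j`); `I` is an ideal pushing one window up;
`w j` is the length of the cohomology of the window `W (j + 1) / W j`. -/
structure Win (I : Ideal A) (n m : ℕ) (d : V →ₗ[A] V) (W : ℕ → ℤ → Submodule A V)
    (Winf : ℤ → Submodule A V) (w : ℕ → ℕ∞) : Prop where
  dd : ∀ x, d (d x) = 0
  stab : ∀ j, CStab d (W j)
  stabinf : CStab d Winf
  mono : ∀ j p, W j p ≤ W (j + 1) p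
  monoinf : ∀ p, Winf p ≤ W 0 p
  push : ∀ j p, I • W (j + 1) p ≤ W j p
  neg : ∀ j p, p < 0 → W j p = ⊥
  ex : ∀ j, j < n → ∀ p, p ≠ pdeg m j → Ex d (W (j + 1)) (W j) p
  dim : ∀ j, j < n → rl (cb d (W (j + 1)) (W j) (pdeg m j)) (cz d (W (j + 1)) (W j) (pdeg m j))
    = w j
  lift : ∀ j, j ≤ m → cz d (W (j + 1)) (W j) (pdeg m j) ≤
    (W (j + 1) (pdeg m j) ⊓ (Winf (pdeg m j + 1)).comap d) ⊔ cb d (W (j + 1)) (W j) (pdeg m j)
  ex1 : ∀ p, 1 ≤ p → Ex d (W 0) Winf p

end Windows

end Vale.Agent.P202.CharP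
end

section

/-!
P202-MIX, part GEO (the core inequality for additive lengths): definitions.
-/

namespace Vale.Agent.P202.Mix

open Vale.Agent.P202.CharP
open scoped ENNReal

universe u

/-- additive length functions on the modules over a ring `R`. -/
structure AddLen (R : Type u) [CommRing R] where
  len : ∀ (M : Type u) [AddCommGroup M] [Module R M], ℝ≥0∞
  zero : len PUnit.{u + 1} = 0
  add : ∀ {M N K : Type u} [AddCommGroup M] [Module R M] [AddCommGroup N] [Module R N]
    [AddCommGroup K] [Module R K] (f : M →ₗ[R] N) (g : N →ₗ[R] K),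
    Function.Injective f → Function.Surjective g → Function.Exact f g →
    len N = len M + len K

namespace AddLen

variable {R : Type u} [CommRing R] (L : AddLen R) {M : Type u} [AddCommGroup M] [Module R M]

/-- relative length: the length of `Y / (X ∩ Y)`. -/
noncomputable def rl (X Y : Submodule R M) : ℝ≥0∞ := L.len (↥Y ⧸ X.submoduleOf Y)

end AddLen

/-! ### bigraded families -/

section Bi

variable {R : Type u} [CommRing R] {V : Type u} [AddCommGroup V] [Module R V]

end Bi

/-! ### Koszul complexes of commuting operators, indexed by finite sets -/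

section Kos

/-- sign of `l` in `J`. -/
def ksg {n : ℕ} (l : Fin n) (J : Finset (Fin n)) : ℤ := (-1) ^ (J.filter (· < l)).card

variable {R : Type u} [CommRing R] {V : Type u} [AddCommGroup V] [Module R V] {n : ℕ}

/-- Koszul differential of the operators `T l`. -/
def kz (T : Fin n → V →ₗ[R] V) : (Finset (Fin n) → V) →ₗ[R] (Finset (Fin n) → V) where
  toFun v J := ∑ l ∈ Jᶜ, ksg l J • T l (v (insert l J))
  map_add' v w := by
    ext J
    simp [Finset.sum_add_distrib]
  map_smul' c v := by
    ext J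
    simp only [Pi.smul_apply, map_smul, RingHom.id_apply, Finset.smul_sum]
    exact Finset.sum_congr rfl fun l _ => smul_comm _ _ _

/-- the degree `i` part of a Koszul complex. -/
def kgr (R : Type u) [CommRing R] (V : Type u) [AddCommGroup V] [Module R V] (n : ℕ) (i : ℤ) :
    Submodule R (Finset (Fin n) → V) where
  carrier := {v | ∀ J, v J ≠ 0 → (J.card : ℤ) = i}
  add_mem' := by
    intro v w hv hw J h
    by_cases h1 : v J = 0
    · exact hw J (by intro h2; apply h; simp [h1, h2])
    · exact hv J h1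
  zero_mem' := by intro J h; exact absurd rfl h
  smul_mem' := by
    intro c v hv J h
    exact hv J (by intro h1; apply h; simp [h1])

/-- Koszul cycles in degree `i`. -/
def kcyc (T : Fin n → V →ₗ[R] V) (i : ℤ) : Submodule R (Finset (Fin n) → V) :=
  kgr R V n i ⊓ LinearMap.ker (kz T)

/-- a linear map acting componentwise. -/
def kmap {W : Type u} [AddCommGroup W] [Module R W] (n : ℕ) (f : V →ₗ[R] W) :
    (Finset (Fin n) → V) →ₗ[R] (Finset (Fin n) → W) :=
  LinearMap.pi fun J => f ∘ₗ LinearMap.proj J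

end Kos

/-! ### representations by integer matrices -/

/-- finitely generated free `ℤ`-modules with `n` endomorphisms, given by integer matrices. -/
structure MRep (n : ℕ) where
  ι : Type
  [fin : Fintype ι]
  [dec : DecidableEq ι]
  X : Fin n → Matrix ι ι ℤ

attribute [instance] MRep.fin MRep.dec

/-- the endomorphisms commute and all their `q`-fold products vanish. -/
structure MRep.IsNil {n : ℕ} (W : MRep n) (q : ℕ) : Prop where
  comm : ∀ k l, W.X k * W.X l = W.X l * W.X k
  nil : ∀ f : Fin q → Fin n, (List.ofFn fun i => W.X (f i)).prod = 0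

/-- surjections (automatically split over `ℤ`). -/
structure MRep.Surj {n : ℕ} (W W' : MRep n) where
  P : Matrix W'.ι W.ι ℤ
  σ : Matrix W.ι W'.ι ℤ
  split : P * σ = 1
  comm : ∀ l, P * W.X l = W'.X l * P

/-! ### complexes of representations -/

/-- cochain complexes of representations (data). -/
structure MCx (n : ℕ) where
  W : ℕ → MRep n
  D : ∀ p, Matrix (W (p + 1)).ι (W p).ι ℤ

/-- the conditions on a complex of representations. -/
structure MCx.IsCx {n : ℕ} (C : MCx n) (q : ℕ) : Prop where
  nil : ∀ p, (C.W p).IsNil q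
  dd : ∀ p, C.D (p + 1) * C.D p = 0
  comm : ∀ p l, C.D p * (C.W p).X l = (C.W (p + 1)).X l * C.D p

/-- Koszul boundaries in degree `i`. -/
def kbd {R : Type u} [CommRing R] {V : Type u} [AddCommGroup V] [Module R V] {n : ℕ}
    (T : Fin n → V →ₗ[R] V) (i : ℤ) : Submodule R (Finset (Fin n) → V) :=
  (kgr R V n (i + 1)).map (kz T)

end Vale.Agent.P202.Mix
end

section

/-!
P202-MIX, TASK GEO-A1: additive lengths and relative lengths.
-/

namespace Vale.Agent.P202.Mix

open Vale.Agent.P202.CharP
open scoped ENNReal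

universe u

section LenBasic

variable {R : Type u} [CommRing R] (L : AddLen R) {M N K : Type u} [AddCommGroup M] [Module R M]
  [AddCommGroup N] [Module R N] [AddCommGroup K] [Module R K]

theorem len_congr (e : M ≃ₗ[R] N) : L.len M = L.len N := by
  have h := L.add (e : M →ₗ[R] N) (0 : N →ₗ[R] PUnit.{u + 1}) e.injective
    (fun y => ⟨0, Subsingleton.elim _ _⟩)
    (fun y => ⟨fun _ => ⟨e.symm y, by simp⟩, fun _ => Subsingleton.elim _ _⟩)
  rw [L.zero, add_zero] at h
  exact h.symm

theorem len_sub_quot (X : Submodule R M) : L.len M = L.len X + L.len (M ⧸ X) := by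
  refine L.add X.subtype X.mkQ X.injective_subtype X.mkQ_surjective ?_
  rw [LinearMap.exact_iff, Submodule.ker_mkQ, Submodule.range_subtype]

theorem len_subsingleton_aux [Subsingleton M] : L.len M = 0 := by
  rw [← L.zero]
  refine len_congr L (N := PUnit.{u + 1}) ?_
  exact LinearEquiv.ofSubsingleton M PUnit.{u + 1}

/-- the length of a quotient computed by a linear map out of `Y`. -/
theorem rl_eq_len_aux {Q : Type u} [AddCommGroup Q] [Module R Q] {X Y : Submodule R M}
    (f : Y →ₗ[R] Q) (hf : Function.Surjective f) (hk : LinearMap.ker f = X.submoduleOf Y) :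
    L.rl X Y = L.len Q := by
  rw [AddLen.rl, ← hk]
  exact len_congr L (f.quotKerEquivOfSurjective hf)

theorem rl_eq_zero_of_le {X Y : Submodule R M} (h : Y ≤ X) : L.rl X Y = 0 := by
  rw [rl_eq_len_aux L (0 : Y →ₗ[R] PUnit.{u + 1}) (fun y => ⟨0, Subsingleton.elim _ _⟩), L.zero]
  rw [LinearMap.ker_zero, eq_comm, Submodule.submoduleOf_eq_top]
  exact h

theorem rl_bot (Y : Submodule R M) : L.rl ⊥ Y = L.len Y := by
  refine len_congr L (Submodule.quotEquivOfEqBot _ ?_)
  simp [Submodule.submoduleOf]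

theorem rl_top (X : Submodule R M) : L.rl X ⊤ = L.len (M ⧸ X) := by
  refine len_congr L (Submodule.Quotient.equiv _ _ Submodule.topEquiv ?_)
  ext x
  simp [Submodule.submoduleOf]

theorem rl_inf_left (X Y : Submodule R M) : L.rl (X ⊓ Y) Y = L.rl X Y := by
  have : (X ⊓ Y).submoduleOf Y = X.submoduleOf Y := by
    ext x; simp [Submodule.submoduleOf]
  rw [AddLen.rl, AddLen.rl, this]

theorem rl_sup_right (X Y : Submodule R M) : L.rl X (X ⊔ Y) = L.rl X Y := by
  have h := LinearMap.quotientInfEquivSupQuotient Y X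
  have e1 : (Submodule.comap Y.subtype Y ⊓ Submodule.comap Y.subtype X) = X.submoduleOf Y := by
    ext x; simp [Submodule.submoduleOf]
  rw [sup_comm, AddLen.rl, AddLen.rl]
  have := len_congr L h
  rw [e1] at this
  exact this.symm

theorem rl_add {X Y Z : Submodule R M} (h1 : X ≤ Y) (h2 : Y ≤ Z) :
    L.rl X Z = L.rl X Y + L.rl Y Z := by
  let f : (↥Y ⧸ X.submoduleOf Y) →ₗ[R] (↥Z ⧸ X.submoduleOf Z) :=
    Submodule.mapQ _ _ (Submodule.inclusion h2) (by intro x hx; exact hx)
  let g : (↥Z ⧸ X.submoduleOf Z) →ₗ[R] (↥Z ⧸ Y.submoduleOf Z) :=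
    Submodule.factor (by intro x hx; exact h1 hx)
  refine L.add f g ?_ (Submodule.factor_surjective _) ?_
  · rw [injective_iff_map_eq_zero]
    intro z
    obtain ⟨z, rfl⟩ := Submodule.Quotient.mk_surjective _ z
    intro hz
    have hz' : (Submodule.Quotient.mk (Submodule.inclusion h2 z) : ↥Z ⧸ X.submoduleOf Z) = 0 := hz
    rw [Submodule.Quotient.mk_eq_zero] at hz' ⊢
    exact hz'
  · rw [LinearMap.exact_iff]
    ext z
    obtain ⟨z, rfl⟩ := Submodule.Quotient.mk_surjective _ z
    constructor
    · intro hz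
      have hz' : z ∈ Y.submoduleOf Z := by
        have : (Submodule.Quotient.mk z : ↥Z ⧸ Y.submoduleOf Z) = 0 := hz
        exact (Submodule.Quotient.mk_eq_zero _).mp this
      exact ⟨Submodule.Quotient.mk ⟨z.1, hz'⟩, rfl⟩
    · rintro ⟨c, hc⟩
      obtain ⟨c, rfl⟩ := Submodule.Quotient.mk_surjective _ c
      rw [← hc]
      change (Submodule.Quotient.mk (Submodule.inclusion h2 c) : ↥Z ⧸ Y.submoduleOf Z) = 0
      rw [Submodule.Quotient.mk_eq_zero]
      exact c.2

theorem rl_anti_left {X X' Y : Submodule R M} (h : X ≤ X') : L.rl X' Y ≤ L.rl X Y := by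
  rw [← rl_inf_left L X Y, ← rl_inf_left L X' Y,
    rl_add L (inf_le_inf_right Y h) (inf_le_right : X' ⊓ Y ≤ Y)]
  exact le_add_self

theorem rl_map (f : M →ₗ[R] N) (X Y : Submodule R M) :
    L.rl (X.map f) (Y.map f) = L.rl (X ⊔ LinearMap.ker f) Y := by
  symm
  let g : Y →ₗ[R] (↥(Y.map f) ⧸ (X.map f).submoduleOf (Y.map f)) :=
    (Submodule.mkQ _).comp (f.submoduleMap Y)
  refine rl_eq_len_aux L g ?_ ?_
  · exact (Submodule.mkQ_surjective _).comp (f.submoduleMap_surjective Y)
  · ext x
    have h1 : x ∈ LinearMap.ker g ↔ f x ∈ X.map f := by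
      rw [LinearMap.mem_ker]
      change Submodule.Quotient.mk (f.submoduleMap Y x) = _ ↔ _
      rw [Submodule.Quotient.mk_eq_zero]
      exact Iff.rfl
    have h2 : x ∈ (X ⊔ LinearMap.ker f).submoduleOf Y ↔ x.1 ∈ X ⊔ LinearMap.ker f := Iff.rfl
    rw [h1, h2, ← Submodule.comap_map_eq, Submodule.mem_comap]

end LenBasic

end Vale.Agent.P202.Mix
end

section

/-!
P177, block LEV: the data at one level (cover `C` of the base, Teichmueller representatives of
finitely many integral elements, the element `Θ` killing the junk, the additive length).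
-/

namespace Vale.Agent.P177.Lev

open Vale.Agent.P202.Mix WittVector Polynomial
open scoped ENNReal

universe u

section Defs

variable (p : ℕ) [Fact p.Prime] (k : Type u) [Field k] [CharP k p] (r : ℕ)

/-- the variables `t = x_0`, `u_i = x_i` in an `Rp`-algebra. -/
noncomputable abbrev xC (C : Type u) [CommRing C] [Algebra (Rp p k r) C] (l : Fin (r + 1)) : C :=
  algebraMap (Rp p k r) C (xp p k r l)

/-- the ideal `(p, [t], [u_1], .., [u_r])` of `W(C)`. -/
noncomputable def vW (C : Type u) [CommRing C] [Algebra (Rp p k r) C] :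
    Ideal (WittVector p C) :=
  Ideal.span (insert (p : WittVector p C) (Set.range fun l => teichmuller p (xC p k r C l)))

/-- the ideal `(p - [t], p ^ M)` of `W(C)`. -/
noncomputable def xiM (C : Type u) [CommRing C] [Algebra (Rp p k r) C] (M : ℕ) :
    Ideal (WittVector p C) :=
  Ideal.span {(p : WittVector p C) - teichmuller p (tC p k r C), (p : WittVector p C) ^ M}

variable {p k r} {Λ : Type u} [CommRing Λ] (ψ : Λ →+* WittVector p (Rp p k r))

/-- `Λ → W(C)`. -/
noncomputable def laW (C : Type u) [CommRing C] [Algebra (Rp p k r) C] :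
    Λ →+* WittVector p C :=
  (WittVector.map (algebraMap (Rp p k r) C)).comp ψ

end Defs

section Level

variable {p : ℕ} [Fact p.Prime] {k : Type u} [Field k] [CharP k p] {r : ℕ}
variable {Λ : Type u} [CommRing Λ] [IsLocalRing Λ] (ψ : Λ →+* WittVector p (Rp p k r))

/-- The data at level `e` for finitely many integral elements `b l` of the field `Ω ⊇ Λ`, roots of
the monic polynomials `F l`. `G l` are monic polynomials of degree `D`, `ε > 0`; `G`, `D`, `ε` do
not depend on `e`. The growth function `Φ` is arbitrary. -/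
structure Level {Ω : Type u} [Field Ω] [Algebra Λ Ω] {s : ℕ} (b : Fin s → Ω) (F G : Fin s → Λ[X])
    (D : ℕ) (ε : ℝ≥0∞) (Φ : ℕ → ℕ) (e : ℕ) where
  r0 : ℕ
  ext : PExt.{u} p k r r0
  /-- the normalized additive length on the modules over `W(C)` -/
  L : AddLen (WittVector p ext.C)
  /-- Teichmueller representatives of the `b l` -/
  c : Fin s → ext.C
  /-- the roots of `Θ` kill the junk; `η = Θ^(1/q)`, `q = p ^ j` -/
  Θ : ext.C
  j : ℕ
  I : ℕ
  le_j : e ≤ j
  le_I : Φ j ≤ I
  len_one : L.len (WittVector p ext.C ⧸ vW p k r ext.C) = 1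
  /-- positivity: `λ([η]^e (W(C)/(p, [t], [u]))) ≥ ε`, `η = Θ^(1/q)` -/
  len_pos : ε ≤ L.len (LinearMap.range (LinearMap.lsmul (WittVector p ext.C)
    (WittVector p ext.C ⧸ vW p k r ext.C) (teichmuller p (rt p j Θ) ^ e)))
  /-- `c_l` divides `Θ` if `b l ≠ 0` -/
  dvd : ∀ l, b l ≠ 0 → c l ∣ Θ
  /-- all polynomial relations between the `b l` hold up to `[Θ]` modulo `p ^ (I + 1)` -/
  rel : ∀ f : MvPolynomial (Fin s) Λ, MvPolynomial.aeval b f = 0 →
    teichmuller p Θ * MvPolynomial.eval₂ (laW ψ ext.C) (fun l => teichmuller p (c l)) f ∈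
      xiM p k r ext.C (I + 1)
  /-- the honest relations `G_l([c_l]) = 0` -/
  relG : ∀ l, Polynomial.eval₂ (laW ψ ext.C) (teichmuller p (c l)) (G l) ∈ xiM p k r ext.C (I + 1)
  /-- `[Θ]` is a multiple of `∏ G_l'([c_l])` -/
  disc : teichmuller p Θ ∈ Ideal.span {∏ l, Polynomial.eval₂ (laW ψ ext.C) (teichmuller p (c l))
    (derivative (G l))} ⊔ xiM p k r ext.C (I + 1)
  /-- `c_l ^ D ∈ (t, u)` if `F_l ≡ X ^ n` modulo the maximal ideal -/
  nil : ∀ l, (∀ i < (F l).natDegree, (F l).coeff i ∈ IsLocalRing.maximalIdeal Λ) →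
    c l ^ D ∈ Ideal.span (Set.range (xC p k r ext.C))

end Level

end Vale.Agent.P177.Lev
end

section

/-!
Additive lengths: consequences of exactness.
-/

namespace Vale.Agent.P177.SL

open Vale.Agent.P202.Mix Function
open scoped ENNReal

universe u

variable {R : Type u} [CommRing R] (L : AddLen R) {M N K P : Type u} [AddCommGroup M] [Module R M]
  [AddCommGroup N] [Module R N] [AddCommGroup K] [Module R K] [AddCommGroup P] [Module R P]

theorem len_subsingleton [Subsingleton M] : L.len M = 0 := len_subsingleton_aux L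

theorem len_ker_add_range (f : M →ₗ[R] N) :
    L.len M = L.len (LinearMap.ker f) + L.len (LinearMap.range f) := by
  rw [len_sub_quot L (LinearMap.ker f), len_congr L f.quotKerEquivRange]

theorem len_le_of_injective (f : M →ₗ[R] N) (hf : Injective f) : L.len M ≤ L.len N := by
  rw [len_congr L (LinearEquiv.ofInjective f hf), len_sub_quot L (LinearMap.range f)]
  exact le_self_add

theorem len_le_of_surjective (f : M →ₗ[R] N) (hf : Surjective f) : L.len N ≤ L.len M := by
  rw [len_ker_add_range L f, ← len_congr L (LinearEquiv.ofTop _ (LinearMap.range_eq_top.2 hf))]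
  exact le_add_self

theorem len_range_le (f : M →ₗ[R] N) : L.len (LinearMap.range f) ≤ L.len M := by
  rw [len_ker_add_range L f]
  exact le_add_self

theorem len_range_le' (f : M →ₗ[R] N) : L.len (LinearMap.range f) ≤ L.len N :=
  len_le_of_injective L (LinearMap.range f).subtype Subtype.val_injective

theorem len_mono {X Y : Submodule R M} (h : X ≤ Y) : L.len X ≤ L.len Y :=
  len_le_of_injective L (Submodule.inclusion h) (Submodule.inclusion_injective h)

/-- exactness in the middle. -/
theorem len_le_of_exact (f : M →ₗ[R] N) (g : N →ₗ[R] K) (h : Exact f g) :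
    L.len N ≤ L.len M + L.len K := by
  rw [len_ker_add_range L g, h.linearMap_ker_eq]
  exact add_le_add (len_range_le L f) (len_range_le' L g)

/-- a more precise form of exactness in the middle. -/
theorem len_eq_of_exact (f : M →ₗ[R] N) (g : N →ₗ[R] K) (h : Exact f g) :
    L.len N = L.len (LinearMap.range f) + L.len (LinearMap.range g) := by
  rw [len_ker_add_range L g, h.linearMap_ker_eq]

/-- if `φ ^ m = 0` on `T` then the length of `T` is at most `m` times the length of `T / φ T`. -/
theorem len_le_of_pow_eq_zero (m : ℕ) : ∀ (T : Type u) [AddCommGroup T] [Module R T]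
    (φ : T →ₗ[R] T), (∀ x : T, (φ ^ m) x = 0) → L.len T ≤ m * L.len (T ⧸ LinearMap.range φ) := by
  induction m with
  | zero =>
    intro T _ _ φ h
    have : Subsingleton T := subsingleton_of_forall_eq 0 fun x => by simpa using h x
    rw [len_subsingleton L]
    simp
  | succ m ih =>
    intro T _ _ φ h
    let Y := LinearMap.range φ
    have hst : ∀ x ∈ Y, φ x ∈ Y := fun x _ => ⟨x, rfl⟩
    let ψ : Y →ₗ[R] Y := φ.restrict hst
    have hψ : ∀ n (x : Y), ((ψ ^ n) x : T) = (φ ^ n) x := by
      intro n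
      induction n with
      | zero => intro x; rfl
      | succ n ihn =>
        intro x
        rw [pow_succ', pow_succ', Module.End.mul_apply, Module.End.mul_apply, ← ihn]
        rfl
    have hY : ∀ x : Y, (ψ ^ m) x = 0 := by
      rintro ⟨x, y, rfl⟩
      apply Subtype.ext
      rw [hψ]
      change (φ ^ m) (φ y) = 0
      rw [← Module.End.mul_apply, ← pow_succ, h]
    have h1 := ih Y ψ hY
    have h2 : L.len (Y ⧸ LinearMap.range ψ) ≤ L.len (T ⧸ Y) := by
      refine len_le_of_surjective L (Submodule.mapQ Y (LinearMap.range ψ)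
        (LinearMap.codRestrict Y φ fun x => ⟨x, rfl⟩) ?_) ?_
      · rintro _ ⟨y, rfl⟩
        rw [Submodule.mem_comap]
        exact ⟨⟨φ y, y, rfl⟩, rfl⟩
      · intro z
        obtain ⟨⟨_, y, rfl⟩, rfl⟩ := Submodule.Quotient.mk_surjective _ z
        exact ⟨Submodule.Quotient.mk y, rfl⟩
    calc L.len T = L.len Y + L.len (T ⧸ Y) := len_sub_quot L Y
      _ ≤ m * L.len (T ⧸ Y) + L.len (T ⧸ Y) := by
        refine add_le_add (h1.trans ?_) le_rfl
        exact mul_le_mul_right h2 _
      _ = ((m + 1 : ℕ) : ℝ≥0∞) * L.len (T ⧸ Y) := by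
        rw [Nat.cast_add, Nat.cast_one, add_mul, one_mul]

end Vale.Agent.P177.SL
end

section

/-!
Killing the `η`-torsion: for an additive length `L` and an element `η`, the function
`M ↦ inf_c L (η ^ c M)` is an additive length, on all modules.
-/

namespace Vale.Agent.P177.SL

open Vale.Agent.P202.Mix Function
open scoped ENNReal

universe u

variable {R : Type u} [CommRing R] (L : AddLen R) {M N K : Type u} [AddCommGroup M] [Module R M]
  [AddCommGroup N] [Module R N] [AddCommGroup K] [Module R K]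

/-- the submodule `η M`. -/
def etaSub (η : R) (M : Type u) [AddCommGroup M] [Module R M] : Submodule R M :=
  LinearMap.range (LinearMap.lsmul R M η)

theorem etaSub_anti (η : R) {a b : ℕ} (h : a ≤ b) : etaSub (η ^ b) M ≤ etaSub (η ^ a) M := by
  rintro _ ⟨y, rfl⟩
  refine ⟨η ^ (b - a) • y, ?_⟩
  change η ^ a • η ^ (b - a) • y = η ^ b • y
  rw [smul_smul, ← pow_add, Nat.add_sub_cancel' h]

theorem etaSub_map (η : R) (g : N →ₗ[R] K) (hg : Surjective g) :
    (etaSub η N).map g = etaSub η K := by
  apply le_antisymm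
  · rintro _ ⟨_, ⟨y, rfl⟩, rfl⟩
    exact ⟨g y, (map_smul g η y).symm⟩
  · rintro _ ⟨y, rfl⟩
    obtain ⟨x, rfl⟩ := hg y
    exact ⟨η • x, ⟨x, rfl⟩, map_smul g η x⟩

/-- length of a submodule through a map. -/
theorem len_eq_inf_add_map (P : Submodule R N) (g : N →ₗ[R] K) :
    L.len P = L.len (P ⊓ LinearMap.ker g : Submodule R N) + L.len (P.map g) := by
  rw [len_ker_add_range L (g.domRestrict P)]
  congr 1
  · refine len_congr L (LinearEquiv.ofInjective (P.subtype ∘ₗ (LinearMap.ker
      (g.domRestrict P)).subtype) (P.injective_subtype.comp (Submodule.injective_subtype _)) ≪≫ₗ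
      LinearEquiv.ofEq _ _ ?_)
    ext x
    constructor
    · rintro ⟨⟨y, hy⟩, rfl⟩
      exact ⟨y.2, hy⟩
    · rintro ⟨h1, h2⟩
      exact ⟨⟨⟨x, h1⟩, h2⟩, rfl⟩
  · refine len_congr L (LinearEquiv.ofEq _ _ ?_)
    rw [LinearMap.range_domRestrict]

/-- the lower bound at the level of submodules. -/
theorem eta_ge (η : R) (f : M →ₗ[R] N) (g : N →ₗ[R] K) (hf : Injective f) (hg : Surjective g)
    (h : Exact f g) : L.len (etaSub η M) + L.len (etaSub η K) ≤ L.len (etaSub η N) := by
  rw [len_eq_inf_add_map L (etaSub η N) g, etaSub_map η g hg]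
  refine add_le_add ?_ le_rfl
  rw [len_congr L (Submodule.equivMapOfInjective f hf (etaSub η M))]
  refine Vale.Agent.P177.SL.len_mono L ?_
  rintro _ ⟨_, ⟨y, rfl⟩, rfl⟩
  exact ⟨⟨f y, (map_smul f η y).symm⟩, h.apply_apply_eq_zero _⟩

/-- the upper bound at the level of submodules. -/
theorem eta_le (η : R) (a b : ℕ) (f : M →ₗ[R] N) (g : N →ₗ[R] K) (hf : Injective f)
    (hg : Surjective g) (h : Exact f g) :
    L.len (etaSub (η ^ (a + b)) N) ≤ L.len (etaSub (η ^ a) M) + L.len (etaSub (η ^ b) K) := by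
  -- `B' = η ^ b N`
  let B := etaSub (η ^ b) N
  let φ : N →ₗ[R] N := LinearMap.lsmul R N (η ^ a)
  have h1 : etaSub (η ^ (a + b)) N = B.map φ := by
    apply le_antisymm
    · rintro _ ⟨y, rfl⟩
      refine ⟨η ^ b • y, ⟨y, rfl⟩, ?_⟩
      change η ^ a • η ^ b • y = η ^ (a + b) • y
      rw [smul_smul, ← pow_add]
    · rintro _ ⟨_, ⟨y, rfl⟩, rfl⟩
      refine ⟨y, ?_⟩
      change η ^ (a + b) • y = η ^ a • η ^ b • y
      rw [smul_smul, ← pow_add]
  -- the part in the kernel of `g`
  let K' : Submodule R N := B ⊓ LinearMap.ker g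
  have h2 : L.len (B.map φ) ≤ L.len (K'.map φ) + L.len (B.map g) := by
    have e1 := len_eq_inf_add_map L B φ
    have e2 := len_eq_inf_add_map L K' φ
    have e3 := len_eq_inf_add_map L B g
    -- `B ⊓ ker φ` contains `K' ⊓ ker φ`; use the quotient of `B` by `K' ⊓ ker φ`
    let Z : Submodule R N := K' ⊓ LinearMap.ker φ
    have hZB : Z ≤ B := inf_le_left.trans inf_le_left
    have hZK : Z ≤ K' := inf_le_left
    have q1 : L.rl Z B = L.rl Z K' + L.rl K' B := Vale.Agent.P202.Mix.rl_add L hZK inf_le_left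
    have q2 : L.rl Z K' = L.len (K'.map φ) := by
      have := Vale.Agent.P202.Mix.rl_map L φ ⊥ K'
      rw [Submodule.map_bot, rl_bot, bot_sup_eq] at this
      rw [this, ← rl_inf_left L (LinearMap.ker φ) K', inf_comm]
    have q3 : L.rl K' B = L.len (B.map g) := by
      have := Vale.Agent.P202.Mix.rl_map L g ⊥ B
      rw [Submodule.map_bot, rl_bot, bot_sup_eq] at this
      rw [this, ← rl_inf_left L (LinearMap.ker g) B, inf_comm]
    have q4 : L.len (B.map φ) ≤ L.rl Z B := by
      have := Vale.Agent.P202.Mix.rl_map L φ ⊥ B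
      rw [Submodule.map_bot, rl_bot, bot_sup_eq] at this
      rw [this]
      exact rl_anti_left L inf_le_right
    rw [q1, q2, q3] at q4
    exact q4
  rw [h1]
  refine h2.trans (add_le_add ?_ ?_)
  · rw [len_congr L (Submodule.equivMapOfInjective f hf (etaSub (η ^ a) M))]
    refine Vale.Agent.P177.SL.len_mono L ?_
    rintro _ ⟨x, ⟨-, hx⟩, rfl⟩
    obtain ⟨m, rfl⟩ := (h x).1 hx
    exact ⟨η ^ a • m, ⟨m, rfl⟩, map_smul f _ _⟩
  · rw [etaSub_map (η ^ b) g hg]

/-- the additive length `M ↦ inf_c L (η ^ c M)`. -/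
noncomputable def etaLen (η : R) : AddLen R where
  len M _ _ := ⨅ c : ℕ, L.len (etaSub (η ^ c) M)
  zero := by
    refine le_antisymm (iInf_le_of_le 0 ?_) bot_le
    rw [len_subsingleton L]
  add {M N K} _ _ _ _ _ _ f g hf hg h := by
    apply le_antisymm
    · refine ENNReal.le_iInf_add_iInf fun a b => ?_
      exact (iInf_le _ (a + b)).trans (eta_le L η a b f g hf hg h)
    · refine le_iInf fun c => ?_
      refine le_trans ?_ (eta_ge L (η ^ c) f g hf hg h)
      exact add_le_add (iInf_le _ c) (iInf_le _ c)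

theorem etaLen_le (η : R) (M : Type u) [AddCommGroup M] [Module R M] :
    (etaLen L η).len M ≤ L.len M :=
  (iInf_le _ 0).trans (len_le_of_injective L (Submodule.subtype _) (Submodule.injective_subtype _))

theorem etaLen_le_pow (η : R) (c : ℕ) (M : Type u) [AddCommGroup M] [Module R M] :
    (etaLen L η).len M ≤ L.len (etaSub (η ^ c) M) := iInf_le _ c

/-- the new length vanishes on `η`-torsion. -/
theorem etaLen_eq_zero (η : R) (c : ℕ) (M : Type u) [AddCommGroup M] [Module R M]
    (h : ∀ x : M, η ^ c • x = 0) : (etaLen L η).len M = 0 := by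
  refine le_antisymm ((etaLen_le_pow L η c M).trans ?_) bot_le
  have : Subsingleton (etaSub (η ^ c) M) := by
    refine subsingleton_of_forall_eq 0 ?_
    rintro ⟨_, y, rfl⟩
    exact Subtype.ext (h y)
  rw [len_subsingleton L]

end Vale.Agent.P177.SL
end

section

/-!
Limits of additive lengths along an ultrafilter, scaling, flat base change.
-/

namespace Vale.Agent.P177.SL

open Vale.Agent.P202.Mix Function TensorProduct Filter
open scoped ENNReal Topology

universe u v

section limLen

variable {R : Type u} [CommRing R] {ι : Type v} (U : Ultrafilter ι) (L : ι → AddLen R)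

/-- the limit of a function along an ultrafilter. -/
noncomputable def ulim (f : ι → ℝ≥0∞) : ℝ≥0∞ := (U.map f).lim

theorem tendsto_ulim (f : ι → ℝ≥0∞) : Tendsto f U (𝓝 (ulim U f)) :=
  Ultrafilter.le_nhds_lim (U.map f)

theorem ulim_eq {f : ι → ℝ≥0∞} {a : ℝ≥0∞} (h : Tendsto f U (𝓝 a)) : ulim U f = a :=
  tendsto_nhds_unique (tendsto_ulim U f) h

theorem ulim_le {f : ι → ℝ≥0∞} {a : ℝ≥0∞} (h : ∀ᶠ e in (U : Filter ι), f e ≤ a) :
    ulim U f ≤ a :=
  le_of_tendsto (tendsto_ulim U f) h

theorem le_ulim {f : ι → ℝ≥0∞} {a : ℝ≥0∞} (h : ∀ᶠ e in (U : Filter ι), a ≤ f e) :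
    a ≤ ulim U f :=
  ge_of_tendsto (tendsto_ulim U f) h

theorem ulim_mono {f g : ι → ℝ≥0∞} (h : ∀ᶠ e in (U : Filter ι), f e ≤ g e) :
    ulim U f ≤ ulim U g :=
  le_of_tendsto_of_tendsto (tendsto_ulim U f) (tendsto_ulim U g) h

theorem ulim_congr {f g : ι → ℝ≥0∞} (h : ∀ᶠ e in (U : Filter ι), f e = g e) :
    ulim U f = ulim U g :=
  le_antisymm (ulim_mono U (h.mono fun _ he => he.le)) (ulim_mono U (h.mono fun _ he => he.ge))

theorem ulim_add (f g : ι → ℝ≥0∞) : ulim U (fun e => f e + g e) = ulim U f + ulim U g :=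
  ulim_eq U ((tendsto_ulim U f).add (tendsto_ulim U g))

theorem ulim_const (a : ℝ≥0∞) : ulim U (fun _ => a) = a := ulim_eq U tendsto_const_nhds

/-- the limit of additive lengths. -/
noncomputable def limLen : AddLen R where
  len M _ _ := ulim U fun e => (L e).len M
  zero := by
    rw [← ulim_const U (0 : ℝ≥0∞)]
    exact ulim_congr U (Eventually.of_forall fun e => (L e).zero)
  add {M N K} _ _ _ _ _ _ f g hf hg h := by
    rw [← ulim_add]
    exact ulim_congr U (Eventually.of_forall fun e => (L e).add f g hf hg h)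

end limLen

section scale

variable {R : Type u} [CommRing R] (L : AddLen R)

end scale

section bc

variable (R : Type u) {R' : Type u} [CommRing R] [CommRing R'] [Algebra R R'] [Module.Flat R R']
  (L : AddLen R')

/-- the length of the flat base change. -/
noncomputable def bcLen : AddLen R where
  len M _ _ := L.len (R' ⊗[R] M)
  zero := by
    have : Subsingleton (R' ⊗[R] PUnit.{u + 1}) := inferInstance
    exact len_subsingleton L
  add {M N K} _ _ _ _ _ _ f g hf hg h := by
    refine L.add (f.baseChange R') (g.baseChange R') ?_ ?_ ?_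
    · rw [LinearMap.baseChange_eq_ltensor]
      exact Module.Flat.lTensor_preserves_injective_linearMap f hf
    · rw [LinearMap.baseChange_eq_ltensor]
      exact LinearMap.lTensor_surjective R' hg
    · rw [LinearMap.baseChange_eq_ltensor, LinearMap.baseChange_eq_ltensor]
      exact lTensor_exact R' h hg

end bc

end Vale.Agent.P177.SL
end

section

/-!
P202, mixed characteristic: the ring `A ⊗_Λ B/p^N`, its ideals `K_π`, the package `APkg`.
-/

namespace Vale.Agent.P202.Mix

open Polynomial TensorProduct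

universe u

section

variable {p : ℕ} [Fact p.Prime] {k : Type u} [Field k] [CharP k p] {r : ℕ}
variable {Λ : Type u} [CommRing Λ] {ψ : Λ →+* WittVector p (Rp p k r)} {s D : ℕ}
  {F : Fin s → Λ[X]} {E : MvPolynomial (Fin s) Λ} {g : Λ} {I r0 : ℕ}

end

/-- The package over `A` (and later over `S`): a ring `E` with ideals `K_π` such that the
`E/K_π` are almost regular for `x = (p, u_1, .., u_r)`, almost Frobenius-root-closed, and
together almost equal to `E`. -/
structure APkg {A : Type u} [CommRing A] (p : ℕ) (m : Ideal A) {n : ℕ} (x : Fin n → A)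
    (P : Type) [Fintype P] (g0 g1 : A) (w w' N : ℕ) (E : Type u) [CommRing E] [Algebra A E] where
  K : P → Ideal E
  h : P → E
  z : P → Fin n → E
  η : P → E
  θ : P → E
  hη : ∀ π, ∀ y ∈ K π, y * η π = 0
  hη' : algebraMap A E g1 ∈ Ideal.span (Set.range η)
  hθ : ∀ π π', π ≠ π' → θ π ∈ K π'
  hθ' : ∀ π, θ π - algebraMap A E g0 ∈ K π
  hz : ∀ π, m.map (algebraMap A E) ≤ Ideal.span (Set.range (z π)) ^ w ⊔ K π
  hz' : ∀ π l, z π l ^ w' ∈ m.map (algebraMap A E) ⊔ K π
  hp : algebraMap A E (p : A) ^ N = 0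
  regp : ∀ π y, algebraMap A E (p : A) * y ∈ K π →
    h π * y ∈ Ideal.span {algebraMap A E (p : A) ^ (N - 1)} ⊔ K π
  regu : ∀ π (i : Fin n), 0 < (i : ℕ) → ∀ y,
    algebraMap A E (x i) * y ∈ Ideal.span ((fun l => algebraMap A E (x l)) '' {l | l < i}) ⊔ K π →
    h π * y ∈ Ideal.span ((fun l => algebraMap A E (x l)) '' {l | l < i}) ⊔ K π

end Vale.Agent.P202.Mix
end

section

/-!
P202 MIX: `p`-bases and the algebra of all `p`-power roots (definitions).
-/

namespace Vale.Agent.P202.Mix

open Polynomial TensorProduct IsLocalRing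

universe u v w

/-- exponents below `q`. -/
abbrev Bx (ι : Type*) (q : ℕ) : Type _ := {α : ι →₀ ℕ // ∀ i, α i < q}

/-- `b` is a `p`-basis of `k`: for every `e`, every element is uniquely a sum of
`c_α ^ (p ^ e) * b ^ α`, the exponents of `b ^ α` being less than `p ^ e`. -/
def IsPBasis (p : ℕ) {k : Type*} [Field k] {ι : Type*} (b : ι → k) : Prop :=
  (∀ i, b i ≠ 0) ∧ ∀ (e : ℕ) (x : k), ∃! c : (Bx ι (p ^ e) →₀ k),
    (c.sum fun α y => y ^ p ^ e * α.1.prod fun i m => b i ^ m) = x

/-- the algebra of all `p`-power roots of the elements `a i`. -/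
def RootAlg (p : ℕ) (S : Type*) [CommRing S] {ι : Type*} (a : ι → S) : Type _ :=
  MvPolynomial (ι × ℕ) S ⧸ Ideal.span
    ((Set.range fun i : ι => (MvPolynomial.X (i, 0) - MvPolynomial.C (a i) :
      MvPolynomial (ι × ℕ) S)) ∪
    Set.range fun x : ι × ℕ => (MvPolynomial.X (x.1, x.2 + 1) ^ p - MvPolynomial.X x :
      MvPolynomial (ι × ℕ) S))

noncomputable section

variable (p : ℕ) (S : Type u) [CommRing S] {ι : Type v} (a : ι → S)

instance : CommRing (RootAlg p S a) := inferInstanceAs (CommRing (MvPolynomial (ι × ℕ) S ⧸ _))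

instance : Algebra S (RootAlg p S a) := inferInstanceAs (Algebra S (MvPolynomial (ι × ℕ) S ⧸ _))

/-- the root of order `p ^ e`. -/
def rx (i : ι) (e : ℕ) : RootAlg p S a := Ideal.Quotient.mk _ (MvPolynomial.X (i, e))

/-- the index set of the tower. -/
abbrev RI (ι : Type v) : Type v := Finset ι × ℕ

/-- the subalgebra generated by the `p ^ e`-th roots of the `a i`, `i ∈ F`. -/
def rsub (x : RI ι) : Subalgebra S (RootAlg p S a) :=
  Algebra.adjoin S {y | ∃ i ∈ x.1, y = rx p S a i x.2}

end

end Vale.Agent.P202.Mix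
end

section

/-!
P202, mixed characteristic: the ring `E = S ⊗_A (A ⊗_Λ B/p^N)`, `p`-bases of the base.
-/

namespace Vale.Agent.P202.Mix

open Polynomial TensorProduct IsLocalRing

universe u

section

variable {p : ℕ} [Fact p.Prime] {k : Type u} [Field k] [CharP k p] {r : ℕ}
variable {Λ : Type u} [CommRing Λ] (ψ : Λ →+* WittVector p (Rp p k r))
variable (A S : Type u) [CommRing A] [CommRing S] [Algebra Λ A] [Algebra A S]
variable (C : Type u) [CommRing C] [Algebra (Rp p k r) C] (N : ℕ)

end

section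

variable (p : ℕ) [Fact p.Prime] (k : Type u) [Field k] [CharP k p] (r : ℕ)

/-- A base with a `p`-basis: `Λ` local with maximal ideal `(p, u)`, residue field `k0`, `b_i ∈ Λ`
lift a `p`-basis of `k0`, `ψ(b_i) = [β_i]`, `k` is the perfect closure of `k0` via `res`. -/
structure IsBaseX {Λ : Type u} [CommRing Λ] [IsLocalRing Λ] (u : Fin r → Λ)
    (ψ : Λ →+* WittVector p (Rp p k r))
    (red : Λ →+* R0 k r ⧸ Ideal.span {(MvPowerSeries.X 0 : R0 k r)}) {ι : Type u} (b : ι → Λ)
    (β : ι → k) (res : ResidueField Λ →+* k) : Prop extends IsBase p k r Λ u ψ red where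
  max : maximalIdeal Λ = Ideal.span (insert (p : Λ) (Set.range u))
  psi_b : ∀ i, ψ (b i) =
    WittVector.teichmuller p (PerfectClosure.of (R0 k r) p (MvPowerSeries.C (β i)))
  res_red : ∀ l g, red l = Ideal.Quotient.mk _ g →
    res (residue Λ l) = MvPowerSeries.constantCoeff g
  pbasis : IsPBasis p (fun i => residue Λ (b i))
  perf : PerfectRing k p
  perfClosure : ∀ y : k, ∃ (e : ℕ) (x : ResidueField Λ), y ^ p ^ e = res x

end

end Vale.Agent.P202.Mix
end

section

/-!
P202, mixed characteristic, M15c: length estimate in `k[[x_0, .., x_r]]` (helper777).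
-/

namespace Vale.Agent.P202.Mix

open scoped ENNReal MonomialOrder

universe u

section LenEst

variable {k : Type u} [Field k] {n : ℕ}

/-- a power series whose coefficients vanish on the box `a_i < Q_i (i ∈ s)` lies in
`(X_i^(Q_i) : i ∈ s)`. -/
lemma lenEst_mem_span (Q : Fin n → ℕ) (s : Finset (Fin n)) :
    ∀ h : MvPowerSeries (Fin n) k,
      (∀ a : Fin n →₀ ℕ, (∀ i ∈ s, a i < Q i) → MvPowerSeries.coeff a h = 0) →
      h ∈ Ideal.span ((fun i => (MvPowerSeries.X i : MvPowerSeries (Fin n) k) ^ (Q i)) ''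
        (s : Set (Fin n))) := by
  classical
  induction s using Finset.induction_on with
  | empty =>
    intro h hh
    have : h = 0 := by
      ext a
      simpa using hh a (by simp)
    rw [this]
    exact Ideal.zero_mem _
  | insert i s hi ih =>
    intro h hh
    -- split
    set h2 : MvPowerSeries (Fin n) k :=
      fun a => if a i < Q i then MvPowerSeries.coeff a h else 0 with hh2
    have hc2 : ∀ a, MvPowerSeries.coeff a h2 = if a i < Q i then MvPowerSeries.coeff a h else 0 :=
      fun a => rfl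
    have h1 : (MvPowerSeries.X i : MvPowerSeries (Fin n) k) ^ (Q i) ∣ h - h2 := by
      rw [MvPowerSeries.X_pow_dvd_iff]
      intro m hm
      rw [map_sub, hc2, if_pos hm, sub_self]
    have hmem2 : h2 ∈ Ideal.span ((fun i => (MvPowerSeries.X i : MvPowerSeries (Fin n) k) ^ (Q i))
        '' ((insert i s : Finset (Fin n)) : Set (Fin n))) := by
      refine Ideal.span_mono ?_ (ih h2 ?_)
      · apply Set.image_mono
        intro j hj
        simp only [Finset.coe_insert, Set.mem_insert_iff]
        exact Or.inr hj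
      · intro a ha
        rw [hc2]
        split_ifs with hai
        · apply hh
          intro j hj
          rcases Finset.mem_insert.1 hj with rfl | hj
          · exact hai
          · exact ha j hj
        · rfl
    have hmem1 : h - h2 ∈ Ideal.span
        ((fun i => (MvPowerSeries.X i : MvPowerSeries (Fin n) k) ^ (Q i))
        '' ((insert i s : Finset (Fin n)) : Set (Fin n))) := by
      refine Ideal.mem_of_dvd _ h1 (Ideal.subset_span ?_)
      exact ⟨i, by simp, rfl⟩
    have := Ideal.add_mem _ hmem1 hmem2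
    simpa using this

/-- modulo an ideal containing `X_i^(b_i + 1)`, a power series is the sum of its monomials in the
box. -/
lemma lenEst_mk_eq (b : Fin n →₀ ℕ) (I : Ideal (MvPowerSeries (Fin n) k))
    (hI : ∀ i, (MvPowerSeries.X i : MvPowerSeries (Fin n) k) ^ (b i + 1) ∈ I)
    (h : MvPowerSeries (Fin n) k) :
    Ideal.Quotient.mk I h =
      ∑ a ∈ Finset.Iic b, MvPowerSeries.coeff a h •
        Ideal.Quotient.mk I (MvPowerSeries.monomial a (1 : k)) := by
  classical
  have hmem : h - ∑ a ∈ Finset.Iic b, MvPowerSeries.coeff a h •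
      (MvPowerSeries.monomial a (1 : k)) ∈ I := by
    have h1 := lenEst_mem_span (k := k) (fun i => b i + 1) Finset.univ
      (h - ∑ a ∈ Finset.Iic b, MvPowerSeries.coeff a h • (MvPowerSeries.monomial a (1 : k))) ?_
    · refine (Ideal.span_le.2 ?_) h1
      rintro x ⟨i, -, rfl⟩
      exact hI i
    · intro a ha
      have hab : a ∈ Finset.Iic b := by
        rw [Finset.mem_Iic]
        intro i
        exact Nat.lt_succ_iff.1 (ha i (Finset.mem_univ i))
      rw [map_sub, map_sum, Finset.sum_eq_single a]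
      · simp
      · intro a' _ hne
        simp [MvPowerSeries.coeff_monomial, hne.symm]
      · intro h'
        exact absurd hab h'
  have h2 : Ideal.Quotient.mk I h = Ideal.Quotient.mk I (∑ a ∈ Finset.Iic b,
      MvPowerSeries.coeff a h • (MvPowerSeries.monomial a (1 : k))) := by
    rw [Ideal.Quotient.eq]
    exact hmem
  rw [h2, map_sum]
  refine Finset.sum_congr rfl fun a _ => ?_
  exact map_smul (Ideal.Quotient.mkₐ k I) (MvPowerSeries.coeff a h)
    (MvPowerSeries.monomial a (1 : k))

/-- length bound by the box monomials not above the lowest exponent. -/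
lemma lenEst_box (b : Fin n →₀ ℕ) (I : Ideal (MvPowerSeries (Fin n) k))
    (hI : ∀ i, (MvPowerSeries.X i : MvPowerSeries (Fin n) k) ^ (b i + 1) ∈ I)
    (m : MonomialOrder (Fin n)) (f : MvPowerSeries (Fin n) k) (hf : f ∈ I) (α : Fin n →₀ ℕ)
    (hα : MvPowerSeries.coeff α f ≠ 0)
    (hlow : ∀ a, m.toSyn a < m.toSyn α → MvPowerSeries.coeff a f = 0) :
    Module.length (MvPowerSeries (Fin n) k) (MvPowerSeries (Fin n) k ⧸ I) ≤
      (((Finset.Iic b).filter fun a => ¬ α ≤ a).card : ℕ∞) := by
  classical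
  set S := (Finset.Iic b).filter fun a => ¬ α ≤ a with hS
  let e : (Fin n →₀ ℕ) → (MvPowerSeries (Fin n) k ⧸ I) :=
    fun a => Ideal.Quotient.mk I (MvPowerSeries.monomial a (1 : k))
  let N : Submodule k (MvPowerSeries (Fin n) k ⧸ I) := Submodule.span k ((S.image e : Finset _) :
    Set (MvPowerSeries (Fin n) k ⧸ I))
  -- all box monomials lie in `N`
  have key : ∀ a ∈ Finset.Iic b, e a ∈ N := by
    by_contra hcon
    push Not at hcon
    -- take the largest bad exponent
    let B := (Finset.Iic b).filter fun a => e a ∉ N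
    have hBne : B.Nonempty := by
      obtain ⟨a, ha, ha'⟩ := hcon
      exact ⟨a, by simp only [B, Finset.mem_filter]; exact ⟨ha, ha'⟩⟩
    obtain ⟨a, haB, hmax⟩ := Finset.exists_max_image B (fun a => m.toSyn a) hBne
    have ha := (Finset.mem_filter.1 haB)
    apply ha.2
    by_cases hαa : α ≤ a
    · -- use `x^(a - α) f`
      have hmem : MvPowerSeries.monomial (a - α) (1 : k) * f ∈ I := I.mul_mem_left _ hf
      have h0 : Ideal.Quotient.mk I (MvPowerSeries.monomial (a - α) (1 : k) * f) = 0 :=
        Ideal.Quotient.eq_zero_iff_mem.2 hmem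
      rw [lenEst_mk_eq b I hI] at h0
      have hcoef : ∀ c : Fin n →₀ ℕ,
          MvPowerSeries.coeff c (MvPowerSeries.monomial (a - α) (1 : k) * f) =
          if a - α ≤ c then MvPowerSeries.coeff (c - (a - α)) f else 0 := by
        intro c
        rw [MvPowerSeries.coeff_monomial_mul]
        simp
      have hca : MvPowerSeries.coeff a (MvPowerSeries.monomial (a - α) (1 : k) * f) =
          MvPowerSeries.coeff α f := by
        rw [hcoef, if_pos tsub_le_self, tsub_tsub_cancel_of_le hαa]
      rw [← Finset.add_sum_erase _ _ ha.1, hca] at h0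
      have h1 : MvPowerSeries.coeff α f • e a ∈ N := by
        have h2 : MvPowerSeries.coeff α f • e a = - ∑ x ∈ (Finset.Iic b).erase a,
            (MvPowerSeries.coeff x) ((MvPowerSeries.monomial (a - α)) (1 : k) * f) •
              (Ideal.Quotient.mk I) ((MvPowerSeries.monomial x) (1 : k)) :=
          eq_neg_of_add_eq_zero_left h0
        rw [h2]
        refine N.neg_mem (N.sum_mem fun c hc => ?_)
        obtain ⟨hca', hcb⟩ := Finset.mem_erase.1 hc
        by_cases hc0 : (MvPowerSeries.coeff c) ((MvPowerSeries.monomial (a - α)) (1 : k) * f) = 0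
        · rw [hc0, zero_smul]
          exact N.zero_mem
        · refine N.smul_mem _ ?_
          by_contra hbad
          have hcB : c ∈ B := Finset.mem_filter.2 ⟨hcb, hbad⟩
          have hle := hmax c hcB
          have hlt : m.toSyn c < m.toSyn a :=
            lt_of_le_of_ne hle (fun h => hca' (m.toSyn.injective h))
          rw [hcoef] at hc0
          split_ifs at hc0 with hle'
          · apply hc0
            apply hlow
            have e1 : c = (a - α) + (c - (a - α)) := (add_tsub_cancel_of_le hle').symm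
            have e2 : a = (a - α) + α := (tsub_add_cancel_of_le hαa).symm
            have e3 : m.toSyn ((a - α) + (c - (a - α))) < m.toSyn ((a - α) + α) := by
              rw [← e1, ← e2]; exact hlt
            rw [map_add, map_add] at e3
            exact lt_of_add_lt_add_left e3
          · exact hc0 rfl
      have h3 := N.smul_mem (MvPowerSeries.coeff α f)⁻¹ h1
      rwa [smul_smul, inv_mul_cancel₀ hα, one_smul] at h3
    · apply Submodule.subset_span
      simp only [Finset.coe_image, Set.mem_image]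
      exact ⟨a, by simp only [hS, Finset.coe_filter, Set.mem_ofPred_eq]; exact ⟨ha.1, hαa⟩, rfl⟩
  have htop : N = ⊤ := by
    rw [eq_top_iff]
    rintro x -
    obtain ⟨h, rfl⟩ := Ideal.Quotient.mk_surjective x
    rw [lenEst_mk_eq b I hI]
    exact N.sum_mem fun a ha => N.smul_mem _ (key a ha)
  have hfin : Module.Finite k (MvPowerSeries (Fin n) k ⧸ I) :=
    ⟨⟨S.image e, htop⟩⟩
  have h1 : Module.length (MvPowerSeries (Fin n) k) (MvPowerSeries (Fin n) k ⧸ I) ≤
      Module.length k (MvPowerSeries (Fin n) k ⧸ I) := by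
    rw [← WithBot.coe_le_coe, Module.coe_length, Module.coe_length]
    exact Order.krullDim_le_of_orderEmbedding
      (Submodule.restrictScalarsEmbedding k (MvPowerSeries (Fin n) k) _)
  refine h1.trans ?_
  rw [Module.length_eq_finrank]
  have h2 : Module.finrank k (MvPowerSeries (Fin n) k ⧸ I) ≤ (S.image e).card := by
    have h3 := finrank_span_finset_le_card (R := k) (S.image e)
    have h4 : Module.finrank k N = Module.finrank k (MvPowerSeries (Fin n) k ⧸ I) := by
      rw [htop]; exact finrank_top k _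
    rw [← h4]; exact h3
  exact_mod_cast h2.trans Finset.card_image_le

/-- lowest exponents multiply. -/
lemma lenEst_mul_low (m : MonomialOrder (Fin n)) (f g : MvPowerSeries (Fin n) k)
    (α β : Fin n →₀ ℕ)
    (hf : ∀ a, m.toSyn a < m.toSyn α → MvPowerSeries.coeff a f = 0)
    (hg : ∀ a, m.toSyn a < m.toSyn β → MvPowerSeries.coeff a g = 0) :
    MvPowerSeries.coeff (α + β) (f * g) =
      MvPowerSeries.coeff α f * MvPowerSeries.coeff β g ∧
    ∀ a, m.toSyn a < m.toSyn (α + β) → MvPowerSeries.coeff a (f * g) = 0 := by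
  classical
  have hgen : ∀ x y : Fin n →₀ ℕ, m.toSyn (x + y) ≤ m.toSyn (α + β) →
      (x, y) ≠ (α, β) → MvPowerSeries.coeff x f * MvPowerSeries.coeff y g = 0 := by
    intro x y hxy hne
    by_cases hx : m.toSyn x < m.toSyn α
    · rw [hf x hx, zero_mul]
    · by_cases hy : m.toSyn y < m.toSyn β
      · rw [hg y hy, mul_zero]
      · exfalso
        push Not at hx hy
        rw [map_add, map_add] at hxy
        have h1 : m.toSyn x = m.toSyn α := by
          by_contra h
          have : m.toSyn α < m.toSyn x := lt_of_le_of_ne hx (Ne.symm h)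
          exact absurd (add_lt_add_of_lt_of_le this hy) (not_lt.2 hxy)
        have h2 : m.toSyn y = m.toSyn β := by
          by_contra h
          have : m.toSyn β < m.toSyn y := lt_of_le_of_ne hy (Ne.symm h)
          exact absurd (add_lt_add_of_le_of_lt hx this) (not_lt.2 hxy)
        exact hne (by rw [m.toSyn.injective h1, m.toSyn.injective h2])
  constructor
  · rw [MvPowerSeries.coeff_mul, Finset.sum_eq_single (α, β)]
    · rintro ⟨x, y⟩ hxy hne
      have h0 : x + y = α + β := Finset.HasAntidiagonal.mem_antidiagonal.1 hxy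
      exact hgen x y (le_of_eq (congrArg m.toSyn h0)) hne
    · intro h
      exact (h (Finset.HasAntidiagonal.mem_antidiagonal.2 rfl)).elim
  · intro a ha
    rw [MvPowerSeries.coeff_mul]
    apply Finset.sum_eq_zero
    rintro ⟨x, y⟩ hxy
    have hs : x + y = a := Finset.HasAntidiagonal.mem_antidiagonal.1 hxy
    refine hgen x y (le_trans (le_of_eq (congrArg m.toSyn hs)) ha.le) ?_
    intro h
    rw [Prod.mk.injEq] at h
    rw [h.1, h.2] at hs
    rw [← hs] at ha
    exact lt_irrefl _ ha

lemma lenEst_pow_low (m : MonomialOrder (Fin n)) (g : MvPowerSeries (Fin n) k)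
    (α : Fin n →₀ ℕ)
    (hg : ∀ a, m.toSyn a < m.toSyn α → MvPowerSeries.coeff a g = 0) (c : ℕ) :
    MvPowerSeries.coeff (c • α) (g ^ c) = MvPowerSeries.coeff α g ^ c ∧
    ∀ a, m.toSyn a < m.toSyn (c • α) → MvPowerSeries.coeff a (g ^ c) = 0 := by
  classical
  induction c with
  | zero =>
    constructor
    · simp
    · intro a ha
      exfalso
      rw [zero_smul, map_zero] at ha
      have h0 := m.toSyn_monotone (bot_le : (⊥ : Fin n →₀ ℕ) ≤ a)
      rw [bot_eq_zero] at h0
      rw [map_zero] at h0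
      exact absurd ha (not_lt.2 h0)
  | succ c ih =>
    have h := lenEst_mul_low m (g ^ c) g (c • α) α ih.2 hg
    have e : (c + 1) • α = c • α + α := succ_nsmul α c
    rw [pow_succ, pow_succ, e]
    refine ⟨?_, h.2⟩
    rw [h.1, ih.1]

/-- counting. -/
lemma lenEst_count_one (b : Fin n →₀ ℕ) (i : Fin n) (t : ℕ) :
    (b i + 1) * ((Finset.Iic b).filter fun a => a i < t).card ≤
      t * (Finset.Iic b).card := by
  classical
  have h : (Finset.range (b i + 1) ×ˢ ((Finset.Iic b).filter fun a => a i < t)).card ≤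
      (Finset.range t ×ˢ Finset.Iic b).card := by
    apply Finset.card_le_card_of_injOn
      (fun x : ℕ × (Fin n →₀ ℕ) => (x.2 i, x.2.update i x.1))
    · rintro ⟨s, a⟩ hx
      simp only [Finset.coe_product, Set.mem_prod, Finset.coe_range, Set.mem_Iio,
        Finset.coe_filter, Set.mem_ofPred_eq, Finset.mem_Iic, Finset.coe_Iic, Set.mem_Iic] at hx ⊢
      obtain ⟨hs, ha, hai⟩ := hx
      refine ⟨hai, ?_⟩
      intro j
      rw [Finsupp.coe_update]
      by_cases hj : j = i
      · subst hj
        rw [Function.update_self]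
        omega
      · rw [Function.update_of_ne hj]
        exact ha j
    · rintro ⟨s, a⟩ _ ⟨s', a'⟩ _ heq
      simp only [Prod.mk.injEq] at heq
      obtain ⟨h1, h2⟩ := heq
      have hs : s = s' := by
        have := DFunLike.congr_fun h2 i
        rw [Finsupp.coe_update, Finsupp.coe_update, Function.update_self,
          Function.update_self] at this
        exact this
      have ha : a = a' := by
        ext j
        by_cases hj : j = i
        · subst hj; exact h1
        · have := DFunLike.congr_fun h2 j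
          rw [Finsupp.coe_update, Finsupp.coe_update, Function.update_of_ne hj,
            Function.update_of_ne hj] at this
          exact this
      rw [hs, ha]
  rwa [Finset.card_product, Finset.card_product, Finset.card_range, Finset.card_range] at h

end LenEst

/-- TASK M15c: length estimate in `k[[x_0, .., x_r]]`. -/
theorem length_estimate (k : Type u) [Field k] (r : ℕ) (g : R0 k r)
    (hg : g ∉ Ideal.span {(MvPowerSeries.X 0 : R0 k r)}) :
    ∃ Cg : ℕ, ∀ q c : ℕ, 1 ≤ q → 1 ≤ c →
      (q : ℝ≥0∞) * ENat.toENNReal (Module.length (R0 k r) (R0 k r ⧸ Ideal.span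
        ({(MvPowerSeries.X 0 : R0 k r), g ^ c} ∪
          Set.range fun i : Fin r => (MvPowerSeries.X i.succ : R0 k r) ^ q))) ≤
        (c * Cg * q ^ r : ℕ) := by
  classical
  -- an exponent with `a_0 = 0`
  have hex : ∃ a : Fin (r + 1) →₀ ℕ, a 0 = 0 ∧ MvPowerSeries.coeff a g ≠ 0 := by
    by_contra hcon
    push Not at hcon
    apply hg
    rw [Ideal.mem_span_singleton, MvPowerSeries.X_dvd_iff]
    exact hcon
  let m : MonomialOrder (Fin (r + 1)) := MonomialOrder.lex
  -- lowest exponent
  let T : Set (Fin (r + 1) →₀ ℕ) := {a | MvPowerSeries.coeff a g ≠ 0}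
  have hTne : T.Nonempty := by
    obtain ⟨a, -, ha⟩ := hex
    exact ⟨a, ha⟩
  obtain ⟨α, hαT, hmin⟩ : ∃ α ∈ T, ∀ a, m.toSyn a < m.toSyn α → a ∉ T := by
    have hwf : WellFounded (fun a b : Fin (r + 1) →₀ ℕ => m.toSyn a < m.toSyn b) :=
      InvImage.wf _ (wellFounded_lt (α := m.syn))
    refine ⟨hwf.min T hTne, hwf.min_mem T hTne, fun a ha haT => ?_⟩
    exact hwf.not_lt_min T haT ha
  have hα : MvPowerSeries.coeff α g ≠ 0 := hαT
  have hlow : ∀ a, m.toSyn a < m.toSyn α → MvPowerSeries.coeff a g = 0 := by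
    intro a ha
    have := hmin a ha
    simpa [T] using this
  have hα0 : α 0 = 0 := by
    obtain ⟨a, ha0, ha⟩ := hex
    by_contra hne
    have hlt : m.toSyn a < m.toSyn α := by
      have : a ≺[m] α := by
        rw [MonomialOrder.lex_lt_iff]
        refine ⟨0, fun j hj => absurd hj (Fin.not_lt_zero j), ?_⟩
        show a 0 < α 0
        omega
      exact this
    exact ha (hlow a hlt)
  refine ⟨∑ i, α i, fun q c hq hc => ?_⟩
  -- the box
  let b : Fin (r + 1) →₀ ℕ := Finsupp.equivFunOnFinite.symm (Fin.cons 0 fun _ => q - 1)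
  have hb0 : b 0 = 0 := by simp [b]
  have hbs : ∀ i : Fin r, b i.succ = q - 1 := by intro i; simp [b]
  set I : Ideal (R0 k r) := Ideal.span
        ({(MvPowerSeries.X 0 : R0 k r), g ^ c} ∪
          Set.range fun i : Fin r => (MvPowerSeries.X i.succ : R0 k r) ^ q) with hIdef
  have hI : ∀ i, (MvPowerSeries.X i : MvPowerSeries (Fin (r + 1)) k) ^ (b i + 1) ∈ I := by
    intro i
    refine Fin.cases ?_ (fun i => ?_) i
    · rw [hb0, zero_add, pow_one]
      exact Ideal.subset_span (by simp)
    · rw [hbs, Nat.sub_add_cancel hq]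
      exact Ideal.subset_span (Or.inr ⟨i, rfl⟩)
  have hgI : g ^ c ∈ I := Ideal.subset_span (by simp)
  obtain ⟨hp1, hp2⟩ := lenEst_pow_low m g α hlow c
  have hbox := lenEst_box b I hI m (g ^ c) hgI (c • α)
    (by rw [hp1]; exact pow_ne_zero _ hα) hp2
  -- counting
  have hcard : (Finset.Iic b).card = q ^ r := by
    rw [Finsupp.card_Iic, Finset.prod_subset (Finset.subset_univ _), Fin.prod_univ_succ, hb0]
    · simp [hbs, Nat.sub_add_cancel hq]
    · intro i _ hi
      rw [Finsupp.notMem_support_iff.1 hi]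
      simp
  have hcount : q * ((Finset.Iic b).filter fun a => ¬ c • α ≤ a).card ≤
      c * (∑ i, α i) * q ^ r := by
    have h1 : ((Finset.Iic b).filter fun a => ¬ c • α ≤ a) ⊆
        Finset.univ.biUnion fun i : Fin (r + 1) =>
          (Finset.Iic b).filter fun a => a i < (c • α) i := by
      intro a ha
      rw [Finset.mem_filter] at ha
      rw [Finset.mem_biUnion]
      have : ∃ i, ¬ (c • α) i ≤ a i := by
        by_contra h
        push Not at h
        exact ha.2 h
      obtain ⟨i, hi⟩ := this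
      exact ⟨i, Finset.mem_univ _, Finset.mem_filter.2 ⟨ha.1, not_le.1 hi⟩⟩
    have h2 := (Finset.card_le_card h1).trans Finset.card_biUnion_le
    calc q * ((Finset.Iic b).filter fun a => ¬ c • α ≤ a).card
        ≤ q * ∑ i, ((Finset.Iic b).filter fun a => a i < (c • α) i).card :=
          Nat.mul_le_mul_left _ h2
      _ = ∑ i, q * ((Finset.Iic b).filter fun a => a i < (c • α) i).card := Finset.mul_sum _ _ _
      _ ≤ ∑ i, (c * α i) * q ^ r := by
          apply Finset.sum_le_sum
          intro i _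
          refine Fin.cases ?_ (fun i => ?_) i
          · have : ((Finset.Iic b).filter fun a => a 0 < (c • α) 0) = ∅ := by
              apply Finset.filter_eq_empty_iff.2
              intro a _
              simp [hα0]
            rw [this]
            simp
          · have h3 := lenEst_count_one b i.succ ((c • α) i.succ)
            rw [hbs, Nat.sub_add_cancel hq, hcard] at h3
            simpa using h3
      _ = c * (∑ i, α i) * q ^ r := by
          rw [Finset.mul_sum, Finset.sum_mul]
  calc (q : ℝ≥0∞) * ENat.toENNReal (Module.length (R0 k r) (R0 k r ⧸ I))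
      ≤ (q : ℝ≥0∞) * ENat.toENNReal
          (((Finset.Iic b).filter fun a => ¬ c • α ≤ a).card : ℕ∞) := by
        gcongr
    _ = ((q * ((Finset.Iic b).filter fun a => ¬ c • α ≤ a).card : ℕ) : ℝ≥0∞) := by
        rw [Nat.cast_mul, ENat.toENNReal_coe]
    _ ≤ _ := by exact_mod_cast hcount

end Vale.Agent.P202.Mix
end

section

/-!
P202-MIX, part GEO: Koszul complexes of commuting operators, indexed by finite sets.
-/

namespace Vale.Agent.P202.Mix

open Vale.Agent.P202.CharP
open scoped ENNReal

universe u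

section KosBasic

variable {R : Type u} [CommRing R] {V W : Type u} [AddCommGroup V] [Module R V]
  [AddCommGroup W] [Module R W] {n : ℕ}

lemma kzb_ksg_mul_self (l : Fin n) (J : Finset (Fin n)) : ksg l J * ksg l J = 1 := by
  unfold ksg
  rw [← pow_add, ← two_mul, pow_mul]
  norm_num

lemma kzb_ksg_insert {l k : Fin n} {J : Finset (Fin n)} (hl : l ∉ J) :
    ksg k (insert l J) = ksg k J * (if l < k then -1 else 1) := by
  unfold ksg
  rw [Finset.filter_insert]
  by_cases h : l < k
  · rw [if_pos h, if_pos h, Finset.card_insert_of_notMem (by simp [hl]), pow_succ]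
  · rw [if_neg h, if_neg h, mul_one]

/-- the basic antisymmetry. -/
lemma kzb_ksg_anti {l k : Fin n} {J : Finset (Fin n)} (hl : l ∉ J) (hk : k ∉ J) (hlk : l ≠ k) :
    ksg l J * ksg k (insert l J) + ksg k J * ksg l (insert k J) = 0 := by
  rw [kzb_ksg_insert hl, kzb_ksg_insert hk]
  rcases lt_or_gt_of_ne hlk with h | h
  · rw [if_pos h, if_neg (not_lt.mpr h.le)]
    ring
  · rw [if_neg (not_lt.mpr h.le), if_pos h]
    ring

lemma kzb_ksg_anti' {l k : Fin n} {J : Finset (Fin n)} (hl : l ∉ J) (hk : k ∉ J) (hlk : l ≠ k) :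
    ksg k (insert l J) * ksg l (insert k J) = -(ksg l J * ksg k J) := by
  rw [kzb_ksg_insert hl, kzb_ksg_insert hk]
  rcases lt_or_gt_of_ne hlk with h | h
  · rw [if_pos h, if_neg (not_lt.mpr h.le)]
    ring
  · rw [if_neg (not_lt.mpr h.le), if_pos h]
    ring

lemma kzb_apply (T : Fin n → V →ₗ[R] V) (v : Finset (Fin n) → V) (J : Finset (Fin n)) :
    kz T v J = ∑ l ∈ Jᶜ, ksg l J • T l (v (insert l J)) := rfl

theorem kz_sq (T : Fin n → V →ₗ[R] V) (hT : ∀ k l v, T k (T l v) = T l (T k v))
    (v : Finset (Fin n) → V) : kz T (kz T v) = 0 := by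
  funext J
  rw [kzb_apply]
  have h1 : ∀ l ∈ Jᶜ, ksg l J • T l (kz T v (insert l J)) =
      ∑ k ∈ (insert l J)ᶜ,
        (ksg l J * ksg k (insert l J)) • T l (T k (v (insert k (insert l J)))) := by
    intro l _
    rw [kzb_apply, map_sum, Finset.smul_sum]
    refine Finset.sum_congr rfl fun k _ => ?_
    rw [map_zsmul, smul_smul]
  rw [Finset.sum_congr rfl h1, Finset.sum_sigma']
  refine Finset.sum_involution (fun x _ => ⟨x.2, x.1⟩) ?_ ?_ ?_ ?_
  · rintro ⟨l, k⟩ hx
    simp only [Finset.mem_sigma, Finset.mem_compl, Finset.mem_insert, not_or] at hx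
    obtain ⟨hl, hkl, hk⟩ := hx
    have e1 : insert l (insert k J) = insert k (insert l J) := Finset.insert_comm l k J
    show (ksg l J * ksg k (insert l J)) • T l (T k (v (insert k (insert l J)))) +
      (ksg k J * ksg l (insert k J)) • T k (T l (v (insert l (insert k J)))) = 0
    rw [e1, hT k l, ← add_smul, kzb_ksg_anti hl hk (Ne.symm hkl), zero_smul]
  · rintro ⟨l, k⟩ hx _ h
    simp only [Finset.mem_sigma, Finset.mem_compl, Finset.mem_insert, not_or] at hx
    obtain ⟨hl, hkl, hk⟩ := hx
    have h2 := (Sigma.mk.inj_iff.mp h).1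
    exact hkl h2
  · rintro ⟨l, k⟩ hx
    simp only [Finset.mem_sigma, Finset.mem_compl, Finset.mem_insert, not_or] at hx ⊢
    obtain ⟨hl, hkl, hk⟩ := hx
    exact ⟨hk, Ne.symm hkl, hl⟩
  · rintro ⟨l, k⟩ _
    rfl

theorem kz_kgr (T : Fin n → V →ₗ[R] V) (i : ℤ) (v : Finset (Fin n) → V)
    (hv : v ∈ kgr R V n (i + 1)) : kz T v ∈ kgr R V n i := by
  intro J hJ
  rw [kzb_apply] at hJ
  obtain ⟨l, hl, h1⟩ := Finset.exists_ne_zero_of_sum_ne_zero hJ
  have h2 : v (insert l J) ≠ 0 := by
    intro h
    apply h1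
    rw [h, map_zero, smul_zero]
  have h3 := hv _ h2
  rw [Finset.card_insert_of_notMem (by simpa using hl)] at h3
  push_cast at h3
  omega

end KosBasic

end Vale.Agent.P202.Mix
end

section

/-!
P177, (KOS), part A: the Koszul differential `kd b` on functions `Finset (Fin m) → R`, wedge with
a basis vector, and the cone lemma `Ex.cone` (replace one element by a product).
-/

namespace Vale.Agent.P177.PI

open Vale.Agent.P202.Mix

universe u

variable {R : Type u} [CommRing R] {m : ℕ}

/-- Koszul differential of the elements `b l`. -/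
def kd (b : Fin m → R) (v : Finset (Fin m) → R) (J : Finset (Fin m)) : R :=
  ∑ l ∈ Jᶜ, ksg l J • (b l * v (insert l J))

theorem kz_eq_kd (b : Fin m → R) (v : Finset (Fin m) → R) :
    kz (fun l => LinearMap.mulLeft R (b l)) v = kd b v := rfl

theorem kd_add (b : Fin m → R) (v w : Finset (Fin m) → R) : kd b (v + w) = kd b v + kd b w := by
  rw [← kz_eq_kd, ← kz_eq_kd, ← kz_eq_kd, map_add]

theorem kd_zero (b : Fin m → R) : kd b (0 : Finset (Fin m) → R) = 0 := by
  rw [← kz_eq_kd, map_zero]

theorem kd_sum {ι : Type*} (b : Fin m → R) (s : Finset ι) (v : ι → Finset (Fin m) → R) :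
    kd b (∑ i ∈ s, v i) = ∑ i ∈ s, kd b (v i) := by
  rw [← kz_eq_kd, map_sum]
  rfl

theorem kd_map {R' : Type*} [CommRing R'] (φ : R →+* R') (b : Fin m → R)
    (v : Finset (Fin m) → R) (J : Finset (Fin m)) :
    φ (kd b v J) = kd (fun l => φ (b l)) (fun S => φ (v S)) J := by
  unfold kd
  rw [map_sum]
  refine Finset.sum_congr rfl fun l _ => ?_
  rw [map_zsmul, map_mul]

/-- the value at `J ∌ l`. -/
theorem kd_notMem (b : Fin m → R) (v : Finset (Fin m) → R) {J : Finset (Fin m)} {l : Fin m}
    (h : l ∉ J) : kd b v J = ksg l J • (b l * v (insert l J)) +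
      ∑ k ∈ (insert l J)ᶜ, ksg k J • (b k * v (insert k J)) := by
  have hc : Jᶜ = insert l (insert l J)ᶜ := by
    ext k
    simp only [Finset.mem_compl, Finset.mem_insert]
    by_cases hk : k = l
    · subst hk; simp [h]
    · simp [hk]
  unfold kd
  rw [hc, Finset.sum_insert (by simp)]

/-- `e_l ∧ v`. -/
def wg (l : Fin m) (v : Finset (Fin m) → R) (J : Finset (Fin m)) : R :=
  if l ∈ J then ksg l (J.erase l) • v (J.erase l) else 0

theorem kd_wg (b : Fin m → R) (l : Fin m) (v : Finset (Fin m) → R) (hv : kd b v = 0) :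
    kd b (wg l v) = fun J => b l * v J := by
  funext J
  have hwin : ∀ J, l ∈ J → wg l v J = ksg l (J.erase l) • v (J.erase l) := fun J h => if_pos h
  have hwout : ∀ J, l ∉ J → wg l v J = 0 := fun J h => if_neg h
  unfold kd
  by_cases h : l ∈ J
  · set J' := J.erase l with hJ'
    have hJ'l : l ∉ J' := Finset.notMem_erase l J
    have hJ : insert l J' = J := Finset.insert_erase h
    have hcyc : kd b v J' = 0 := by rw [hv]; rfl
    unfold kd at hcyc
    have hc : J'ᶜ = insert l Jᶜ := by
      ext k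
      simp only [Finset.mem_compl, Finset.mem_insert, hJ', Finset.mem_erase]
      tauto
    have hlc : l ∉ Jᶜ := by simpa using h
    rw [hc, Finset.sum_insert hlc, hJ] at hcyc
    have h1 : ∀ k ∈ Jᶜ, ksg k J • (b k * wg l v (insert k J)) =
        -(ksg l J' • (ksg k J' • (b k * v (insert k J')))) := by
      intro k hk
      have hk' : k ∉ J := by simpa using hk
      have hkl : l ≠ k := fun h0 => hk' (h0 ▸ h)
      have hkJ' : k ∉ J' := fun h0 => hk' (Finset.mem_of_mem_erase h0)
      have e2 : (insert k J).erase l = insert k J' := by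
        rw [hJ', Finset.erase_insert_of_ne (Ne.symm hkl)]
      rw [hwin _ (Finset.mem_insert_of_mem h), e2, mul_smul_comm, smul_smul,
        smul_smul, ← neg_smul]
      congr 1
      rw [← hJ]
      exact kzb_ksg_anti' hJ'l hkJ' hkl
    rw [Finset.sum_congr rfl h1, Finset.sum_neg_distrib, ← Finset.smul_sum,
      eq_neg_of_add_eq_zero_right hcyc, smul_neg, neg_neg, smul_smul,
      kzb_ksg_mul_self, one_smul]
  · rw [Finset.sum_eq_single l]
    · rw [hwin _ (Finset.mem_insert_self l J), Finset.erase_insert h, mul_smul_comm, smul_smul,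
        kzb_ksg_mul_self, one_smul]
    · intro k hk hkl
      have : l ∉ insert k J := by
        simp only [Finset.mem_insert, not_or]
        exact ⟨Ne.symm hkl, h⟩
      rw [hwout _ this, mul_zero, smul_zero]
    · intro h0
      exact absurd (by simpa using h) h0

/-- the part of degree `i`. -/
def dp (i : ℕ) (v : Finset (Fin m) → R) (J : Finset (Fin m)) : R := if J.card = i then v J else 0

theorem dp_eq {i : ℕ} (v : Finset (Fin m) → R) {J : Finset (Fin m)} (h : J.card = i) :
    dp i v J = v J := if_pos h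

theorem dp_ne {i : ℕ} (v : Finset (Fin m) → R) {J : Finset (Fin m)} (h : J.card ≠ i) :
    dp i v J = 0 := if_neg h

theorem kd_dp (b : Fin m → R) (i : ℕ) (v : Finset (Fin m) → R) :
    kd b (dp (i + 1) v) = dp i (kd b v) := by
  funext J
  by_cases h : J.card = i
  · rw [dp_eq _ h]
    unfold kd
    refine Finset.sum_congr rfl fun l hl => ?_
    have hl' : l ∉ J := by simpa using hl
    rw [dp_eq _ (by rw [Finset.card_insert_of_notMem hl', h])]
  · rw [dp_ne _ h]
    unfold kd
    refine Finset.sum_eq_zero fun l hl => ?_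
    have hl' : l ∉ J := by simpa using hl
    rw [dp_ne _ (by rw [Finset.card_insert_of_notMem hl']; omega), mul_zero, smul_zero]

theorem kd_dp_zero (b : Fin m → R) (v : Finset (Fin m) → R) :
    kd b (dp 0 v) = 0 := by
  funext J
  unfold kd
  refine Finset.sum_eq_zero fun l hl => ?_
  have hl' : l ∉ J := by simpa using hl
  rw [dp_ne _ (by rw [Finset.card_insert_of_notMem hl']; omega), mul_zero, smul_zero]

theorem kd_dp_of_cycle (b : Fin m → R) (i : ℕ) (v : Finset (Fin m) → R) (hv : kd b v = 0) :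
    kd b (dp i v) = 0 := by
  cases i with
  | zero => exact kd_dp_zero b v
  | succ i =>
    rw [kd_dp, hv]
    funext J
    unfold dp
    split_ifs <;> rfl

theorem sum_dp (v : Finset (Fin m) → R) : ∑ i ∈ Finset.range (m + 1), dp i v = v := by
  funext J
  rw [Finset.sum_apply]
  unfold dp
  rw [Finset.sum_ite_eq, if_pos]
  rw [Finset.mem_range]
  have := Finset.card_le_univ J
  simp at this
  omega

/-- exactness of the Koszul complex of `b` on the family of ideals `G`. -/
def Ex (b : Fin m → R) (G : Finset (Fin m) → Ideal R) : Prop :=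
  ∀ v : Finset (Fin m) → R, (∀ S, v S ∈ G S) → kd b v = 0 →
    ∃ w : Finset (Fin m) → R, (∀ S, w S ∈ G S) ∧ kd b w = v

/-- the cone lemma. -/
theorem Ex.cone {b b' b'' : Fin m → R} {G H K : Finset (Fin m) → Ideal R} (l : Fin m)
    (hb' : ∀ k, k ≠ l → b' k = b k) (hb'' : ∀ k, k ≠ l → b'' k = b k)
    (hl : b' l = b l * b'' l)
    (hG : ∀ S, l ∉ S → ∀ x ∈ G (insert l S), b l * x ∈ G S)
    (hH : ∀ S, l ∉ S → ∀ x ∈ H (insert l S), b'' l * x ∈ H S)
    (hKG : ∀ S, l ∉ S → K S = G S) (hKH : ∀ S, l ∉ S → K (insert l S) = H (insert l S))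
    (hGH : ∀ S, l ∉ S → G (insert l S) = H S)
    (h1 : Ex b G) (h2 : Ex b'' H) : Ex b' K := by
  intro v hv hz
  -- the values of `kd b' v`
  have hz1 : ∀ S, l ∉ S → ksg l S • (b l * b'' l * v (insert l S)) +
      ∑ k ∈ (insert l S)ᶜ, ksg k S • (b k * v (insert k S)) = 0 := by
    intro S hS
    have := congrFun hz S
    rw [kd_notMem b' v hS, hl] at this
    refine Eq.trans ?_ this
    congr 1
    refine Finset.sum_congr rfl fun k hk => ?_
    rw [hb' k (by intro h; subst h; simp at hk)]
  have hz2 : ∀ S, l ∉ S → ∑ k ∈ (insert l S)ᶜ,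
      ksg k (insert l S) • (b k * v (insert k (insert l S))) = 0 := by
    intro S hS
    have h := congrFun hz (insert l S)
    unfold kd at h
    refine Eq.trans ?_ h
    refine Finset.sum_congr rfl fun k hk => ?_
    rw [hb' k (by intro h; subst h; simp at hk)]
  have hcase : ∀ J : Finset (Fin m), l ∉ J ∨ ∃ S, l ∉ S ∧ J = insert l S := by
    intro J
    by_cases h : l ∈ J
    · exact Or.inr ⟨J.erase l, Finset.notMem_erase l J, (Finset.insert_erase h).symm⟩
    · exact Or.inl h
  have hkc : ∀ (S : Finset (Fin m)) (k : Fin m), k ∈ (insert l S)ᶜ → k ≠ l ∧ k ∉ S := by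
    intro S k hk
    simp only [Finset.mem_compl, Finset.mem_insert, not_or] at hk
    exact hk
  -- first step
  let v1 : Finset (Fin m) → R := fun S => if l ∈ S then b'' l * v S else v S
  have v1in : ∀ S, v1 (insert l S) = b'' l * v (insert l S) := fun S =>
    if_pos (Finset.mem_insert_self l S)
  have v1out : ∀ S, l ∉ S → v1 S = v S := fun S hS => if_neg hS
  obtain ⟨w1, hw1, hw1'⟩ := h1 v1 (by
    intro J
    rcases hcase J with h | ⟨S, hS, rfl⟩
    · rw [v1out J h, ← hKG J h]
      exact hv J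
    · rw [v1in, hGH S hS]
      refine hH S hS _ ?_
      rw [← hKH S hS]
      exact hv _) (by
    funext J
    rcases hcase J with h | ⟨S, hS, rfl⟩
    · rw [kd_notMem b v1 h, v1in]
      rw [← mul_assoc]
      refine Eq.trans ?_ (hz1 J h)
      congr 1
      refine Finset.sum_congr rfl fun k hk => ?_
      obtain ⟨hk1, hk2⟩ := hkc J k hk
      rw [v1out (insert k J) (by simp [h, hk1.symm])]
    · unfold kd
      have : ∀ k ∈ (insert l S)ᶜ, ksg k (insert l S) • (b k * v1 (insert k (insert l S))) =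
          b'' l * (ksg k (insert l S) • (b k * v (insert k (insert l S)))) := by
        intro k hk
        rw [Finset.insert_comm k l S, v1in, mul_smul_comm]
        congr 1
        ring
      rw [Finset.sum_congr rfl this, ← Finset.mul_sum, hz2 S hS, mul_zero]
      rfl)
  -- second step
  let v2 : Finset (Fin m) → R := fun S => if l ∈ S then v S else ksg l S • w1 (insert l S)
  have v2in : ∀ S, v2 (insert l S) = v (insert l S) := fun S =>
    if_pos (Finset.mem_insert_self l S)
  have v2out : ∀ S, l ∉ S → v2 S = ksg l S • w1 (insert l S) := fun S hS => if_neg hS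
  have hy : ∀ S, l ∉ S → ∑ k ∈ (insert l S)ᶜ,
      ksg k (insert l S) • (b k * w1 (insert k (insert l S))) = b'' l * v (insert l S) := by
    intro S hS
    have h := congrFun hw1' (insert l S)
    rw [v1in] at h
    exact h
  obtain ⟨w2, hw2, hw2'⟩ := h2 v2 (by
    intro J
    rcases hcase J with h | ⟨S, hS, rfl⟩
    · rw [v2out J h, ← hGH J h]
      exact zsmul_mem (hw1 _) _
    · rw [v2in, ← hKH S hS]
      exact hv _) (by
    funext J
    rcases hcase J with h | ⟨S, hS, rfl⟩
    · rw [kd_notMem b'' v2 h, v2in]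
      have : ∀ k ∈ (insert l J)ᶜ, ksg k J • (b'' k * v2 (insert k J)) =
          -(ksg l J • (ksg k (insert l J) • (b k * w1 (insert k (insert l J))))) := by
        intro k hk
        obtain ⟨hk1, hk2⟩ := hkc J k hk
        rw [hb'' k hk1, v2out (insert k J) (by simp [h, hk1.symm]), mul_smul_comm, smul_smul,
          smul_smul, Finset.insert_comm l k J, ← neg_smul]
        congr 1
        have h3 := kzb_ksg_anti h hk2 hk1.symm
        linear_combination h3
      rw [Finset.sum_congr rfl this, Finset.sum_neg_distrib, ← Finset.smul_sum, hy J h]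
      exact add_neg_cancel _
    · unfold kd
      refine Eq.trans ?_ (hz2 S hS)
      refine Finset.sum_congr rfl fun k hk => ?_
      obtain ⟨hk1, hk2⟩ := hkc S k hk
      rw [hb'' k hk1, Finset.insert_comm k l S, v2in])
  -- the final chain
  let w : Finset (Fin m) → R := fun S => if l ∈ S then w2 S else w1 S + b l * w2 S
  have win : ∀ S, w (insert l S) = w2 (insert l S) := fun S =>
    if_pos (Finset.mem_insert_self l S)
  have wout : ∀ S, l ∉ S → w S = w1 S + b l * w2 S := fun S hS => if_neg hS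
  refine ⟨w, ?_, ?_⟩
  · intro J
    rcases hcase J with h | ⟨S, hS, rfl⟩
    · rw [wout J h, hKG J h]
      refine add_mem (hw1 J) (hG J h _ ?_)
      rw [hGH J h]
      exact hw2 J
    · rw [win, hKH S hS]
      exact hw2 _
  · funext J
    rcases hcase J with h | ⟨S, hS, rfl⟩
    · have e1 := congrFun hw1' J
      rw [kd_notMem b w1 h, v1out J h] at e1
      have e2 := congrFun hw2' J
      rw [kd_notMem b'' w2 h, v2out J h] at e2
      rw [kd_notMem b' w h, win, hl]
      have e3 : ∑ k ∈ (insert l J)ᶜ, ksg k J • (b' k * w (insert k J)) =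
          ∑ k ∈ (insert l J)ᶜ, ksg k J • (b k * w1 (insert k J)) +
          b l * ∑ k ∈ (insert l J)ᶜ, ksg k J • (b'' k * w2 (insert k J)) := by
        rw [Finset.mul_sum, ← Finset.sum_add_distrib]
        refine Finset.sum_congr rfl fun k hk => ?_
        obtain ⟨hk1, hk2⟩ := hkc J k hk
        rw [hb' k hk1, hb'' k hk1, wout (insert k J) (by simp [h, hk1.symm])]
        rw [mul_smul_comm, ← smul_add]
        congr 1
        ring
      rw [e3]
      rw [← e1]
      have e4 : ksg l J • (b l * w1 (insert l J)) = b l * (ksg l J • w1 (insert l J)) := by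
        rw [mul_smul_comm]
      rw [e4, ← e2]
      have e5 : ksg l J • (b l * b'' l * w2 (insert l J)) =
          b l * (ksg l J • (b'' l * w2 (insert l J))) := by
        rw [mul_smul_comm, mul_assoc]
      rw [e5]
      ring
    · have e2 := congrFun hw2' (insert l S)
      rw [v2in] at e2
      rw [← e2]
      unfold kd
      refine Finset.sum_congr rfl fun k hk => ?_
      obtain ⟨hk1, hk2⟩ := hkc S k hk
      rw [hb' k hk1, hb'' k hk1, Finset.insert_comm k l S, win]

end Vale.Agent.P177.PI
end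

section

/-!
P177, (KOS), part B: uniform exactness of the Koszul complexes of `(a_l ^ n_l)` on
`𝔧 ^ N * I ^ (σ - ∑_{j ∈ S} n_j)` over a noetherian ring (Artin-Rees over the Rees algebra of `𝔧`,
then the cone lemma).
-/

namespace Vale.Agent.P177.PI

open Vale.Agent.P202.Mix Polynomial

universe u

variable {D : Type u} [CommRing D] {m : ℕ}

theorem exists_of_mem_smul {M : Type*} [AddCommGroup M] [Module D M] (a : Fin m → D)
    (N : Submodule D M) {x : M} (hx : x ∈ Ideal.span (Set.range a) • N) :
    ∃ c : Fin m → M, (∀ l, c l ∈ N) ∧ x = ∑ l, a l • c l := by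
  refine Submodule.smul_induction_on hx ?_ ?_
  · intro r hr n hn
    obtain ⟨c, rfl⟩ := (Submodule.mem_span_range_iff_exists_fun _).mp hr
    refine ⟨fun l => c l • n, fun l => N.smul_mem _ hn, ?_⟩
    rw [Finset.sum_smul]
    refine Finset.sum_congr rfl fun l _ => ?_
    rw [smul_smul, smul_eq_mul, mul_comm]
  · rintro x y ⟨c, hc, rfl⟩ ⟨d, hd, rfl⟩
    refine ⟨fun l => c l + d l, fun l => N.add_mem (hc l) (hd l), ?_⟩
    rw [← Finset.sum_add_distrib]
    exact Finset.sum_congr rfl fun l _ => (smul_add _ _ _).symm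

theorem apply_mem_of_mem_smul_top {ι : Type*} (K : Ideal D) {z : ι → D}
    (hz : z ∈ K • (⊤ : Submodule D (ι → D))) (i : ι) : z i ∈ K := by
  refine Submodule.smul_induction_on hz ?_ ?_
  · intro r hr n _
    exact Ideal.mul_mem_right _ _ hr
  · intro x y hx hy
    exact add_mem hx hy

theorem mem_smul_top_of_apply {ι : Type*} [Fintype ι] (K : Ideal D) {z : ι → D}
    (hz : ∀ i, z i ∈ K) : z ∈ K • (⊤ : Submodule D (ι → D)) := by
  classical
  have h : z = ∑ i, z i • (Pi.single i (1 : D) : ι → D) := by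
    funext j
    rw [Finset.sum_apply, Finset.sum_eq_single j]
    · rw [Pi.smul_apply, Pi.single_eq_same, smul_eq_mul, mul_one]
    · intro k _ hk
      rw [Pi.smul_apply, Pi.single_eq_of_ne (Ne.symm hk), smul_zero]
    · intro hj
      exact absurd (Finset.mem_univ j) hj
  rw [h]
  exact Submodule.sum_mem _ fun i _ => Submodule.smul_mem_smul (hz i) Submodule.mem_top

variable (J : Ideal D) (a : Fin m → D)

/-- the elements of the powers of the extended ideal have coefficients in `J ^ N * I ^ n`. -/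
theorem coeff_mem (I : Ideal D) (n : ℕ) {y : reesAlgebra J}
    (hy : y ∈ (I.map (algebraMap D (reesAlgebra J))) ^ n) (N : ℕ) :
    (y : D[X]).coeff N ∈ J ^ N * I ^ n := by
  rw [← Ideal.map_pow] at hy
  refine Submodule.span_induction (p := fun (y : reesAlgebra J) _ => ∀ N, (y : D[X]).coeff N ∈ J ^ N * I ^ n)
    ?_ ?_ ?_ ?_ hy N
  · rintro _ ⟨s, hs, rfl⟩ N
    have h : ((algebraMap D (reesAlgebra J) s : reesAlgebra J) : D[X]) = C s := rfl
    rw [h, coeff_C]
    split_ifs with h0
    · subst h0
      rw [pow_zero, one_mul]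
      exact hs
    · exact zero_mem _
  · intro N
    exact zero_mem _
  · intro x y _ _ hx hy N
    exact add_mem (hx N) (hy N)
  · intro c x _ hx N
    change ((c : D[X]) * (x : D[X])).coeff N ∈ _
    rw [coeff_mul]
    refine sum_mem fun ij hij => ?_
    rw [Finset.HasAntidiagonal.mem_antidiagonal] at hij
    rw [← hij, pow_add, mul_assoc]
    exact Ideal.mul_mem_mul ((mem_reesAlgebra_iff J _).1 c.2 ij.1) (hx ij.2)

theorem monomial_mem_pow (I : Ideal D) (n N : ℕ) {x : D} (hx : x ∈ J ^ N * I ^ n) :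
    ∃ h : monomial N x ∈ reesAlgebra J,
      (⟨monomial N x, h⟩ : reesAlgebra J) ∈ (I.map (algebraMap D (reesAlgebra J))) ^ n := by
  rw [← Ideal.map_pow]
  refine Submodule.mul_induction_on hx ?_ ?_
  · intro r hr s hs
    have h1 : monomial N r ∈ reesAlgebra J := reesAlgebra.monomial_mem.mpr hr
    have h : monomial N (r * s) ∈ reesAlgebra J :=
      reesAlgebra.monomial_mem.mpr (Ideal.mul_mem_right _ _ hr)
    have h2 : (⟨monomial N (r * s), h⟩ : reesAlgebra J) =
        ⟨monomial N r, h1⟩ * algebraMap D (reesAlgebra J) s := by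
      apply Subtype.ext
      change monomial N (r * s) = monomial N r * C s
      rw [monomial_mul_C]
    refine ⟨h, ?_⟩
    rw [h2]
    exact Ideal.mul_mem_left _ _ (Ideal.mem_map_of_mem _ hs)
  · rintro x y ⟨h1, hx⟩ ⟨h2, hy⟩
    have h : monomial N (x + y) ∈ reesAlgebra J := by
      rw [map_add]
      exact add_mem h1 h2
    have h3 : (⟨monomial N (x + y), h⟩ : reesAlgebra J) = ⟨monomial N x, h1⟩ +
        ⟨monomial N y, h2⟩ := by
      apply Subtype.ext
      change monomial N (x + y) = monomial N x + monomial N y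
      rw [map_add]
    refine ⟨h, ?_⟩
    rw [h3]
    exact add_mem hx hy

/-- uniform Artin-Rees for Koszul cycles. -/
theorem exists_uniform [IsNoetherianRing D] : ∃ k, ∀ N n, k ≤ n → ∀ i (z : Finset (Fin m) → D),
    (∀ S, z S ∈ J ^ N * Ideal.span (Set.range a) ^ (n + 1)) →
    (∀ S : Finset (Fin m), S.card ≠ i → z S = 0) → kd a z = 0 →
    ∃ w : Finset (Fin m) → D, (∀ S, w S ∈ J ^ N * Ideal.span (Set.range a) ^ n) ∧
      (∀ S : Finset (Fin m), S.card ≠ i + 1 → w S = 0) ∧ kd a w = z := by
  classical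
  set D1 := reesAlgebra J with hD1
  let a1 : Fin m → D1 := fun l => algebraMap D D1 (a l)
  let Z : Submodule D1 (Finset (Fin m) → D1) :=
    LinearMap.ker (kz (fun l => LinearMap.mulLeft D1 (a1 l)))
  set I := Ideal.span (Set.range a) with hI
  set I1 := I.map (algebraMap D D1) with hI1
  have hI1' : I1 = Ideal.span (Set.range a1) := by
    rw [hI1, hI, Ideal.map_span, ← Set.range_comp]
    rfl
  obtain ⟨k, hk⟩ := Ideal.exists_pow_inf_eq_pow_smul I1 Z
  refine ⟨k, fun N n hn i z hz hzi hzc => ?_⟩
  choose hz1 hz2 using fun S => monomial_mem_pow J I (n + 1) N (hz S)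
  let z1 : Finset (Fin m) → D1 := fun S => ⟨monomial N (z S), hz1 S⟩
  have hz1Z : z1 ∈ Z := by
    rw [LinearMap.mem_ker, kz_eq_kd]
    funext S
    apply Subtype.ext
    have h1 : ((kd a1 z1 S : D1) : D[X]) = kd (fun l => C (a l)) (fun S => monomial N (z S)) S :=
      kd_map (reesAlgebra J).val.toRingHom a1 z1 S
    rw [h1]
    have h2 : kd (fun l => C (a l)) (fun S => monomial N (z S)) S = monomial N (kd a z S) := by
      unfold kd
      rw [map_sum]
      refine Finset.sum_congr rfl fun l _ => ?_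
      rw [map_zsmul, C_mul_monomial]
    rw [h2, hzc]
    exact map_zero _
  have hz1I : z1 ∈ I1 ^ (n + 1) • (⊤ : Submodule D1 (Finset (Fin m) → D1)) :=
    mem_smul_top_of_apply _ fun S => hz2 S
  have h1 : z1 ∈ Ideal.span (Set.range a1) •
      (I1 ^ n • (⊤ : Submodule D1 (Finset (Fin m) → D1)) ⊓ Z) := by
    have h2 : z1 ∈ I1 ^ (n + 1) • (⊤ : Submodule D1 (Finset (Fin m) → D1)) ⊓ Z := ⟨hz1I, hz1Z⟩
    rw [hk (n + 1) (by omega)] at h2
    rw [← hI1', hk n hn]
    have h3 : n + 1 - k = (n - k) + 1 := by omega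
    rwa [h3, pow_succ', Submodule.mul_smul] at h2
  obtain ⟨c, hc, hc'⟩ := exists_of_mem_smul a1 _ h1
  let zz : Fin m → Finset (Fin m) → D := fun l => dp i (fun S => ((c l S : D1) : D[X]).coeff N)
  have hzz : ∀ l S, zz l S ∈ J ^ N * I ^ n := by
    intro l S
    change (if S.card = i then _ else _) ∈ _
    split_ifs
    · exact coeff_mem J I n (apply_mem_of_mem_smul_top _ (hc l).1 S) N
    · exact zero_mem _
  have hzc : ∀ l, kd a (zz l) = 0 := by
    intro l
    apply kd_dp_of_cycle
    funext S
    have h2 : kd a1 (c l) S = 0 := by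
      have h3 : kz (fun l => LinearMap.mulLeft D1 (a1 l)) (c l) = 0 := (hc l).2
      rw [kz_eq_kd] at h3
      rw [h3]
      rfl
    have h4 : ((kd a1 (c l) S : D1) : D[X]) = kd (fun l => C (a l)) (fun S => (c l S : D[X])) S :=
      kd_map (reesAlgebra J).val.toRingHom a1 (c l) S
    have h5 : (kd (fun l => C (a l)) (fun S => (c l S : D[X])) S).coeff N =
        kd a (fun S => ((c l S : D1) : D[X]).coeff N) S := by
      unfold kd
      rw [finsetSum_coeff]
      refine Finset.sum_congr rfl fun l _ => ?_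
      rw [coeff_smul, coeff_C_mul]
    rw [← h5, ← h4, h2]
    exact coeff_zero N
  refine ⟨∑ l, wg l (zz l), ?_, ?_, ?_⟩
  · intro S
    rw [Finset.sum_apply]
    refine sum_mem fun l _ => ?_
    unfold wg
    split_ifs
    · exact zsmul_mem (hzz l _) _
    · exact zero_mem _
  · intro S hS
    rw [Finset.sum_apply]
    refine Finset.sum_eq_zero fun l _ => ?_
    unfold wg
    split_ifs with h
    · have h2 : (S.erase l).card ≠ i := by
        have := Finset.card_erase_add_one h
        omega
      change _ • (dp i _ (S.erase l)) = _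
      rw [dp_ne _ h2, smul_zero]
    · rfl
  · rw [kd_sum]
    funext S
    rw [Finset.sum_apply]
    have h2 : ∀ l, kd a (wg l (zz l)) S = a l * zz l S := fun l => by
      rw [kd_wg a l (zz l) (hzc l)]
    rw [Finset.sum_congr rfl fun l _ => h2 l]
    by_cases h : S.card = i
    · have h3 : ∀ l, zz l S = ((c l S : D1) : D[X]).coeff N := fun l => dp_eq _ h
      rw [Finset.sum_congr rfl fun l _ => by rw [h3 l]]
      have h4 := congrArg (fun f : Finset (Fin m) → D1 => ((f S : D1) : D[X]).coeff N) hc'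
      have h5 : (((∑ l, a1 l • c l) S : D1) : D[X]).coeff N =
          ∑ l, a l * ((c l S : D1) : D[X]).coeff N := by
        have h6 : (((∑ l, a1 l • c l) S : D1) : D[X]) = ∑ l, C (a l) * (c l S : D[X]) := by
          rw [Finset.sum_apply]
          exact map_sum (reesAlgebra J).val.toRingHom (fun l => a1 l * c l S) Finset.univ
        rw [h6, finsetSum_coeff]
        exact Finset.sum_congr rfl fun l _ => by rw [coeff_C_mul]
      rw [← h5]
      refine h4.symm.trans ?_
      change (monomial N (z S)).coeff N = z S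
      rw [coeff_monomial, if_pos rfl]
    · rw [hzi S h]
      refine Finset.sum_eq_zero fun l _ => ?_
      change a l * dp i _ S = 0
      rw [dp_ne _ h, mul_zero]

/-- exactness for the first powers. -/
theorem exists_ex_one [IsNoetherianRing D] : ∃ k, ∀ N σ, k ≤ σ →
    Ex a (fun S => J ^ N * Ideal.span (Set.range a) ^ (σ - S.card)) := by
  obtain ⟨k, hk⟩ := exists_uniform J a
  refine ⟨k + m + 1, fun N σ hσ v hv hz => ?_⟩
  have h1 : ∀ i ∈ Finset.range (m + 1), ∃ w : Finset (Fin m) → D,
      (∀ S, w S ∈ J ^ N * Ideal.span (Set.range a) ^ (σ - i - 1)) ∧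
      (∀ S : Finset (Fin m), S.card ≠ i + 1 → w S = 0) ∧ kd a w = dp i v := by
    intro i hi
    rw [Finset.mem_range] at hi
    refine hk N (σ - i - 1) (by omega) i (dp i v) ?_ ?_ (kd_dp_of_cycle a i v hz)
    · intro S
      by_cases h : S.card = i
      · rw [dp_eq _ h]
        have h2 := hv S
        simp only [h] at h2
        have h3 : σ - i - 1 + 1 = σ - i := by omega
        rwa [h3]
      · rw [dp_ne _ h]
        exact zero_mem _
    · intro S h
      exact dp_ne _ h
  choose! w hw1 hw2 hw3 using h1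
  refine ⟨∑ i ∈ Finset.range (m + 1), w i, ?_, ?_⟩
  · intro S
    rw [Finset.sum_apply]
    refine sum_mem fun i hi => ?_
    by_cases h : S.card = i + 1
    · simp only [h]
      have h3 : σ - (i + 1) = σ - i - 1 := by omega
      rw [h3]
      exact hw1 i hi S
    · rw [hw2 i hi S h]
      exact zero_mem _
  · rw [kd_sum, Finset.sum_congr rfl hw3, sum_dp]

/-- exactness for powers. -/
theorem ex_pow {K : ℕ} (N : ℕ)
    (h1 : ∀ σ, K ≤ σ → Ex a (fun S => J ^ N * Ideal.span (Set.range a) ^ (σ - S.card)))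
    (q : ℕ) (hq : 1 ≤ q) (A : Finset (Fin m)) : ∀ σ, K + A.card * (q - 1) ≤ σ →
    Ex (fun l => a l ^ (if l ∈ A then q else 1)) (fun S => J ^ N * Ideal.span (Set.range a) ^
      (σ - ∑ j ∈ S, if j ∈ A then q else 1)) := by
  classical
  induction A using Finset.induction_on with
  | empty =>
    intro σ hσ
    simpa using h1 σ (by simpa using hσ)
  | insert l A hl ih =>
    -- induction on the exponent of `a l`
    have key : ∀ n, 1 ≤ n → ∀ σ, K + A.card * (q - 1) + (n - 1) ≤ σ →
        Ex (fun k => a k ^ (if k = l then n else if k ∈ A then q else 1))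
          (fun S => J ^ N * Ideal.span (Set.range a) ^
            (σ - ∑ j ∈ S, if j = l then n else if j ∈ A then q else 1)) := by
      intro n hn
      induction n, hn using Nat.le_induction with
      | base =>
        intro σ hσ
        have h2 := ih σ (by omega)
        have h3 : ∀ k : Fin m, (if k = l then 1 else if k ∈ A then q else 1) =
            (if k ∈ A then q else 1) := by
          intro k
          by_cases hk : k = l
          · subst hk; simp [hl]
          · simp [hk]
        simp only [h3]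
        exact h2
      | succ n hn ihn =>
        intro σ hσ
        have hbase : Ex (fun k => a k ^ (if k = l then 1 else if k ∈ A then q else 1))
            (fun S => J ^ N * Ideal.span (Set.range a) ^
              (σ - ∑ j ∈ S, if j = l then 1 else if j ∈ A then q else 1)) := by
          have h2 := ih σ (by omega)
          have h3 : ∀ k : Fin m, (if k = l then 1 else if k ∈ A then q else 1) =
              (if k ∈ A then q else 1) := by
            intro k
            by_cases hk : k = l
            · subst hk; simp [hl]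
            · simp [hk]
          simp only [h3]
          exact h2
        have hprev := ihn (σ - 1) (by omega)
        -- sums over `S` and `insert l S`
        have hs : ∀ (r : ℕ) (S : Finset (Fin m)), l ∉ S →
            (∑ j ∈ S, if j = l then r else if j ∈ A then q else 1) =
              ∑ j ∈ S, if j ∈ A then q else 1 := by
          intro r S hS
          refine Finset.sum_congr rfl fun j hj => ?_
          rw [if_neg]
          rintro rfl
          exact hS hj
        have hs' : ∀ (r : ℕ) (S : Finset (Fin m)), l ∉ S →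
            (∑ j ∈ insert l S, if j = l then r else if j ∈ A then q else 1) =
              r + ∑ j ∈ S, if j ∈ A then q else 1 := by
          intro r S hS
          rw [Finset.sum_insert hS, hs r S hS, if_pos rfl]
        have hal : a l ∈ Ideal.span (Set.range a) := Ideal.subset_span ⟨l, rfl⟩
        have hmul : ∀ (r t : ℕ) (x : D), x ∈ J ^ N * Ideal.span (Set.range a) ^ (t - r) →
            a l ^ r * x ∈ J ^ N * Ideal.span (Set.range a) ^ t := by
          intro r t x hx
          have h2 : a l ^ r * x ∈ Ideal.span (Set.range a) ^ r *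
              (J ^ N * Ideal.span (Set.range a) ^ (t - r)) :=
            Ideal.mul_mem_mul (Ideal.pow_mem_pow hal r) hx
          have h3 : Ideal.span (Set.range a) ^ r * (J ^ N * Ideal.span (Set.range a) ^ (t - r)) =
              J ^ N * Ideal.span (Set.range a) ^ (r + (t - r)) := by
            rw [pow_add]; ring
          rw [h3] at h2
          exact Ideal.mul_mono_right (Ideal.pow_le_pow_right (by omega)) h2
        refine Ex.cone l (b := fun k => a k ^ (if k = l then 1 else if k ∈ A then q else 1))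
          (b'' := fun k => a k ^ (if k = l then n else if k ∈ A then q else 1)) ?_ ?_ ?_
          (G := fun S => J ^ N * Ideal.span (Set.range a) ^
              (σ - ∑ j ∈ S, if j = l then 1 else if j ∈ A then q else 1))
          (H := fun S => J ^ N * Ideal.span (Set.range a) ^
              (σ - 1 - ∑ j ∈ S, if j = l then n else if j ∈ A then q else 1))
          ?_ ?_ ?_ ?_ ?_ hbase hprev
        · intro k hk
          simp only [if_neg hk]
        · intro k hk
          simp only [if_neg hk]
        · simp only [if_pos]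
          rw [pow_one, pow_succ']
        · intro S hS x hx
          simp only [if_pos]
          simp only [hs 1 S hS]
          simp only [hs' 1 S hS] at hx
          refine hmul 1 _ x ?_
          have h2 : σ - (∑ j ∈ S, if j ∈ A then q else 1) - 1 =
            σ - (1 + ∑ j ∈ S, if j ∈ A then q else 1) := by omega
          rwa [h2]
        · intro S hS x hx
          simp only [if_pos]
          simp only [hs n S hS]
          simp only [hs' n S hS] at hx
          refine hmul n _ x ?_
          have h2 : σ - 1 - (∑ j ∈ S, if j ∈ A then q else 1) - n =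
            σ - 1 - (n + ∑ j ∈ S, if j ∈ A then q else 1) := by omega
          rwa [h2]
        · intro S hS
          simp only [hs (n + 1) S hS, hs 1 S hS]
        · intro S hS
          simp only [hs' (n + 1) S hS, hs' n S hS]
          congr 2
          omega
        · intro S hS
          simp only [hs' 1 S hS, hs n S hS]
          congr 2
          omega
    intro σ hσ
    have h2 := key q hq σ (by
      rw [Finset.card_insert_of_notMem hl] at hσ
      have : (A.card + 1) * (q - 1) = A.card * (q - 1) + (q - 1) := by ring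
      omega)
    have h3 : ∀ k : Fin m, (if k ∈ insert l A then q else 1) =
        (if k = l then q else if k ∈ A then q else 1) := by
      intro k
      by_cases hk : k = l
      · subst hk; simp
      · simp [hk]
    simp only [h3]
    exact h2

/-- the main finite level statement. -/
theorem exists_ex_pow [IsNoetherianRing D] : ∃ K, ∀ N q σ, 1 ≤ q → K + m * (q - 1) ≤ σ →
    Ex (fun l => a l ^ q) (fun S => J ^ N * Ideal.span (Set.range a) ^ (σ - S.card * q)) := by
  obtain ⟨K, hK⟩ := exists_ex_one J a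
  refine ⟨K, fun N q σ hq hσ => ?_⟩
  have h := ex_pow J a N (fun σ' h' => hK N σ' h') q hq Finset.univ σ (by simpa using hσ)
  simpa using h

end Vale.Agent.P177.PI
end

section

/-!
# P177 / Perf : a uniform Ratliff lemma for two ideals

For ideals `I`, `K` of a noetherian domain and `I ≠ 0` one has
`(I^(n+r) K^m : I^r) = I^n K^m` for all large `n` and all `m`, `r`.
-/

namespace Vale.Agent.P177.Perf

open Polynomial

section one

variable {B : Type*} [CommRing B] [IsNoetherianRing B]

end one

section two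

variable {R : Type*} [CommRing R] [IsNoetherianRing R]

end two

end Vale.Agent.P177.Perf
end

section

/-!
# P177 / Perf : perfect hulls of ideals of a perfect ring

`perfHull p P = {x | x^(p^e) ∈ P^(p^e) for some e}`. It is an ideal closed under
`c ↦ ∏_j (c j)^(1/p)` (`p` factors). Main facts, for `I = (a_1, .., a_m)`:
* `exists_sum_of_mem_perfHull` : `perfHull (P I^(n+1)) = ∑ a_g perfHull (P I^n)` if `m ≤ n + 1`;
* `mem_perfHull_of_mul_mem` : `(perfHull (P I^(n+1)) : I) = perfHull (P I^n)` if `1 ≤ n`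
  (`C` a domain, `P` finitely generated, `I ≠ 0`).
-/

namespace Vale.Agent.P177.Perf

open Vale.Agent.P202.Mix
open scoped Pointwise

universe u

section basic

variable (p : ℕ) [Fact p.Prime] {C : Type u} [CommRing C] [CharP C p]

/-- the perfect hull of an ideal -/
def perfHull (P : Ideal C) : Ideal C where
  carrier := {x | ∃ e : ℕ, x ^ p ^ e ∈ P ^ p ^ e}
  add_mem' := by
    rintro x y ⟨e, he⟩ ⟨f, hf⟩
    refine ⟨e + f, ?_⟩
    rw [add_pow_char_pow]
    refine Ideal.add_mem _ ?_ ?_
    · rw [pow_add, pow_mul, pow_mul]; exact Ideal.pow_mem_pow he _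
    · rw [pow_add, mul_comm, pow_mul, pow_mul]; exact Ideal.pow_mem_pow hf _
  zero_mem' := ⟨0, by simp⟩
  smul_mem' := by
    rintro c x ⟨e, he⟩
    refine ⟨e, ?_⟩
    rw [smul_eq_mul, mul_pow]
    exact Ideal.mul_mem_left _ _ he

variable {p} {P Q I : Ideal C} {x y : C}

theorem le_perfHull : P ≤ perfHull p P := fun x hx => ⟨0, by simpa using hx⟩

omit [Fact p.Prime] [CharP C p] in
theorem pow_mem_of_le {e f : ℕ} (h : e ≤ f) (hx : x ^ p ^ e ∈ P ^ p ^ e) :
    x ^ p ^ f ∈ P ^ p ^ f := by
  obtain ⟨d, rfl⟩ := Nat.exists_eq_add_of_le h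
  rw [pow_add, pow_mul, pow_mul]
  exact Ideal.pow_mem_pow hx _

theorem perfHull_mono (h : P ≤ Q) : perfHull p P ≤ perfHull p Q := by
  rintro x ⟨e, he⟩
  exact ⟨e, Ideal.pow_right_mono h _ he⟩

theorem perfHull_top : perfHull p (⊤ : Ideal C) = ⊤ := top_le_iff.1 le_perfHull

theorem mul_mem_perfHull (hx : x ∈ perfHull p P) (hy : y ∈ perfHull p Q) :
    x * y ∈ perfHull p (P * Q) := by
  obtain ⟨e, he⟩ := hx
  obtain ⟨f, hf⟩ := hy
  refine ⟨max e f, ?_⟩
  rw [mul_pow, mul_pow]
  exact Ideal.mul_mem_mul (pow_mem_of_le (le_max_left _ _) he)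
    (pow_mem_of_le (le_max_right _ _) hf)

theorem perfHull_mul_le : perfHull p P * perfHull p Q ≤ perfHull p (P * Q) :=
  Ideal.mul_le.2 fun _ hx _ hy => mul_mem_perfHull hx hy

/-- membership can be tested on a `p`-th power -/
theorem pow_mem_perfHull_iff {e : ℕ} : x ^ p ^ e ∈ perfHull p (P ^ p ^ e) ↔ x ∈ perfHull p P := by
  constructor
  · rintro ⟨f, hf⟩
    refine ⟨e + f, ?_⟩
    rwa [pow_add, pow_mul, pow_mul]
  · rintro ⟨f, hf⟩
    refine ⟨f, ?_⟩
    rw [← pow_mul, ← pow_mul, mul_comm, pow_mul, pow_mul]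
    exact Ideal.pow_mem_pow hf _

end basic

section pigeon

variable {R : Type*} [CommRing R]

end pigeon

section main

variable {p : ℕ} [Fact p.Prime] {C : Type u} [CommRing C] [CharP C p] [PerfectRing C p]

end main

section descent

variable {C : Type u} [CommRing C]

end descent

section colon

variable {p : ℕ} [Fact p.Prime] {C : Type u} [CommRing C] [CharP C p] [IsDomain C]

end colon

end Vale.Agent.P177.Perf
end

section

/-!
P177, (KOS): in a perfect ring of characteristic `p` the Koszul complex of `a_1, .., a_m` on the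
perfect hulls `perfHull (P * I ^ (s - |S|))`, `I = (a_1, .., a_m)`, is exact for `m < s`.
-/

namespace Vale.Agent.P177.PI

open Vale.Agent.P202.Mix Vale.Agent.P177.Perf
open scoped Pointwise

universe u

theorem exists_finset_of_mem_span {C : Type*} [CommRing C] (T : Set C) {x : C}
    (hx : x ∈ Submodule.span C T) :
    ∃ s : Finset C, ∀ D : Subring C, (s : Set C) ⊆ D → x ∈ Submodule.span D T := by
  classical
  refine Submodule.span_induction (p := fun x _ => ∃ s : Finset C, ∀ D : Subring C,
    (s : Set C) ⊆ D → x ∈ Submodule.span D T) ?_ ?_ ?_ ?_ hx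
  · intro x hx
    exact ⟨∅, fun D _ => Submodule.subset_span hx⟩
  · exact ⟨∅, fun D _ => zero_mem _⟩
  · rintro x y _ _ ⟨s, hs⟩ ⟨t, ht⟩
    refine ⟨s ∪ t, fun D hD => add_mem (hs D ?_) (ht D ?_)⟩
    · exact (Finset.coe_subset.2 Finset.subset_union_left).trans hD
    · exact (Finset.coe_subset.2 Finset.subset_union_right).trans hD
  · rintro c x _ ⟨s, hs⟩
    refine ⟨insert c s, fun D hD => ?_⟩
    have hc : c ∈ D := hD (by simp)
    have h1 := hs D ((Finset.coe_subset.2 (Finset.subset_insert c s)).trans hD)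
    have h2 := Submodule.smul_mem _ (⟨c, hc⟩ : D) h1
    exact h2

theorem exists_ideal_of_mem_span {C : Type*} [CommRing C] (D : Subring C) {t m : ℕ}
    (g : Fin t → D) (a : Fin m → D) (n1 n2 : ℕ) {x : C}
    (hx : x ∈ Submodule.span D ((Set.range fun k => (g k : C)) ^ n1 *
      (Set.range fun k => (a k : C)) ^ n2)) :
    ∃ y ∈ Ideal.span (Set.range g) ^ n1 * Ideal.span (Set.range a) ^ n2, (y : C) = x := by
  have h1 : (Ideal.span (Set.range g) ^ n1 * Ideal.span (Set.range a) ^ n2 : Ideal D) =
      Submodule.span D (Set.range g ^ n1 * Set.range a ^ n2) := by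
    rw [Ideal.span, Ideal.span, Submodule.span_pow, Submodule.span_pow, Submodule.span_mul_span]
  rw [h1]
  have h2 : (Set.range fun k => (g k : C)) ^ n1 * (Set.range fun k => (a k : C)) ^ n2 =
      (Algebra.linearMap D C) '' (Set.range g ^ n1 * Set.range a ^ n2) := by
    have h3 : ⇑(Algebra.linearMap D C) = ⇑(D.subtype) := rfl
    rw [h3, Set.image_mul, Set.image_pow, Set.image_pow, ← Set.range_comp, ← Set.range_comp]
    rfl
  rw [h2, ← Submodule.map_span] at hx
  exact hx

section

variable (p : ℕ) [hp : Fact p.Prime] {C : Type u} [CommRing C] [CharP C p] [PerfectRing C p]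

/-- (KOS): Koszul exactness of perfect Rees modules in degrees `> m`. -/
theorem kos_exact (P : Ideal C) (hP : P.FG) {m : ℕ} (a : Fin m → C) (s : ℕ) (hs : m < s)
    (v : Finset (Fin m) → C)
    (hv : ∀ S, v S ∈ perfHull p (P * Ideal.span (Set.range a) ^ (s - S.card)))
    (hz : kd a v = 0) :
    ∃ w : Finset (Fin m) → C,
      (∀ S, w S ∈ perfHull p (P * Ideal.span (Set.range a) ^ (s - S.card))) ∧ kd a w = v := by
  classical
  obtain ⟨t, g, rfl⟩ := Submodule.fg_iff_exists_fin_generating_family.1 hP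
  have hpe : ∀ (n1 r : ℕ), (Submodule.span C (Set.range g) * Ideal.span (Set.range a) ^ r) ^ n1 =
      Submodule.span C (Set.range g ^ n1 * Set.range a ^ (r * n1)) := by
    intro n1 r
    rw [mul_pow, ← pow_mul, Ideal.span, Submodule.span_pow, Submodule.span_pow,
      Submodule.span_mul_span]
  choose e he using hv
  set e0 := Finset.univ.sup e with he0
  have hve : ∀ S, v S ^ p ^ e0 ∈ Submodule.span C (Set.range g ^ p ^ e0 *
      Set.range a ^ ((s - S.card) * p ^ e0)) := by
    intro S
    rw [← hpe]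
    exact pow_mem_of_le (Finset.le_sup (Finset.mem_univ S)) (he S)
  choose fs hfs using fun S => exists_finset_of_mem_span _ (hve S)
  -- the noetherian subring
  let s0 : Finset C := (Finset.univ.image g ∪ Finset.univ.image a) ∪ Finset.univ.biUnion fs
  set D : Subring C := Subring.closure (s0 : Set C) with hD
  have hDs : (s0 : Set C) ⊆ D := Subring.subset_closure
  have : IsNoetherianRing D := is_noetherian_subring_closure _ s0.finite_toSet
  let gD : Fin t → D := fun k => ⟨g k, hDs (by simp [s0])⟩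
  let aD : Fin m → D := fun k => ⟨a k, hDs (by simp [s0])⟩
  have hy : ∀ S, ∃ y ∈ Ideal.span (Set.range gD) ^ p ^ e0 *
      Ideal.span (Set.range aD) ^ ((s - S.card) * p ^ e0), (y : C) = v S ^ p ^ e0 := by
    intro S
    refine exists_ideal_of_mem_span D gD aD _ _ (hfs S D ?_)
    refine subset_trans ?_ hDs
    rw [Finset.coe_subset]
    refine subset_trans ?_ Finset.subset_union_right
    exact Finset.subset_biUnion_of_mem fs (Finset.mem_univ S)
  choose y hy1 hy2 using hy
  obtain ⟨K, hK⟩ := exists_ex_pow (Ideal.span (Set.range gD)) aD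
  set E := e0 + K with hE
  set q := p ^ E with hq
  have hqK : K ≤ q := by
    have h1 : K < p ^ K := Nat.lt_pow_self hp.out.one_lt
    have h2 : p ^ K ≤ p ^ E := Nat.pow_le_pow_right hp.out.pos (by omega)
    omega
  have hq1 : 1 ≤ q := Nat.one_le_pow _ _ hp.out.pos
  have hσ : K + m * (q - 1) ≤ s * q := by
    have h1 : (m + 1) * q ≤ s * q := Nat.mul_le_mul_right q hs
    have h2 : m * (q - 1) ≤ m * q := Nat.mul_le_mul_left m (Nat.sub_le q 1)
    have h3 : (m + 1) * q = m * q + q := by ring
    omega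
  have hinj : ∀ x x' : C, x ^ q = x' ^ q → x = x' := by
    intro x x' h
    apply (iterateFrobeniusEquiv C p E).injective
    rw [coe_iterateFrobeniusEquiv, iterateFrobenius_def, iterateFrobenius_def]
    exact h
  have hkdq : ∀ (u : Finset (Fin m) → C) (J : Finset (Fin m)),
      kd a u J ^ q = kd (fun l => a l ^ q) (fun S => u S ^ q) J := by
    intro u J
    have h := kd_map (iterateFrobenius C p E) a u J
    simp only [iterateFrobenius_def] at h
    exact h
  have hyq : ∀ S, ((y S ^ p ^ K : D) : C) = v S ^ q := by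
    intro S
    rw [SubmonoidClass.coe_pow, hy2, ← pow_mul, hq, hE, pow_add]
  obtain ⟨w', hw1, hw2⟩ := hK (p ^ E) q (s * q) hq1 hσ (fun S => y S ^ p ^ K) (by
    intro S
    have h1 := Ideal.pow_mem_pow (hy1 S) (p ^ K)
    rw [mul_pow, ← pow_mul, ← pow_mul, ← pow_add] at h1
    have h2 : (s - S.card) * p ^ e0 * p ^ K = s * q - S.card * q := by
      rw [← Nat.sub_mul, mul_assoc, ← pow_add]
    rw [h2] at h1
    exact h1) (by
    funext J
    apply Subtype.ext
    have h1 := kd_map D.subtype (fun l => aD l ^ q) (fun S => y S ^ p ^ K) J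
    change ((kd (fun l => aD l ^ q) (fun S => y S ^ p ^ K) J : D) : C) = 0
    refine h1.trans ?_
    have h2 : (fun S => D.subtype (y S ^ p ^ K)) = fun S => v S ^ q := funext hyq
    have h3 : (fun l => D.subtype (aD l ^ q)) = fun l => a l ^ q := by
      funext l
      rw [map_pow]
      rfl
    rw [h2, h3, ← hkdq, hz]
    exact zero_pow (by omega))
  refine ⟨fun S => Vale.Agent.P202.Mix.rt p E (w' S : C), fun S => ⟨E, ?_⟩, ?_⟩
  · have h0 : Vale.Agent.P202.Mix.rt p E (w' S : C) ^ p ^ E = w' S := by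
      rw [Vale.Agent.P202.Mix.rt, ← iterateFrobenius_def, ← coe_iterateFrobeniusEquiv]
      exact RingEquiv.apply_symm_apply _ _
    rw [h0, mul_pow, ← pow_mul]
    have h1 := Ideal.mem_map_of_mem D.subtype (hw1 S)
    rw [Ideal.map_mul, Ideal.map_pow, Ideal.map_pow, Ideal.map_span, Ideal.map_span,
      ← Set.range_comp, ← Set.range_comp] at h1
    have h2 : s * q - S.card * q = (s - S.card) * p ^ E := by rw [← Nat.sub_mul]
    rw [h2] at h1
    exact h1
  · funext J
    apply hinj
    rw [hkdq]
    have h0 : (fun S => Vale.Agent.P202.Mix.rt p E (w' S : C) ^ q) = fun S => (w' S : C) := by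
      funext S
      rw [hq, Vale.Agent.P202.Mix.rt, ← iterateFrobenius_def, ← coe_iterateFrobeniusEquiv]
      exact RingEquiv.apply_symm_apply _ _
    rw [h0]
    have h1 := kd_map D.subtype (fun l => aD l ^ q) w' J
    have h3 : (fun l => D.subtype (aD l ^ q)) = fun l => a l ^ q := by
      funext l
      rw [map_pow]
      rfl
    rw [h3] at h1
    refine h1.symm.trans ?_
    rw [hw2]
    exact hyq J

/-- graded version: a cycle concentrated in degree `i` bounds a chain concentrated in degree
`i + 1`. -/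
theorem kos_exact_graded (P : Ideal C) (hP : P.FG) {m : ℕ} (a : Fin m → C) (s : ℕ) (hs : m < s)
    (i : ℕ) (v : Finset (Fin m) → C)
    (hv : ∀ S : Finset (Fin m), S.card = i →
      v S ∈ perfHull p (P * Ideal.span (Set.range a) ^ (s - i)))
    (hv0 : ∀ S : Finset (Fin m), S.card ≠ i → v S = 0)
    (hz : kd a v = 0) :
    ∃ w : Finset (Fin m) → C,
      (∀ S : Finset (Fin m), S.card = i + 1 →
        w S ∈ perfHull p (P * Ideal.span (Set.range a) ^ (s - (i + 1)))) ∧
      (∀ S : Finset (Fin m), S.card ≠ i + 1 → w S = 0) ∧ kd a w = v := by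
  obtain ⟨w, hw, hw'⟩ := kos_exact p P hP a s hs v (by
    intro S
    by_cases h : S.card = i
    · rw [h]
      exact hv S h
    · rw [hv0 S h]
      exact zero_mem _) hz
  refine ⟨dp (i + 1) w, ?_, ?_, ?_⟩
  · intro S h
    rw [dp_eq _ h, ← h]
    exact hw S
  · intro S h
    exact dp_ne _ h
  · rw [kd_dp, hw']
    funext S
    by_cases h : S.card = i
    · rw [dp_eq _ h]
    · rw [dp_ne _ h, hv0 S h]

end

end Vale.Agent.P177.PI
end

section

/-!
P177, block B7 input: growth of Koszul homology of ONE module over a commutative ring, for an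
additive length with values in `ℝ≥0∞`.  Nothing is noetherian here.
-/

namespace Vale.Agent.P177.KG

open scoped ENNReal

universe u

/-- an additive length (same fields as `P202.Mix.AddLen`; convert with `⟨L.len, L.zero, L.add⟩`). -/
structure ALen (R : Type u) [CommRing R] where
  len : ∀ (M : Type u) [AddCommGroup M] [Module R M], ℝ≥0∞
  zero : len PUnit.{u + 1} = 0
  add : ∀ {M N K : Type u} [AddCommGroup M] [Module R M] [AddCommGroup N] [Module R N]
    [AddCommGroup K] [Module R K] (f : M →ₗ[R] N) (g : N →ₗ[R] K),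
    Function.Injective f → Function.Surjective g → Function.Exact f g →
    len N = len M + len K

section Basic

variable {R : Type u} [CommRing R] (L : ALen R)
variable {M N K : Type u} [AddCommGroup M] [Module R M]
  [AddCommGroup N] [Module R N] [AddCommGroup K] [Module R K]

theorem len_congr (e : M ≃ₗ[R] N) : L.len M = L.len N := by
  have h := L.add (e : M →ₗ[R] N) (0 : N →ₗ[R] PUnit.{u + 1}) e.injective
    (fun y => ⟨0, Subsingleton.elim _ _⟩)
    (fun y => ⟨fun _ => ⟨e.symm y, by simp⟩, fun _ => Subsingleton.elim _ _⟩)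
  rw [L.zero, add_zero] at h
  exact h.symm

theorem len_sub_quot (X : Submodule R M) : L.len M = L.len X + L.len (M ⧸ X) := by
  refine L.add X.subtype X.mkQ X.injective_subtype X.mkQ_surjective ?_
  rw [LinearMap.exact_iff, Submodule.ker_mkQ, Submodule.range_subtype]

theorem len_subsingleton [Subsingleton M] : L.len M = 0 := by
  rw [← L.zero]
  exact len_congr L (N := PUnit.{u + 1}) (LinearEquiv.ofSubsingleton M PUnit.{u + 1})

theorem len_le_of_inj (f : M →ₗ[R] N) (hf : Function.Injective f) : L.len M ≤ L.len N := by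
  rw [len_sub_quot L (LinearMap.range f), len_congr L (LinearEquiv.ofInjective f hf)]
  exact le_self_add

theorem len_le_of_surj (f : M →ₗ[R] N) (hf : Function.Surjective f) : L.len N ≤ L.len M := by
  rw [len_sub_quot L (LinearMap.ker f), ← len_congr L (f.quotKerEquivOfSurjective hf)]
  exact le_add_self

theorem len_sub_mono {X Y : Submodule R M} (h : X ≤ Y) : L.len X ≤ L.len Y :=
  len_le_of_inj L (Submodule.inclusion h) (Submodule.inclusion_injective h)

theorem len_range_le (f : M →ₗ[R] N) : L.len (LinearMap.range f) ≤ L.len M :=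
  len_le_of_surj L f.rangeRestrict f.surjective_rangeRestrict

theorem len_map_le (f : M →ₗ[R] N) (X : Submodule R M) : L.len (X.map f) ≤ L.len X := by
  have h : X.map f = LinearMap.range (f ∘ₗ X.subtype) := by
    rw [LinearMap.range_comp, Submodule.range_subtype]
  rw [h]
  exact len_range_le L _

theorem len_sub_le (X : Submodule R M) : L.len X ≤ L.len M :=
  len_le_of_inj L X.subtype X.injective_subtype

/-- exact in the middle: `len N ≤ len M + len K`. -/
theorem len_le_of_exact (f : M →ₗ[R] N) (g : N →ₗ[R] K) (h : Function.Exact f g) :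
    L.len N ≤ L.len M + L.len K := by
  rw [len_sub_quot L (LinearMap.ker g), len_congr L g.quotKerEquivRange]
  refine add_le_add ?_ (len_sub_le L _)
  have h1 : LinearMap.ker g = LinearMap.range f := by
    rw [LinearMap.exact_iff] at h
    exact h
  rw [h1]
  exact len_range_le L f

/-- the submodule `g ^ c M`. -/
def pw (g : R) (c : ℕ) (M : Type u) [AddCommGroup M] [Module R M] : Submodule R M :=
  LinearMap.range (LinearMap.lsmul R M (g ^ c))

theorem mem_pw {g : R} {c : ℕ} {x : M} : x ∈ pw g c M ↔ ∃ y : M, g ^ c • y = x := by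
  simp [pw]

theorem len_pw_le (g : R) (c : ℕ) : L.len (pw g c M) ≤ L.len M := len_sub_le L _

theorem len_pw_one (c : ℕ) : L.len (pw (1 : R) c M) = L.len M := by
  have h : pw (1 : R) c M = ⊤ := by
    ext x
    simp [mem_pw]
  rw [h]
  exact len_congr L Submodule.topEquiv

end Basic

/-! ### abstract Koszul families -/

/-- an abstract Koszul family: what is used of the Koszul homology `H xs i` of a module. -/
structure KFam (R : Type u) [CommRing R] where
  H : List R → ℕ → Type u
  [ag : ∀ xs i, AddCommGroup (H xs i)]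
  [md : ∀ xs i, Module R (H xs i)]
  perm : ∀ {xs ys : List R} (i : ℕ), xs.Perm ys → Nonempty (H xs i ≃ₗ[R] H ys i)
  kill : ∀ (x : R) (xs : List R) (i : ℕ) (z : H (x :: xs) i), x • z = 0
  a : ∀ (x : R) (xs : List R) (i : ℕ), H xs i →ₗ[R] H (x :: xs) i
  b : ∀ (x : R) (xs : List R) (i : ℕ), H (x :: xs) (i + 1) →ₗ[R] H xs i
  ex : ∀ (x : R) (xs : List R) (i : ℕ), Function.Exact (a x xs (i + 1)) (b x xs i)
  surj : ∀ (x : R) (xs : List R), Function.Surjective (a x xs 0)
  tor : ∀ (x : R) (xs : List R) (i : ℕ) (z : H xs i), x • z = 0 → ∃ w, b x xs i w = z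
  prod : ∀ (x x' : R) (xs : List R) (i : ℕ),
    ∃ (f : H (x' :: xs) i →ₗ[R] H ((x * x') :: xs) i)
      (g : H ((x * x') :: xs) i →ₗ[R] H (x :: xs) i), Function.Exact f g

namespace KFam

attribute [instance] KFam.ag KFam.md

variable {R : Type u} [CommRing R] (F : KFam R) (L : ALen R)

theorem len_perm {xs ys : List R} (h : xs.Perm ys) (i : ℕ) :
    L.len (F.H xs i) = L.len (F.H ys i) := by
  obtain ⟨e⟩ := F.perm i h
  exact len_congr L e

theorem kill_mem {xs : List R} {x : R} (hx : x ∈ xs) (i : ℕ) (z : F.H xs i) : x • z = 0 := by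
  obtain ⟨l1, l2, rfl⟩ := List.append_of_mem hx
  obtain ⟨e⟩ := F.perm i (List.perm_middle (a := x) (l₁ := l1) (l₂ := l2))
  have h := F.kill x (l1 ++ l2) i (e z)
  rw [← map_smul] at h
  exact (LinearEquiv.map_eq_zero_iff e).1 h

theorem kill_ofList {xs : List R} {x : R} (hx : x ∈ Ideal.ofList xs) (i : ℕ) (z : F.H xs i) :
    x • z = 0 := by
  have h : Ideal.ofList xs ≤ (LinearMap.ker (LinearMap.toSpanSingleton R (F.H xs i) z)) := by
    rw [Ideal.ofList, Ideal.span_le]
    intro y hy
    show y • z = 0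
    exact F.kill_mem hy i z
  exact h hx

theorem len_cons_succ (x : R) (xs : List R) (i : ℕ) :
    L.len (F.H (x :: xs) (i + 1)) ≤ L.len (F.H xs (i + 1)) + L.len (F.H xs i) :=
  len_le_of_exact L _ _ (F.ex x xs i)

theorem len_cons_zero (x : R) (xs : List R) : L.len (F.H (x :: xs) 0) ≤ L.len (F.H xs 0) :=
  len_le_of_surj L _ (F.surj x xs)

/-- the binomial sum `∑_{j + q = i} (n choose j) φ q`. -/
noncomputable def bsum (n : ℕ) (φ : ℕ → ℝ≥0∞) (i : ℕ) : ℝ≥0∞ :=
  ∑ jq ∈ Finset.HasAntidiagonal.antidiagonal i, (n.choose jq.1 : ℝ≥0∞) * φ jq.2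

theorem bsum_zero_left (φ : ℕ → ℝ≥0∞) (i : ℕ) : bsum 0 φ i = φ i := by
  rw [bsum]
  rw [Finset.sum_eq_single (0, i)]
  · simp
  · rintro ⟨j, q⟩ hjq hne
    rw [Finset.HasAntidiagonal.mem_antidiagonal] at hjq
    have hj : j ≠ 0 := by
      rintro rfl
      apply hne
      simp only [zero_add] at hjq
      rw [hjq]
    obtain ⟨j, rfl⟩ := Nat.exists_eq_succ_of_ne_zero hj
    simp
  · intro h
    exact absurd (Finset.HasAntidiagonal.mem_antidiagonal.2 (zero_add i)) h

theorem bsum_succ_zero (n : ℕ) (φ : ℕ → ℝ≥0∞) : bsum (n + 1) φ 0 = bsum n φ 0 := by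
  simp [bsum]

theorem bsum_succ_succ (n : ℕ) (φ : ℕ → ℝ≥0∞) (i : ℕ) :
    bsum (n + 1) φ (i + 1) = bsum n φ (i + 1) + bsum n φ i := by
  simp only [bsum, Finset.Nat.antidiagonal_succ, Finset.sum_cons, Finset.sum_map,
    Function.Embedding.coe_prodMap, Function.Embedding.coeFn_mk, Prod.map,
    Function.Embedding.refl_apply]
  simp only [Nat.choose_zero_right, Nat.succ_eq_add_one, Nat.choose_succ_succ, Nat.cast_add,
    add_mul, Finset.sum_add_distrib]
  ring

theorem bsum_mono (n : ℕ) {φ ψ : ℕ → ℝ≥0∞} (h : ∀ i, φ i ≤ ψ i) (i : ℕ) :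
    bsum n φ i ≤ bsum n ψ i :=
  Finset.sum_le_sum fun jq _ => mul_le_mul' le_rfl (h jq.2)

theorem bsum_const_mul (n : ℕ) (c : ℝ≥0∞) (φ : ℕ → ℝ≥0∞) (i : ℕ) :
    bsum n (fun q => c * φ q) i = c * bsum n φ i := by
  rw [bsum, bsum, Finset.mul_sum]
  refine Finset.sum_congr rfl fun jq _ => ?_
  ring

/-- adding elements: the homology grows at most binomially. -/
theorem len_append_le (cs ys : List R) (i : ℕ) :
    L.len (F.H (cs ++ ys) i) ≤ bsum cs.length (fun q => L.len (F.H ys q)) i := by
  induction cs generalizing i with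
  | nil => rw [List.length_nil, bsum_zero_left]; exact le_rfl
  | cons c cs ih =>
    rw [List.cons_append, List.length_cons]
    cases i with
    | zero =>
      rw [bsum_succ_zero]
      exact (F.len_cons_zero L c _).trans (ih 0)
    | succ i =>
      rw [bsum_succ_succ]
      exact (F.len_cons_succ L c _ i).trans (add_le_add (ih (i + 1)) (ih i))

/-- one step up: if `g * y` kills `H xs i`, then `g ^ (m + 1) H xs i` is not longer than
`g ^ m H (y :: xs) (i + 1)`. -/
theorem len_pw_succ_le {g y : R} {xs : List R} {i : ℕ}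
    (h : ∀ z : F.H xs i, (g * y) • z = 0) (m : ℕ) :
    L.len (pw g (m + 1) (F.H xs i)) ≤ L.len (pw g m (F.H (y :: xs) (i + 1))) := by
  refine (len_sub_mono L ?_).trans (len_map_le L (F.b y xs i) _)
  intro x hx
  obtain ⟨z, rfl⟩ := mem_pw.1 hx
  obtain ⟨w, hw⟩ := F.tor y xs i (g • z) (by rw [smul_smul, mul_comm]; exact h z)
  refine ⟨g ^ m • w, mem_pw.2 ⟨w, rfl⟩, ?_⟩
  rw [map_smul, hw, smul_smul, pow_succ]

theorem ofList_le_append (ys cs : List R) : Ideal.ofList cs ≤ Ideal.ofList (ys ++ cs) := by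
  rw [Ideal.ofList_append]
  exact le_sup_right

/-- going up with a whole list. -/
theorem len_pw_length_le {g : R} (ys : List R) {cs : List R}
    (h : ∀ y ∈ ys, g * y ∈ Ideal.ofList cs) (m i : ℕ) :
    L.len (pw g (m + ys.length) (F.H cs i)) ≤
      L.len (pw g m (F.H (ys.reverse ++ cs) (i + ys.length))) := by
  induction ys generalizing cs i with
  | nil => exact le_rfl
  | cons y ys ih =>
    have h1 : ∀ z : F.H cs i, (g * y) • z = 0 := fun z =>
      F.kill_ofList (h y (by simp)) i z
    have h2 : ∀ y' ∈ ys, g * y' ∈ Ideal.ofList (y :: cs) := fun y' hy' =>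
      ofList_le_append [y] cs (h y' (by simp [hy']))
    have h3 := ih h2 (i + 1)
    have h4 := F.len_pw_succ_le L h1 (m + ys.length)
    have e1 : m + (y :: ys).length = m + ys.length + 1 := by rw [List.length_cons]; ring
    have e2 : i + (y :: ys).length = i + 1 + ys.length := by rw [List.length_cons]; ring
    have e3 : (y :: ys).reverse ++ cs = ys.reverse ++ (y :: cs) := by simp
    rw [e1, e2, e3]
    exact h4.trans h3

/-- **growth 1**: if `g y ∈ (cs)` for all `y ∈ ys`, then
`λ (g ^ |ys| H_i(cs)) ≤ ∑_{j + q = i + |ys|} (|cs| choose j) λ H_q(ys)`. -/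
theorem growth1 {g : R} {cs ys : List R} (h : ∀ y ∈ ys, g * y ∈ Ideal.ofList cs) (i : ℕ) :
    L.len (pw g ys.length (F.H cs i)) ≤
      bsum cs.length (fun q => L.len (F.H ys q)) (i + ys.length) := by
  have h1 := F.len_pw_length_le L ys h 0 i
  rw [zero_add] at h1
  refine h1.trans ((len_pw_le L g 0).trans ?_)
  have hp : (ys.reverse ++ cs).Perm (cs ++ ys) :=
    List.perm_append_comm.trans ((List.reverse_perm ys).append_left cs)
  rw [F.len_perm L hp]
  exact F.len_append_le L cs ys _

/-- **growth 1** with `g = 1`. -/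
theorem growth1' {cs ys : List R} (h : ∀ y ∈ ys, y ∈ Ideal.ofList cs) (i : ℕ) :
    L.len (F.H cs i) ≤ bsum cs.length (fun q => L.len (F.H ys q)) (i + ys.length) := by
  have h1 := F.growth1 L (g := 1) (cs := cs) (ys := ys) (by simpa using h) i
  rwa [len_pw_one] at h1

/-- one power. -/
theorem len_pow_cons (x : R) (xs : List R) (N i : ℕ) :
    L.len (F.H (x ^ N :: xs) i) ≤ N * L.len (F.H (x :: xs) i) := by
  induction N with
  | zero =>
    have : Subsingleton (F.H (x ^ 0 :: xs) i) := by
      refine ⟨fun z w => ?_⟩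
      have h1 : (x ^ 0 : R) = 1 := pow_zero x
      have hz : (1 : R) • z = 0 := by
        have := F.kill (x ^ 0) xs i z
        rwa [← h1]
      have hw : (1 : R) • w = 0 := by
        have := F.kill (x ^ 0) xs i w
        rwa [← h1]
      rw [one_smul] at hz hw
      rw [hz, hw]
    rw [len_subsingleton]
    exact zero_le
  | succ N ih =>
    obtain ⟨f, g, hfg⟩ := F.prod (x ^ N) x xs i
    have h1 := len_le_of_exact L f g hfg
    rw [← pow_succ] at h1
    refine h1.trans ?_
    have h2 : ((N + 1 : ℕ) : ℝ≥0∞) * L.len (F.H (x :: xs) i) =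
        L.len (F.H (x :: xs) i) + N * L.len (F.H (x :: xs) i) := by
      push_cast
      ring
    rw [h2]
    exact add_le_add le_rfl ih

theorem len_map_pow_append (ys zs : List R) (N i : ℕ) :
    L.len (F.H (ys.map (· ^ N) ++ zs) i) ≤ (N : ℝ≥0∞) ^ ys.length * L.len (F.H (ys ++ zs) i) := by
  induction ys generalizing zs with
  | nil =>
    rw [List.length_nil, pow_zero, one_mul]
    exact le_rfl
  | cons y ys ih =>
    have h1 : L.len (F.H (y ^ N :: (ys.map (· ^ N) ++ zs)) i) ≤
        N * L.len (F.H (y :: (ys.map (· ^ N) ++ zs)) i) := F.len_pow_cons L _ _ _ _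
    have h2 : L.len (F.H (y :: (ys.map (· ^ N) ++ zs)) i) =
        L.len (F.H (ys.map (· ^ N) ++ (y :: zs)) i) :=
      F.len_perm L List.perm_middle.symm i
    have h3 : L.len (F.H (ys ++ (y :: zs)) i) = L.len (F.H (y :: (ys ++ zs)) i) :=
      F.len_perm L List.perm_middle i
    have h4 := ih (y :: zs)
    rw [h3] at h4
    rw [List.map_cons, List.cons_append, List.cons_append, List.length_cons, pow_succ]
    refine h1.trans ?_
    rw [h2]
    refine (mul_le_mul' le_rfl h4).trans (le_of_eq ?_)
    ring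

/-- **growth 2**: `λ H_i(ys ^ N) ≤ N ^ |ys| λ H_i(ys)`. -/
theorem growth2 (ys : List R) (N i : ℕ) :
    L.len (F.H (ys.map (· ^ N)) i) ≤ (N : ℝ≥0∞) ^ ys.length * L.len (F.H ys i) := by
  have h := F.len_map_pow_append L ys [] N i
  rwa [List.append_nil, List.append_nil] at h

end KFam

theorem ofList_pow_le {R : Type u} [CommRing R] (cs : List R) (t : ℕ) :
    Ideal.ofList cs ^ (cs.length * t + 1) ≤ Ideal.ofList (cs.map (· ^ t)) := by
  induction cs with
  | nil => simp
  | cons c cs ih =>
    rw [Ideal.ofList_cons, List.map_cons, Ideal.ofList_cons, List.length_cons]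
    have e : (cs.length + 1) * t + 1 = t + (cs.length * t + 1) := by ring
    rw [e]
    refine (Ideal.sup_pow_add_le_pow_sup_pow).trans ?_
    rw [Ideal.span_singleton_pow]
    exact sup_le_sup le_rfl ih

namespace KFam

variable {R : Type u} [CommRing R] (F : KFam R) (L : ALen R)

/-- **growth 3**: if `g y ^ l ∈ (cs)` for all `y ∈ ys` then, with `n = |cs| t + 1`,
`λ (g ^ (n |ys|) H_i(cs ^ t)) ≤ (l n) ^ |ys| ∑_{j + q = i + |ys|} (|cs| choose j) λ H_q(ys)`. -/
theorem growth3 {g : R} {cs ys : List R} {l : ℕ} (h : ∀ y ∈ ys, g * y ^ l ∈ Ideal.ofList cs)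
    (t i : ℕ) :
    L.len (pw (g ^ (cs.length * t + 1)) ys.length (F.H (cs.map (· ^ t)) i)) ≤
      ((l * (cs.length * t + 1) : ℕ) : ℝ≥0∞) ^ ys.length *
        bsum cs.length (fun q => L.len (F.H ys q)) (i + ys.length) := by
  have h1 : ∀ y ∈ ys.map (· ^ (l * (cs.length * t + 1))),
      g ^ (cs.length * t + 1) * y ∈ Ideal.ofList (cs.map (· ^ t)) := by
    intro y' hy'
    obtain ⟨y, hy, rfl⟩ := List.mem_map.1 hy'
    refine ofList_pow_le cs t ?_
    have h2 := Ideal.pow_mem_pow (h y hy) (cs.length * t + 1)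
    rwa [mul_pow, ← pow_mul] at h2
  have h2 := F.growth1 L h1 i
  rw [List.length_map, List.length_map] at h2
  refine h2.trans ?_
  rw [← bsum_const_mul]
  exact bsum_mono _ (fun q => F.growth2 L ys _ q) _

/-- **growth 3** with `g = 1`. -/
theorem growth3' {cs ys : List R} {l : ℕ} (h : ∀ y ∈ ys, y ^ l ∈ Ideal.ofList cs) (t i : ℕ) :
    L.len (F.H (cs.map (· ^ t)) i) ≤
      ((l * (cs.length * t + 1) : ℕ) : ℝ≥0∞) ^ ys.length *
        bsum cs.length (fun q => L.len (F.H ys q)) (i + ys.length) := by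
  have h1 := F.growth3 L (g := 1) (cs := cs) (ys := ys) (l := l) (by simpa using h) t i
  rwa [one_pow, len_pw_one] at h1

end KFam

end Vale.Agent.P177.KG
end

section

/-!
P177: the Koszul homology of a module as a Koszul family (`kfam M : KFam R`).
-/

namespace Vale.Agent.P177.KG

universe u

/-- a nonnegatively graded chain complex. -/
structure Cx (R : Type u) [CommRing R] where
  X : ℕ → Type u
  [ag : ∀ i, AddCommGroup (X i)]
  [md : ∀ i, Module R (X i)]
  d : ∀ i, X (i + 1) →ₗ[R] X i
  dd : ∀ i x, d i (d (i + 1) x) = 0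

namespace Cx

attribute [instance] Cx.ag Cx.md

variable {R : Type u} [CommRing R] (A : Cx R)

/-- cycles. -/
def Z : ∀ i, Submodule R (A.X i)
  | 0 => ⊤
  | i + 1 => LinearMap.ker (A.d i)

/-- boundaries. -/
def B (i : ℕ) : Submodule R (A.X i) := LinearMap.range (A.d i)

theorem mem_Z_zero (x : A.X 0) : x ∈ A.Z 0 := Submodule.mem_top

theorem mem_Z_succ {i : ℕ} {x : A.X (i + 1)} : x ∈ A.Z (i + 1) ↔ A.d i x = 0 := Iff.rfl

theorem mem_B {i : ℕ} {x : A.X i} : x ∈ A.B i ↔ ∃ y, A.d i y = x := Iff.rfl

/-- homology. -/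
def H (i : ℕ) : Type u := ↥(A.Z i) ⧸ (A.B i).submoduleOf (A.Z i)

instance (i : ℕ) : AddCommGroup (A.H i) :=
  inferInstanceAs (AddCommGroup (↥(A.Z i) ⧸ (A.B i).submoduleOf (A.Z i)))

instance (i : ℕ) : Module R (A.H i) :=
  inferInstanceAs (Module R (↥(A.Z i) ⧸ (A.B i).submoduleOf (A.Z i)))

/-- the class of a cycle. -/
def cl (i : ℕ) : ↥(A.Z i) →ₗ[R] A.H i := ((A.B i).submoduleOf (A.Z i)).mkQ

theorem cl_surj (i : ℕ) (z : A.H i) : ∃ x : A.X i, ∃ hx : x ∈ A.Z i, A.cl i ⟨x, hx⟩ = z := by
  obtain ⟨x, hx⟩ := Submodule.mkQ_surjective _ z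
  exact ⟨x.1, x.2, hx⟩

theorem cl_eq_zero {i : ℕ} {x : A.X i} {hx : x ∈ A.Z i} :
    A.cl i ⟨x, hx⟩ = 0 ↔ x ∈ A.B i := by
  show ((A.B i).submoduleOf (A.Z i)).mkQ ⟨x, hx⟩ = 0 ↔ _
  rw [Submodule.mkQ_apply, Submodule.Quotient.mk_eq_zero]
  exact Iff.rfl

theorem cl_eq_cl {i : ℕ} {x y : A.X i} {hx : x ∈ A.Z i} {hy : y ∈ A.Z i} :
    A.cl i ⟨x, hx⟩ = A.cl i ⟨y, hy⟩ ↔ x - y ∈ A.B i := by
  rw [← sub_eq_zero, ← map_sub]
  exact A.cl_eq_zero

variable {A}

/-- maps on homology. -/
def mapH {A' : Cx R} {i j : ℕ} (f : A.X i →ₗ[R] A'.X j) (hZ : ∀ x ∈ A.Z i, f x ∈ A'.Z j)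
    (hB : ∀ x ∈ A.B i, f x ∈ A'.B j) : A.H i →ₗ[R] A'.H j :=
  Submodule.mapQ _ _ (f.restrict hZ) (by
    intro x hx
    exact hB _ hx)

theorem mapH_cl {A' : Cx R} {i j : ℕ} {f : A.X i →ₗ[R] A'.X j}
    {hZ : ∀ x ∈ A.Z i, f x ∈ A'.Z j} {hB : ∀ x ∈ A.B i, f x ∈ A'.B j} {x : A.X i}
    {hx : x ∈ A.Z i} : mapH f hZ hB (A.cl i ⟨x, hx⟩) = A'.cl j ⟨f x, hZ x hx⟩ := rfl

/-- isomorphisms of complexes. -/
structure Iso (A A' : Cx R) where
  e : ∀ i, A.X i ≃ₗ[R] A'.X i
  comm : ∀ i x, e i (A.d i x) = A'.d i (e (i + 1) x)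

namespace Iso

variable {A' A'' : Cx R}

/-- identity. -/
def refl (A : Cx R) : Iso A A := ⟨fun _ => LinearEquiv.refl R _, fun _ _ => rfl⟩

/-- composition. -/
def trans (f : Iso A A') (g : Iso A' A'') : Iso A A'' :=
  ⟨fun i => (f.e i).trans (g.e i), fun i x => by
    simp only [LinearEquiv.trans_apply]
    rw [f.comm, g.comm]⟩

/-- inverse. -/
def symm (f : Iso A A') : Iso A' A :=
  ⟨fun i => (f.e i).symm, fun i x => by
    apply (f.e i).injective
    rw [LinearEquiv.apply_symm_apply, f.comm, LinearEquiv.apply_symm_apply]⟩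

theorem map_Z (f : Iso A A') : ∀ (i : ℕ) (x : A.X i), x ∈ A.Z i → f.e i x ∈ A'.Z i
  | 0, _, _ => Submodule.mem_top
  | i + 1, x, hx => by
    rw [mem_Z_succ] at hx ⊢
    rw [← f.comm, hx, map_zero]

theorem map_B (f : Iso A A') (i : ℕ) (x : A.X i) (hx : x ∈ A.B i) : f.e i x ∈ A'.B i := by
  obtain ⟨y, rfl⟩ := hx
  exact ⟨f.e (i + 1) y, (f.comm i y).symm⟩

/-- the isomorphism on homology. -/
def homology (f : Iso A A') (i : ℕ) : A.H i ≃ₗ[R] A'.H i :=
  LinearEquiv.ofLinearMap (mapH (f.e i : A.X i →ₗ[R] A'.X i) (f.map_Z i) (f.map_B i))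
    (mapH (f.symm.e i : A'.X i →ₗ[R] A.X i) (f.symm.map_Z i) (f.symm.map_B i))
    (by
      ext z
      obtain ⟨x, hx, rfl⟩ := A'.cl_surj i z
      rw [LinearMap.comp_apply, mapH_cl, mapH_cl, LinearMap.id_apply]
      congr 1
      exact Subtype.ext ((f.e i).apply_symm_apply x))
    (by
      ext z
      obtain ⟨x, hx, rfl⟩ := A.cl_surj i z
      rw [LinearMap.comp_apply, mapH_cl, mapH_cl, LinearMap.id_apply]
      congr 1
      exact Subtype.ext ((f.e i).symm_apply_apply x))

end Iso

variable (A)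

/-- modules of the cone. -/
def coneX : ℕ → Type u
  | 0 => A.X 0
  | i + 1 => A.X (i + 1) × A.X i

instance coneAG : ∀ i, AddCommGroup (A.coneX i)
  | 0 => inferInstanceAs (AddCommGroup (A.X 0))
  | i + 1 => inferInstanceAs (AddCommGroup (A.X (i + 1) × A.X i))

instance coneMD : ∀ i, Module R (A.coneX i)
  | 0 => inferInstanceAs (Module R (A.X 0))
  | i + 1 => inferInstanceAs (Module R (A.X (i + 1) × A.X i))

/-- differential of the cone. -/
def coneD (y : R) : ∀ i, A.coneX (i + 1) →ₗ[R] A.coneX i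
  | 0 => ((A.d 0).coprod (y • LinearMap.id) : A.X 1 × A.X 0 →ₗ[R] A.X 0)
  | i + 1 => (((A.d (i + 1)).coprod (y • LinearMap.id)).prod (-(A.d i) ∘ₗ LinearMap.snd R _ _) :
      A.X (i + 2) × A.X (i + 1) →ₗ[R] A.X (i + 1) × A.X i)

theorem coneD_zero (y : R) (a : A.X 1) (b : A.X 0) :
    A.coneD y 0 ((a, b) : A.X 1 × A.X 0) = A.d 0 a + y • b := rfl

theorem coneD_succ (y : R) (i : ℕ) (a : A.X (i + 2)) (b : A.X (i + 1)) :
    A.coneD y (i + 1) ((a, b) : A.X (i + 2) × A.X (i + 1)) =
      ((A.d (i + 1) a + y • b, - A.d i b) : A.X (i + 1) × A.X i) := rfl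

/-- the cone of multiplication by `y`. -/
def cone (y : R) : Cx R where
  X := A.coneX
  d := A.coneD y
  dd i x := by
    cases i with
    | zero =>
      obtain ⟨a, b⟩ := x
      rw [coneD_succ, coneD_zero, map_add, A.dd, map_smul, zero_add, smul_neg, add_neg_cancel]
      rfl
    | succ i =>
      obtain ⟨a, b⟩ := x
      rw [coneD_succ, coneD_succ, map_add, A.dd, map_smul, zero_add, smul_neg, add_neg_cancel,
        map_neg, A.dd, neg_zero, neg_zero]
      rfl

/-- the element `(a, b)` of the cone. -/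
def pr (y : R) (i : ℕ) (a : A.X (i + 1)) (b : A.X i) : (A.cone y).X (i + 1) :=
  ((a, b) : A.X (i + 1) × A.X i)

/-- the elements of degree `0` of the cone. -/
def p0 (y : R) (a : A.X 0) : (A.cone y).X 0 := a

theorem exists_pr (y : R) (i : ℕ) (x : (A.cone y).X (i + 1)) : ∃ a b, A.pr y i a b = x :=
  ⟨x.1, x.2, rfl⟩

theorem exists_p0 (y : R) (x : (A.cone y).X 0) : ∃ a, A.p0 y a = x := ⟨x, rfl⟩

theorem pr_sub (y : R) (i : ℕ) (a a' : A.X (i + 1)) (b b' : A.X i) :
    A.pr y i a b - A.pr y i a' b' = A.pr y i (a - a') (b - b') := rfl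

theorem pr_smul (y : R) (i : ℕ) (r : R) (a : A.X (i + 1)) (b : A.X i) :
    r • A.pr y i a b = A.pr y i (r • a) (r • b) := rfl

theorem p0_smul (y : R) (r : R) (a : A.X 0) : r • A.p0 y a = A.p0 y (r • a) := rfl

theorem p0_sub (y : R) (a a' : A.X 0) : A.p0 y a - A.p0 y a' = A.p0 y (a - a') := rfl

theorem d_pr_zero (y : R) (a : A.X 1) (b : A.X 0) :
    (A.cone y).d 0 (A.pr y 0 a b) = A.p0 y (A.d 0 a + y • b) := rfl

theorem d_pr_succ (y : R) (i : ℕ) (a : A.X (i + 2)) (b : A.X (i + 1)) :
    (A.cone y).d (i + 1) (A.pr y (i + 1) a b) =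
      A.pr y i (A.d (i + 1) a + y • b) (- A.d i b) := rfl

theorem pr_eq_zero {y : R} {i : ℕ} {a : A.X (i + 1)} {b : A.X i} :
    A.pr y i a b = 0 ↔ a = 0 ∧ b = 0 := Prod.mk_eq_zero

theorem pr_inj {y : R} {i : ℕ} {a a' : A.X (i + 1)} {b b' : A.X i} :
    A.pr y i a b = A.pr y i a' b' ↔ a = a' ∧ b = b' := Prod.mk_inj

theorem mem_Z_cone {y : R} {i : ℕ} {a : A.X (i + 1)} {b : A.X i} :
    A.pr y i a b ∈ (A.cone y).Z (i + 1) ↔ b ∈ A.Z i ∧ A.d i a + y • b = 0 := by
  rw [mem_Z_succ]
  cases i with
  | zero =>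
    rw [d_pr_zero]
    exact ⟨fun h => ⟨mem_Z_zero _ _, h⟩, fun h => h.2⟩
  | succ i =>
    rw [d_pr_succ, pr_eq_zero, neg_eq_zero, mem_Z_succ, and_comm]

theorem mem_B_cone {y : R} {i : ℕ} {a : A.X (i + 1)} {b : A.X i} :
    A.pr y i a b ∈ (A.cone y).B (i + 1) ↔
      ∃ (a' : A.X (i + 2)) (b' : A.X (i + 1)), A.d (i + 1) a' + y • b' = a ∧ - A.d i b' = b := by
  rw [mem_B]
  constructor
  · rintro ⟨x, h⟩
    obtain ⟨a', b', rfl⟩ := A.exists_pr y (i + 1) x
    rw [d_pr_succ, pr_inj] at h
    exact ⟨a', b', h⟩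
  · rintro ⟨a', b', rfl, rfl⟩
    exact ⟨A.pr y (i + 1) a' b', A.d_pr_succ y i a' b'⟩

theorem mem_B_cone_zero {y : R} {a : A.X 0} :
    A.p0 y a ∈ (A.cone y).B 0 ↔ ∃ (a' : A.X 1) (b' : A.X 0), A.d 0 a' + y • b' = a := by
  rw [mem_B]
  constructor
  · rintro ⟨x, h⟩
    obtain ⟨a', b', rfl⟩ := A.exists_pr y 0 x
    exact ⟨a', b', h⟩
  · rintro ⟨a', b', rfl⟩
    exact ⟨A.pr y 0 a' b', A.d_pr_zero y a' b'⟩

/-- the inclusion `A → cone y A`. -/
def inc (y : R) : ∀ i, A.X i →ₗ[R] (A.cone y).X i
  | 0 => (LinearMap.id : A.X 0 →ₗ[R] A.X 0)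
  | i + 1 => (LinearMap.inl R (A.X (i + 1)) (A.X i) : A.X (i + 1) →ₗ[R] A.X (i + 1) × A.X i)

/-- the projection `cone y A → A[-1]`. -/
def prj (y : R) (i : ℕ) : (A.cone y).X (i + 1) →ₗ[R] A.X i :=
  (LinearMap.snd R (A.X (i + 1)) (A.X i) : A.X (i + 1) × A.X i →ₗ[R] A.X i)

theorem inc_zero (y : R) (x : A.X 0) : A.inc y 0 x = A.p0 y x := rfl

theorem inc_succ (y : R) (i : ℕ) (x : A.X (i + 1)) : A.inc y (i + 1) x = A.pr y i x 0 := rfl

theorem prj_pr (y : R) (i : ℕ) (a : A.X (i + 1)) (b : A.X i) : A.prj y i (A.pr y i a b) = b := rfl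

theorem inc_Z (y : R) : ∀ (i : ℕ) (x : A.X i), x ∈ A.Z i → A.inc y i x ∈ (A.cone y).Z i
  | 0, _, _ => mem_Z_zero _ _
  | i + 1, x, hx => by
    rw [inc_succ]
    refine A.mem_Z_cone.2 ⟨Submodule.zero_mem _, ?_⟩
    rw [mem_Z_succ] at hx
    rw [hx, smul_zero, zero_add]

theorem inc_B (y : R) : ∀ (i : ℕ) (x : A.X i), x ∈ A.B i → A.inc y i x ∈ (A.cone y).B i
  | 0, x, hx => by
    obtain ⟨a, rfl⟩ := hx
    rw [inc_zero]
    exact A.mem_B_cone_zero.2 ⟨a, 0, by rw [smul_zero, add_zero]⟩
  | i + 1, x, hx => by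
    obtain ⟨a, rfl⟩ := hx
    rw [inc_succ]
    exact A.mem_B_cone.2 ⟨a, 0, by rw [smul_zero, add_zero], by rw [map_zero, neg_zero]⟩

theorem prj_Z (y : R) (i : ℕ) (x : (A.cone y).X (i + 1)) (hx : x ∈ (A.cone y).Z (i + 1)) :
    A.prj y i x ∈ A.Z i := by
  obtain ⟨a, b, rfl⟩ := A.exists_pr y i x
  exact (A.mem_Z_cone.1 hx).1

theorem prj_B (y : R) (i : ℕ) (x : (A.cone y).X (i + 1)) (hx : x ∈ (A.cone y).B (i + 1)) :
    A.prj y i x ∈ A.B i := by
  obtain ⟨a, b, rfl⟩ := A.exists_pr y i x
  obtain ⟨a', b', -, rfl⟩ := A.mem_B_cone.1 hx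
  rw [prj_pr]
  exact Submodule.neg_mem _ ⟨b', rfl⟩

/-- `H_i(A) → H_i(cone y A)`. -/
def incH (y : R) (i : ℕ) : A.H i →ₗ[R] (A.cone y).H i := mapH (A.inc y i) (A.inc_Z y i) (A.inc_B y i)

/-- `H_{i+1}(cone y A) → H_i(A)`. -/
def prjH (y : R) (i : ℕ) : (A.cone y).H (i + 1) →ₗ[R] A.H i :=
  mapH (A.prj y i) (A.prj_Z y i) (A.prj_B y i)

theorem exact_incH_prjH (y : R) (i : ℕ) :
    Function.Exact (A.incH y (i + 1)) (A.prjH y i) := by
  intro z
  constructor
  · obtain ⟨x, hx, rfl⟩ := (A.cone y).cl_surj (i + 1) z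
    intro h
    rw [prjH, mapH_cl, cl_eq_zero] at h
    obtain ⟨a, b, rfl⟩ := A.exists_pr y i x
    rw [prj_pr] at h
    obtain ⟨b', hb'⟩ := h
    obtain ⟨-, h2⟩ := A.mem_Z_cone.1 hx
    refine ⟨A.cl (i + 1) ⟨a + y • b', ?_⟩, ?_⟩
    · rw [mem_Z_succ, map_add, map_smul, hb']
      exact h2
    · rw [incH, mapH_cl, cl_eq_cl, inc_succ, pr_sub]
      refine A.mem_B_cone.2 ⟨0, b', ?_, ?_⟩
      · rw [map_zero, zero_add, add_sub_cancel_left]
      · rw [hb', zero_sub]
  · rintro ⟨w, rfl⟩
    obtain ⟨x, hx, rfl⟩ := A.cl_surj (i + 1) w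
    rw [incH, mapH_cl, prjH, mapH_cl, cl_eq_zero, inc_succ, prj_pr]
    exact Submodule.zero_mem _

theorem incH_zero_surjective (y : R) : Function.Surjective (A.incH y 0) := by
  intro z
  obtain ⟨x, hx, rfl⟩ := (A.cone y).cl_surj 0 z
  obtain ⟨a, rfl⟩ := A.exists_p0 y x
  exact ⟨A.cl 0 ⟨a, mem_Z_zero _ _⟩, rfl⟩

theorem exists_prjH (y : R) (i : ℕ) (z : A.H i) (h : y • z = 0) : ∃ w, A.prjH y i w = z := by
  obtain ⟨b, hb, rfl⟩ := A.cl_surj i z
  rw [← map_smul] at h
  obtain ⟨a, ha⟩ := A.cl_eq_zero.1 h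
  refine ⟨(A.cone y).cl (i + 1) ⟨A.pr y i (-a) b, ?_⟩, rfl⟩
  refine A.mem_Z_cone.2 ⟨hb, ?_⟩
  rw [map_neg, ha]
  exact neg_add_cancel _

theorem kill_cone (y : R) (i : ℕ) (z : (A.cone y).H i) : y • z = 0 := by
  obtain ⟨x, hx, rfl⟩ := (A.cone y).cl_surj i z
  rw [← map_smul]
  refine (A.cone y).cl_eq_zero.2 ?_
  cases i with
  | zero =>
    obtain ⟨a, rfl⟩ := A.exists_p0 y x
    rw [p0_smul]
    exact A.mem_B_cone_zero.2 ⟨0, a, by rw [map_zero, zero_add]⟩
  | succ i =>
    obtain ⟨a, b, rfl⟩ := A.exists_pr y i x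
    obtain ⟨-, h2⟩ := A.mem_Z_cone.1 hx
    rw [pr_smul]
    refine A.mem_B_cone.2 ⟨0, a, ?_, ?_⟩
    · rw [map_zero, zero_add]
    · exact (neg_eq_of_add_eq_zero_right h2)

theorem cone_aux {P Q : Type u} [AddCommGroup P] [Module R P] [AddCommGroup Q] [Module R Q]
    (e : P ≃ₗ[R] Q) {a : P} (b : P) (y : R) {c : Q} (h : e a = c) :
    e (a + y • b) = c + y • e b := by
  rw [LinearEquiv.map_add, LinearEquiv.map_smul, h]

/-- the cone of an isomorphism. -/
def Iso.cone {A A' : Cx R} (f : Iso A A') (y : R) : Iso (A.cone y) (A'.cone y) where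
  e
    | 0 => (f.e 0 : A.X 0 ≃ₗ[R] A'.X 0)
    | i + 1 => (LinearEquiv.prodCongr (f.e (i + 1)) (f.e i) :
        (A.X (i + 1) × A.X i) ≃ₗ[R] (A'.X (i + 1) × A'.X i))
  comm
    | 0, x => cone_aux (f.e 0) _ y (f.comm 0 (x : A.X 1 × A.X 0).1)
    | i + 1, x => Prod.ext
        (cone_aux (f.e (i + 1)) _ y (f.comm (i + 1) (x : A.X (i + 2) × A.X (i + 1)).1))
        ((map_neg (f.e i) _).trans
          (congrArg Neg.neg (f.comm i (x : A.X (i + 2) × A.X (i + 1)).2)))

/-- the swap in one degree. -/
def sw (P Q S : Type u) [AddCommGroup P] [Module R P] [AddCommGroup Q] [Module R Q]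
    [AddCommGroup S] [Module R S] : ((P × Q) × (Q × S)) ≃ₗ[R] ((P × Q) × (Q × S)) where
  toFun x := ((x.1.1, x.2.1), (x.1.2, -x.2.2))
  map_add' x y := by
    simp only [Prod.fst_add, Prod.snd_add, neg_add, Prod.mk_add_mk]
  map_smul' r x := by
    simp only [Prod.smul_fst, Prod.smul_snd, smul_neg, RingHom.id_apply, Prod.smul_mk]
  invFun x := ((x.1.1, x.2.1), (x.1.2, -x.2.2))
  left_inv x := by simp
  right_inv x := by simp

/-- the swap in degree one. -/
def sw1 (P Q : Type u) [AddCommGroup P] [Module R P] [AddCommGroup Q] [Module R Q] :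
    ((P × Q) × Q) ≃ₗ[R] ((P × Q) × Q) where
  toFun x := ((x.1.1, x.2), x.1.2)
  map_add' _ _ := rfl
  map_smul' _ _ := rfl
  invFun x := ((x.1.1, x.2), x.1.2)
  left_inv _ := rfl
  right_inv _ := rfl

theorem swap_aux1 {P Q : Type u} [AddCommGroup P] [Module R P] [AddCommGroup Q] [Module R Q]
    (a b c : P) (c' b' e : Q) (x y : R) :
    ((((a + y • b) + x • c, - (c' + y • e)), - b' + x • e) : (P × Q) × Q) =
      (((a + x • c) + y • b, - c' + y • (-e)), - (b' + x • (-e))) := by
  refine Prod.ext (Prod.ext (add_right_comm _ _ _) ?_) ?_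
  · simp only [neg_add, smul_neg]
  · simp only [neg_add, smul_neg, neg_neg]

theorem swap_aux2 {P Q S : Type u} [AddCommGroup P] [Module R P] [AddCommGroup Q] [Module R Q]
    [AddCommGroup S] (a b c : P) (c' b' e : Q) {e' f' : S} (h : f' = - e') (x y : R) :
    ((((a + y • b) + x • c, - (c' + y • e)), (- b' + x • e, - - - e')) : (P × Q) × (Q × S)) =
      (((a + x • c) + y • b, - c' + y • (-e)), (- (b' + x • (-e)), - - f')) := by
  subst h
  refine Prod.ext (Prod.ext (add_right_comm _ _ _) ?_) (Prod.ext ?_ rfl)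
  · simp only [neg_add, smul_neg]
  · simp only [neg_add, smul_neg, neg_neg]

theorem swap_c0 (x y : R) (z : (A.X 1 × A.X 0) × A.X 0) :
    (A.d 0 z.1.1 + y • z.1.2) + x • z.2 = (A.d 0 z.1.1 + x • z.2) + y • z.1.2 :=
  add_right_comm _ _ _

theorem swap_c1 (x y : R) (z : (A.X 2 × A.X 1) × (A.X 1 × A.X 0)) :
    ((((A.d 1 z.1.1 + y • z.1.2) + x • z.2.1, - (A.d 0 z.2.1 + y • z.2.2)),
      - A.d 0 z.1.2 + x • z.2.2) : (A.X 1 × A.X 0) × A.X 0) =
      (((A.d 1 z.1.1 + x • z.2.1) + y • z.1.2, - A.d 0 z.2.1 + y • (-z.2.2)),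
        - (A.d 0 z.1.2 + x • (-z.2.2))) :=
  swap_aux1 _ _ _ _ _ _ x y

theorem swap_c2 (x y : R) (i : ℕ)
    (z : (A.X (i + 3) × A.X (i + 2)) × (A.X (i + 2) × A.X (i + 1))) :
    ((((A.d (i + 2) z.1.1 + y • z.1.2) + x • z.2.1, - (A.d (i + 1) z.2.1 + y • z.2.2)),
      (- A.d (i + 1) z.1.2 + x • z.2.2, - - - A.d i z.2.2)) :
      (A.X (i + 2) × A.X (i + 1)) × (A.X (i + 1) × A.X i)) =
      (((A.d (i + 2) z.1.1 + x • z.2.1) + y • z.1.2, - A.d (i + 1) z.2.1 + y • (-z.2.2)),
        (- (A.d (i + 1) z.1.2 + x • (-z.2.2)), - - A.d i (-z.2.2))) :=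
  swap_aux2 _ _ _ _ _ _ (LinearMap.map_neg (A.d i) _) x y

/-- the swap of two cones. -/
def swap (x y : R) : Iso ((A.cone y).cone x) ((A.cone x).cone y) where
  e
    | 0 => (LinearEquiv.refl R (A.X 0) : A.X 0 ≃ₗ[R] A.X 0)
    | 1 => (sw1 (A.X 1) (A.X 0) : ((A.X 1 × A.X 0) × A.X 0) ≃ₗ[R] ((A.X 1 × A.X 0) × A.X 0))
    | i + 2 => (sw (A.X (i + 2)) (A.X (i + 1)) (A.X i) :
        ((A.X (i + 2) × A.X (i + 1)) × (A.X (i + 1) × A.X i)) ≃ₗ[R]
          ((A.X (i + 2) × A.X (i + 1)) × (A.X (i + 1) × A.X i)))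
  comm
    | 0, z => A.swap_c0 x y z
    | 1, z => A.swap_c1 x y z
    | i + 2, z => A.swap_c2 x y i z

/-! ### products -/

/-- `cone x' A → cone (x * x') A`. -/
def pf (x x' : R) : ∀ i, (A.cone x').X i →ₗ[R] (A.cone (x * x')).X i
  | 0 => (x • LinearMap.id : A.X 0 →ₗ[R] A.X 0)
  | i + 1 => (LinearMap.prodMap (x • LinearMap.id) LinearMap.id :
      (A.X (i + 1) × A.X i) →ₗ[R] (A.X (i + 1) × A.X i))

/-- `cone (x * x') A → cone x A`. -/
def pg (x x' : R) : ∀ i, (A.cone (x * x')).X i →ₗ[R] (A.cone x).X i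
  | 0 => (LinearMap.id : A.X 0 →ₗ[R] A.X 0)
  | i + 1 => (LinearMap.prodMap LinearMap.id (x' • LinearMap.id) :
      (A.X (i + 1) × A.X i) →ₗ[R] (A.X (i + 1) × A.X i))

theorem pf_zero (x x' : R) (a : A.X 0) : A.pf x x' 0 (A.p0 x' a) = A.p0 (x * x') (x • a) := rfl

theorem pf_succ (x x' : R) (i : ℕ) (a : A.X (i + 1)) (b : A.X i) :
    A.pf x x' (i + 1) (A.pr x' i a b) = A.pr (x * x') i (x • a) b := rfl

theorem pg_zero (x x' : R) (a : A.X 0) : A.pg x x' 0 (A.p0 (x * x') a) = A.p0 x a := rfl

theorem pg_succ (x x' : R) (i : ℕ) (a : A.X (i + 1)) (b : A.X i) :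
    A.pg x x' (i + 1) (A.pr (x * x') i a b) = A.pr x i a (x' • b) := rfl

theorem pf_Z (x x' : R) : ∀ (i : ℕ) (z : (A.cone x').X i), z ∈ (A.cone x').Z i →
    A.pf x x' i z ∈ (A.cone (x * x')).Z i
  | 0, _, _ => mem_Z_zero _ _
  | i + 1, z, hz => by
    obtain ⟨a, b, rfl⟩ := A.exists_pr x' i z
    rw [pf_succ]
    obtain ⟨h1, h2⟩ := A.mem_Z_cone.1 hz
    refine A.mem_Z_cone.2 ⟨h1, ?_⟩
    rw [map_smul, mul_smul, ← smul_add, h2, smul_zero]

theorem pf_B (x x' : R) : ∀ (i : ℕ) (z : (A.cone x').X i), z ∈ (A.cone x').B i →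
    A.pf x x' i z ∈ (A.cone (x * x')).B i
  | 0, z, hz => by
    obtain ⟨a, rfl⟩ := A.exists_p0 x' z
    rw [pf_zero]
    obtain ⟨a', b', rfl⟩ := A.mem_B_cone_zero.1 hz
    refine A.mem_B_cone_zero.2 ⟨x • a', b', ?_⟩
    rw [map_smul, mul_smul, ← smul_add]
  | i + 1, z, hz => by
    obtain ⟨a, b, rfl⟩ := A.exists_pr x' i z
    rw [pf_succ]
    obtain ⟨a', b', rfl, rfl⟩ := A.mem_B_cone.1 hz
    refine A.mem_B_cone.2 ⟨x • a', b', ?_, rfl⟩
    rw [map_smul, mul_smul, ← smul_add]

theorem pg_Z (x x' : R) : ∀ (i : ℕ) (z : (A.cone (x * x')).X i), z ∈ (A.cone (x * x')).Z i →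
    A.pg x x' i z ∈ (A.cone x).Z i
  | 0, _, _ => mem_Z_zero _ _
  | i + 1, z, hz => by
    obtain ⟨a, b, rfl⟩ := A.exists_pr (x * x') i z
    rw [pg_succ]
    obtain ⟨h1, h2⟩ := A.mem_Z_cone.1 hz
    refine A.mem_Z_cone.2 ⟨Submodule.smul_mem _ _ h1, ?_⟩
    rw [smul_smul, h2]

theorem pg_B (x x' : R) : ∀ (i : ℕ) (z : (A.cone (x * x')).X i), z ∈ (A.cone (x * x')).B i →
    A.pg x x' i z ∈ (A.cone x).B i
  | 0, z, hz => by
    obtain ⟨a, rfl⟩ := A.exists_p0 (x * x') z
    rw [pg_zero]
    obtain ⟨a', b', rfl⟩ := A.mem_B_cone_zero.1 hz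
    exact A.mem_B_cone_zero.2 ⟨a', x' • b', by rw [smul_smul]⟩
  | i + 1, z, hz => by
    obtain ⟨a, b, rfl⟩ := A.exists_pr (x * x') i z
    rw [pg_succ]
    obtain ⟨a', b', rfl, rfl⟩ := A.mem_B_cone.1 hz
    exact A.mem_B_cone.2 ⟨a', x' • b', by rw [smul_smul], by rw [map_smul, smul_neg]⟩

theorem exact_pf_pg (x x' : R) (i : ℕ) :
    Function.Exact (mapH (A.pf x x' i) (A.pf_Z x x' i) (A.pf_B x x' i))
      (mapH (A.pg x x' i) (A.pg_Z x x' i) (A.pg_B x x' i)) := by
  intro z
  constructor
  · obtain ⟨w, hw, rfl⟩ := (A.cone (x * x')).cl_surj i z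
    intro h
    rw [mapH_cl, cl_eq_zero] at h
    cases i with
    | zero =>
      obtain ⟨a, rfl⟩ := A.exists_p0 (x * x') w
      rw [pg_zero] at h
      obtain ⟨a', b', rfl⟩ := A.mem_B_cone_zero.1 h
      refine ⟨(A.cone x').cl 0 ⟨A.p0 x' b', mem_Z_zero _ _⟩, ?_⟩
      rw [mapH_cl, cl_eq_cl, pf_zero, p0_sub]
      refine A.mem_B_cone_zero.2 ⟨-a', 0, ?_⟩
      rw [map_neg, smul_zero]
      abel
    | succ i =>
      obtain ⟨a, b, rfl⟩ := A.exists_pr (x * x') i w
      rw [pg_succ] at h
      obtain ⟨a', b', h1, h2⟩ := A.mem_B_cone.1 h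
      obtain ⟨h3, h4⟩ := A.mem_Z_cone.1 hw
      refine ⟨(A.cone x').cl (i + 1) ⟨A.pr x' i b' b, ?_⟩, ?_⟩
      · refine A.mem_Z_cone.2 ⟨h3, ?_⟩
        rw [← h2, add_neg_cancel]
      · rw [mapH_cl, cl_eq_cl, pf_succ, pr_sub]
        refine A.mem_B_cone.2 ⟨-a', 0, ?_, ?_⟩
        · rw [map_neg, smul_zero, ← h1]
          abel
        · rw [map_zero, neg_zero, sub_self]
  · rintro ⟨u, rfl⟩
    obtain ⟨w, hw, rfl⟩ := (A.cone x').cl_surj i u
    rw [mapH_cl, mapH_cl, cl_eq_zero]
    cases i with
    | zero =>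
      obtain ⟨a, rfl⟩ := A.exists_p0 x' w
      rw [pf_zero, pg_zero]
      exact A.mem_B_cone_zero.2 ⟨0, a, by rw [map_zero, zero_add]⟩
    | succ i =>
      obtain ⟨a, b, rfl⟩ := A.exists_pr x' i w
      obtain ⟨h3, h4⟩ := A.mem_Z_cone.1 hw
      rw [pf_succ, pg_succ]
      refine A.mem_B_cone.2 ⟨0, a, by rw [map_zero, zero_add], ?_⟩
      exact neg_eq_of_add_eq_zero_right h4

end Cx

/-! ### the Koszul complex of a module -/

section Kos

variable {R : Type u} [CommRing R]

/-- modules of the complex `M` in degree `0`. -/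
def ptX (M : Type u) : ℕ → Type u
  | 0 => M
  | _ + 1 => PUnit.{u + 1}

instance ptAG (M : Type u) [AddCommGroup M] : ∀ i, AddCommGroup (ptX M i)
  | 0 => inferInstanceAs (AddCommGroup M)
  | _ + 1 => inferInstanceAs (AddCommGroup PUnit.{u + 1})

instance ptMD (M : Type u) [AddCommGroup M] [Module R M] : ∀ i, Module R (ptX M i)
  | 0 => inferInstanceAs (Module R M)
  | _ + 1 => inferInstanceAs (Module R PUnit.{u + 1})

/-- the complex `M` in degree `0`. -/
def pt (R : Type u) [CommRing R] (M : Type u) [AddCommGroup M] [Module R M] : Cx R where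
  X := ptX M
  d _ := 0
  dd _ _ := rfl

/-- the Koszul complex of a list. -/
def KC (M : Type u) [AddCommGroup M] [Module R M] : List R → Cx R
  | [] => pt R M
  | x :: xs => (KC M xs).cone x

/-- the permutation isomorphism of Koszul complexes. -/
theorem KC_perm (M : Type u) [AddCommGroup M] [Module R M] {xs ys : List R} (h : xs.Perm ys) :
    Nonempty (Cx.Iso (KC M xs) (KC M ys)) := by
  induction h with
  | nil => exact ⟨Cx.Iso.refl _⟩
  | cons x _ ih =>
    obtain ⟨f⟩ := ih
    exact ⟨Cx.Iso.cone f x⟩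
  | swap x y l => exact ⟨Cx.swap (KC M l) y x⟩
  | trans _ _ ih1 ih2 =>
    obtain ⟨f⟩ := ih1
    obtain ⟨g⟩ := ih2
    exact ⟨f.trans g⟩

/-- the Koszul homology of `M` as a Koszul family. -/
def kfam (M : Type u) [AddCommGroup M] [Module R M] : KFam R where
  H xs i := (KC M xs).H i
  perm i h := by
    obtain ⟨f⟩ := KC_perm M h
    exact ⟨f.homology i⟩
  kill x xs i z := (KC M xs).kill_cone x i z
  a x xs i := (KC M xs).incH x i
  b x xs i := (KC M xs).prjH x i
  ex x xs i := (KC M xs).exact_incH_prjH x i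
  surj x xs := (KC M xs).incH_zero_surjective x
  tor x xs i z h := (KC M xs).exists_prjH x i z h
  prod x x' xs i := ⟨_, _, (KC M xs).exact_pf_pg x x' i⟩

variable (L : ALen R) (M : Type u) [AddCommGroup M] [Module R M]

/-- invariance of the length under permutations. -/
theorem KC_len_perm {xs ys : List R} (h : xs.Perm ys) (i : ℕ) :
    L.len ((KC M xs).H i) = L.len ((KC M ys).H i) := (kfam M).len_perm L h i

/-- **growth 2** for Koszul homology. -/
theorem KC_growth2 (ys : List R) (N i : ℕ) :
    L.len ((KC M (ys.map (· ^ N))).H i) ≤ (N : ENNReal) ^ ys.length * L.len ((KC M ys).H i) :=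
  (kfam M).growth2 L ys N i

/-- **growth 3** for Koszul homology, `g = 1`. -/
theorem KC_growth3' {cs ys : List R} {l : ℕ} (h : ∀ y ∈ ys, y ^ l ∈ Ideal.ofList cs)
    (t i : ℕ) :
    L.len ((KC M (cs.map (· ^ t))).H i) ≤
      ((l * (cs.length * t + 1) : ℕ) : ENNReal) ^ ys.length *
        KFam.bsum cs.length (fun q => L.len ((KC M ys).H q)) (i + ys.length) :=
  (kfam M).growth3' L h t i

theorem KC_X_subsingleton (xs : List R) : ∀ i, xs.length < i → Subsingleton ((KC M xs).X i) := by
  induction xs with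
  | nil =>
    intro i hi
    cases i with
    | zero => exact absurd hi (lt_irrefl _)
    | succ i => exact inferInstanceAs (Subsingleton PUnit.{u + 1})
  | cons x xs ih =>
    intro i hi
    rw [List.length_cons] at hi
    cases i with
    | zero => exact absurd hi (Nat.not_lt_zero _)
    | succ i =>
      have h1 : Subsingleton ((KC M xs).X (i + 1)) := ih (i + 1) (by omega)
      have h2 : Subsingleton ((KC M xs).X i) := ih i (by omega)
      exact inferInstanceAs (Subsingleton ((KC M xs).X (i + 1) × (KC M xs).X i))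

theorem KC_H_subsingleton (xs : List R) {i : ℕ} (hi : xs.length < i) :
    Subsingleton ((KC M xs).H i) := by
  have := KC_X_subsingleton M xs i hi
  refine ⟨fun z w => ?_⟩
  obtain ⟨x, hx, rfl⟩ := (KC M xs).cl_surj i z
  obtain ⟨y, hy, rfl⟩ := (KC M xs).cl_surj i w
  congr 1
  exact Subtype.ext (Subsingleton.elim _ _)

theorem KC_len_eq_zero (xs : List R) {i : ℕ} (hi : xs.length < i) :
    L.len ((KC M xs).H i) = 0 := by
  have := KC_H_subsingleton M xs hi
  exact len_subsingleton L

/-- the bound of growth 3 as `C * (t + 1) ^ |ys|`, when the homology of `ys` is bounded. -/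
theorem KC_growth3_const {cs ys : List R} {l : ℕ} (h : ∀ y ∈ ys, y ^ l ∈ Ideal.ofList cs)
    {c : ENNReal} (hc : ∀ q, L.len ((KC M ys).H q) ≤ c) (t i : ℕ) :
    L.len ((KC M (cs.map (· ^ t))).H i) ≤
      ((l * (cs.length + 1)) ^ ys.length * 2 ^ cs.length : ℕ) * c *
        ((t + 1 : ℕ) : ENNReal) ^ ys.length := by
  refine (KC_growth3' L M h t i).trans ?_
  have h1 : KFam.bsum cs.length (fun q => L.len ((KC M ys).H q)) (i + ys.length) ≤
      (2 ^ cs.length : ℕ) * c := by
    refine (Finset.sum_le_sum (g := fun jq : ℕ × ℕ => (cs.length.choose jq.1 : ENNReal) * c)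
      fun jq _ => mul_le_mul' le_rfl (hc jq.2)).trans ?_
    rw [← Finset.sum_mul]
    refine mul_le_mul' ?_ le_rfl
    rw [← Nat.cast_sum]
    refine Nat.cast_le.2 ?_
    rw [Finset.Nat.sum_antidiagonal_eq_sum_range_succ_mk, ← Nat.sum_range_choose]
    rcases le_total (i + ys.length + 1) (cs.length + 1) with hle | hle
    · exact Finset.sum_le_sum_of_subset (Finset.range_mono hle)
    · refine le_of_eq (Finset.sum_subset (Finset.range_mono hle) ?_).symm
      intro x _ hx
      rw [Finset.mem_range, not_lt] at hx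
      exact Nat.choose_eq_zero_of_lt hx
  have h2 : ((l * (cs.length * t + 1) : ℕ) : ENNReal) ≤
      ((l * (cs.length + 1) * (t + 1) : ℕ) : ENNReal) := by
    refine Nat.cast_le.2 ?_
    rw [mul_assoc]
    refine Nat.mul_le_mul le_rfl ?_
    nlinarith [Nat.zero_le cs.length, Nat.zero_le t]
  refine (mul_le_mul' (pow_le_pow_left' h2 _) h1).trans (le_of_eq ?_)
  push_cast
  rw [mul_pow]
  ring

end Kos

end Vale.Agent.P177.KG
end

section

/-!
P177: Euler characteristics of Koszul complexes for an additive length; powers of the elements.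
-/

namespace Vale.Agent.P177.Rho

open Vale.Agent.P202.Mix Vale.Agent.P177.KG Function
open scoped ENNReal

universe u

variable {R : Type u} [CommRing R] (L : AddLen R)

section herbrand

variable (M : Type u) [AddCommGroup M] [Module R M]

/-- the length of `M / y M` -/
noncomputable def qq (y : R) : ℝ≥0∞ := L.rl (LinearMap.range (LinearMap.lsmul R M y)) ⊤

/-- the length of the `y`-torsion of `M` -/
noncomputable def ss (y : R) : ℝ≥0∞ := L.len (LinearMap.ker (LinearMap.lsmul R M y))

theorem qq_one : qq L M 1 = 0 := by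
  apply rl_eq_zero_of_le
  intro x _
  exact ⟨x, one_smul _ _⟩

theorem ss_one : ss L M 1 = 0 := by
  have : Subsingleton (LinearMap.ker (LinearMap.lsmul R M 1)) := by
    refine subsingleton_of_forall_eq 0 ?_
    rintro ⟨x, hx⟩
    refine Subtype.ext ?_
    have : (1 : R) • x = 0 := hx
    rwa [one_smul] at this
  exact SL.len_subsingleton L

/-- the exact sequence of six terms -/
theorem qq_mul (y z : R) : qq L M (z * y) + ss L M z + ss L M y =
    qq L M z + qq L M y + ss L M (y * z) := by
  let fy := LinearMap.lsmul R M y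
  let fz := LinearMap.lsmul R M z
  let K := LinearMap.ker fz
  -- `z y M ⊆ z M ⊆ M`
  have e1 : LinearMap.range (LinearMap.lsmul R M (z * y)) = (LinearMap.range fy).map fz := by
    ext x
    constructor
    · rintro ⟨a, rfl⟩
      exact ⟨y • a, ⟨a, rfl⟩, by
        change z • y • a = (z * y) • a
        rw [mul_smul]⟩
    · rintro ⟨_, ⟨a, rfl⟩, rfl⟩
      exact ⟨a, by
        change (z * y) • a = z • y • a
        rw [mul_smul]⟩
  have e2 : LinearMap.range fz = (⊤ : Submodule R M).map fz := (Submodule.map_top fz).symm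
  have h2 : qq L M (z * y) = L.rl (LinearMap.range fy ⊔ K) ⊤ + qq L M z := by
    change L.rl (LinearMap.range (LinearMap.lsmul R M (z * y))) ⊤ =
      L.rl (LinearMap.range fy ⊔ LinearMap.ker fz) ⊤ + L.rl (LinearMap.range fz) ⊤
    rw [e1, e2, ← Vale.Agent.P202.Mix.rl_map L fz (LinearMap.range fy) ⊤]
    exact Vale.Agent.P202.Mix.rl_add L (Submodule.map_mono le_top) le_top
  -- `q_y`
  have h3 : qq L M y = L.rl (LinearMap.range fy ⊓ K) K + L.rl (LinearMap.range fy ⊔ K) ⊤ := by
    rw [rl_inf_left, ← rl_sup_right L (LinearMap.range fy) K]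
    exact Vale.Agent.P202.Mix.rl_add L le_sup_left le_top
  have h4 : ss L M z = L.len (LinearMap.range fy ⊓ K : Submodule R M) +
      L.rl (LinearMap.range fy ⊓ K) K := by
    have := Vale.Agent.P202.Mix.rl_add L (bot_le : (⊥ : Submodule R M) ≤ LinearMap.range fy ⊓ K) inf_le_right
    rw [rl_bot, rl_bot] at this
    exact this
  have h5 : ss L M (y * z) = ss L M y + L.len (LinearMap.range fy ⊓ K : Submodule R M) := by
    let K' := LinearMap.ker (LinearMap.lsmul R M (y * z))
    have hK : LinearMap.ker fy ≤ K' := by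
      intro x hx
      have hx' : y • x = 0 := hx
      change (y * z) • x = 0
      rw [mul_comm, mul_smul, hx', smul_zero]
    have e3 : K'.map fy = LinearMap.range fy ⊓ K := by
      ext x
      constructor
      · rintro ⟨a, ha, rfl⟩
        have ha' : (y * z) • a = 0 := ha
        refine ⟨⟨a, rfl⟩, ?_⟩
        change z • y • a = 0
        rw [← mul_smul, mul_comm, ha']
      · rintro ⟨⟨a, rfl⟩, ha⟩
        have ha' : z • y • a = 0 := ha
        refine ⟨a, ?_, rfl⟩
        change (y * z) • a = 0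
        rw [mul_comm, mul_smul, ha']
    have h6 := Vale.Agent.P202.Mix.rl_map L fy ⊥ K'
    rw [Submodule.map_bot, bot_sup_eq, rl_bot, e3] at h6
    have h7 := Vale.Agent.P202.Mix.rl_add L (bot_le : (⊥ : Submodule R M) ≤ LinearMap.ker fy) hK
    rw [rl_bot, rl_bot, ← h6] at h7
    exact h7
  rw [h2, h3, h4, h5]
  ring

theorem qq_pow_ne_top {y : R} (h1 : qq L M y ≠ ⊤) (h2 : ss L M y ≠ ⊤) (n : ℕ) :
    qq L M (y ^ n) ≠ ⊤ ∧ ss L M (y ^ n) ≠ ⊤ ∧
      (qq L M (y ^ n)).toReal - (ss L M (y ^ n)).toReal =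
        n * ((qq L M y).toReal - (ss L M y).toReal) := by
  induction n with
  | zero =>
    rw [pow_zero, qq_one, ss_one]
    simp
  | succ n ih =>
    obtain ⟨i1, i2, i3⟩ := ih
    have h := qq_mul L M y (y ^ n)
    rw [← pow_succ, ← pow_succ'] at h
    have hs : ss L M (y ^ (n + 1)) ≠ ⊤ := by
      have h3 : ss L M (y ^ (n + 1)) ≤ ss L M y + ss L M (y ^ n) := by
        have k1 := SL.len_ker_add_range L ((LinearMap.lsmul R M y).domRestrict
          (LinearMap.ker (LinearMap.lsmul R M (y ^ (n + 1)))))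
        unfold ss
        rw [k1]
        refine add_le_add ?_ ?_
        · refine SL.len_le_of_injective L (LinearMap.codRestrict _ ((Submodule.subtype _) ∘ₗ
            (Submodule.subtype _)) fun x => ?_) ?_
          · exact x.2
          · intro a b hab
            have := congrArg Subtype.val hab
            exact Subtype.ext (Subtype.ext this)
        · refine SL.len_mono L ?_
          rintro _ ⟨⟨x, hx⟩, rfl⟩
          have hx' : y ^ (n + 1) • x = 0 := hx
          change y ^ n • y • x = 0
          rw [← mul_smul, ← pow_succ, hx']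
      exact ne_top_of_le_ne_top (ENNReal.add_ne_top.2 ⟨h2, i2⟩) h3
    have hq : qq L M (y ^ (n + 1)) ≠ ⊤ := by
      have h3 : qq L M (y ^ (n + 1)) ≤ qq L M (y ^ n) + qq L M y + ss L M (y ^ (n + 1)) := by
        rw [← h, add_assoc]
        exact le_self_add
      exact ne_top_of_le_ne_top (ENNReal.add_ne_top.2 ⟨ENNReal.add_ne_top.2 ⟨i1, h1⟩, hs⟩) h3
    refine ⟨hq, hs, ?_⟩
    have h4 := congrArg ENNReal.toReal h
    rw [ENNReal.toReal_add (ENNReal.add_ne_top.2 ⟨hq, i2⟩) h2, ENNReal.toReal_add hq i2,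
      ENNReal.toReal_add (ENNReal.add_ne_top.2 ⟨i1, h1⟩) hs, ENNReal.toReal_add i1 h1] at h4
    push_cast
    linarith

end herbrand

section cone

variable (A : Cx R)

theorem ker_incH (y : R) (i : ℕ) : LinearMap.ker (A.incH y i) =
    LinearMap.range (LinearMap.lsmul R (A.H i) y) := by
  ext z
  constructor
  · intro hz
    obtain ⟨x, hx, rfl⟩ := A.cl_surj i z
    have h1 : A.incH y i (A.cl i ⟨x, hx⟩) = 0 := hz
    rw [Cx.incH, Cx.mapH_cl, Cx.cl_eq_zero] at h1
    have key : ∀ (b : A.X i) (hb : b ∈ A.Z i) (a : A.X (i + 1)), A.d i a + y • b = x →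
        A.cl i ⟨x, hx⟩ ∈ LinearMap.range (LinearMap.lsmul R (A.H i) y) := by
      intro b hb a hab
      refine ⟨A.cl i ⟨b, hb⟩, ?_⟩
      change y • A.cl i ⟨b, hb⟩ = _
      rw [← map_smul]
      have h2 : A.cl i ⟨y • b, (A.Z i).smul_mem y hb⟩ = A.cl i ⟨x, hx⟩ := by
        rw [A.cl_eq_cl]
        refine ⟨-a, ?_⟩
        rw [map_neg, ← hab]
        abel
      exact h2
    cases i with
    | zero =>
      obtain ⟨a, b, hab⟩ := A.mem_B_cone_zero.1 h1
      exact key b (Cx.mem_Z_zero (A := A) _) a hab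
    | succ i =>
      obtain ⟨a, b, hab, hb⟩ := A.mem_B_cone.1 h1
      refine key b ?_ a hab
      rw [Cx.mem_Z_succ]
      have hb' : -(A.d i b) = 0 := hb
      exact neg_eq_zero.1 hb'
  · rintro ⟨w, rfl⟩
    rw [LinearMap.mem_ker]
    change A.incH y i (y • w) = 0
    rw [map_smul, Cx.kill_cone]

theorem range_prjH (y : R) (i : ℕ) : LinearMap.range (A.prjH y i) =
    LinearMap.ker (LinearMap.lsmul R (A.H i) y) := by
  ext z
  constructor
  · rintro ⟨w, rfl⟩
    rw [LinearMap.mem_ker]
    change y • A.prjH y i w = 0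
    rw [← map_smul, Cx.kill_cone, map_zero]
  · intro hz
    exact A.exists_prjH y i z hz

theorem len_cone_zero (y : R) : L.len ((A.cone y).H 0) = qq L (A.H 0) y := by
  have h := LinearMap.quotKerEquivOfSurjective (A.incH y 0) (A.incH_zero_surjective y)
  rw [← len_congr L h, qq, rl_top, ker_incH]

theorem len_cone_succ (y : R) (i : ℕ) : L.len ((A.cone y).H (i + 1)) =
    qq L (A.H (i + 1)) y + ss L (A.H i) y := by
  rw [SL.len_eq_of_exact L _ _ (A.exact_incH_prjH y i), range_prjH, qq, rl_top, ss]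
  congr 1
  rw [← len_congr L (A.incH y (i + 1)).quotKerEquivRange, ker_incH]

/-- the Euler characteristic in degrees `< n` -/
noncomputable def kchi (A : Cx R) (n : ℕ) : ℝ :=
  ∑ i ∈ Finset.range n, (-1 : ℝ) ^ i * (L.len (A.H i)).toReal

theorem cone_fin {y : R} (h : ∀ i, L.len ((A.cone y).H i) ≠ ⊤) :
    (∀ i, qq L (A.H i) y ≠ ⊤) ∧ ∀ i, ss L (A.H i) y ≠ ⊤ := by
  refine ⟨fun i => ?_, fun i => ?_⟩
  · cases i with
    | zero => rw [← len_cone_zero]; exact h 0
    | succ i =>
      have := h (i + 1)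
      rw [len_cone_succ] at this
      exact (ENNReal.add_ne_top.1 this).1
  · have := h (i + 1)
    rw [len_cone_succ] at this
    exact (ENNReal.add_ne_top.1 this).2

theorem kchi_cone {y : R} (h : ∀ i, L.len ((A.cone y).H i) ≠ ⊤) (n : ℕ) :
    kchi L (A.cone y) (n + 1) = ∑ i ∈ Finset.range n, (-1 : ℝ) ^ i *
      ((qq L (A.H i) y).toReal - (ss L (A.H i) y).toReal) +
      (-1 : ℝ) ^ n * (qq L (A.H n) y).toReal := by
  obtain ⟨h1, h2⟩ := cone_fin L A h
  induction n with
  | zero =>
    rw [kchi, Finset.sum_range_one, len_cone_zero]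
    simp
  | succ n ih =>
    rw [kchi, Finset.sum_range_succ, ← kchi, ih, Finset.sum_range_succ, len_cone_succ,
      ENNReal.toReal_add (h1 _) (h2 _), pow_succ]
    ring

/-- powers of the first element -/
theorem kchi_cone_pow {y : R} (h : ∀ i, L.len ((A.cone y).H i) ≠ ⊤) (m : ℕ) (n : ℕ)
    (hn : ∀ i, n ≤ i → Subsingleton (A.H i)) :
    (∀ i, L.len ((A.cone (y ^ m)).H i) ≠ ⊤) ∧
      kchi L (A.cone (y ^ m)) (n + 1) = m * kchi L (A.cone y) (n + 1) := by
  obtain ⟨h1, h2⟩ := cone_fin L A h
  have h3 := fun i => qq_pow_ne_top L (A.H i) (h1 i) (h2 i) m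
  have h4 : ∀ i, L.len ((A.cone (y ^ m)).H i) ≠ ⊤ := by
    intro i
    cases i with
    | zero => rw [len_cone_zero]; exact (h3 0).1
    | succ i => rw [len_cone_succ]; exact ENNReal.add_ne_top.2 ⟨(h3 _).1, (h3 _).2.1⟩
  refine ⟨h4, ?_⟩
  have h5 : ∀ z : R, qq L (A.H n) z = 0 := by
    intro z
    have := hn n le_rfl
    rw [qq, rl_top]
    have : Subsingleton (A.H n ⧸ LinearMap.range (LinearMap.lsmul R (A.H n) z)) :=
      (Submodule.mkQ_surjective _).subsingleton
    exact SL.len_subsingleton L
  rw [kchi_cone L A h4, kchi_cone L A h, h5, h5, mul_add, Finset.mul_sum]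
  congr 1
  · refine Finset.sum_congr rfl fun i _ => ?_
    rw [(h3 i).2.2]
    ring
  · simp

end cone

end Vale.Agent.P177.Rho
end
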