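import Mathlib
attribute [-instance] DenselyNormedField.toNontriviallyNormedField RCLike.toDenselyNormedField DenselyNormedField.toNormedField NontriviallyNormedField.toNormedField NormedField.toNormedDivisionRing littleWedderburn NormedDivisionRing.toDivisionRing NormedField.toField IdemCommSemiring.toCommSemiring KleeneAlgebra.toIdemSemiring DivisionRing.toDivisionSemiring SemiRingCat.instSemiringObjForgetRingHomCarrier CommCStarAlgebra.toNormedCommRing NormedField.toNormedCommRing CommCStarAlgebra.toCStarAlgebra CStarAlgebra.toNormedRing NormedCommRing.toNormedRing NormedDivisionRing.toNormedRing BooleanRing.toRing NormedCommRing.toSeminormedCommRing NormedRing.toSeminormedRing SeminormedCommRing.toSeminormedRing Field.toEuclideanDomain BooleanRing.toCommRing EuclideanDomain.toCommRing Field.toCommRing NormedCommRing.toCommRing SeminormedCommRing.toCommRing NormedRing.toRing SeminormedRing.toRing NonAssocCommRing.toNonAssocCommSemiring CommSemiring.toNonAssocCommSemiring NonAssocCommSemiring.toNonAssocSemiring NonAssocRing.toNonAssocSemiring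 CommRing.toAddCommGroupWithOne LeftPreLieRing.instLieAdmissibleRing RightPreLieRing.instLieAdmissibleRing CommCStarAlgebra.toNonUnitalCommCStarAlgebra CStarAlgebra.toNonUnitalCStarAlgebra NonUnitalCommCStarAlgebra.toNonUnitalCStarAlgebra NonUnitalCommCStarAlgebra.toNonUnitalNormedCommRing NormedCommRing.toNonUnitalNormedCommRing NonUnitalCStarAlgebra.toNonUnitalNormedRing NonUnitalNormedCommRing.toNonUnitalNormedRing NormedRing.toNonUnitalNormedRing AddCommGroupWithOne.toAddCommMonoidWithOne LinearOrderedAddCommGroupWithTop.instLinearOrderedAddCommMonoidWithTop NonUnitalNormedCommRing.toNonUnitalSeminormedCommRing SeminormedCommRing.toNonUnitalSeminormedCommRing NonUnitalNormedRing.toNonUnitalSeminormedRing NonUnitalSeminormedCommRing.toNonUnitalSeminormedRing SeminormedRing.toNonUnitalSeminormedRing NonUnitalNormedCommRing.toNonUnitalCommRing NonUnitalSeminormedCommRing.toNonUnitalCommRing NonUnitalNormedRing.toNonUnitalRing NonUnitalSeminormedRing.toNonUnitalRing Ring.toNonUnitalRing LeftPreLieRing.toNonUnitalNonAssocRing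 LieAdmissibleRing.toNonUnitalNonAssocRing RightPreLieRing.toNonUnitalNonAssocRing NonAssocCommRing.toNonUnitalNonAssocCommRing NonUnitalRing.toNonUnitalNonAssocRing NonUnitalRing.toNonUnitalSemiring Semiring.toNonUnitalSemiring LinearOrderedAddCommGroupWithTop.toAddCommMonoid NonAssocCommSemiring.toNonUnitalNonAssocCommSemiring NonUnitalCommSemiring.toNonUnitalNonAssocCommSemiring NonUnitalNonAssocCommSemiring.toNonUnitalNonAssocSemiring NonUnitalSemiring.toNonUnitalNonAssocSemiring AddCommMonoidWithOne.toAddCommMonoid CommSemiRingCat.FilteredColimits.colimitCommSemiring AddCommMonCat.FilteredColimits.colimitAddCommMonoid CategoryTheory.CommGrpObj.mk CategoryTheory.CommGrpObj.toGrpObj CategoryTheory.Preadditive.instGrpObj CategoryTheory.instBraidedCategoryType MulSemiringAction.toDistribMulAction AddCommGroupWithOne.toAddGroupWithOne CategoryTheory.BimonObj.toMonObj CategoryTheory.CommRingObj.toRingObj CategoryTheory.GrpObj.toMonObj CategoryTheory.HopfObj.toBimonObj CategoryTheory.RingObj.toMonObj NormedCommGroup.toNormedGroup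 NormedCommGroup.toSeminormedCommGroup NormedGroup.toSeminormedGroup SeminormedCommGroup.toSeminormedGroup MonTypeEquivalenceMon.monMonoid instCommGroupOfIsSimpleGroupOfIsNilpotent CommGroup.toGroup CommGrpTypeEquivalenceCommGrp.commGrpCommGroup GrpTypeEquivalenceGrp.grpGroup NormedCommGroup.toCommGroup NormedGroup.toGroup SeminormedCommGroup.toCommGroup SeminormedGroup.toGroup Pi.nonUnitalNonAssocSemiring LinearOrderedAddCommGroupWithTop.toSubNegMonoid AddMonCat.addMonoidObj Pi.nonAssocSemiring Bialgebra.toAlgebra CommSemiring.toBialgebra CommSemiring.toHopfAlgebra HopfAlgebra.toHopfAlgebraStruct HopfAlgebraStruct.toBialgebra NormedAlgebra.toAlgebra instDistribSMul NonUnitalNonAssocSemiring.toDistribSMul instSMulZeroClass NonUnitalNormedRing.toNormedAddCommGroup TopologicalSpace.Compacts.instSetLike Complex.instRCLike ContDiffMapSupportedInClass.toDFunLike RKHS.instFunLike TestFunctionClass.toDFunLike Real.instRCLike instCoeTOfCoeDep instCoeTC instCoeTCOfCoe LieAdmissibleRing.instLieRing instCoeHTC instCoeHTCT SSet.stdSimplex.instFunLikeObjOppositeSimplexCategoryMkOpFinHAddNatOfNat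 AlgebraicGeometry.Scheme.instPreorderCarrierCarrierCommRingCat LinearOrderedCommGroupWithZero.toLinearOrderedCommMonoidWithZero ContinuousAddMonoidHom.instCoeOutOfAddMonoidHomClassOfContinuousMapClass ContinuousMonoidHom.instCoeOutOfMonoidHomClassOfContinuousMapClass HomeomorphClass.instCoeOutHomeomorph IsometryClass.instCoeOutIsometryEquiv SemiNormedGrp.str boolToProp TensorProduct.instModuleFstSnd instNonUnitalCStarAlgebraForall LieAdmissibleAlgebra.toModule LinearOrderedCommGroupWithZero.toCommGroupWithZero Semifield.toCommGroupWithZero CommGroupWithZero.toGroupWithZero DivisionSemiring.toGroupWithZero AddOpposite.instAddZero LeftPreLieAlgebra.toModule LieAlgebra.toModule NormedSpace.toModule RightPreLieAlgebra.toModule LieRing.toAddCommGroup RingCat.FilteredColimits.colimitRing CommGroupWithZero.toCommMonoidWithZero LinearOrderedCommMonoidWithZero.toCommMonoidWithZero CommMonoidWithZero.toMonoidWithZero GroupWithZero.toMonoidWithZero MonoidWithZero.toMulZeroOneClass MonoidWithZero.toSemigroupWithZero MulZeroOneClass.toMulZeroClass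 NonUnitalNonAssocSemiring.toMulZeroClass SemigroupWithZero.toMulZeroClass Action.instMulAction Torsor.toMulAction Action.FintypeCat.instMulActionObjFiniteOf GradedMonoid.GradeZero.mulAction MonCat.monoidObj CompleteLinearOrder.toLinearOrder ConditionallyCompleteLinearOrder.toLinearOrder LinearOrderedAddCommGroupWithTop.toLinearOrder LinearOrderedCommMonoidWithZero.toLinearOrder BoxIntegral.Box.instMembershipForallReal Pi.instTopForall CompleteAtomicBooleanAlgebra.toCompletelyDistribLattice RightPreLieAlgebra.instLieAdmissibleAlgebra SemilatSupCat.isSemilatticeSup CategoryTheory.Limits.Concrete.instUniqueToTypeTerminal Pi.addZeroClass Pi.nonUnitalSemiring CompleteBooleanAlgebra.toCompleteDistribLattice CompletelyDistribLattice.toCompleteDistribLattice CompleteDistribLattice.toCoframe CompleteDistribLattice.toFrame Order.Coframe.toCompleteLattice Order.Frame.toCompleteLattice instIsDedekindDomainOfIsDomainOfIsDedekindRing IsDedekindDomainDvr.isDedekindDomain IsPrincipalIdealRing.isDedekindDomain Algebra.TensorProduct.instCommRing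 Algebra.TensorProduct.instRing NonUnitalSeminormedRing.toSeminormedAddCommGroup NormedAddCommGroup.toSeminormedAddCommGroup instSubsingleton Group.IsPerfect.subsingleton_of_isMulCommutative instIsDomain DivisionRing.isDomain EuclideanDomain.instIsDomain Field.isDomain IsDedekindDomain.toIsDomain IsStrictOrderedRing.isDomain CompleteBooleanAlgebra.toBooleanAlgebra IsEmpty.instSubsingleton ChainCompletePartialOrder.instOfCompleteLattice ChainCompletePartialOrder.instOmegaCompletePartialOrder ChainCompletePartialOrder.toPartialOrder CompletePartialOrder.toOmegaCompletePartialOrder OmegaCompletePartialOrder.toPartialOrder BooleanAlgebra.toBiheytingAlgebra CompleteDistribLattice.toBiheytingAlgebra CompleteLinearOrder.toBiheytingAlgebra CompletelyDistribLattice.toBiheytingAlgebra Algebra.TensorProduct.instCommSemiring AbsoluteValue.zeroHomClass BiheytingAlgebra.toCoheytingAlgebra BiheytingAlgebra.toHeytingAlgebra BooleanAlgebra.toGeneralizedBooleanAlgebra Order.Coframe.toCoheytingAlgebra Order.Frame.toHeytingAlgebra CoheytingAlgebra.toGeneralizedCoheytingAlgebra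 GeneralizedBooleanAlgebra.toGeneralizedCoheytingAlgebra HeytingAlgebra.toGeneralizedHeytingAlgebra instNonUnitalAlgHomClassOfNonUnitalAlgEquivClass instConditionallyCompletePartialOrderSup BooleanAlgebra.toDistribLattice CompleteLattice.toLattice GeneralizedBooleanAlgebra.toDistribLattice GeneralizedCoheytingAlgebra.toDistribLattice GeneralizedCoheytingAlgebra.toLattice GeneralizedHeytingAlgebra.toDistribLattice GeneralizedHeytingAlgebra.toLattice Order.Coframe.toDistribLattice Order.Frame.toDistribLattice CompleteLattice.toPartialOrder' ConditionallyCompletePartialOrderInf.toPartialOrder RootedTree.orderBot CentroidHomClass.toAddMonoidHomClass Pi.addMonoidWithOne MulSemiringActionSemiHomClass.toDistribMulActionSemiHomClass CategoryTheory.NonPreadditiveAbelian.toHasZeroMorphisms Algebra.TensorProduct.instNonAssocRing Group.instTorsor ValuationClass.toMonoidWithZeroHomClass PartOrdEmb.str Quaternion.instDivisionRing Std.DTreeMap.Raw.instSingletonSigma NormedAddCommGroup.toNormedAddGroup NormedAddGroup.toSeminormedAddGroup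 SeminormedAddCommGroup.toSeminormedAddGroup MulEquivClass.toMonoidWithZeroHomClass MulRingSeminormClass.toMonoidWithZeroHomClass Algebra.TensorProduct.instNonAssocSemiring OrderDual.instDivisionSemiring LeftPreLieAlgebra.toIsScalarTower LieAdmissibleAlgebra.toIsScalarTower LieRinehartAlgebra.toIsScalarTower RightPreLieAlgebra.toIsScalarTower Nat.instAtLeastTwoHAddOfNat instMulActionSemiHomClassMulActionHom instRingHomSurjectiveForallEvalRingHom AddHom.addHomClass CategoryTheory.instCategoryObj ProfiniteAddGrp.addGroup Field.henselian HenselianLocalRing.toIsLocalRing Algebra.TensorProduct.instNonUnitalRing instSMulCommClassOfIsScalarTower LeftPreLieAlgebra.toSMulCommClass LieAdmissibleAlgebra.toSMulCommClass RightPreLieAlgebra.toSMulCommClass Pi.normedRing Algebra.TensorProduct.instNonUnitalSemiring Field.instIsLocalRing ValuationRing.isLocalRing IsRegularRing.toIsNoetherian NonUnitalNormedRing.toMetricSpace NormedAddCommGroup.toMetricSpace NormedAddGroup.toMetricSpace NormedCommGroup.toMetricSpace NormedDivisionRing.toMetricSpace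 NormedField.toMetricSpace NormedGroup.toMetricSpace NormedRing.toMetricSpace TopologicalSpace.UpgradedIsCompletelyMetrizableSpace.toMetricSpace EMetricSpace.toPseudoEMetricSpace IsValuativeTopology.instValuedValueGroupWithZeroOfIsUniformAddGroup MetricSpace.toEMetricSpace MetricSpace.toPseudoMetricSpace NonUnitalSeminormedRing.toPseudoMetricSpace PseudoEMetricSpace.toUniformSpace PseudoMetricSpace.toPseudoEMetricSpace PseudoMetricSpace.toUniformSpace SeminormedAddCommGroup.toPseudoMetricSpace SeminormedAddGroup.toPseudoMetricSpace SeminormedCommGroup.toPseudoMetricSpace SeminormedGroup.toPseudoMetricSpace SeminormedRing.toPseudoMetricSpace UniformSpace.toTopologicalSpace UpgradedStandardBorel.toTopologicalSpace Valued.toUniformSpace WithIdeal.instTopologicalSpace WithIdeal.instUniformSpace TopologicalSpace.UpgradedIsCompletelyPseudoMetrizableSpace.toPseudoMetricSpace SubfieldClass.toSubringClass Pi.distribMulAction' CategoryTheory.instFinCategoryOfFintypeOfIsThin FinEnum.instFintype SetLike.instFintype Unique.fintype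 CategoryTheory.FinCategory.fintypeObj Invertible.toNeZero NeZero.of_gt' Nat.AtLeastTwo.toNeZero AlgHom.instContinuousLinearMapClassOfAlgHomClass AlgHomClass.linearMapClass BialgHomClass.toCoalgHomClass CoalgEquivClass.toCoalgHomClass CoalgHomClass.toSemilinearMapClass ContinuousSemilinearEquivClass.continuousSemilinearMapClass ContinuousSemilinearMapClass.toSemilinearMapClass NonUnitalAlgHomClass.instLinearMapClass NonUnitalAlgHomClass.instSemilinearMapClassOfNonUnitalAlgSemiHomClassToMonoidHomRingHom PositiveLinearMap.instContinuousLinearMapClassComplexOfLinearMapClassOfOrderHomClass RingHomClass.toLinearMapClassNNRat RingHomClass.toLinearMapClassRat SemilinearIsometryClass.toContinuousSemilinearMapClass SemilinearIsometryClass.toSemilinearMapClass instInfiniteOfUncountable instNontrivialOfCharZero CharZero.infinite Denumerable.instInfinite DivisionRing.toNontrivial EuclideanDomain.toNontrivial GroupWithZero.toNontrivial Infinite.instNontrivial IsAlgClosed.instInfinite IsDomain.toNontrivial IsOrderedRing.toIsStrictOrderedRing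 IsSimpleAddGroup.toNontrivial IsSimpleGroup.toNontrivial IsSimpleOrder.toNontrivial IsSimpleRing.instNontrivial IsStrictOrderedRing.toNontrivial LinearOrderedAddCommGroupWithTop.toNontrivial NoMaxOrder.infinite NoMinOrder.infinite NontriviallyNormedField.infinite FirstOrder.Language.instInfiniteOfModelDloOrderOfNonempty BialgEquivClass.toCoalgEquivClass TensorProduct.instNormedAddCommGroup TwoSidedIdeal.instIsTwoSidedCoeOrderHomIdealAsIdeal Algebra.TensorProduct.instNonUnitalNonAssocRing MonoidWithZero.toMulActionWithZero univLE_of_max Algebra.TensorProduct.instNonUnitalNonAssocSemiring instIsSemisimpleModuleOfIsSimpleModule instIsSemisimpleRingOfSubsingleton IsSemisimpleRing.isSemisimpleModule IsSimpleRing.instIsSemisimpleRing instIsSimpleModule StarSubalgebra.commCStarAlgebra SubfieldClass.toDivisionRing SubfieldClass.toField SubfieldClass.toNormedField SubringClass.toCommRing SubringClass.toNormedCommRing SubringClass.toSeminormedCommRing SetLike.GradeZero.instCommRing Algebra.TensorProduct.right_isScalarTower Preorder.smallCategory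 CategoryTheory.Groupoid.toCategory CategoryTheory.StrictBicategory.category PadicComplex.normedField TensorProduct.isScalarTower_right CategoryTheory.Mat_.fintype Module.FaithfullyFlat.of_isIntegral_of_isDomain AlgHom.instRingHomCompTripleComp Nat.instNontrivial Nat.Prime.one_lt' Module.FaithfullyFlat.self LinearMap.instLoewnerPartialOrder Turing.FinTM2.decidableEqK Algebra.Smooth.flat Module.FaithfullyFlat.toFlat Module.Flat.instOfIsDedekindDomainOfIsTorsionFree AddQuantale.instAddLeftMono OrderAddMonoidHom.instAddMonoidHomClass NumberField.instFiniteDimensional BialgEquivClass.toBialgHomClass OrderRingHom.instRingHomClass instIsRegularRingOfIsDedekindDomain ValuationRing.instLinearOrderIdealOfDecidableLE Pi.normedAddCommGroup RingConeClass.toSubsemiringClass SubringClass.toSubsemiringClass FiniteDimensional.finiteDimensional_quotient RCLike.toInnerProductSpaceReal SubsemiringClass.toCommSemiring SetLike.GradeZero.instCommSemiring Pi.instBotForall AddCommGroupWithOne.toAddCommGroup NormedAddCommGroup.toAddCommGroup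 SeminormedAddCommGroup.toAddCommGroup CategoryTheory.Bicategory.toCategoryStruct instIsPrincipalIdealRingOfIsSemisimpleRing DivisionSemiring.isPrincipalIdealRing EuclideanDomain.to_principal_ideal_domain IsDedekindDomain.isPrincipalIdealRing IsPrincipalIdealRing.of_isNoetherianRing_of_isBezout WittVector.inv_pair₁ StarSubalgebra.cstarAlgebra SubalgebraClass.normedRing SubalgebraClass.seminormedRing SubringClass.toNormedRing SubringClass.toRing SubringClass.toSeminormedRing SetLike.GradeZero.instRing smoothSheafCommRing.instLocalRing_stalk CategoryTheory.Quiv.str' instFiniteProp instIsNoetherianRingOfIsArtinianRing IsDedekindDomainDvr.toIsNoetherian IsDedekindRing.toIsNoetherian IsSimpleModule.instIsNoetherian Ring.HasFiniteQuotients.instIsNoetherianRing of_isDiscreteValuationRing ValuationRing.instOfIsLocalRingOfIsBezout ValuationRing.of_field PositiveLinearMap.instInnerProductSpaceComplexPreGNS SubsemiringClass.toSemiring SetLike.GradeZero.instSemiring CommMonTypeEquivalenceCommMon.commMonCommMonoid NormedAddGroup.toAddGroup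 SeminormedAddGroup.toAddGroup Pi.distribSMul' coePNatNat Nat.Primes.coeNat Nat.Primes.coePNat LinearMap.IsScalarTower.compatibleSMul' MulZeroClass.toSMulWithZero AlgebraicGeometry.Scheme.component_nontrivial instInhabitedOfMonad instNonemptyOfInhabited instNonemptyOfMonad Unique.instInhabited IsDedekindDomain.isDedekindDomainDvr IsDedekindDomain.toIsDedekindRing Torsor.nonempty CategoryTheory.IsConnected.is_nonempty LeftPreLieAlgebra.instLieAdmissibleAlgebra LieAdmissibleAlgebra.instLieAlgebra LieAlgebra.ofAssociativeAlgebra MulActionWithZero.toMulAction MulDistribMulAction.toMulAction MulSemiringAction.toMulDistribMulAction Pi.mulZeroOneClass Pi.subtractionMonoid Submodule.instIdemCommSemiring Fin.completeLinearOrder SemiNormedGrp.instHasZeroMorphisms isNoetherian_of_finite isNoetherian_of_subsingleton IsSemisimpleModule.instIsNoetherianOfFinite PrincipalIdealRing.isNoetherianRing SetLike.instFinite SemilinearIsometryEquivClass.toSemilinearIsometryClass AddGroup.toAddCancelMonoid ValuationRing.toPreValuationRing Pi.mulOneClass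 Pi.mulZeroClass bot_nonempty infSet_to_nonempty supSet_to_nonempty top_nonempty ConnectedSpace.toNonempty IrreducibleSpace.toNonempty One.instNonempty Zero.instNonempty TopRep.hV1 Algebra.TensorProduct.instAddCommGroupWithOne CommRing.Pic.instFreeOfSubsingleton SubgroupClass.normedCommGroup SubgroupClass.normedGroup SubgroupClass.seminormedCommGroup SubgroupClass.seminormedGroup SubgroupClass.toCommGroup SubgroupClass.toGroup TensorProduct.CompatibleSMul.int Subsingleton.to_isCancelMulZero FirstOrder.Language.instDecidableEqFunctions FirstOrder.Language.instDecidableEqRelations CentroidHom.instSMulCommClass_1 Algebra.IsQuadraticExtension.toFree Module.Free.self instFiniteOfFinitePresentation instFinitePresentation Algebra.instFiniteOfIsQuadraticExtension FiniteDimensional.finiteDimensional_self IsAzumaya.toFinite Algebra.IsFiniteSplit.instFinitePresentation Module.Finite.self RingHom.Finite.instFinite instCharZeroOfIsSemireal instIsSemirealOfIsStrictOrderedRingOfExistsAddOfLE FloorSemiring.instCharZero IsRealClosed.toIsSemireal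 IsStrictOrderedRing.toCharZero NumberField.to_charZero RCLike.charZero_rclike CategoryTheory.Monad.Algebra.instCategoryStruct EquivLike.toEmbeddingLike instIsCancelMulZero instIsCancelMulZero_1 GCDMonoid.toIsCancelMulZero NoZeroDivisors.to_isCancelMulZero UniqueFactorizationMonoid.toIsCancelMulZero LinearOrderedAddCommGroupWithTop.toIsOrderedAddMonoid RootedTree.semilatticeInf Fin.instBiheytingAlgebra CategoryTheory.Functor.IsHomological.toPreservesZeroMorphisms CategoryTheory.Functor.IsTriangulated.instPreservesZeroMorphisms instIsEmptySubtype Ideal.Quotient.normedCommRing instCoeOutOfCoeFun AddQuantale.instAddRightMono Quantale.instMulRightMono LinOrd.str SubringClass.toNegMemClass Set.instAddLeftMono Submodule.instUniqueOfSubsingleton Submodule.unique' FiniteDimensional.finiteDimensional_submodule Module.instFiniteSubtypeMemIdealOfIsNoetherian Algebra.IsFiniteSplit.instOfIsSepClosedOfEssFiniteTypeOfFormallyEtale MulOpposite.instMulOne instMonadLiftT instMonadLiftTOfMonadLift decidableEq_of_subsingleton FinEnum.decEq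 FunLike.toDecidableEq RCLike.toDecidableEq Pi.instMaxForall_mathlib Pi.subNegMonoid Set.instAddRightMono Pi.addCommMagma AlgEquivClass.toAlgHomClass BialgHomClass.toAlgHomClass instUniqueUnitsOfSubsingleton CanonicallyOrderedCommMonoid.toUniqueUnits FinBddDistLat.instBoundedOrderCarrier IsBezout.of_isPrincipalIdealRing ValuationRing.instIsBezout instCoeHTCTOfCoeTailOfCoeHTC instCoeTailIntOfIntCast instCoeTailNatOfNatCast instCoeTailRatOfRatCast instNatCastNat AddGroupWithOne.toIntCast BialgEquivClass.instCoeToBialgEquiv BialgHomClass.instCoeToBialgHom CoalgEquivClass.instCoeToCoalgEquiv CoalgHomClass.instCoeToCoalgHom CompletelyPositiveMapClass.instCoeToCompletelyPositiveMap DivisionRing.toNNRatCast DivisionRing.toRatCast DivisionSemiring.toNNRatCast LinearMapClass.instCoeToLinearMap NNRatCast.toCoeTail NonUnitalStarRingHomClass.instCoeHeadNonUnitalStarRingHom SemilinearMapClass.instCoeToSemilinearMap StarAlgEquivClass.instCoeHead StarRingEquivClass.instCoeHead SimpleGraph.TripartiteFromTriangles.graph.instDecidableRelAdj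 SaturatedAddSubmonoid.instAddSubmonoidClass CompTriple.instComp_id CompTriple.instId_comp instIsArtinianOfIsSemisimpleModuleOfFinite instIsWellOrderOfIsEmpty instWellFoundedLTOfGradeOrderNat instWellQuasiOrderedLEOfWellFoundedLT isArtinian_of_fg_of_artinian' isWellOrder_lt DivisionRing.instIsArtinianRing DivisionSemiring.instIsArtinianRing Finite.to_wellFoundedLT GradeBoundedOrder.toGradeMaxOrder GradeBoundedOrder.toGradeMinOrder GradeMaxOrder.toGradeOrder GradeMinOrder.toGradeOrder Ideal.instFinite IsWellOrder.toIsWellFounded Preorder.toGradeBoundedOrder WellQuasiOrderedLE.to_wellFoundedLT IsWellFounded.wellOrderExtension.isWellFounded_lt IsWellFounded.wellOrderExtension.isWellOrder_lt Ring.HasFiniteQuotients.instOfFinite Ring.HasFiniteQuotients.instOfIsDomainOfFiniteInt CommGrpCat.str Pi.divInvMonoid AbsoluteValue.mulHomClass Units.instGroup Group.IsPerfect.instOfSubsingleton Pi.subNegZeroMonoid CancelCommMonoid.toCancelMonoid CommGroup.toCancelCommMonoid Group.toCancelMonoid WithTop.linearOrderedAddCommMonoidWithTop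 RCLike.innerProductSpace AlgebraicGeometry.instOrderTopCarrierCarrierCommRingCatOfIsIntegral Ideal.Quotient.semiNormedCommRing Submodule.Quotient.normedAddCommGroup ENormedCommMonoid.toESeminormedCommMonoid NormedCommGroup.toENormedCommMonoid LinearOrderedAddCommGroupWithTop.toSubtractionMonoid Std.instDecidableLE Fin.instCoheytingAlgebra Fin.instHeytingAlgebra ModuleCat.forget₂_addCommGrp_additive SemiNormedGrp.hasZeroObject IsAzumaya.toProjective Module.instIsStablyFreeOfFree Module.instProjectiveOfIsStablyFree Module.Invertible.instProjective Module.Projective.of_free HomologicalComplex.instHasHomologyOppositeObjSymmOpFunctorOp GroupWithZero.noZeroDivisors IsDomain.to_noZeroDivisors IsLeftCancelMulZero.to_noZeroDivisors IsRightCancelMulZero.to_noZeroDivisors IsStrictOrderedRing.noZeroDivisors NormMulClass.toNoZeroDivisors CancelCommMonoid.toLeftCancelMonoid CancelMonoid.toLeftCancelMonoid instDecidableNot isNoetherian_of_liesOver CategoryTheory.isConnected_of_nonempty_and_subsingleton NormedAddTorsor.toAddTorsor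 SeminormedAddCommGroup.toNormedAddTorsor CategoryTheory.IsSifted.instIsConnected CategoryTheory.IsSifted.isSifted_of_hasBinaryCoproducts_and_nonempty ConvexCone.instAddMemClass SMulMemClass.toModule SubmoduleClass.module' -- iprune

set_option linter.all false

section

/-!
Tor toolkit: long exact sequence in the first variable.
-/

namespace Vale.Agent.P177

open CategoryTheory MonoidalCategory Limits TensorProduct

universe u

variable (R : Type u) [CommRing R]

/-- The n-th Tor module of M and N over R (Mathlib's `CategoryTheory.Tor` in `ModuleCat R`). -/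
noncomputable abbrev TorM (n : ℕ) (M N : Type u) [AddCommGroup M] [Module R M]
    [AddCommGroup N] [Module R N] : ModuleCat.{u} R :=
  ((Tor (ModuleCat.{u} R) n).obj (ModuleCat.of R M)).obj (ModuleCat.of R N)

/-- The functor `M ↦ M ⊗ K` for a chain complex `K`. -/
noncomputable def tensorComplex (K : ChainComplex (ModuleCat.{u} R) ℕ) :
    ModuleCat.{u} R ⥤ ChainComplex (ModuleCat.{u} R) ℕ where
  obj M := (((tensoringLeft (ModuleCat.{u} R)).obj M).mapHomologicalComplex _).obj K
  map f := (NatTrans.mapHomologicalComplex ((tensoringLeft (ModuleCat.{u} R)).map f) _).app K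
  map_id M := by
    ext i : 1
    simp
  map_comp f g := by
    ext i : 1
    simp

@[simp]
lemma tensorComplex_map_f (K : ChainComplex (ModuleCat.{u} R) ℕ) {M M' : ModuleCat.{u} R}
    (f : M ⟶ M') (i : ℕ) :
    ((tensorComplex R K).map f).f i = f ▷ K.X i := rfl

instance (K : ChainComplex (ModuleCat.{u} R) ℕ) : (tensorComplex R K).PreservesZeroMorphisms where
  map_zero M N := by
    ext i : 1
    rw [tensorComplex_map_f]
    exact MonoidalPreadditive.zero_whiskerRight

/-- Tor computed by a resolution of the second variable. -/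
noncomputable def torIso (n : ℕ) (M : ModuleCat.{u} R) {N : ModuleCat.{u} R}
    (P : ProjectiveResolution N) :
    ((Tor (ModuleCat.{u} R) n).obj M).obj N ≅ ((tensorComplex R P.complex).obj M).homology n :=
  P.isoLeftDerivedObj _ n

lemma torIso_naturality (n : ℕ) {M M' : ModuleCat.{u} R} (f : M ⟶ M') {N : ModuleCat.{u} R}
    (P : ProjectiveResolution N) :
    ((Tor (ModuleCat.{u} R) n).map f).app N ≫ (torIso R n M' P).hom =
      (torIso R n M P).hom ≫
        HomologicalComplex.homologyMap ((tensorComplex R P.complex).map f) n := by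
  change (NatTrans.leftDerived ((tensoringLeft (ModuleCat.{u} R)).map f) n).app N ≫
    (P.isoLeftDerivedObj ((tensoringLeft (ModuleCat.{u} R)).obj M') n).hom =
    (P.isoLeftDerivedObj ((tensoringLeft (ModuleCat.{u} R)).obj M) n).hom ≫ _
  rw [ProjectiveResolution.leftDerived_app_eq _ P n]
  simp only [Category.assoc, Iso.inv_hom_id, Category.comp_id]
  rfl

instance flat_of_projective (P : ModuleCat.{u} R) [Projective P] : Module.Flat R P := by
  have : Module.Projective R P := (IsProjective.iff_projective P).mpr inferInstance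
  infer_instance

lemma shortExact_whiskerRight {S : ShortComplex (ModuleCat.{u} R)} (hS : S.ShortExact)
    (P : ModuleCat.{u} R) [Module.Flat R P] :
    (S.map (tensorRight P)).ShortExact := by
  have : PreservesFiniteLimits (tensorRight P) := inferInstance
  exact hS.map_of_exact _

/-- The short exact sequence of complexes. -/
lemma shortExact_tensorComplex {S : ShortComplex (ModuleCat.{u} R)} (hS : S.ShortExact)
    (K : ChainComplex (ModuleCat.{u} R) ℕ) (hK : ∀ i, Module.Flat R (K.X i)) :
    (S.map (tensorComplex R K)).ShortExact := by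
  apply HomologicalComplex.shortExact_of_degreewise_shortExact
  intro i
  have := hK i
  exact shortExact_whiskerRight R hS (K.X i)

lemma exact_transport {R : Type u} [CommRing R] {A B C A' B' C' : ModuleCat.{u} R}
    {f : A ⟶ B} {g : B ⟶ C} {f' : A' ⟶ B'} {g' : B' ⟶ C'} (a : A ≅ A') (b : B ≅ B') (c : C ≅ C')
    (h1 : f ≫ b.hom = a.hom ≫ f') (h2 : g ≫ c.hom = b.hom ≫ g') (h : Function.Exact f' g') :
    Function.Exact f g := by
  have k1 : ∀ x, b.hom (f x) = f' (a.hom x) := fun x => by
    have := congrArg (fun t => t.hom x) h1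
    simpa using this
  have k2 : ∀ x, c.hom (g x) = g' (b.hom x) := fun x => by
    have := congrArg (fun t => t.hom x) h2
    simpa using this
  have bi : Function.Injective b.hom := (ConcreteCategory.bijective_of_isIso b.hom).1
  have ci : Function.Injective c.hom := (ConcreteCategory.bijective_of_isIso c.hom).1
  have asj : Function.Surjective a.hom := (ConcreteCategory.bijective_of_isIso a.hom).2
  intro x
  constructor
  · intro hx
    have : g' (b.hom x) = 0 := by rw [← k2, hx, map_zero]
    obtain ⟨y, hy⟩ := (h (b.hom x)).1 this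
    obtain ⟨z, rfl⟩ := asj y
    refine ⟨z, bi ?_⟩
    rw [k1, hy]
  · rintro ⟨z, rfl⟩
    apply ci
    rw [k2, k1, map_zero]
    exact (h _).2 ⟨_, rfl⟩

lemma comp_iso_aux {𝒞 : Type*} [Category 𝒞] {A B C D : 𝒞} (a : A ⟶ B) (δ : B ⟶ C) (b : D ≅ C) :
    (a ≫ δ ≫ b.inv) ≫ b.hom = a ≫ δ := by simp

section LES

variable {R}
variable {S : ShortComplex (ModuleCat.{u} R)}

lemma ses (hS : S.ShortExact) {N : ModuleCat.{u} R} (P : ProjectiveResolution N) :
    (S.map (tensorComplex R P.complex)).ShortExact :=
  shortExact_tensorComplex R hS P.complex (fun _ => inferInstance)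

/-- The connecting map for Tor in the first variable. -/
noncomputable def torDelta (hS : S.ShortExact) (N : ModuleCat.{u} R) (n : ℕ) :
    ((Tor (ModuleCat.{u} R) (n + 1)).obj S.X₃).obj N ⟶ ((Tor (ModuleCat.{u} R) n).obj S.X₁).obj N :=
  (torIso R (n + 1) S.X₃ (projectiveResolution N)).hom ≫
    (ses hS (projectiveResolution N)).δ (n + 1) n (by simp) ≫
      (torIso R n S.X₁ (projectiveResolution N)).inv

lemma tor_exact₂ (hS : S.ShortExact) (N : ModuleCat.{u} R) (n : ℕ) :
    Function.Exact (((Tor (ModuleCat.{u} R) n).map S.f).app N)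
      (((Tor (ModuleCat.{u} R) n).map S.g).app N) := by
  have h := (ses hS (projectiveResolution N)).homology_exact₂ n
  rw [ShortComplex.ShortExact.moduleCat_exact_iff_function_exact] at h
  exact exact_transport _ _ _ (torIso_naturality R n S.f (projectiveResolution N))
    (torIso_naturality R n S.g (projectiveResolution N)) h

lemma tor_exact₁ (hS : S.ShortExact) (N : ModuleCat.{u} R) (n : ℕ) :
    Function.Exact (torDelta hS N n)
      (((Tor (ModuleCat.{u} R) n).map S.f).app N) := by
  have h := (ses hS (projectiveResolution N)).homology_exact₁ (n + 1) n (by simp)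
  rw [ShortComplex.ShortExact.moduleCat_exact_iff_function_exact] at h
  refine exact_transport (torIso R (n + 1) S.X₃ (projectiveResolution N)) _ _ ?_
    (torIso_naturality R n S.f (projectiveResolution N)) h
  exact comp_iso_aux _ _ _

lemma tor_exact₃ (hS : S.ShortExact) (N : ModuleCat.{u} R) (n : ℕ) :
    Function.Exact (((Tor (ModuleCat.{u} R) (n + 1)).map S.g).app N) (torDelta hS N n) := by
  have h := (ses hS (projectiveResolution N)).homology_exact₃ (n + 1) n (by simp)
  rw [ShortComplex.ShortExact.moduleCat_exact_iff_function_exact] at h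
  refine exact_transport _ _ (torIso R n S.X₁ (projectiveResolution N))
    (torIso_naturality R (n + 1) S.g (projectiveResolution N)) ?_ h
  exact comp_iso_aux _ _ _

end LES

end Vale.Agent.P177
end

section

/-!
Unbundled API for Tor.
-/

namespace Vale.Agent.P177

open CategoryTheory MonoidalCategory Limits TensorProduct

universe u

variable {R : Type u} [CommRing R]
variable {M M' M'' N N' : Type u} [AddCommGroup M] [Module R M] [AddCommGroup M'] [Module R M']
  [AddCommGroup M''] [Module R M''] [AddCommGroup N] [Module R N] [AddCommGroup N'] [Module R N']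

/-- Functoriality of Tor in the first variable. -/
noncomputable def torMap (n : ℕ) (f : M →ₗ[R] M') (N : Type u) [AddCommGroup N] [Module R N] :
    TorM R n M N →ₗ[R] TorM R n M' N :=
  (((Tor (ModuleCat.{u} R) n).map (ModuleCat.ofHom f)).app (ModuleCat.of R N)).hom

/-- Functoriality of Tor in the second variable. -/
noncomputable def torMapRight (n : ℕ) (M : Type u) [AddCommGroup M] [Module R M]
    (f : N →ₗ[R] N') : TorM R n M N →ₗ[R] TorM R n M N' :=
  (((Tor (ModuleCat.{u} R) n).obj (ModuleCat.of R M)).map (ModuleCat.ofHom f)).hom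

lemma torMap_id (n : ℕ) : torMap n (LinearMap.id : M →ₗ[R] M) N = LinearMap.id := by
  unfold torMap
  rw [ModuleCat.ofHom_id, (Tor (ModuleCat.{u} R) n).map_id]
  rfl

lemma torMap_comp (n : ℕ) (f : M →ₗ[R] M') (g : M' →ₗ[R] M'') :
    torMap n (g ∘ₗ f) N = torMap n g N ∘ₗ torMap n f N := by
  unfold torMap
  rw [ModuleCat.ofHom_comp, (Tor (ModuleCat.{u} R) n).map_comp]
  rfl

lemma torMapRight_id (n : ℕ) : torMapRight n M (LinearMap.id : N →ₗ[R] N) = LinearMap.id := by
  unfold torMapRight
  rw [ModuleCat.ofHom_id, ((Tor (ModuleCat.{u} R) n).obj _).map_id]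
  rfl

lemma torMapRight_comp {N'' : Type u} [AddCommGroup N''] [Module R N''] (n : ℕ)
    (f : N →ₗ[R] N') (g : N' →ₗ[R] N'') :
    torMapRight n M (g ∘ₗ f) = torMapRight n M g ∘ₗ torMapRight n M f := by
  unfold torMapRight
  rw [ModuleCat.ofHom_comp, ((Tor (ModuleCat.{u} R) n).obj _).map_comp]
  rfl

/-- Tor respects isomorphisms in the first variable. -/
noncomputable def torCongrLeft (n : ℕ) (e : M ≃ₗ[R] M') (N : Type u) [AddCommGroup N]
    [Module R N] : TorM R n M N ≃ₗ[R] TorM R n M' N :=
  LinearEquiv.ofLinearMap (torMap n e.toLinearMap N) (torMap n e.symm.toLinearMap N)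
    (by rw [← torMap_comp, ← LinearEquiv.coe_trans, LinearEquiv.symm_trans_self]; exact torMap_id n)
    (by rw [← torMap_comp, ← LinearEquiv.coe_trans, LinearEquiv.self_trans_symm]; exact torMap_id n)

/-- Tor respects isomorphisms in the second variable. -/
noncomputable def torCongrRight (n : ℕ) (M : Type u) [AddCommGroup M] [Module R M]
    (e : N ≃ₗ[R] N') : TorM R n M N ≃ₗ[R] TorM R n M N' :=
  LinearEquiv.ofLinearMap (torMapRight n M e.toLinearMap) (torMapRight n M e.symm.toLinearMap)
    (by rw [← torMapRight_comp, ← LinearEquiv.coe_trans, LinearEquiv.symm_trans_self]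
        exact torMapRight_id n)
    (by rw [← torMapRight_comp, ← LinearEquiv.coe_trans, LinearEquiv.self_trans_symm]
        exact torMapRight_id n)

/-- The long exact sequence of Tor in the first variable. -/
theorem exists_torDelta (f : M' →ₗ[R] M) (g : M →ₗ[R] M'') (hf : Function.Injective f)
    (hg : Function.Surjective g) (h : Function.Exact f g) (N : Type u) [AddCommGroup N]
    [Module R N] :
    ∃ δ : ∀ n, TorM R (n + 1) M'' N →ₗ[R] TorM R n M' N,
      (∀ n, Function.Exact (torMap (n + 1) g N) (δ n)) ∧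
      (∀ n, Function.Exact (δ n) (torMap n f N)) ∧
      (∀ n, Function.Exact (torMap n f N) (torMap n g N)) := by
  let S : ShortComplex (ModuleCat.{u} R) :=
    ShortComplex.moduleCatMk f g (by ext x; exact (h (f x)).2 ⟨x, rfl⟩)
  have hS : S.ShortExact := {
    exact := by
      rw [ShortComplex.ShortExact.moduleCat_exact_iff_function_exact]
      exact h
    mono_f := (ModuleCat.mono_iff_injective _).2 hf
    epi_g := (ModuleCat.epi_iff_surjective _).2 hg }
  refine ⟨fun n => (torDelta hS (ModuleCat.of R N) n).hom, ?_, ?_, ?_⟩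
  · intro n
    exact tor_exact₃ hS (ModuleCat.of R N) n
  · intro n
    exact tor_exact₁ hS (ModuleCat.of R N) n
  · intro n
    exact tor_exact₂ hS (ModuleCat.of R N) n

/-- Tor vanishes in positive degrees if the first variable is flat. -/
theorem tor_subsingleton_of_flat [Module.Flat R M] (n : ℕ) :
    Subsingleton (TorM R (n + 1) M N) := by
  let P := projectiveResolution (ModuleCat.of R N)
  have h : IsZero (((tensorComplex R P.complex).obj (ModuleCat.of R M)).homology (n + 1)) := by
    rw [← HomologicalComplex.exactAt_iff_isZero_homology]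
    rw [HomologicalComplex.exactAt_iff' _ (n + 2) (n + 1) n (by simp) (by simp)]
    have h1 : (P.complex.sc' (n + 2) (n + 1) n).Exact := P.exact_succ n
    have h2 := Module.Flat.lTensor_shortComplex_exact (ModuleCat.of R M) _ h1
    exact h2
  have h2 : IsZero (TorM R (n + 1) M N) := h.of_iso (torIso R (n + 1) (ModuleCat.of R M) P)
  exact ModuleCat.subsingleton_of_isZero h2

/-- Tor vanishes in positive degrees if the second variable is projective. -/
theorem tor_subsingleton_of_projective_right [Module.Projective R N] (n : ℕ) :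
    Subsingleton (TorM R (n + 1) M N) := by
  have : Projective (ModuleCat.of R N) :=
    (IsProjective.iff_projective (ModuleCat.of R N)).mp inferInstance
  exact ModuleCat.subsingleton_of_isZero
    (isZero_Tor_succ_of_projective (ModuleCat.{u} R) (ModuleCat.of R M) (ModuleCat.of R N) n)

end Vale.Agent.P177
end

section

/-!
Tor in degree zero, dimension shifting, finiteness, annihilators and symmetry of Tor.
-/

namespace Vale.Agent.P177

open CategoryTheory MonoidalCategory Limits TensorProduct

universe u v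

lemma fromLeftDerivedZero_natural {C D : Type*} [Category C] [Category D]
    [Abelian C] [HasProjectiveResolutions C] [Abelian D] {F G : C ⥤ D} [F.Additive] [G.Additive]
    (α : F ⟶ G) (X : C) :
    (NatTrans.leftDerived α 0).app X ≫ G.fromLeftDerivedZero.app X =
      F.fromLeftDerivedZero.app X ≫ α.app X := by
  let P := projectiveResolution X
  rw [P.fromLeftDerivedZero_eq F, P.fromLeftDerivedZero_eq G, P.leftDerived_app_eq α 0]
  simp only [Category.assoc, Iso.inv_hom_id_assoc]
  congr 1
  have h1 : HomologicalComplex.opcyclesMap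
      ((NatTrans.mapHomologicalComplex α (ComplexShape.down ℕ)).app P.complex) 0 ≫
        P.fromLeftDerivedZero' G = P.fromLeftDerivedZero' F ≫ α.app X := by
    rw [← cancel_epi (HomologicalComplex.pOpcycles _ _)]
    simp only [HomologicalComplex.p_opcyclesMap_assoc]
    rw [ProjectiveResolution.pOpcycles_comp_fromLeftDerivedZero']
    rw [ProjectiveResolution.pOpcycles_comp_fromLeftDerivedZero'_assoc]
    exact (α.naturality _).symm
  refine Eq.trans ?_ (Category.assoc _ _ _).symm
  rw [← h1]
  exact HomologicalComplex.homologyι_naturality_assoc _ _ _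

variable {R : Type u} [CommRing R]
variable {M M' M'' N N' K F : Type u} [AddCommGroup M] [Module R M] [AddCommGroup M'] [Module R M']
  [AddCommGroup M''] [Module R M''] [AddCommGroup N] [Module R N] [AddCommGroup N'] [Module R N']
  [AddCommGroup K] [Module R K] [AddCommGroup F] [Module R F]

/-- `Tor_0(M,N) ≃ M ⊗ N`. -/
noncomputable def torZero (M N : Type u) [AddCommGroup M] [Module R M]
    [AddCommGroup N] [Module R N] : TorM R 0 M N ≃ₗ[R] M ⊗[R] N :=
  (((tensorLeft (ModuleCat.of R M)).leftDerivedZeroIsoSelf).app (ModuleCat.of R N)).toLinearEquiv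

theorem torZero_naturality (f : M →ₗ[R] M') (x : TorM R 0 M N) :
    torZero M' N (torMap 0 f N x) = f.rTensor N (torZero M N x) := by
  have h := fromLeftDerivedZero_natural
    ((tensoringLeft (ModuleCat.{u} R)).map (ModuleCat.ofHom f)) (ModuleCat.of R N)
  have h2 := congrArg (fun t => t.hom x) h
  exact h2

/-- Dimension shifting in the first variable. -/
theorem tor_shift [Module.Flat R F] (f : K →ₗ[R] F) (g : F →ₗ[R] M) (hf : Function.Injective f)
    (hg : Function.Surjective g) (h : Function.Exact f g) (N : Type u) [AddCommGroup N]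
    [Module R N] (n : ℕ) : Nonempty (TorM R (n + 2) M N ≃ₗ[R] TorM R (n + 1) K N) := by
  obtain ⟨δ, h1, h2, -⟩ := exists_torDelta f g hf hg h N
  have s1 : Subsingleton (TorM R (n + 2) F N) := tor_subsingleton_of_flat (n + 1)
  have s2 : Subsingleton (TorM R (n + 1) F N) := tor_subsingleton_of_flat n
  refine ⟨LinearEquiv.ofBijective (δ (n + 1)) ⟨?_, ?_⟩⟩
  · rw [injective_iff_map_eq_zero]
    intro x hx
    obtain ⟨y, rfl⟩ := (h1 (n + 1) x).1 hx
    rw [Subsingleton.elim y 0, map_zero]
  · intro x
    exact (h2 (n + 1) x).1 (Subsingleton.elim _ _)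

/-- `Tor_1(M,N)` as a kernel. -/
theorem tor_one [Module.Flat R F] (f : K →ₗ[R] F) (g : F →ₗ[R] M) (hf : Function.Injective f)
    (hg : Function.Surjective g) (h : Function.Exact f g) (N : Type u) [AddCommGroup N]
    [Module R N] : Nonempty (TorM R 1 M N ≃ₗ[R] LinearMap.ker (f.rTensor N)) := by
  obtain ⟨δ, h1, h2, -⟩ := exists_torDelta f g hf hg h N
  have s1 : Subsingleton (TorM R 1 F N) := tor_subsingleton_of_flat 0
  let φ : TorM R 1 M N →ₗ[R] K ⊗[R] N := (torZero K N).toLinearMap ∘ₗ δ 0
  have hφ : ∀ x, φ x ∈ LinearMap.ker (f.rTensor N) := by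
    intro x
    rw [LinearMap.mem_ker]
    change f.rTensor N (torZero K N (δ 0 x)) = 0
    rw [← torZero_naturality, (h2 0 _).2 ⟨x, rfl⟩, map_zero]
  refine ⟨LinearEquiv.ofBijective (φ.codRestrict _ hφ) ⟨?_, ?_⟩⟩
  · rw [injective_iff_map_eq_zero]
    intro x hx
    have hx' : φ x = 0 := congrArg Subtype.val hx
    have hx2 : δ 0 x = 0 := (torZero K N).injective (by rw [map_zero]; exact hx')
    obtain ⟨y, rfl⟩ := (h1 0 x).1 hx2
    rw [Subsingleton.elim y 0, map_zero]
  · rintro ⟨x, hx⟩
    rw [LinearMap.mem_ker] at hx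
    have : torMap 0 f N ((torZero K N).symm x) = 0 := by
      apply (torZero F N).injective
      rw [torZero_naturality, LinearEquiv.apply_symm_apply, hx, map_zero]
    obtain ⟨y, hy⟩ := (h2 0 _).1 this
    refine ⟨y, Subtype.ext ?_⟩
    change torZero K N (δ 0 y) = x
    rw [hy, LinearEquiv.apply_symm_apply]

/-- Finite presentation step: a short exact sequence with finite free middle term. -/
theorem exists_finite_free_cover [IsNoetherianRing R] (M : Type u) [AddCommGroup M] [Module R M]
    [Module.Finite R M] :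
    ∃ (m : ℕ) (K : Submodule R (Fin m → R)) (g : (Fin m → R) →ₗ[R] M),
      Function.Surjective g ∧ Function.Exact K.subtype g := by
  obtain ⟨m, g, hg⟩ := Module.Finite.exists_fin' R M
  refine ⟨m, LinearMap.ker g, g, hg, ?_⟩
  intro x
  simp

/-- Tor is finitely generated. -/
theorem tor_finite [IsNoetherianRing R] (n : ℕ) (M N : Type u) [AddCommGroup M] [Module R M]
    [AddCommGroup N] [Module R N] [Module.Finite R M] [Module.Finite R N] :
    Module.Finite R (TorM R n M N) := by
  induction n generalizing M with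
  | zero => exact Module.Finite.equiv (torZero M N).symm
  | succ n ih =>
    obtain ⟨m, K, g, hg, h⟩ := exists_finite_free_cover (R := R) M
    cases n with
    | zero =>
      obtain ⟨e⟩ := tor_one K.subtype g K.injective_subtype hg h N
      have hK : Module.Finite R K := inferInstance
      have hKN : Module.Finite R (K ⊗[R] N) := inferInstance
      have hn := isNoetherian_of_isNoetherianRing_of_finite R (K ⊗[R] N)
      exact Module.Finite.of_injective
        ((LinearMap.ker (K.subtype.rTensor N)).subtype ∘ₗ e.toLinearMap)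
        ((Submodule.injective_subtype _).comp e.injective)
    | succ n =>
      obtain ⟨e⟩ := tor_shift K.subtype g K.injective_subtype hg h N n
      have := ih K
      exact Module.Finite.equiv e.symm

/-! ### Annihilators -/

/-- An element killing all the terms of a complex kills its homology. -/
theorem homology_smul_eq_zero (L : ChainComplex (ModuleCat.{u} R) ℕ) (a : R) (n : ℕ)
    (h : ∀ x : L.X n, a • x = 0) (y : L.homology n) : a • y = 0 := by
  have hπ : Function.Surjective (L.homologyπ n) :=
    (ModuleCat.epi_iff_surjective _).1 inferInstance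
  have hi : Function.Injective (L.iCycles n) :=
    (ModuleCat.mono_iff_injective _).1 inferInstance
  obtain ⟨z, rfl⟩ := hπ y
  have : a • z = 0 := by
    apply hi
    rw [map_smul, map_zero]
    exact h _
  rw [← map_smul, this, map_zero]

theorem tensor_smul_eq_zero_left (a : R) (h : ∀ m : M, a • m = 0) (y : M ⊗[R] N) :
    a • y = 0 := by
  induction y using TensorProduct.induction_on with
  | zero => exact smul_zero _
  | tmul m p => rw [TensorProduct.smul_tmul', h, TensorProduct.zero_tmul]
  | add y z hy hz => rw [smul_add, hy, hz, add_zero]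

theorem tor_smul_eq_zero_left (a : R) (h : ∀ m : M, a • m = 0) (n : ℕ) (N : Type u)
    [AddCommGroup N] [Module R N] (x : TorM R n M N) : a • x = 0 := by
  let P := projectiveResolution (ModuleCat.of R N)
  let e := (torIso R n (ModuleCat.of R M) P).toLinearEquiv
  apply e.injective
  rw [map_smul, map_zero]
  apply homology_smul_eq_zero
  intro y
  exact tensor_smul_eq_zero_left (M := M) (N := P.complex.X n) a h y

/-! ### Symmetry -/

/-- The two descriptions of Tor_1 agree. -/
theorem tor_one_symm_aux {F G K L : Type u} [AddCommGroup F] [Module R F] [AddCommGroup G]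
    [Module R G] [AddCommGroup K] [Module R K] [AddCommGroup L] [Module R L]
    [Module.Flat R F] [Module.Flat R G]
    (f : K →ₗ[R] F) (g : F →ₗ[R] M) (hf : Function.Injective f)
    (hg : Function.Surjective g) (h : Function.Exact f g)
    (f' : L →ₗ[R] G) (g' : G →ₗ[R] N) (hf' : Function.Injective f')
    (hg' : Function.Surjective g') (h' : Function.Exact f' g') :
    Nonempty (LinearMap.ker (f.rTensor N) ≃ₗ[R] LinearMap.ker (f'.lTensor M)) := by
  have hrow1 : Function.Exact (f'.lTensor K) (g'.lTensor K) := lTensor_exact K h' hg'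
  have hrow2 : Function.Exact (f'.lTensor F) (g'.lTensor F) := lTensor_exact F h' hg'
  have hi2 : Function.Injective (f.rTensor G) := Module.Flat.rTensor_preserves_injective_linearMap f hf
  have hbot : Function.Injective (f'.lTensor F) :=
    Module.Flat.lTensor_preserves_injective_linearMap f' hf'
  have htop : Function.Surjective (g'.lTensor K) := LinearMap.lTensor_surjective K hg'
  have c1 : (f'.lTensor F).comp (f.rTensor L) = (f.rTensor G).comp (f'.lTensor K) := by
    rw [LinearMap.lTensor_comp_rTensor, LinearMap.rTensor_comp_lTensor]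
  have c2 : (g'.lTensor F).comp (f.rTensor G) = (f.rTensor N).comp (g'.lTensor K) := by
    rw [LinearMap.lTensor_comp_rTensor, LinearMap.rTensor_comp_lTensor]
  have hι₃ : Function.Exact (LinearMap.ker (f.rTensor N)).subtype (f.rTensor N) := by
    intro x; simp
  have hι₂ : Function.Exact (0 : PUnit.{1} →ₗ[R] K ⊗[R] G) (f.rTensor G) := by
    intro x
    constructor
    · intro hx
      exact ⟨PUnit.unit, (hi2 (by rw [hx, LinearMap.zero_apply, map_zero])).symm⟩
    · rintro ⟨y, rfl⟩
      simp
  have hπ₁ : Function.Exact (f.rTensor L) (g.rTensor L) := rTensor_exact L h hg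
  have hπ₂ : Function.Exact (f.rTensor G) (g.rTensor G) := rTensor_exact G h hg
  have hπ₁s : Function.Surjective (g.rTensor L) := LinearMap.rTensor_surjective L hg
  let δ := SnakeLemma.δ' (f.rTensor L) (f.rTensor G) (f.rTensor N) (f'.lTensor K) (g'.lTensor K)
    hrow1 (f'.lTensor F) (g'.lTensor F) hrow2 c1 c2 (LinearMap.ker (f.rTensor N)).subtype hι₃
    (g.rTensor L) hπ₁ htop hbot
  have e1 : Function.Exact (0 : PUnit.{1} →ₗ[R] LinearMap.ker (f.rTensor N)) δ :=
    SnakeLemma.exact_δ'_right _ _ _ _ _ _ _ _ _ _ _ _ hι₂ _ _ _ _ htop hbot _ (by simp)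
      (Submodule.injective_subtype _)
  have e2 : Function.Exact δ (f'.lTensor M) :=
    SnakeLemma.exact_δ'_left _ _ _ _ _ _ _ _ _ _ _ _ _ _ _ (g.rTensor G) hπ₂ htop hbot
      (f'.lTensor M) (by rw [LinearMap.lTensor_comp_rTensor, LinearMap.rTensor_comp_lTensor]) hπ₁s
  have dinj : Function.Injective δ := by
    rw [injective_iff_map_eq_zero]
    intro x hx
    obtain ⟨y, rfl⟩ := (e1 x).1 hx
    simp
  refine ⟨LinearEquiv.ofBijective (δ.codRestrict _ (fun x => ?_)) ⟨?_, ?_⟩⟩
  · rw [LinearMap.mem_ker]
    exact (e2 _).2 ⟨x, rfl⟩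
  · intro x y hxy
    exact dinj (congrArg Subtype.val hxy)
  · rintro ⟨x, hx⟩
    obtain ⟨y, hy⟩ := (e2 x).1 hx
    exact ⟨y, Subtype.ext hy⟩

/-- Every module is a quotient of a free module. -/
theorem exists_cover (R : Type u) [CommRing R] (M : Type u) [AddCommGroup M] [Module R M] :
    ∃ (F K : Type u) (_ : AddCommGroup F) (_ : Module R F) (_ : AddCommGroup K) (_ : Module R K)
      (f : K →ₗ[R] F) (g : F →ₗ[R] M), Module.Free R F ∧ Function.Injective f ∧
        Function.Surjective g ∧ Function.Exact f g := by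
  refine ⟨M →₀ R, LinearMap.ker (Finsupp.linearCombination R (id : M → M)), inferInstance,
    inferInstance, inferInstance, inferInstance, Submodule.subtype _,
    Finsupp.linearCombination R (id : M → M), inferInstance, Submodule.injective_subtype _, ?_, ?_⟩
  · intro m
    exact ⟨Finsupp.single m 1, by simp⟩
  · intro x
    simp

lemma ker_comm (f : K →ₗ[R] F) :
    Nonempty (LinearMap.ker (f.rTensor N) ≃ₗ[R] LinearMap.ker (f.lTensor N)) := by
  refine ⟨LinearEquiv.ofSubmodules (TensorProduct.comm R K N) _ _ ?_⟩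
  have h : (f.lTensor N) ∘ₗ (TensorProduct.comm R K N).toLinearMap =
      (TensorProduct.comm R F N).toLinearMap ∘ₗ f.rTensor N := by
    ext; simp
  ext x
  simp only [Submodule.mem_map, LinearMap.mem_ker]
  constructor
  · rintro ⟨y, hy, rfl⟩
    have := LinearMap.congr_fun h y
    simp only [LinearMap.comp_apply] at this
    rw [hy, map_zero] at this
    exact this
  · intro hx
    refine ⟨(TensorProduct.comm R K N).symm x, ?_, by simp⟩
    have := LinearMap.congr_fun h ((TensorProduct.comm R K N).symm x)
    simp only [LinearMap.comp_apply, LinearEquiv.coe_coe, LinearEquiv.apply_symm_apply] at this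
    rw [hx] at this
    exact (TensorProduct.comm R F N).injective (by rw [← this, map_zero])

theorem tor_symm_one (M N : Type u) [AddCommGroup M] [Module R M] [AddCommGroup N] [Module R N] :
    Nonempty (TorM R 1 M N ≃ₗ[R] TorM R 1 N M) := by
  obtain ⟨F, K, _, _, _, _, f, g, hF, hf, hg, h⟩ := exists_cover R M
  obtain ⟨G, L, _, _, _, _, f', g', hG, hf', hg', h'⟩ := exists_cover R N
  obtain ⟨e1⟩ := tor_one f g hf hg h N
  obtain ⟨e2⟩ := tor_one f' g' hf' hg' h' M
  obtain ⟨e3⟩ := tor_one_symm_aux f g hf hg h f' g' hf' hg' h'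
  obtain ⟨e4⟩ := ker_comm (N := M) f'
  exact ⟨e1 ≪≫ₗ e3 ≪≫ₗ e4.symm ≪≫ₗ e2.symm⟩

lemma ker_ker_aux {F G K L : Type u} [AddCommGroup F] [Module R F] [AddCommGroup G]
    [Module R G] [AddCommGroup K] [Module R K] [AddCommGroup L] [Module R L]
    [Module.Flat R F] [Module.Flat R G] (f : K →ₗ[R] F) (hf : Function.Injective f)
    (f' : L →ₗ[R] G) (hf' : Function.Injective f') :
    Nonempty (LinearMap.ker (f'.rTensor K) ≃ₗ[R] LinearMap.ker (f.rTensor L)) := by
  have h1 : LinearMap.ker (f'.rTensor K) = LinearMap.ker (TensorProduct.map f' f) := by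
    have : TensorProduct.map f' f = f.lTensor G ∘ₗ f'.rTensor K := by
      rw [LinearMap.lTensor_comp_rTensor]
    rw [this, LinearMap.ker_comp_of_ker_eq_bot]
    exact LinearMap.ker_eq_bot.2 (Module.Flat.lTensor_preserves_injective_linearMap f hf)
  have h2 : LinearMap.ker (f.rTensor L) = LinearMap.ker (TensorProduct.map f f') := by
    have : TensorProduct.map f f' = f'.lTensor F ∘ₗ f.rTensor L := by
      rw [LinearMap.lTensor_comp_rTensor]
    rw [this, LinearMap.ker_comp_of_ker_eq_bot]
    exact LinearMap.ker_eq_bot.2 (Module.Flat.lTensor_preserves_injective_linearMap f' hf')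
  rw [h1, h2]
  refine ⟨LinearEquiv.ofSubmodules (TensorProduct.comm R L K) _ _ ?_⟩
  have h : (TensorProduct.map f f') ∘ₗ (TensorProduct.comm R L K).toLinearMap =
      (TensorProduct.comm R G F).toLinearMap ∘ₗ (TensorProduct.map f' f) := by
    ext; simp
  ext x
  simp only [Submodule.mem_map, LinearMap.mem_ker]
  constructor
  · rintro ⟨y, hy, rfl⟩
    have := LinearMap.congr_fun h y
    simp only [LinearMap.comp_apply] at this
    rw [hy, map_zero] at this
    exact this
  · intro hx
    refine ⟨(TensorProduct.comm R L K).symm x, ?_, by simp⟩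
    have := LinearMap.congr_fun h ((TensorProduct.comm R L K).symm x)
    simp only [LinearMap.comp_apply, LinearEquiv.coe_coe, LinearEquiv.apply_symm_apply] at this
    rw [hx] at this
    exact (TensorProduct.comm R G F).injective (by rw [← this, map_zero])

/-- Tor is symmetric. -/
theorem tor_symm (n : ℕ) (M N : Type u) [AddCommGroup M] [Module R M]
    [AddCommGroup N] [Module R N] :
    Nonempty (TorM R n M N ≃ₗ[R] TorM R n N M) := by
  induction n using Nat.strong_induction_on generalizing M N with
  | _ n ih =>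
    obtain ⟨F, K, _, _, _, _, f, g, hF, hf, hg, h⟩ := exists_cover R M
    obtain ⟨G, L, _, _, _, _, f', g', hG, hf', hg', h'⟩ := exists_cover R N
    match n, ih with
    | 0, _ => exact ⟨torZero M N ≪≫ₗ TensorProduct.comm R M N ≪≫ₗ (torZero N M).symm⟩
    | 1, _ => exact tor_symm_one M N
    | 2, _ =>
      obtain ⟨e1⟩ := tor_shift f g hf hg h N 0
      obtain ⟨e2⟩ := tor_symm_one (R := R) K N
      obtain ⟨e3⟩ := tor_one f' g' hf' hg' h' K
      obtain ⟨e4⟩ := ker_ker_aux f hf f' hf'
      obtain ⟨e5⟩ := tor_shift f' g' hf' hg' h' M 0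
      obtain ⟨e6⟩ := tor_symm_one (R := R) L M
      obtain ⟨e7⟩ := tor_one f g hf hg h L
      exact ⟨e1 ≪≫ₗ e2 ≪≫ₗ e3 ≪≫ₗ e4 ≪≫ₗ e7.symm ≪≫ₗ e6.symm ≪≫ₗ e5.symm⟩
    | k + 3, ih =>
      obtain ⟨e1⟩ := tor_shift f g hf hg h N (k + 1)
      obtain ⟨e2⟩ := ih (k + 2) (by omega) K N
      obtain ⟨e3⟩ := tor_shift f' g' hf' hg' h' K k
      obtain ⟨e4⟩ := ih (k + 1) (by omega) L K
      obtain ⟨e5⟩ := tor_shift f g hf hg h L k
      obtain ⟨e6⟩ := ih (k + 2) (by omega) M L
      obtain ⟨e7⟩ := tor_shift f' g' hf' hg' h' M (k + 1)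
      exact ⟨e1 ≪≫ₗ e2 ≪≫ₗ e3 ≪≫ₗ e4 ≪≫ₗ e5.symm ≪≫ₗ e6 ≪≫ₗ e7.symm⟩

theorem tor_smul_eq_zero_right (a : R) (h : ∀ m : N, a • m = 0) (n : ℕ) (M : Type u)
    [AddCommGroup M] [Module R M] (x : TorM R n M N) : a • x = 0 := by
  obtain ⟨e⟩ := tor_symm (R := R) n M N
  apply e.injective
  rw [map_smul, map_zero]
  exact tor_smul_eq_zero_left a h n M _

end Vale.Agent.P177
end

section

/-!
Finite length facts.
-/

namespace Vale.Agent.P177

open IsLocalRing TensorProduct

universe u

section general

variable {R : Type u} [CommRing R]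

theorem mem_support_tensorProduct {M N : Type u} [AddCommGroup M] [Module R M]
    [AddCommGroup N] [Module R N] [Module.Finite R M] [Module.Finite R N]
    (p : PrimeSpectrum R) (hM : p ∈ Module.support R M) (hN : p ∈ Module.support R N) :
    p ∈ Module.support R (M ⊗[R] N) := by
  rw [Module.mem_support_iff_nontrivial_residueField_tensorProduct] at hM hN ⊢
  let e := AlgebraTensorModule.distribBaseChange R p.asIdeal.ResidueField M N
  have : Nontrivial ((p.asIdeal.ResidueField ⊗[R] M) ⊗[p.asIdeal.ResidueField]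
    (p.asIdeal.ResidueField ⊗[R] N)) := inferInstance
  exact e.toEquiv.nontrivial

end general

section local_ring

variable {R : Type u} [CommRing R] [IsLocalRing R]

/-- A module of finite length over a local ring is killed by a power of the maximal ideal. -/
theorem exists_pow_smul_eq_zero {T : Type u} [AddCommGroup T] [Module R T]
    (h : IsFiniteLength R T) : ∃ k : ℕ, ∀ a ∈ maximalIdeal R ^ k, ∀ x : T, a • x = 0 := by
  induction h with
  | of_subsingleton => exact ⟨0, fun a _ x => Subsingleton.elim _ _⟩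
  | @of_simple_quotient M _ _ N _ hN ih =>
    obtain ⟨k, hk⟩ := ih
    refine ⟨k + 1, fun a ha x => ?_⟩
    have hm : ∀ b ∈ maximalIdeal R, ∀ y : M, b • y ∈ N := by
      intro b hb y
      have h1 : Module.annihilator R (M ⧸ N) = maximalIdeal R := by
        have : (Module.annihilator R (M ⧸ N)).IsMaximal := by
          exact IsSimpleModule.annihilator_isMaximal
        exact IsLocalRing.eq_maximalIdeal this
      rw [← h1, Module.mem_annihilator] at hb
      have := hb (Submodule.Quotient.mk y)
      rwa [← Submodule.Quotient.mk_smul, Submodule.Quotient.mk_eq_zero] at this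
    rw [pow_succ] at ha
    refine Submodule.mul_induction_on ha ?_ ?_
    · intro b hb c hc
      rw [mul_smul]
      have := hk b hb ⟨c • x, hm c hc x⟩
      exact congrArg Subtype.val this
    · intro b c hb hc
      rw [add_smul, hb, hc, add_zero]

/-- A finitely generated module killed by a power of the maximal ideal has finite length. -/
theorem isFiniteLength_of_pow_smul_eq_zero [IsNoetherianRing R] (k : ℕ) {T : Type u}
    [AddCommGroup T] [Module R T] [Module.Finite R T]
    (h : ∀ a ∈ maximalIdeal R ^ k, ∀ x : T, a • x = 0) : IsFiniteLength R T := by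
  induction k generalizing T with
  | zero =>
    have : Subsingleton T := by
      refine ⟨fun x y => ?_⟩
      have h1 := h 1 (by simp) x
      have h2 := h 1 (by simp) y
      rw [one_smul] at h1 h2
      rw [h1, h2]
    exact IsFiniteLength.of_subsingleton
  | succ k ih =>
    let N : Submodule R T := maximalIdeal R • ⊤
    have hN : IsFiniteLength R N := by
      apply ih
      rintro a ha ⟨x, hx⟩
      apply Subtype.ext
      change a • x = 0
      refine Submodule.smul_induction_on hx ?_ ?_
      · intro r hr y _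
        rw [← mul_smul]
        exact h _ (by rw [pow_succ]; exact Ideal.mul_mem_mul ha hr) y
      · intro y z hy hz
        rw [smul_add, hy, hz, add_zero]
    have hQ : IsFiniteLength R (T ⧸ N) := by
      rw [← Module.length_ne_top_iff]
      let _ : Module (R ⧸ maximalIdeal R) (T ⧸ N) := inferInstance
      have hfin : Module.Finite (R ⧸ maximalIdeal R) (T ⧸ N) := 
        Module.Finite.of_restrictScalars_finite R _ _
      let _ : Field (R ⧸ maximalIdeal R) := Ideal.Quotient.field _
      rw [Module.length_eq_of_surjective (S := R) (R := R ⧸ maximalIdeal R)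
        Ideal.Quotient.mk_surjective]
      have : Module.length (R ⧸ maximalIdeal R) (T ⧸ N) =
        Module.finrank (R ⧸ maximalIdeal R) (T ⧸ N) := Module.length_eq_finrank _ _
      rw [this]
      exact ENat.natCast_ne_top _
    rw [← Module.length_ne_top_iff] at hN hQ ⊢
    rw [Module.length_eq_add_of_exact N.subtype N.mkQ N.injective_subtype N.mkQ_surjective
      (LinearMap.exact_subtype_mkQ N)]
    exact WithTop.add_ne_top.2 ⟨hN, hQ⟩

/-- If `M ⊗ N` has finite length then a power of the maximal ideal is contained in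
`Ann M + Ann N`. -/
theorem exists_pow_le_sup_annihilator [IsNoetherianRing R] (M N : Type u) [AddCommGroup M]
    [Module R M] [AddCommGroup N] [Module R N] [Module.Finite R M] [Module.Finite R N]
    (h : Module.length R (M ⊗[R] N) ≠ ⊤) :
    ∃ k : ℕ, maximalIdeal R ^ k ≤ Module.annihilator R M ⊔ Module.annihilator R N := by
  rw [Module.length_ne_top_iff] at h
  obtain ⟨k, hk⟩ := exists_pow_smul_eq_zero h
  suffices hs : maximalIdeal R ≤ (Module.annihilator R M ⊔ Module.annihilator R N).radical by
    exact Ideal.exists_pow_le_of_le_radical_of_fg hs (IsNoetherian.noetherian _)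
  rw [Ideal.radical_eq_sInf]
  refine le_sInf ?_
  rintro P ⟨hP, hPp⟩
  have h1 : (⟨P, hPp⟩ : PrimeSpectrum R) ∈ Module.support R M := by
    rw [Module.support_eq_zeroLocus]
    exact le_trans le_sup_left hP
  have h2 : (⟨P, hPp⟩ : PrimeSpectrum R) ∈ Module.support R N := by
    rw [Module.support_eq_zeroLocus]
    exact le_trans le_sup_right hP
  have h3 := mem_support_tensorProduct _ h1 h2
  have h4 : Module.annihilator R (M ⊗[R] N) ≤ P := Module.annihilator_le_of_mem_support h3
  have h5 : maximalIdeal R ^ k ≤ P := by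
    intro a ha
    exact h4 (Module.mem_annihilator.2 (hk a ha))
  exact hPp.le_of_pow_le h5

/-- Tor modules have finite length as soon as `M ⊗ N` has. -/
theorem tor_length_ne_top [IsNoetherianRing R] (n : ℕ) (M N : Type u) [AddCommGroup M]
    [Module R M] [AddCommGroup N] [Module R N] [Module.Finite R M] [Module.Finite R N]
    (h : Module.length R (M ⊗[R] N) ≠ ⊤) : Module.length R (TorM R n M N) ≠ ⊤ := by
  obtain ⟨k, hk⟩ := exists_pow_le_sup_annihilator M N h
  have := tor_finite (R := R) n M N
  rw [Module.length_ne_top_iff]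
  refine isFiniteLength_of_pow_smul_eq_zero k ?_
  intro a ha x
  obtain ⟨b, hb, c, hc, rfl⟩ := Submodule.mem_sup.1 (hk ha)
  rw [add_smul, tor_smul_eq_zero_left b (fun m => Module.mem_annihilator.1 hb m) n N x,
    tor_smul_eq_zero_right c (fun m => Module.mem_annihilator.1 hc m) n M x, add_zero]

end local_ring

end Vale.Agent.P177
end

section

/-!
Change of rings for Tor along a quotient by a regular element.
-/

namespace Vale.Agent.P177

open TensorProduct Function

universe u

section prelim

theorem ker_equiv {A : Type*} [CommRing A] {X X' Y Y' : Type*} [AddCommGroup X] [Module A X]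
    [AddCommGroup X'] [Module A X'] [AddCommGroup Y] [Module A Y] [AddCommGroup Y'] [Module A Y']
    (e : X ≃ₗ[A] X') (e' : Y ≃ₗ[A] Y') (φ : X →ₗ[A] Y) (ψ : X' →ₗ[A] Y')
    (h : ∀ x, ψ (e x) = e' (φ x)) : Nonempty (LinearMap.ker φ ≃ₗ[A] LinearMap.ker ψ) := by
  refine ⟨LinearEquiv.ofSubmodules e _ _ ?_⟩
  ext x
  simp only [Submodule.mem_map, LinearMap.mem_ker]
  constructor
  · rintro ⟨y, hy, rfl⟩
    change ψ (e y) = 0
    rw [h, hy, map_zero]
  · intro hx
    refine ⟨e.symm x, ?_, by simp⟩
    apply e'.injective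
    rw [← h, LinearEquiv.apply_symm_apply, hx, map_zero]

theorem length_ker_add_range {A : Type*} [Ring A] {X Y : Type*} [AddCommGroup X] [Module A X]
    [AddCommGroup Y] [Module A Y] (φ : X →ₗ[A] Y) :
    Module.length A X = Module.length A (LinearMap.ker φ) + Module.length A (LinearMap.range φ) :=
  Module.length_eq_add_of_exact (LinearMap.ker φ).subtype φ.rangeRestrict
    (Submodule.injective_subtype _) (LinearMap.surjective_rangeRestrict φ) (by
      intro x
      rw [Subtype.ext_iff]
      simp)

end prelim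

variable {R A : Type u} [CommRing R] [CommRing A] [Algebra R A] {f : R}

/-- Standing hypotheses: `A = R/(f)` with `f` a nonzerodivisor. -/
structure IsHypersurface (R A : Type u) [CommRing R] [CommRing A] [Algebra R A] (f : R) :
    Prop where
  regular : IsSMulRegular R f
  surj : Function.Surjective (algebraMap R A)
  ker : RingHom.ker (algebraMap R A) = Ideal.span {f}

namespace IsHypersurface

variable (H : IsHypersurface R A f)
include H

lemma algebraMap_f : algebraMap R A f = 0 := by
  have : f ∈ RingHom.ker (algebraMap R A) := by rw [H.ker]; exact Ideal.mem_span_singleton_self f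
  exact this

lemma smul_eq_zero {N : Type u} [AddCommGroup N] [Module R N] [Module A N] [IsScalarTower R A N]
    (x : N) : f • x = 0 := by
  rw [← algebraMap_smul A f x, H.algebraMap_f, zero_smul]

lemma one_tmul_surj {X : Type u} [AddCommGroup X] [Module R X] (z : A ⊗[R] X) :
    ∃ x : X, z = (1 : A) ⊗ₜ[R] x := by
  obtain ⟨x, hx⟩ := TensorProduct.mk_surjective R X A H.surj z
  exact ⟨x, hx.symm⟩

lemma one_tmul_eq_zero {X : Type u} [AddCommGroup X] [Module R X] (x : X)
    (hx : (1 : A) ⊗ₜ[R] x = 0) : ∃ y : X, x = f • y := by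
  have hex : Function.Exact (LinearMap.lsmul R R f) (Algebra.linearMap R A) := by
    intro a
    simp only [Algebra.linearMap_apply, LinearMap.lsmul_apply, smul_eq_mul, Set.mem_range]
    constructor
    · intro ha
      have : a ∈ RingHom.ker (algebraMap R A) := ha
      rw [H.ker, Ideal.mem_span_singleton] at this
      obtain ⟨c, rfl⟩ := this
      exact ⟨c, rfl⟩
    · rintro ⟨c, rfl⟩
      rw [map_mul, H.algebraMap_f, zero_mul]
  have h2 := rTensor_exact X hex H.surj
  have h3 : (Algebra.linearMap R A).rTensor X ((1 : R) ⊗ₜ[R] x) = 0 := by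
    simpa using hx
  obtain ⟨w, hw⟩ := (h2 _).1 h3
  refine ⟨TensorProduct.lid R X w, ?_⟩
  have h4 : ∀ w : R ⊗[R] X, TensorProduct.lid R X ((LinearMap.lsmul R R f).rTensor X w) =
      f • TensorProduct.lid R X w := by
    intro w
    induction w using TensorProduct.induction_on with
    | zero => simp
    | tmul a b => simp [mul_smul]
    | add a b ha hb => rw [map_add, map_add, ha, hb, map_add, smul_add]
  rw [← h4, hw]
  simp

lemma smul_tmul_one {X : Type u} [AddCommGroup X] [Module R X] (x : X) :
    (1 : A) ⊗ₜ[R] (f • x) = 0 := by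
  rw [← TensorProduct.smul_tmul, Algebra.smul_def, H.algebraMap_f, zero_mul,
    TensorProduct.zero_tmul]

end IsHypersurface

section basechange

/-- Existence of base change as an opaque module. -/
theorem exists_baseChange (A : Type u) [CommRing A] [Algebra R A] (K : Type u) [AddCommGroup K]
    [Module R K] :
    ∃ (X : Type u) (_ : AddCommGroup X) (_ : Module R X) (_ : Module A X)
      (_ : IsScalarTower R A X) (φ : K →ₗ[R] X), IsBaseChange A φ :=
  ⟨A ⊗[R] K, inferInstance, inferInstance, inferInstance, inferInstance,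
    TensorProduct.mk R A K 1, TensorProduct.isBaseChange R K A⟩

variable {K F M X Y N : Type u} [AddCommGroup K] [Module R K] [AddCommGroup F] [Module R F]
  [AddCommGroup M] [Module R M]
  [AddCommGroup X] [Module R X] [Module A X] [IsScalarTower R A X]
  [AddCommGroup Y] [Module R Y] [Module A Y] [IsScalarTower R A Y]
  [AddCommGroup N] [Module R N] [Module A N] [IsScalarTower R A N]

theorem IsHypersurface.baseChange_surj (H : IsHypersurface R A f) {φ : K →ₗ[R] X}
    (hφ : IsBaseChange A φ) : Surjective φ := by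
  intro x
  obtain ⟨k, hk⟩ := H.one_tmul_surj (hφ.equiv.symm x)
  refine ⟨k, ?_⟩
  have := congrArg hφ.equiv hk
  rw [LinearEquiv.apply_symm_apply] at this
  rw [this, IsBaseChange.equiv_tmul, one_smul]

theorem IsHypersurface.baseChange_eq_zero (H : IsHypersurface R A f) {φ : K →ₗ[R] X}
    (hφ : IsBaseChange A φ) (k : K) (hk : φ k = 0) : ∃ k', k = f • k' := by
  apply H.one_tmul_eq_zero k
  apply hφ.equiv.injective
  rw [IsBaseChange.equiv_tmul, one_smul, hk, map_zero]

theorem IsHypersurface.baseChange_smul (H : IsHypersurface R A f) (φ : K →ₗ[R] X)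
    (k : K) : φ (f • k) = 0 := by
  rw [map_smul, H.smul_eq_zero]

/-- `N ⊗[A] X = N ⊗[R] K` for a base change `X` of `K`. -/
theorem exists_cancel {φ : K →ₗ[R] X} (hφ : IsBaseChange A φ) (N : Type u) [AddCommGroup N]
    [Module R N] [Module A N] [IsScalarTower R A N] :
    ∃ e : N ⊗[A] X ≃ₗ[A] N ⊗[R] K, ∀ n k, e (n ⊗ₜ[A] φ k) = n ⊗ₜ[R] k := by
  refine ⟨TensorProduct.congr (LinearEquiv.refl A N) hφ.equiv.symm ≪≫ₗ
    AlgebraTensorModule.cancelBaseChange R A A N K, ?_⟩
  intro n k
  have h1 : hφ.equiv.symm (φ k) = (1 : A) ⊗ₜ[R] k := by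
    rw [LinearEquiv.symm_apply_eq, IsBaseChange.equiv_tmul, one_smul]
  simp [h1]

theorem length_tensor_baseChange (hsurj : Function.Surjective (algebraMap R A))
    {φ : K →ₗ[R] X} (hφ : IsBaseChange A φ) (N : Type u) [AddCommGroup N]
    [Module R N] [Module A N] [IsScalarTower R A N] :
    Module.length R (K ⊗[R] N) = Module.length A (X ⊗[A] N) := by
  obtain ⟨e, -⟩ := exists_cancel hφ N
  rw [(TensorProduct.comm R K N).length_eq, (TensorProduct.comm A X N).length_eq, e.length_eq,
    Module.length_eq_of_surjective (S := R) (R := A) hsurj]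

/-- comparison of degree one kernels. -/
theorem length_ker_baseChange (hsurj : Function.Surjective (algebraMap R A))
    {φ : K →ₗ[R] X} (hφ : IsBaseChange A φ) {ψ : F →ₗ[R] Y} (hψ : IsBaseChange A ψ)
    (i : K →ₗ[R] F) (j : X →ₗ[A] Y) (hij : ∀ k, j (φ k) = ψ (i k))
    (N : Type u) [AddCommGroup N] [Module R N] [Module A N] [IsScalarTower R A N] :
    Module.length R (LinearMap.ker (i.rTensor N)) =
      Module.length A (LinearMap.ker (j.rTensor N)) := by
  obtain ⟨e1⟩ := ker_comm (N := N) i
  obtain ⟨e2⟩ := ker_comm (N := N) j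
  rw [e1.length_eq, e2.length_eq]
  let θ : N ⊗[R] K →ₗ[A] N ⊗[R] F := AlgebraTensorModule.map LinearMap.id i
  have h1 : Module.length R (LinearMap.ker (i.lTensor N)) =
      Module.length R (LinearMap.ker θ) := by
    have : LinearMap.ker (i.lTensor N) = (LinearMap.ker θ).restrictScalars R := by
      ext x
      rfl
    rw [this]
    rfl
  rw [h1, Module.length_eq_of_surjective (S := R) (R := A) hsurj]
  obtain ⟨eX, heX⟩ := exists_cancel hφ N
  obtain ⟨eY, heY⟩ := exists_cancel hψ N
  have hX : ∀ z : N ⊗[R] K, j.lTensor N (eX.symm z) = eY.symm (θ z) := by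
    intro z
    induction z using TensorProduct.induction_on with
    | zero => simp
    | tmul n k =>
      have a1 : eX.symm (n ⊗ₜ[R] k) = n ⊗ₜ[A] φ k := by
        rw [LinearEquiv.symm_apply_eq, heX]
      have a2 : eY.symm (n ⊗ₜ[R] i k) = n ⊗ₜ[A] ψ (i k) := by
        rw [LinearEquiv.symm_apply_eq, heY]
      have a3 : θ (n ⊗ₜ[R] k) = n ⊗ₜ[R] i k := by simp [θ]
      rw [a1, a3, a2, LinearMap.lTensor_tmul, hij]
    | add a b ha hb => rw [map_add, map_add, ha, hb, map_add, map_add]
  obtain ⟨e3⟩ := ker_equiv eX.symm eY.symm θ (j.lTensor N) hX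
  exact e3.length_eq

/-- injectivity of the base change of an inclusion with `f`-regular cokernel. -/
theorem IsHypersurface.baseChange_injective (H : IsHypersurface R A f)
    {φ : K →ₗ[R] X} (hφ : IsBaseChange A φ) {ψ : F →ₗ[R] Y} (hψ : IsBaseChange A ψ)
    (i : K →ₗ[R] F) (j : X →ₗ[A] Y) (hij : ∀ k, j (φ k) = ψ (i k))
    (g : F →ₗ[R] M) (hi : Injective i) (h : Exact i g) (hM : IsSMulRegular M f) :
    Injective j := by
  rw [injective_iff_map_eq_zero]
  intro z hz
  obtain ⟨x, rfl⟩ := H.baseChange_surj hφ z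
  rw [hij] at hz
  obtain ⟨y, hy⟩ := H.baseChange_eq_zero hψ _ hz
  have h1 : f • g y = 0 := by
    rw [← map_smul, ← hy]
    exact (h _).2 ⟨x, rfl⟩
  have h2 : g y = 0 := hM (by simpa using h1)
  obtain ⟨k, hk⟩ := (h y).1 h2
  have h3 : x = f • k := hi (by rw [hy, map_smul, hk])
  rw [h3, H.baseChange_smul]

/-- exactness of the base change. -/
theorem IsHypersurface.baseChange_exact (H : IsHypersurface R A f)
    {φ : K →ₗ[R] X} (hφ : IsBaseChange A φ) {ψ : F →ₗ[R] Y} (hψ : IsBaseChange A ψ)
    {Z : Type u} [AddCommGroup Z] [Module R Z] [Module A Z] [IsScalarTower R A Z]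
    {χ : M →ₗ[R] Z} (hχ : IsBaseChange A χ)
    (i : K →ₗ[R] F) (j : X →ₗ[A] Y) (hij : ∀ k, j (φ k) = ψ (i k))
    (g : F →ₗ[R] M) (hg : Surjective g) (q : Y →ₗ[A] Z) (hq : ∀ y, q (ψ y) = χ (g y))
    (h : Exact i g) : Exact j q ∧ Surjective q := by
  refine ⟨?_, ?_⟩
  · intro y
    constructor
    · intro hy
      obtain ⟨y, rfl⟩ := H.baseChange_surj hψ y
      rw [hq] at hy
      obtain ⟨m, hm⟩ := H.baseChange_eq_zero hχ _ hy
      obtain ⟨y', rfl⟩ := hg m
      have : g (y - f • y') = 0 := by rw [map_sub, map_smul, hm, sub_self]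
      obtain ⟨k, hk⟩ := (h _).1 this
      refine ⟨φ k, ?_⟩
      rw [hij, hk, map_sub, H.baseChange_smul, sub_zero]
    · rintro ⟨x, rfl⟩
      obtain ⟨k, rfl⟩ := H.baseChange_surj hφ x
      rw [hij, hq, (h _).2 ⟨k, rfl⟩, map_zero]
  · intro z
    obtain ⟨m, rfl⟩ := H.baseChange_surj hχ z
    obtain ⟨y, rfl⟩ := hg m
    exact ⟨ψ y, hq y⟩

theorem IsHypersurface.regular_of_flat (H : IsHypersurface R A f) (F : Type u) [AddCommGroup F]
    [Module R F] [Module.Flat R F] : IsSMulRegular F f := by
  apply Module.Flat.isSMulRegular_of_isRegular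
  have h1 : IsLeftRegular f := isLeftRegular_iff.2 H.regular
  exact ⟨h1, fun a b hab => h1 (by simpa [mul_comm] using hab)⟩

/-- Change of rings for Tor: if `f` is regular on `K` then
`Tor^R(K,N)` and `Tor^A(K/fK,N)` have the same length. -/
theorem IsHypersurface.length_tor_baseChange (H : IsHypersurface R A f) (n : ℕ)
    {K X : Type u} [AddCommGroup K] [Module R K]
    [AddCommGroup X] [Module R X] [Module A X] [IsScalarTower R A X]
    {φ : K →ₗ[R] X} (hφ : IsBaseChange A φ) (hK : IsSMulRegular K f)
    (N : Type u) [AddCommGroup N] [Module R N] [Module A N] [IsScalarTower R A N] :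
    Module.length R (TorM R n K N) = Module.length A (TorM A n X N) := by
  induction n generalizing K X with
  | zero =>
    rw [(torZero K N).length_eq, length_tensor_baseChange H.surj hφ N, (torZero X N).length_eq]
  | succ n ih =>
    obtain ⟨F, K1, _, _, _, _, i, g, hF, hi, hg, h⟩ := exists_cover R K
    obtain ⟨Y, _, _, _, _, ψ, hψ⟩ := exists_baseChange (R := R) A F
    obtain ⟨X1, _, _, _, _, φ1, hφ1⟩ := exists_baseChange (R := R) A K1
    let j : X1 →ₗ[A] Y := hφ1.lift (ψ ∘ₗ i)
    have hj : ∀ k, j (φ1 k) = ψ (i k) := fun k => hφ1.lift_eq _ k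
    let q : Y →ₗ[A] X := hψ.lift (φ ∘ₗ g)
    have hq : ∀ y, q (ψ y) = φ (g y) := fun y => hψ.lift_eq _ y
    have hjinj : Injective j := H.baseChange_injective hφ1 hψ i j hj g hi h hK
    obtain ⟨hex, hqs⟩ := H.baseChange_exact hφ1 hψ hφ i j hj g hg q hq h
    have hYflat : Module.Flat A Y := Module.Flat.isBaseChange R A F Y hψ
    have hFr : IsSMulRegular F f := H.regular_of_flat F
    have hK1 : IsSMulRegular K1 f := by
      intro a b hab
      apply hi
      apply hFr
      simpa using congrArg i hab
    cases n with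
    | zero =>
      obtain ⟨e1⟩ := tor_one i g hi hg h N
      obtain ⟨e2⟩ := tor_one j q hjinj hqs hex N
      rw [e1.length_eq, e2.length_eq]
      exact length_ker_baseChange H.surj hφ1 hψ i j hj N
    | succ n =>
      obtain ⟨e1⟩ := tor_shift i g hi hg h N n
      obtain ⟨e2⟩ := tor_shift j q hjinj hqs hex N n
      rw [e1.length_eq, e2.length_eq]
      exact ih hφ1 hK1

end basechange

end Vale.Agent.P177
end

section

/-!
The change of rings numerics: relation between `Tor^R` and `Tor^A`, for `A = R/(f)`.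
-/

namespace Vale.Agent.P177

open TensorProduct Function

universe u

/-- The key exact sequence `0 → M → X → Y → M → 0` where `X`, `Y` are base changes. -/
theorem IsHypersurface.exists_jm {R A : Type u} [CommRing R] [CommRing A] [Algebra R A] {f : R}
    (H : IsHypersurface R A f)
    {M F M1 X Y : Type u} [AddCommGroup M] [Module R M] [Module A M] [IsScalarTower R A M]
    [AddCommGroup F] [Module R F] [Module.Flat R F] [AddCommGroup M1] [Module R M1]
    [AddCommGroup X] [Module R X] [Module A X] [IsScalarTower R A X]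
    [AddCommGroup Y] [Module R Y] [Module A Y] [IsScalarTower R A Y]
    (i : M1 →ₗ[R] F) (g : F →ₗ[R] M) (hi : Injective i) (hg : Surjective g) (h : Exact i g)
    {φ : M1 →ₗ[R] X} (hφ : IsBaseChange A φ) {ψ : F →ₗ[R] Y} (hψ : IsBaseChange A ψ)
    (j : X →ₗ[A] Y) (hj : ∀ k, j (φ k) = ψ (i k)) :
    ∃ jm : M →ₗ[A] X, Injective jm ∧ Exact jm j := by
  have hFr : IsSMulRegular F f := H.regular_of_flat F
  have hgf : ∀ y, g (f • y) = 0 := fun y => by rw [map_smul, H.smul_eq_zero]
  have hex : ∀ y, ∃ k, i k = f • y := fun y => (h _).1 (hgf y)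
  choose s0 hs0 using hex
  let s : F →ₗ[R] M1 :=
    { toFun := s0
      map_add' := fun x y => hi (by rw [map_add, hs0, hs0, hs0, smul_add])
      map_smul' := fun r x => hi (by
        rw [map_smul, hs0, hs0, RingHom.id_apply, smul_comm]) }
  have hs : ∀ y, i (s y) = f • y := hs0
  have hker : LinearMap.ker g ≤ LinearMap.ker (φ ∘ₗ s) := by
    intro y hy
    obtain ⟨k, rfl⟩ := (h y).1 hy
    have h1 : s (i k) = f • k := hi (by rw [hs, map_smul])
    rw [LinearMap.mem_ker, LinearMap.comp_apply, h1, H.baseChange_smul]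
  let t : M →ₗ[R] X := (LinearMap.ker g).liftQ (φ ∘ₗ s) hker ∘ₗ
    (g.quotKerEquivOfSurjective hg).symm.toLinearMap
  have ht : ∀ y, t (g y) = φ (s y) := by
    intro y
    have h1 : (g.quotKerEquivOfSurjective hg).symm (g y) = (LinearMap.ker g).mkQ y := by
      rw [LinearEquiv.symm_apply_eq]
      rfl
    change (LinearMap.ker g).liftQ (φ ∘ₗ s) hker
      ((g.quotKerEquivOfSurjective hg).symm (g y)) = _
    rw [h1, Submodule.mkQ_apply, Submodule.liftQ_apply]
    rfl
  refine ⟨t.extendScalarsOfSurjective H.surj, ?_, ?_⟩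
  · rw [injective_iff_map_eq_zero]
    intro m hm
    obtain ⟨y, rfl⟩ := hg m
    have hm' : φ (s y) = 0 := by rw [← ht]; exact hm
    obtain ⟨k', hk'⟩ := H.baseChange_eq_zero hφ _ hm'
    have h2 : f • y = f • i k' := by rw [← hs, hk', map_smul]
    rw [hFr h2]
    exact (h _).2 ⟨k', rfl⟩
  · intro x
    constructor
    · intro hx
      obtain ⟨k, rfl⟩ := H.baseChange_surj hφ x
      rw [hj] at hx
      obtain ⟨y, hy⟩ := H.baseChange_eq_zero hψ _ hx
      have h3 : k = s y := hi (by rw [hs, hy])
      refine ⟨g y, ?_⟩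
      change t (g y) = _
      rw [ht, h3]
    · rintro ⟨m, rfl⟩
      obtain ⟨y, rfl⟩ := hg m
      change j (t (g y)) = 0
      rw [ht, hj, hs, H.baseChange_smul]

/-- A module over a quotient is its own base change. -/
theorem isBaseChange_id_of_surjective {R A : Type u} [CommRing R] [CommRing A] [Algebra R A]
    (hsurj : Function.Surjective (algebraMap R A))
    (M : Type u) [AddCommGroup M] [Module R M] [Module A M] [IsScalarTower R A M] :
    IsBaseChange A (LinearMap.id : M →ₗ[R] M) := by
  refine IsBaseChange.of_lift_unique _ ?_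
  intro Q _ _ _ _ g
  refine ⟨g.extendScalarsOfSurjective hsurj, ?_, ?_⟩
  · ext x
    rfl
  · intro g' hg'
    ext x
    rw [← hg']
    rfl

/-- length of the kernel of a composite, the first map being surjective -/
theorem length_ker_comp {A : Type*} [Ring A] {X Y Z : Type*} [AddCommGroup X] [Module A X]
    [AddCommGroup Y] [Module A Y] [AddCommGroup Z] [Module A Z] (u : X →ₗ[A] Y) (v : Y →ₗ[A] Z)
    (hu : Surjective u) :
    Module.length A (LinearMap.ker (v ∘ₗ u)) =
      Module.length A (LinearMap.ker u) + Module.length A (LinearMap.ker v) := by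
  have hle : LinearMap.ker u ≤ LinearMap.ker (v ∘ₗ u) := LinearMap.ker_le_ker_comp u v
  have hres : ∀ x ∈ LinearMap.ker (v ∘ₗ u), u x ∈ LinearMap.ker v := fun x hx => hx
  refine Module.length_eq_add_of_exact (Submodule.inclusion hle) (u.restrict hres)
    (Submodule.inclusion_injective hle) ?_ ?_
  · rintro ⟨y, hy⟩
    obtain ⟨x, rfl⟩ := hu y
    exact ⟨⟨x, hy⟩, rfl⟩
  · rintro ⟨x, hx⟩
    constructor
    · intro h
      have h' : u x = 0 := congrArg Subtype.val h
      exact ⟨⟨x, h'⟩, rfl⟩
    · rintro ⟨⟨y, hy⟩, hyx⟩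
      apply Subtype.ext
      have h1 : y = x := congrArg Subtype.val hyx
      subst h1
      exact hy

/-- **Change of rings**, numerical form. -/
theorem IsHypersurface.exists_rho {R A : Type u} [CommRing R] [CommRing A] [Algebra R A] {f : R}
    (H : IsHypersurface R A f)
    (M N : Type u) [AddCommGroup M] [Module R M] [Module A M] [IsScalarTower R A M]
    [AddCommGroup N] [Module R N] [Module A N] [IsScalarTower R A N] :
    ∃ ρ a b : ℕ → ℕ∞, ρ 0 = 0 ∧
      Module.length R (TorM R 0 M N) = Module.length A (TorM A 0 M N) ∧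
      (∀ n, Module.length A (TorM A n M N) = ρ (n + 1) + a n) ∧
      (∀ n, Module.length R (TorM R (n + 1) M N) = a n + b n) ∧
      (∀ n, Module.length A (TorM A (n + 1) M N) = b n + ρ n) := by
  obtain ⟨F, M1, _, _, _, _, i, g, hF, hi, hg, h⟩ := exists_cover R M
  obtain ⟨Y, _, _, _, _, ψ, hψ⟩ := exists_baseChange (R := R) A F
  obtain ⟨X, _, _, _, _, φ, hφ⟩ := exists_baseChange (R := R) A M1
  let j : X →ₗ[A] Y := hφ.lift (ψ ∘ₗ i)
  have hj : ∀ k, j (φ k) = ψ (i k) := fun k => hφ.lift_eq _ k
  let q : Y →ₗ[A] M := hψ.lift g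
  have hq : ∀ y, q (ψ y) = g y := fun y => hψ.lift_eq _ y
  obtain ⟨jm, hjm, hjmj⟩ := H.exists_jm i g hi hg h hφ hψ j hj
  have hYflat : Module.Flat A Y := Module.Flat.isBaseChange R A F Y hψ
  have hFr : IsSMulRegular F f := H.regular_of_flat F
  have hM1r : IsSMulRegular M1 f := by
    intro a b hab
    apply hi
    apply hFr
    simpa using congrArg i hab
  have hqs : Surjective q := by
    intro m
    obtain ⟨y, rfl⟩ := hg m
    exact ⟨ψ y, hq y⟩
  have hqj : ∀ x, q (j x) = 0 := by
    intro x
    obtain ⟨k, rfl⟩ := H.baseChange_surj hφ x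
    rw [hj, hq]
    exact (h _).2 ⟨k, rfl⟩
  let u : X →ₗ[A] LinearMap.ker q := j.codRestrict _ hqj
  have hus : Surjective u := by
    rintro ⟨y, hy⟩
    obtain ⟨y', rfl⟩ := H.baseChange_surj hψ y
    rw [LinearMap.mem_ker, hq] at hy
    obtain ⟨k, rfl⟩ := (h _).1 hy
    exact ⟨φ k, Subtype.ext (hj k)⟩
  have hujm : Exact jm u := by
    intro x
    rw [← hjmj x]
    exact ⟨fun hx => congrArg Subtype.val hx, fun hx => Subtype.ext hx⟩
  have hKY : Exact (LinearMap.ker q).subtype q := by
    intro y
    simp
  obtain ⟨δ, h1, h2, h3⟩ := exists_torDelta jm u hjm hus hujm N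
  have hX : ∀ n, Module.length A (TorM A (n + 1) X N) = Module.length R (TorM R (n + 2) M N) := by
    intro n
    obtain ⟨e⟩ := tor_shift i g hi hg h N n
    rw [e.length_eq]
    exact (H.length_tor_baseChange (n + 1) hφ hM1r N).symm
  have hK : ∀ n, Module.length A (TorM A (n + 2) M N) =
      Module.length A (TorM A (n + 1) (LinearMap.ker q) N) := by
    intro n
    obtain ⟨e⟩ := tor_shift (LinearMap.ker q).subtype q (Submodule.injective_subtype _) hqs hKY N n
    exact e.length_eq
  refine ⟨fun n => Nat.casesOn n 0 (fun n => Module.length A (LinearMap.range (δ n))),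
    fun n => Module.length A (LinearMap.range (torMap n jm N)),
    fun n => Nat.casesOn n (Module.length A (TorM A 1 M N))
      (fun n => Module.length A (LinearMap.range (torMap (n + 1) u N))), rfl, ?_, ?_, ?_, ?_⟩
  · have hid : IsBaseChange A (LinearMap.id : M →ₗ[R] M) :=
      isBaseChange_id_of_surjective H.surj M
    rw [(torZero M N).length_eq, length_tensor_baseChange H.surj hid N, (torZero M N).length_eq]
  · intro n
    rw [length_ker_add_range (torMap n jm N), LinearMap.exact_iff.1 (h2 n)]
  · intro n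
    cases n with
    | zero =>
      obtain ⟨e1⟩ := tor_one i g hi hg h N
      obtain ⟨e2⟩ := tor_one (LinearMap.ker q).subtype q (Submodule.injective_subtype _) hqs hKY N
      rw [e1.length_eq, length_ker_baseChange H.surj hφ hψ i j hj N]
      change _ = Module.length A (LinearMap.range (torMap 0 jm N)) +
        Module.length A (TorM A 1 M N)
      have h5 : Module.length A (TorM A 1 M N) =
          Module.length A (LinearMap.ker ((LinearMap.ker q).subtype.rTensor N)) :=
        LinearEquiv.length_eq e2
      rw [h5, ← LinearMap.exact_iff.1 (h3 0)]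
      obtain ⟨e3⟩ := ker_equiv (torZero X N) (torZero _ N) (torMap 0 u N) (u.rTensor N)
        (fun x => (torZero_naturality u x).symm)
      have h6 : Module.length A (LinearMap.ker (torMap 0 u N)) = _ := e3.length_eq
      rw [h6]
      have hju : j = (LinearMap.ker q).subtype ∘ₗ u := rfl
      rw [hju, LinearMap.rTensor_comp]
      exact length_ker_comp _ _ (LinearMap.rTensor_surjective N hus)
    | succ n =>
      rw [← hX n, length_ker_add_range (torMap (n + 1) u N), LinearMap.exact_iff.1 (h3 (n + 1))]
  · intro n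
    cases n with
    | zero =>
      change _ = Module.length A (TorM A 1 M N) + 0
      rw [add_zero]
    | succ n =>
      rw [hK n, length_ker_add_range (δ n), LinearMap.exact_iff.1 (h1 n)]

end Vale.Agent.P177
end

section

/-!
The transfer principle: `χ^R(M,N)` only depends on the hypersurface `A = R/(f)`.
-/

namespace Vale.Agent.P177

open TensorProduct Function

universe u

/-- Truncated Euler characteristic of Tor. -/
noncomputable def eulerTor (R : Type u) [CommRing R] (n : ℕ) (M N : Type u) [AddCommGroup M]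
    [Module R M] [AddCommGroup N] [Module R N] : ℤ :=
  ∑ i ∈ Finset.range n, (-1) ^ i * ((Module.length R (TorM R i M N)).toNat : ℤ)

theorem numeric {t r ρ a b : ℕ → ℕ∞} (hρ : ρ 0 = 0) (h0 : r 0 = t 0)
    (h1 : ∀ n, t n = ρ (n + 1) + a n) (h2 : ∀ n, r (n + 1) = a n + b n)
    (h3 : ∀ n, t (n + 1) = b n + ρ n) (hfin : ∀ n, t n ≠ ⊤) (n : ℕ) :
    ∑ i ∈ Finset.range (n + 1), (-1) ^ i * ((r i).toNat : ℤ) =
      (-1) ^ n * (((t n).toNat : ℤ) - (ρ n).toNat) := by
  have ha : ∀ n, a n ≠ ⊤ := fun n h => hfin n (by rw [h1, h, add_top])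
  have hb : ∀ n, b n ≠ ⊤ := fun n h => hfin (n + 1) (by rw [h3, h, top_add])
  have hρf : ∀ n, ρ n ≠ ⊤ := fun n h => hfin (n + 1) (by rw [h3, h, add_top])
  have hr : ∀ n, r n ≠ ⊤ := by
    intro n
    cases n with
    | zero => rw [h0]; exact hfin 0
    | succ n => rw [h2]; exact WithTop.add_ne_top.2 ⟨ha n, hb n⟩
  have e1 : ∀ n, ((t n).toNat : ℤ) = (ρ (n + 1)).toNat + (a n).toNat := by
    intro n
    rw [h1, ENat.toNat_add (hρf _) (ha _)]
    push_cast
    ring
  have e2 : ∀ n, ((r (n + 1)).toNat : ℤ) = (a n).toNat + (b n).toNat := by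
    intro n
    rw [h2, ENat.toNat_add (ha _) (hb _)]
    push_cast
    ring
  have e3 : ∀ n, ((t (n + 1)).toNat : ℤ) = (b n).toNat + (ρ n).toNat := by
    intro n
    rw [h3, ENat.toNat_add (hb _) (hρf _)]
    push_cast
    ring
  induction n with
  | zero => simp [hρ, h0]
  | succ n ih =>
    rw [Finset.sum_range_succ, ih, e2, pow_succ]
    have := e1 n
    have := e3 n
    linear_combination (-1) ^ n * e1 n + (-1) ^ n * e3 n

/-- The Euler characteristic over `R` in terms of Tor over `A = R/f`. -/
theorem IsHypersurface.eulerTor_eq {R A : Type u} [CommRing R] [CommRing A] [Algebra R A] {f : R}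
    (H : IsHypersurface R A f)
    (M N : Type u) [AddCommGroup M] [Module R M] [Module A M] [IsScalarTower R A M]
    [AddCommGroup N] [Module R N] [Module A N] [IsScalarTower R A N]
    (hfin : ∀ n, Module.length A (TorM A n M N) ≠ ⊤) (n : ℕ)
    (hn : Module.length R (TorM R (n + 1) M N) = 0) :
    eulerTor R (n + 1) M N = (-1) ^ n * (((Module.length A (TorM A n M N)).toNat : ℤ) -
      (Module.length A (TorM A (n + 1) M N)).toNat) := by
  obtain ⟨ρ, a, b, hρ, h0, h1, h2, h3⟩ := H.exists_rho M N
  unfold eulerTor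
  rw [numeric hρ h0 h1 h2 h3 hfin n, h3 n]
  have hab := h2 n
  rw [hn] at hab
  have hb : b n = 0 := by
    have : b n ≤ 0 := by rw [hab]; exact le_add_self
    exact le_antisymm this bot_le
  rw [hb, zero_add]

end Vale.Agent.P177
end

section

/-!
Flat base change for Tor.
-/

namespace Vale.Agent.P177

open TensorProduct Function

universe u

variable {S B : Type u} [CommRing S] [CommRing B] [Algebra S B]

section

variable {K F M X Y Z : Type u} [AddCommGroup K] [Module S K] [AddCommGroup F] [Module S F]
  [AddCommGroup M] [Module S M]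
  [AddCommGroup X] [Module S X] [Module B X] [IsScalarTower S B X]
  [AddCommGroup Y] [Module S Y] [Module B Y] [IsScalarTower S B Y]
  [AddCommGroup Z] [Module S Z] [Module B Z] [IsScalarTower S B Z]

theorem bc_square {φ : K →ₗ[S] X} (hφ : IsBaseChange B φ) {ψ : F →ₗ[S] Y} (hψ : IsBaseChange B ψ)
    (i : K →ₗ[S] F) (j : X →ₗ[B] Y) (hij : ∀ k, j (φ k) = ψ (i k)) (z : B ⊗[S] K) :
    j (hφ.equiv z) = hψ.equiv (i.lTensor B z) := by
  induction z using TensorProduct.induction_on with
  | zero => simp
  | tmul b k => simp [hij, IsBaseChange.equiv_tmul]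
  | add x y hx hy => rw [map_add, map_add, hx, hy, map_add, map_add]

theorem bc_injective [Module.Flat S B] {φ : K →ₗ[S] X} (hφ : IsBaseChange B φ) {ψ : F →ₗ[S] Y}
    (hψ : IsBaseChange B ψ)
    (i : K →ₗ[S] F) (j : X →ₗ[B] Y) (hij : ∀ k, j (φ k) = ψ (i k)) (hi : Injective i) :
    Injective j := by
  rw [injective_iff_map_eq_zero]
  intro x hx
  obtain ⟨z, rfl⟩ := hφ.equiv.surjective x
  rw [bc_square hφ hψ i j hij] at hx
  have h1 := Module.Flat.lTensor_preserves_injective_linearMap (M := B) i hi
  have h2 : i.lTensor B z = 0 := hψ.equiv.injective (by rw [hx, map_zero])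
  rw [h1 (by rw [h2, map_zero] : i.lTensor B z = i.lTensor B 0), map_zero]

theorem bc_surjective {φ : K →ₗ[S] X} (hφ : IsBaseChange B φ) {ψ : F →ₗ[S] Y}
    (hψ : IsBaseChange B ψ)
    (i : K →ₗ[S] F) (j : X →ₗ[B] Y) (hij : ∀ k, j (φ k) = ψ (i k)) (hi : Surjective i) :
    Surjective j := by
  intro y
  obtain ⟨z, rfl⟩ := hψ.equiv.surjective y
  obtain ⟨w, rfl⟩ := LinearMap.lTensor_surjective B hi z
  exact ⟨hφ.equiv w, bc_square hφ hψ i j hij w⟩

theorem bc_exact {φ : K →ₗ[S] X} (hφ : IsBaseChange B φ) {ψ : F →ₗ[S] Y}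
    (hψ : IsBaseChange B ψ) {χ : M →ₗ[S] Z} (hχ : IsBaseChange B χ)
    (i : K →ₗ[S] F) (j : X →ₗ[B] Y) (hij : ∀ k, j (φ k) = ψ (i k))
    (g : F →ₗ[S] M) (q : Y →ₗ[B] Z) (hq : ∀ y, q (ψ y) = χ (g y)) (hg : Surjective g)
    (h : Exact i g) : Exact j q := by
  intro y
  obtain ⟨z, rfl⟩ := hψ.equiv.surjective y
  rw [bc_square hψ hχ g q hq]
  have h1 := lTensor_exact B h hg
  constructor
  · intro hy
    have h2 : g.lTensor B z = 0 := hχ.equiv.injective (by rw [hy, map_zero])
    obtain ⟨w, rfl⟩ := (h1 z).1 h2
    exact ⟨hφ.equiv w, bc_square hφ hψ i j hij w⟩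
  · rintro ⟨x, hx⟩
    obtain ⟨w, rfl⟩ := hφ.equiv.surjective x
    rw [bc_square hφ hψ i j hij] at hx
    have h3 : i.lTensor B w = z := hψ.equiv.injective hx
    rw [(h1 z).2 ⟨w, h3⟩, map_zero]

end

/-- if `B` acts on `T` through scalars from `S` then the lengths agree. -/
theorem length_eq_of_action (T : Type u) [AddCommGroup T] [Module S T] [Module B T]
    [IsScalarTower S B T] (hT : ∀ b : B, ∃ s : S, ∀ t : T, b • t = s • t) :
    Module.length S T = Module.length B T := by
  have e : Submodule B T ≃o Submodule S T :=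
    { toFun := fun W => W.restrictScalars S
      invFun := fun W =>
        { W.toAddSubmonoid with
          smul_mem' := fun b x hx => by
            obtain ⟨s, hs⟩ := hT b
            rw [hs]
            exact W.smul_mem s hx }
      left_inv := fun W => by ext x; rfl
      right_inv := fun W => by ext x; rfl
      map_rel_iff' := Iff.rfl }
  rw [Module.length_eq_height, Module.length_eq_height, ← Order.height_orderIso e]
  simp

section

variable {K F X Y : Type u} [AddCommGroup K] [Module S K] [AddCommGroup F] [Module S F]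
  [AddCommGroup X] [Module S X] [Module B X] [IsScalarTower S B X]
  [AddCommGroup Y] [Module S Y] [Module B Y] [IsScalarTower S B Y]

theorem action_tensor (N : Type u) [AddCommGroup N] [Module S N] [Module B N]
    [IsScalarTower S B N] (hN : ∀ b : B, ∃ s : S, ∀ t : N, b • t = s • t) (K : Type u)
    [AddCommGroup K] [Module S K] :
    ∀ b : B, ∃ s : S, ∀ t : N ⊗[S] K, b • t = s • t := by
  intro b
  obtain ⟨s, hs⟩ := hN b
  refine ⟨s, fun t => ?_⟩
  induction t using TensorProduct.induction_on with
  | zero => simp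
  | tmul x y => rw [TensorProduct.smul_tmul', TensorProduct.smul_tmul', hs]
  | add x y hx hy => rw [smul_add, smul_add, hx, hy]

theorem length_tensor_bc {φ : K →ₗ[S] X} (hφ : IsBaseChange B φ) (N : Type u) [AddCommGroup N]
    [Module S N] [Module B N] [IsScalarTower S B N]
    (hN : ∀ b : B, ∃ s : S, ∀ t : N, b • t = s • t) :
    Module.length S (K ⊗[S] N) = Module.length B (X ⊗[B] N) := by
  obtain ⟨e, -⟩ := exists_cancel hφ N
  rw [(TensorProduct.comm S K N).length_eq, (TensorProduct.comm B X N).length_eq, e.length_eq]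
  exact length_eq_of_action _ (action_tensor N hN K)

/-- The map `N ⊗[S] K → N ⊗[S] F` as a `B`-linear map, and comparison with `B`-tensor products. -/
theorem exists_ker_bc {φ : K →ₗ[S] X} (hφ : IsBaseChange B φ) {ψ : F →ₗ[S] Y}
    (hψ : IsBaseChange B ψ) (i : K →ₗ[S] F) (j : X →ₗ[B] Y) (hij : ∀ k, j (φ k) = ψ (i k))
    (N : Type u) [AddCommGroup N] [Module S N] [Module B N] [IsScalarTower S B N] :
    ∃ θ : N ⊗[S] K →ₗ[B] N ⊗[S] F, (∀ x, θ x = i.lTensor N x) ∧
      Nonempty (LinearMap.ker θ ≃ₗ[B] LinearMap.ker (j.rTensor N)) := by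
  let θ : N ⊗[S] K →ₗ[B] N ⊗[S] F := AlgebraTensorModule.map LinearMap.id i
  refine ⟨θ, fun x => rfl, ?_⟩
  obtain ⟨e2⟩ := ker_comm (N := N) j
  obtain ⟨eX, heX⟩ := exists_cancel hφ N
  obtain ⟨eY, heY⟩ := exists_cancel hψ N
  have hX : ∀ z : N ⊗[S] K, j.lTensor N (eX.symm z) = eY.symm (θ z) := by
    intro z
    induction z using TensorProduct.induction_on with
    | zero => simp
    | tmul n k =>
      have a1 : eX.symm (n ⊗ₜ[S] k) = n ⊗ₜ[B] φ k := by
        rw [LinearEquiv.symm_apply_eq, heX]
      have a2 : eY.symm (n ⊗ₜ[S] i k) = n ⊗ₜ[B] ψ (i k) := by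
        rw [LinearEquiv.symm_apply_eq, heY]
      have a3 : θ (n ⊗ₜ[S] k) = n ⊗ₜ[S] i k := by simp [θ]
      rw [a1, a3, a2, LinearMap.lTensor_tmul, hij]
    | add a b ha hb => rw [map_add, map_add, ha, hb, map_add, map_add]
  obtain ⟨e3⟩ := ker_equiv eX.symm eY.symm θ (j.lTensor N) hX
  exact ⟨e3 ≪≫ₗ e2.symm⟩

theorem length_ker_bc {φ : K →ₗ[S] X} (hφ : IsBaseChange B φ) {ψ : F →ₗ[S] Y}
    (hψ : IsBaseChange B ψ) (i : K →ₗ[S] F) (j : X →ₗ[B] Y) (hij : ∀ k, j (φ k) = ψ (i k))
    (N : Type u) [AddCommGroup N] [Module S N] [Module B N] [IsScalarTower S B N]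
    (hN : ∀ b : B, ∃ s : S, ∀ t : N, b • t = s • t) :
    Module.length S (LinearMap.ker (i.rTensor N)) =
      Module.length B (LinearMap.ker (j.rTensor N)) := by
  obtain ⟨e1⟩ := ker_comm (N := N) i
  rw [e1.length_eq]
  obtain ⟨θ, hθ, ⟨e⟩⟩ := exists_ker_bc hφ hψ i j hij N
  rw [← e.length_eq]
  have h1 : Module.length S (LinearMap.ker (i.lTensor N)) =
      Module.length S (LinearMap.ker θ) := by
    have : LinearMap.ker (i.lTensor N) = (LinearMap.ker θ).restrictScalars S := by
      ext x
      change i.lTensor N x = 0 ↔ θ x = 0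
      rw [hθ]
    rw [this]
    rfl
  rw [h1]
  apply length_eq_of_action
  intro b
  obtain ⟨s, hs⟩ := action_tensor N hN K b
  exact ⟨s, fun t => Subtype.ext (hs t)⟩

end

/-- Flat base change: vanishing. -/
theorem tor_subsingleton_bc [Module.Flat S B] (n : ℕ) {K X : Type u} [AddCommGroup K] [Module S K]
    [AddCommGroup X] [Module S X] [Module B X] [IsScalarTower S B X]
    {φ : K →ₗ[S] X} (hφ : IsBaseChange B φ)
    (N : Type u) [AddCommGroup N] [Module S N] [Module B N] [IsScalarTower S B N]
    [Module.Flat S N] : Subsingleton (TorM B (n + 1) X N) := by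
  induction n generalizing K X with
  | zero =>
    obtain ⟨F, K1, _, _, _, _, i, g, hF, hi, hg, h⟩ := exists_cover S K
    obtain ⟨Y, _, _, _, _, ψ, hψ⟩ := exists_baseChange (R := S) B F
    obtain ⟨X1, _, _, _, _, φ1, hφ1⟩ := exists_baseChange (R := S) B K1
    let j : X1 →ₗ[B] Y := hφ1.lift (ψ ∘ₗ i)
    have hj : ∀ k, j (φ1 k) = ψ (i k) := fun k => hφ1.lift_eq _ k
    let q : Y →ₗ[B] X := hψ.lift (φ ∘ₗ g)
    have hq : ∀ y, q (ψ y) = φ (g y) := fun y => hψ.lift_eq _ y
    have hjinj : Injective j := bc_injective hφ1 hψ i j hj hi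
    have hqs : Surjective q := bc_surjective hψ hφ g q hq hg
    have hex : Exact j q := bc_exact hφ1 hψ hφ i j hj g q hq hg h
    have hYflat : Module.Flat B Y := Module.Flat.isBaseChange S B F Y hψ
    obtain ⟨e2⟩ := tor_one j q hjinj hqs hex N
    obtain ⟨θ, hθ, ⟨e⟩⟩ := exists_ker_bc hφ1 hψ i j hj N
    have h1 : Injective (i.lTensor N) := Module.Flat.lTensor_preserves_injective_linearMap i hi
    have h2 : Subsingleton (LinearMap.ker θ) := by
      refine ⟨fun x y => Subtype.ext (h1 ?_)⟩
      rw [← hθ, ← hθ]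
      exact x.2.trans y.2.symm
    exact (e2 ≪≫ₗ e.symm).toEquiv.subsingleton
  | succ n ih =>
    obtain ⟨F, K1, _, _, _, _, i, g, hF, hi, hg, h⟩ := exists_cover S K
    obtain ⟨Y, _, _, _, _, ψ, hψ⟩ := exists_baseChange (R := S) B F
    obtain ⟨X1, _, _, _, _, φ1, hφ1⟩ := exists_baseChange (R := S) B K1
    let j : X1 →ₗ[B] Y := hφ1.lift (ψ ∘ₗ i)
    have hj : ∀ k, j (φ1 k) = ψ (i k) := fun k => hφ1.lift_eq _ k
    let q : Y →ₗ[B] X := hψ.lift (φ ∘ₗ g)
    have hq : ∀ y, q (ψ y) = φ (g y) := fun y => hψ.lift_eq _ y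
    have hjinj : Injective j := bc_injective hφ1 hψ i j hj hi
    have hqs : Surjective q := bc_surjective hψ hφ g q hq hg
    have hex : Exact j q := bc_exact hφ1 hψ hφ i j hj g q hq hg h
    have hYflat : Module.Flat B Y := Module.Flat.isBaseChange S B F Y hψ
    obtain ⟨e2⟩ := tor_shift j q hjinj hqs hex N n
    have := ih hφ1
    exact e2.toEquiv.subsingleton

/-- Flat base change: lengths. -/
theorem length_tor_bc [Module.Flat S B] (n : ℕ) {K X : Type u} [AddCommGroup K] [Module S K]
    [AddCommGroup X] [Module S X] [Module B X] [IsScalarTower S B X]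
    {φ : K →ₗ[S] X} (hφ : IsBaseChange B φ)
    (N : Type u) [AddCommGroup N] [Module S N] [Module B N] [IsScalarTower S B N]
    (hN : ∀ b : B, ∃ s : S, ∀ t : N, b • t = s • t) :
    Module.length S (TorM S n K N) = Module.length B (TorM B n X N) := by
  induction n generalizing K X with
  | zero =>
    rw [(torZero K N).length_eq, length_tensor_bc hφ N hN, (torZero X N).length_eq]
  | succ n ih =>
    obtain ⟨F, K1, _, _, _, _, i, g, hF, hi, hg, h⟩ := exists_cover S K
    obtain ⟨Y, _, _, _, _, ψ, hψ⟩ := exists_baseChange (R := S) B F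
    obtain ⟨X1, _, _, _, _, φ1, hφ1⟩ := exists_baseChange (R := S) B K1
    let j : X1 →ₗ[B] Y := hφ1.lift (ψ ∘ₗ i)
    have hj : ∀ k, j (φ1 k) = ψ (i k) := fun k => hφ1.lift_eq _ k
    let q : Y →ₗ[B] X := hψ.lift (φ ∘ₗ g)
    have hq : ∀ y, q (ψ y) = φ (g y) := fun y => hψ.lift_eq _ y
    have hjinj : Injective j := bc_injective hφ1 hψ i j hj hi
    have hqs : Surjective q := bc_surjective hψ hφ g q hq hg
    have hex : Exact j q := bc_exact hφ1 hψ hφ i j hj g q hq hg h
    have hYflat : Module.Flat B Y := Module.Flat.isBaseChange S B F Y hψ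
    cases n with
    | zero =>
      obtain ⟨e1⟩ := tor_one i g hi hg h N
      obtain ⟨e2⟩ := tor_one j q hjinj hqs hex N
      rw [e1.length_eq, e2.length_eq]
      exact length_ker_bc hφ1 hψ i j hj N hN
    | succ n =>
      obtain ⟨e1⟩ := tor_shift i g hi hg h N n
      obtain ⟨e2⟩ := tor_shift j q hjinj hqs hex N n
      rw [e1.length_eq, e2.length_eq]
      exact ih hφ1

end Vale.Agent.P177
end

section

/-!
Multiplication maps on Tor.
-/

namespace Vale.Agent.P177

open CategoryTheory TensorProduct Function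

universe u

variable {R : Type u} [CommRing R]

theorem homologyMap_eq_smul (L : ChainComplex (ModuleCat.{u} R) ℕ) (φ : L ⟶ L) (a : R) (n : ℕ)
    (h : ∀ x : L.X n, φ.f n x = a • x) (y : L.homology n) :
    HomologicalComplex.homologyMap φ n y = a • y := by
  have hπ : Function.Surjective (L.homologyπ n) :=
    (ModuleCat.epi_iff_surjective _).1 inferInstance
  have hi : Function.Injective (L.iCycles n) :=
    (ModuleCat.mono_iff_injective _).1 inferInstance
  obtain ⟨z, rfl⟩ := hπ y
  have h1 : HomologicalComplex.cyclesMap φ n z = a • z := by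
    apply hi
    rw [map_smul, ← h]
    exact congrArg (fun t => t.hom z) (HomologicalComplex.cyclesMap_i φ n)
  have h3 : HomologicalComplex.homologyMap φ n (L.homologyπ n z) =
      L.homologyπ n (HomologicalComplex.cyclesMap φ n z) :=
    congrArg (fun t => t.hom z) (HomologicalComplex.homologyπ_naturality φ n)
  rw [h3, h1, map_smul]

variable {M N : Type u} [AddCommGroup M] [Module R M] [AddCommGroup N] [Module R N]

theorem rTensor_eq_smul (a : R) (f : M →ₗ[R] M) (hf : ∀ m, f m = a • m) (y : M ⊗[R] N) :
    f.rTensor N y = a • y := by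
  induction y using TensorProduct.induction_on with
  | zero => simp
  | tmul m p =>
    rw [LinearMap.rTensor_tmul, hf]
    rfl
  | add y z hy hz => rw [map_add, smul_add, hy, hz]

theorem torMap_smul_id (n : ℕ) (a : R) (f : M →ₗ[R] M) (hf : ∀ m, f m = a • m)
    (x : TorM R n M N) : torMap n f N x = a • x := by
  let P := projectiveResolution (ModuleCat.of R N)
  let e := (torIso R n (ModuleCat.of R M) P).toLinearEquiv
  apply e.injective
  rw [map_smul]
  have h2 : e (torMap n f N x) = HomologicalComplex.homologyMap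
      ((tensorComplex R P.complex).map (ModuleCat.ofHom f)) n (e x) :=
    congrArg (fun t => t.hom x) (torIso_naturality R n (ModuleCat.ofHom f) P)
  rw [h2]
  apply homologyMap_eq_smul
  intro y
  exact rTensor_eq_smul a f hf y

end Vale.Agent.P177
end

section

/-!
The local criterion: vanishing of `Tor^B(B ⊗ M, Z)` for all `M` from the residue field.
-/

namespace Vale.Agent.P177

open CategoryTheory TensorProduct Function IsLocalRing

universe u

section basic

variable {B : Type u} [CommRing B] {M' M M'' : Type u} [AddCommGroup M'] [Module B M']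
  [AddCommGroup M] [Module B M] [AddCommGroup M''] [Module B M'']

theorem tor_subsingleton_mid (f : M' →ₗ[B] M) (g : M →ₗ[B] M'') (hf : Injective f)
    (hg : Surjective g) (h : Exact f g) (Z : Type u) [AddCommGroup Z] [Module B Z] (j : ℕ)
    (h1 : Subsingleton (TorM B j M' Z)) (h2 : Subsingleton (TorM B j M'' Z)) :
    Subsingleton (TorM B j M Z) := by
  obtain ⟨δ, -, -, h3⟩ := exists_torDelta f g hf hg h Z
  refine subsingleton_of_forall_eq 0 fun x => ?_
  obtain ⟨y, rfl⟩ := (h3 j x).1 (Subsingleton.elim _ _)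
  rw [Subsingleton.elim y 0, map_zero]

/-- Nakayama: a surjective multiplication by an element of the maximal ideal. -/
theorem subsingleton_of_smul_surjective [IsLocalRing B] (T : Type u) [AddCommGroup T] [Module B T]
    [Module.Finite B T] (b : B) (hb : b ∈ maximalIdeal B) (h : ∀ t : T, ∃ t' : T, t = b • t') :
    Subsingleton T := by
  have h1 : (⊤ : Submodule B T) = ⊥ := by
    apply Submodule.eq_bot_of_le_smul_of_le_jacobson_bot (Ideal.span {b}) ⊤ Module.Finite.fg_top
    · intro t _
      obtain ⟨t', rfl⟩ := h t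
      exact Submodule.smul_mem_smul (Ideal.mem_span_singleton_self b) trivial
    · rw [IsLocalRing.jacobson_eq_maximalIdeal _ bot_ne_top]
      exact (Ideal.span_singleton_le_iff_mem _).2 hb
  exact (Submodule.subsingleton_iff B).1 (subsingleton_of_bot_eq_top h1.symm)

/-- If `b` is regular on `M`, `M'' = M/bM` and `Tor_j(M'',Z) = 0` then `Tor_j(M,Z) = 0`. -/
theorem tor_subsingleton_of_quot [IsLocalRing B] [IsNoetherianRing B] [Module.Finite B M]
    (b : B) (hb : b ∈ maximalIdeal B) (f : M →ₗ[B] M) (hfb : ∀ m, f m = b • m)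
    (g : M →ₗ[B] M'') (hf : Injective f)
    (hg : Surjective g) (h : Exact f g) (Z : Type u) [AddCommGroup Z] [Module B Z]
    [Module.Finite B Z] (j : ℕ)
    (h2 : Subsingleton (TorM B j M'' Z)) :
    Subsingleton (TorM B j M Z) := by
  obtain ⟨δ, -, -, h3⟩ := exists_torDelta f g hf hg h Z
  have := tor_finite (R := B) j M Z
  apply subsingleton_of_smul_surjective (TorM B j M Z) b hb
  intro x
  obtain ⟨y, rfl⟩ := (h3 j x).1 (Subsingleton.elim _ _)
  exact ⟨y, torMap_smul_id j b f hfb y⟩

end basic

section

variable {S B : Type u} [CommRing S] [CommRing B] [Algebra S B]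

theorem baseChange_ses [Module.Flat S B] {M' M M'' : Type u} [AddCommGroup M'] [Module S M']
    [AddCommGroup M] [Module S M] [AddCommGroup M''] [Module S M'']
    (f : M' →ₗ[S] M) (g : M →ₗ[S] M'') (hf : Injective f)
    (hg : Surjective g) (h : Exact f g) :
    Injective (f.baseChange B) ∧ Surjective (g.baseChange B) ∧
      Exact (f.baseChange B) (g.baseChange B) := by
  rw [LinearMap.baseChange_eq_ltensor, LinearMap.baseChange_eq_ltensor]
  exact ⟨Module.Flat.lTensor_preserves_injective_linearMap f hf, LinearMap.lTensor_surjective B hg,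
    lTensor_exact B h hg⟩

theorem baseChange_smul_eq {M : Type u} [AddCommGroup M] [Module S M] (a : S) (f : M →ₗ[S] M)
    (hf : ∀ m, f m = a • m) (z : B ⊗[S] M) : f.baseChange B z = algebraMap S B a • z := by
  induction z using TensorProduct.induction_on with
  | zero => simp
  | tmul b m => simp [hf, TensorProduct.smul_tmul', Algebra.smul_def]
  | add y z hy hz => rw [map_add, smul_add, hy, hz]

variable [IsLocalRing S] [IsNoetherianRing S] [IsLocalRing B] [IsNoetherianRing B]
  [Module.Flat S B] [IsLocalHom (algebraMap S B)]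

/-- The local criterion. -/
theorem local_crit (j₀ : ℕ) (Z : Type u) [AddCommGroup Z] [Module B Z] [Module.Finite B Z]
    (hk : ∀ j, j₀ ≤ j → Subsingleton (TorM B j (B ⊗[S] (S ⧸ maximalIdeal S)) Z))
    (M : Type u) [AddCommGroup M] [Module S M] [Module.Finite S M] :
    ∀ j, j₀ ≤ j → Subsingleton (TorM B j (B ⊗[S] M) Z) := by
  suffices H : ∀ I : Ideal S, ∀ (M : Type u) [AddCommGroup M] [Module S M] [Module.Finite S M],
      I ≤ Module.annihilator S M → ∀ j, j₀ ≤ j → Subsingleton (TorM B j (B ⊗[S] M) Z) from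
    H ⊥ M bot_le
  intro I
  induction I using IsNoetherian.induction with
  | hgt I ih =>
  intro M _ _ hM hI
  induction hM using IsNoetherianRing.induction_on_isQuotientEquivQuotientPrime S with
  | subsingleton N =>
    intro j _
    have : Subsingleton (B ⊗[S] N) := inferInstance
    have h1 := tor_smul_eq_zero_left (R := B) (M := B ⊗[S] N) 1 (fun m => Subsingleton.elim _ _) j Z
    exact ⟨fun x y => by rw [← one_smul B x, ← one_smul B y, h1, h1]⟩
  | quotient N P e =>
    intro j hj
    have hIP : I ≤ P.1 := by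
      intro a ha
      have h1 := Module.mem_annihilator.1 (hI ha) (e.symm (Ideal.Quotient.mk P.1 1))
      rw [← map_smul, LinearEquiv.map_eq_zero_iff] at h1
      rw [← Ideal.Quotient.eq_zero_iff_mem, ← h1, Algebra.smul_def, map_one, mul_one]
      rfl
    by_cases hP : P.1 = maximalIdeal S
    · have e1 : (B ⊗[S] N) ≃ₗ[B] (B ⊗[S] (S ⧸ maximalIdeal S)) :=
        (e ≪≫ₗ Submodule.quotEquivOfEq _ _ hP).baseChange S B _ _
      have := hk j hj
      exact (torCongrLeft j e1 Z).toEquiv.subsingleton
    · have hlt : P.1 < maximalIdeal S := lt_of_le_of_ne (le_maximalIdeal P.2.ne_top) hP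
      obtain ⟨x, hxm, hxP⟩ := SetLike.exists_of_lt hlt
      let f : (S ⧸ P.1) →ₗ[S] (S ⧸ P.1) := LinearMap.lsmul S (S ⧸ P.1) x
      let g : (S ⧸ P.1) →ₗ[S] QuotSMulTop x (S ⧸ P.1) := Submodule.mkQ _
      have hfi : Injective f := by
        rw [injective_iff_map_eq_zero]
        intro a ha
        obtain ⟨a, rfl⟩ := Ideal.Quotient.mk_surjective a
        have h1 : Ideal.Quotient.mk P.1 (x * a) = 0 := ha
        rw [Ideal.Quotient.eq_zero_iff_mem] at h1 ⊢
        exact (P.2.mem_or_mem h1).resolve_left hxP
      have hgs : Surjective g := Submodule.mkQ_surjective _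
      have hex : Exact f g := by
        intro y
        rw [Submodule.mkQ_apply, Submodule.Quotient.mk_eq_zero]
        rw [Submodule.mem_smul_pointwise_iff_exists]
        simp [f]
      obtain ⟨k1, k2, k3⟩ := baseChange_ses (B := B) f g hfi hgs hex
      have hann : I < I ⊔ Ideal.span {x} := by
        refine lt_of_le_of_ne le_sup_left ?_
        intro h
        apply hxP
        apply hIP
        rw [h]
        exact Ideal.mem_sup_right (Ideal.mem_span_singleton_self x)
      have hq : Subsingleton (TorM B j (B ⊗[S] QuotSMulTop x (S ⧸ P.1)) Z) := by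
        apply ih _ hann _ _ j hj
        rw [sup_le_iff]
        constructor
        · intro a ha
          rw [Module.mem_annihilator]
          intro m
          obtain ⟨m, rfl⟩ := hgs m
          obtain ⟨m, rfl⟩ := Ideal.Quotient.mk_surjective m
          rw [← map_smul, Algebra.smul_def]
          have : (algebraMap S (S ⧸ P.1)) a = 0 := Ideal.Quotient.eq_zero_iff_mem.2 (hIP ha)
          rw [this, zero_mul, map_zero]
        · rw [Ideal.span_singleton_le_iff_mem, Module.mem_annihilator]
          intro m
          obtain ⟨m, rfl⟩ := hgs m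
          rw [← map_smul]
          exact (hex _).2 ⟨m, rfl⟩
      have hle : (maximalIdeal S).map (algebraMap S B) ≤ maximalIdeal B :=
        ((IsLocalRing.local_hom_TFAE (algebraMap S B)).out 0 2).mp ‹_›
      have hb : algebraMap S B x ∈ maximalIdeal B := hle (Ideal.mem_map_of_mem _ hxm)
      have h5 := tor_subsingleton_of_quot (algebraMap S B x) hb (f.baseChange B)
        (baseChange_smul_eq x f (fun m => rfl)) (g.baseChange B) k1 k2 k3 Z j hq
      exact (torCongrLeft j (e.baseChange S B _ _) Z).toEquiv.subsingleton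
  | exact N₁ N₂ N₃ f g hf hg h ih1 ih3 =>
    intro j hj
    obtain ⟨k1, k2, k3⟩ := baseChange_ses (B := B) f g hf hg h
    refine tor_subsingleton_mid _ _ k1 k2 k3 Z j (ih1 ?_ j hj) (ih3 ?_ j hj)
    · exact hI.trans (LinearMap.annihilator_le_of_injective f hf)
    · exact hI.trans (LinearMap.annihilator_le_of_surjective g hg)

end

end Vale.Agent.P177
end

section

/-!
Regular local rings: they are domains, quotients by an element of m not in m^2 are regular,
and a generating list of m of length dim R is a regular sequence.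
-/

namespace Vale.Agent.P177

open IsLocalRing RingTheory.Sequence Pointwise

universe u

lemma exists_nat_eq_ringKrullDim (R : Type*) [CommRing R] [FiniteRingKrullDim R] :
    ∃ n : ℕ, ringKrullDim R = n := by
  obtain ⟨a, ha⟩ := WithBot.ne_bot_iff_exists.mp (ringKrullDim_ne_bot (R := R))
  have htop : a ≠ ⊤ := fun h => ringKrullDim_ne_top (R := R) (by rw [← ha, h]; rfl)
  obtain ⟨n, hn⟩ := ENat.ne_top_iff_exists.mp htop
  exact ⟨n, by rw [← ha, ← hn]; rfl⟩

section exchange

variable {R : Type u} [CommRing R] [IsLocalRing R]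

/-- Exchange lemma. -/
lemma exists_insert_erase_span [DecidableEq R] (s : Finset R)
    (hs : Ideal.span (s : Set R) = maximalIdeal R)
    {y : R} (hy : y ∈ maximalIdeal R) (hy2 : y ∉ maximalIdeal R ^ 2) :
    ∃ r ∈ s, Ideal.span (insert y (s.erase r : Finset R) : Set R) = maximalIdeal R := by
  have hmem : y ∈ Ideal.span (s : Set R) := hs ▸ hy
  obtain ⟨f, -, hf⟩ := Submodule.mem_span_finset.mp hmem
  have hex : ∃ r ∈ s, f r ∉ maximalIdeal R := by
    by_contra hcon
    push Not at hcon
    apply hy2
    rw [← hf, pow_two]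
    refine Submodule.sum_mem _ fun r hr => ?_
    exact Ideal.mul_mem_mul (hcon r hr) (hs ▸ Ideal.subset_span hr)
  obtain ⟨r, hr, hfr⟩ := hex
  refine ⟨r, hr, ?_⟩
  have hu : IsUnit (f r) := by
    by_contra h
    exact hfr ((mem_maximalIdeal _).mpr h)
  obtain ⟨u, hu⟩ := hu
  apply le_antisymm
  · rw [Ideal.span_le]
    intro z hz
    rcases hz with rfl | hz
    · exact hy
    · exact hs ▸ Ideal.subset_span (Finset.mem_of_mem_erase hz)
  · rw [← hs, Ideal.span_le]
    intro z hz
    by_cases hzr : z = r
    · subst hzr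
      have h1 : f z * z = y - ∑ a ∈ s.erase z, f a • a := by
        rw [← hf, ← Finset.add_sum_erase s _ hr]
        simp
      have h2 : z = (↑u⁻¹ : R) * (y - ∑ a ∈ s.erase z, f a • a) := by
        rw [← h1, ← hu, Units.inv_mul_cancel_left]
      have h3 : (↑u⁻¹ : R) * (y - ∑ a ∈ s.erase z, f a • a) ∈
          Ideal.span (insert y (s.erase z : Finset R) : Set R) := by
        apply Ideal.mul_mem_left
        apply Ideal.sub_mem
        · exact Ideal.subset_span (Set.mem_insert _ _)
        · refine Submodule.sum_mem _ fun a ha => ?_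
          exact Ideal.mul_mem_left _ _ (Ideal.subset_span (Set.mem_insert_of_mem _ ha))
      rwa [← h2] at h3
    · exact Ideal.subset_span (Set.mem_insert_of_mem _ (Finset.mem_erase.mpr ⟨hzr, hz⟩))

end exchange

section TaskA
variable (R : Type u) [CommRing R] [IsRegularLocalRing R]

lemma exists_nat_ringKrullDim :
    ringKrullDim R = ((maximalIdeal R).spanFinrank : WithBot ℕ∞) :=
  ((isRegularLocalRing_iff R).mp inferInstance).symm

theorem regular_quotient (y : R) (hy : y ∈ maximalIdeal R) (hy2 : y ∉ maximalIdeal R ^ 2) :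
    IsRegularLocalRing (R ⧸ Ideal.span {y}) ∧
      ringKrullDim (R ⧸ Ideal.span {y}) + 1 = ringKrullDim R := by
  classical
  have hne : Ideal.span {y} ≠ ⊤ := fun h => by
    rw [Ideal.span_singleton_eq_top] at h
    exact (mem_maximalIdeal _).mp hy h
  have : Nontrivial (R ⧸ Ideal.span {y}) := Ideal.Quotient.nontrivial_iff.mpr hne
  have : IsLocalRing (R ⧸ Ideal.span {y}) :=
    .of_surjective' (Ideal.Quotient.mk (Ideal.span {y})) Ideal.Quotient.mk_surjective
  obtain ⟨s, hcard, hs⟩ := Submodule.FG.exists_span_finset_card_eq_spanFinrank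
    ((maximalIdeal R).fg_of_isNoetherianRing)
  change Ideal.span (s : Set R) = maximalIdeal R at hs
  obtain ⟨r, hr, hspan⟩ := exists_insert_erase_span s hs hy hy2
  have hmax : maximalIdeal (R ⧸ Ideal.span {y}) =
      Ideal.span ((s.erase r).image (Ideal.Quotient.mk (Ideal.span {y})) : Set _) := by
    have h1 : (maximalIdeal R).map (Ideal.Quotient.mk (Ideal.span {y})) =
        maximalIdeal (R ⧸ Ideal.span {y}) :=
      map_maximalIdeal_of_surjective _ Ideal.Quotient.mk_surjective
    rw [← h1, ← hspan, Ideal.map_span, Set.image_insert_eq, Ideal.Quotient.mk_singleton_self,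
      Finset.coe_image]
    exact Submodule.span_insert_zero
  have hrank : (maximalIdeal (R ⧸ Ideal.span {y})).spanFinrank + 1 ≤
      (maximalIdeal R).spanFinrank := by
    rw [← hcard, ← Finset.card_erase_add_one hr]
    gcongr
    rw [hmax]
    refine (Submodule.spanFinrank_span_le_ncard_of_finite (Finset.finite_toSet _)).trans ?_
    rw [Set.ncard_coe_finset]
    exact Finset.card_image_le
  have hd := exists_nat_ringKrullDim R
  have h1 := ringKrullDim_le_spanFinrank_maximalIdeal (R ⧸ Ideal.span {y})
  have h2 : ringKrullDim R ≤ ringKrullDim (R ⧸ Ideal.span {y}) + 1 := by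
    have := ringKrullDim_le_ringKrullDim_quotSMulTop_succ hy
    have e : y • (⊤ : Ideal R) = Ideal.span {y} := by
      rw [← Submodule.ideal_span_singleton_smul, smul_eq_mul, Ideal.mul_top]
    rwa [e] at this
  obtain ⟨n, hn⟩ := exists_nat_eq_ringKrullDim (R ⧸ Ideal.span {y})
  rw [hn] at h1 h2
  rw [hd] at h2
  rw [isRegularLocalRing_iff, hn, hd]
  norm_cast at h1 h2 ⊢
  omega

theorem regular_isDomain : IsDomain R := by
  classical
  obtain ⟨n, hn⟩ := exists_nat_eq_ringKrullDim R
  induction n generalizing R with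
  | zero =>
    have h0 : (maximalIdeal R).spanFinrank = 0 := by
      have := exists_nat_ringKrullDim R
      rw [hn] at this
      exact_mod_cast this.symm
    rw [Submodule.spanFinrank_eq_zero_iff_eq_bot ((maximalIdeal R).fg_of_isNoetherianRing)] at h0
    exact (isField_iff_maximalIdeal_eq.mpr h0).isDomain
  | succ n ih =>
    have hfin := minimalPrimes.finite_of_isNoetherianRing R
    -- prime avoidance
    obtain ⟨y, hy, hy2, hymin⟩ : ∃ y ∈ maximalIdeal R, y ∉ maximalIdeal R ^ 2 ∧
        ∀ P ∈ minimalPrimes R, y ∉ P := by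
      by_contra hcon
      push Not at hcon
      have hsub : (maximalIdeal R : Set R) ⊆
          ⋃ i ∈ (↑(insert (maximalIdeal R ^ 2) hfin.toFinset) : Set (Ideal R)),
            ((id i : Ideal R) : Set R) := by
        intro z hz
        by_cases hz2 : z ∈ maximalIdeal R ^ 2
        · exact Set.mem_biUnion (Finset.mem_coe.mpr (Finset.mem_insert_self _ _)) hz2
        · obtain ⟨P, hP, hzP⟩ := hcon z hz hz2
          exact Set.mem_biUnion (Finset.mem_coe.mpr (Finset.mem_insert_of_mem
            (hfin.mem_toFinset.mpr hP))) hzP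
      rw [Ideal.subset_union_prime (f := id) (maximalIdeal R ^ 2) (maximalIdeal R ^ 2)] at hsub
      · obtain ⟨P, hP, hle⟩ := hsub
        rcases Finset.mem_insert.mp hP with rfl | hP
        · have hbot : maximalIdeal R = ⊥ := by
            apply Submodule.eq_bot_of_le_smul_of_le_jacobson_bot (maximalIdeal R) _
              ((maximalIdeal R).fg_of_isNoetherianRing)
            · rw [smul_eq_mul, ← pow_two]; exact hle
            · rw [IsLocalRing.jacobson_eq_maximalIdeal _ bot_ne_top]
          have h1 := exists_nat_ringKrullDim R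
          rw [hbot, Submodule.spanFinrank_bot, hn] at h1
          norm_cast at h1
        · have hPmin := hfin.mem_toFinset.mp hP
          have hPp : P.IsPrime := hPmin.1.1
          have hPeq : P = maximalIdeal R := le_antisymm (le_maximalIdeal hPp.ne_top) hle
          have h1 : (maximalIdeal R).height = 0 := by
            rw [← hPeq]
            exact Ideal.height_eq_zero_iff.mpr hPmin
          have h2 := maximalIdeal_height_eq_ringKrullDim (R := R)
          rw [h1, hn] at h2
          norm_cast at h2
      · intro P hP h1 _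
        rcases Finset.mem_insert.mp hP with rfl | hP
        · exact absurd rfl h1
        · exact (hfin.mem_toFinset.mp hP).1.1
    obtain ⟨hreg, hdim⟩ := regular_quotient R y hy hy2
    have hdom : IsDomain (R ⧸ Ideal.span {y}) := by
      apply ih
      obtain ⟨k, hk⟩ := exists_nat_eq_ringKrullDim (R ⧸ Ideal.span {y})
      rw [hk, hn] at hdim
      rw [hk]
      norm_cast at hdim ⊢
      omega
    have hprime : (Ideal.span {y}).IsPrime := (Ideal.Quotient.isDomain_iff_prime _).mp hdom
    obtain ⟨P, hP, hPle⟩ := Ideal.exists_minimalPrimes_le (I := ⊥) (J := Ideal.span {y}) bot_le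
    have hPp : P.IsPrime := hP.1.1
    have hyP : y ∉ P := hymin P hP
    have hPbot : P = ⊥ := by
      apply Submodule.eq_bot_of_le_smul_of_le_jacobson_bot (maximalIdeal R) P
        P.fg_of_isNoetherianRing
      · intro a ha
        obtain ⟨b, rfl⟩ := Ideal.mem_span_singleton'.mp (hPle ha)
        have hb : b ∈ P := (hPp.mem_or_mem ha).resolve_right hyP
        rw [mul_comm]
        exact Submodule.smul_mem_smul hy hb
      · rw [IsLocalRing.jacobson_eq_maximalIdeal _ bot_ne_top]
    rw [hPbot] at hPp
    exact IsDomain.of_bot_isPrime R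

theorem exists_list_maximalIdeal :
    ∃ rs : List R, Ideal.ofList rs = maximalIdeal R ∧
      (rs.length : WithBot ℕ∞) = ringKrullDim R := by
  obtain ⟨s, hcard, hs⟩ := Submodule.FG.exists_span_finset_card_eq_spanFinrank
    ((maximalIdeal R).fg_of_isNoetherianRing)
  refine ⟨s.toList, ?_, ?_⟩
  · rw [← hs]
    simp [Ideal.ofList, Ideal.span]
  · rw [Finset.length_toList, hcard, exists_nat_ringKrullDim R]

theorem isRegular_of_ofList_eq_maximalIdeal (rs : List R)
    (h : Ideal.ofList rs = maximalIdeal R) (hlen : (rs.length : WithBot ℕ∞) = ringKrullDim R) :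
    IsRegular R rs := by
  obtain ⟨n, hn⟩ : ∃ n, rs.length = n := ⟨_, rfl⟩
  induction n generalizing R with
  | zero =>
    rw [List.length_eq_zero_iff] at hn
    subst hn
    exact IsRegular.nil R R
  | succ n ih =>
    obtain ⟨r, rs, rfl⟩ := List.exists_cons_of_length_eq_add_one hn
    simp only [List.length_cons, Nat.add_right_cancel_iff] at hn
    have : IsDomain R := regular_isDomain R
    have hr : r ∈ maximalIdeal R := by
      rw [← h, Ideal.ofList_cons]
      exact Ideal.mem_sup_left (Ideal.mem_span_singleton_self r)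
    have hr2 : r ∉ maximalIdeal R ^ 2 := by
      intro hcon
      have h1 : Ideal.ofList rs = maximalIdeal R := by
        apply le_antisymm
        · rw [← h, Ideal.ofList_cons]; exact le_sup_right
        · apply Submodule.le_of_le_smul_of_le_jacobson_bot (I := maximalIdeal R)
            ((maximalIdeal R).fg_of_isNoetherianRing)
          · rw [IsLocalRing.jacobson_eq_maximalIdeal _ bot_ne_top]
          · rw [smul_eq_mul, ← pow_two]
            nth_rewrite 1 [← h]
            rw [Ideal.ofList_cons]
            apply sup_le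
            · rw [Ideal.span_singleton_le_iff_mem]
              exact Ideal.mem_sup_right hcon
            · exact le_sup_left
      have h2 : (maximalIdeal R).spanFinrank ≤ rs.length := by
        classical
        rw [← h1]
        have : Ideal.ofList rs = Submodule.span R (rs.toFinset : Set R) := by
          simp [Ideal.ofList, Ideal.span]
        rw [this]
        refine (Submodule.spanFinrank_span_le_ncard_of_finite (Finset.finite_toSet _)).trans ?_
        rw [Set.ncard_coe_finset]
        exact List.toFinset_card_le rs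
      have h3 := exists_nat_ringKrullDim R
      rw [← hlen] at h3
      norm_cast at h3
      simp only [List.length_cons] at h3
      omega
    have hr0 : r ≠ 0 := fun h0 => hr2 (h0 ▸ zero_mem _)
    obtain ⟨hreg, hdim⟩ := regular_quotient R r hr hr2
    rw [isRegular_cons_iff']
    refine ⟨(IsRegular.of_ne_zero hr0).left.isSMulRegular, ?_⟩
    have hQ := ih (R ⧸ Ideal.span {r}) (rs.map (Ideal.Quotient.mk (Ideal.span {r}))) ?_ ?_
      (by simpa using hn)
    · have heq : (Ideal.span {r} : Submodule R R) = r • ⊤ := by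
        rw [← Submodule.ideal_span_singleton_smul, smul_eq_mul, Ideal.mul_top]
      refine (AddEquiv.isRegular_congr
        (e := (Submodule.quotEquivOfEq _ _ heq).toAddEquiv) ?_).mp hQ
      refine List.forall₂_same.mpr fun t _ x => ?_
      obtain ⟨a, rfl⟩ := Ideal.Quotient.mk_surjective t
      change Submodule.quotEquivOfEq _ _ heq (algebraMap R (R ⧸ Ideal.span {r}) a • x) =
        algebraMap R (R ⧸ Ideal.span {r}) a • Submodule.quotEquivOfEq _ _ heq x
      rw [algebraMap_smul, algebraMap_smul, map_smul]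
    · rw [← Ideal.map_ofList, ← map_maximalIdeal_of_surjective _ Ideal.Quotient.mk_surjective,
        ← h, Ideal.ofList_cons, Ideal.map_sup, Ideal.map_span]
      simp
    · obtain ⟨k, hk⟩ := exists_nat_eq_ringKrullDim (R ⧸ Ideal.span {r})
      rw [hk, ← hlen] at hdim
      rw [hk]
      norm_cast at hdim ⊢
      simp only [List.length_cons, List.length_map] at hdim ⊢
      omega

end TaskA

end Vale.Agent.P177
end

section

/-!
Regular sequences and Tor; vanishing of Tor over regular local rings.
-/

namespace Vale.Agent.P177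

open CategoryTheory TensorProduct Function IsLocalRing RingTheory.Sequence Pointwise

universe u

section basic

variable {B : Type u} [CommRing B]

/-- The short exact sequence `0 → Z → Z → Z/zZ → 0`. -/
theorem quot_ses (Z : Type u) [AddCommGroup Z] [Module B Z] (z : B) (hz : IsSMulRegular Z z) :
    ∃ (f : Z →ₗ[B] Z) (g : Z →ₗ[B] QuotSMulTop z Z), (∀ m, f m = z • m) ∧ Injective f ∧
      Surjective g ∧ Exact f g := by
  refine ⟨LinearMap.lsmul B Z z, Submodule.mkQ _, fun m => rfl, hz,
    Submodule.mkQ_surjective _, ?_⟩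
  intro y
  rw [Submodule.mkQ_apply, Submodule.Quotient.mk_eq_zero]
  rw [Submodule.mem_smul_pointwise_iff_exists]
  simp

theorem torMap_zero_surjective {M M' : Type u} [AddCommGroup M] [Module B M]
    [AddCommGroup M'] [Module B M'] (g : M →ₗ[B] M') (hg : Surjective g) (N : Type u)
    [AddCommGroup N] [Module B N] : Surjective (torMap 0 g N) := by
  intro y
  obtain ⟨x, hx⟩ := LinearMap.rTensor_surjective N hg (torZero M' N y)
  refine ⟨(torZero M N).symm x, ?_⟩
  apply (torZero M' N).injective
  rw [torZero_naturality, LinearEquiv.apply_symm_apply, hx]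

/-- identification of a cokernel with `QuotSMulTop`. -/
theorem exists_quotSMulTop_equiv {T T' : Type u} [AddCommGroup T] [Module B T]
    [AddCommGroup T'] [Module B T'] (z : B) (f : T →ₗ[B] T) (hf : ∀ t, f t = z • t)
    (g : T →ₗ[B] T') (hg : Surjective g) (h : Exact f g) :
    Nonempty (QuotSMulTop z T ≃ₗ[B] T') := by
  have h1 : z • (⊤ : Submodule B T) = LinearMap.ker g := by
    rw [LinearMap.exact_iff.1 h]
    ext x
    rw [Submodule.mem_smul_pointwise_iff_exists]
    constructor
    · rintro ⟨y, -, rfl⟩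
      exact ⟨y, hf y⟩
    · rintro ⟨y, rfl⟩
      exact ⟨y, trivial, (hf y).symm⟩
  exact ⟨Submodule.quotEquivOfEq _ _ h1 ≪≫ₗ g.quotKerEquivOfSurjective hg⟩

theorem tor_subsingleton_step (Z : Type u) [AddCommGroup Z] [Module B Z] (z : B)
    (hz : IsSMulRegular Z z) (W : Type u) [AddCommGroup W] [Module B W] (j : ℕ)
    (h1 : Subsingleton (TorM B (j + 1) Z W)) (h0 : Subsingleton (TorM B j Z W)) :
    Subsingleton (TorM B (j + 1) (QuotSMulTop z Z) W) := by
  obtain ⟨f, g, -, hi, hs, hex⟩ := quot_ses Z z hz
  obtain ⟨δ, h2, -, -⟩ := exists_torDelta f g hi hs hex W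
  refine subsingleton_of_forall_eq 0 fun x => ?_
  obtain ⟨y, rfl⟩ := (h2 j x).1 (Subsingleton.elim _ _)
  rw [Subsingleton.elim y 0, map_zero]

theorem tor_subsingleton_list (zs : List B) (Z : Type u) [AddCommGroup Z] [Module B Z]
    (hreg : IsWeaklyRegular Z zs) (W : Type u) [AddCommGroup W] [Module B W] (n₀ : ℕ)
    (h : ∀ j, n₀ ≤ j → Subsingleton (TorM B j Z W)) :
    ∀ j, n₀ + zs.length ≤ j →
      Subsingleton (TorM B j (Z ⧸ (Ideal.ofList zs • ⊤ : Submodule B Z)) W) := by
  induction zs generalizing Z n₀ with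
  | nil =>
    intro j hj
    have := h j hj
    have e : (Z ⧸ (Ideal.ofList ([] : List B) • ⊤ : Submodule B Z)) ≃ₗ[B] Z :=
      Submodule.quotEquivOfEqBot _ (by simp)
    exact (torCongrLeft j e W).toEquiv.subsingleton
  | cons z zs ih =>
    intro j hj
    rw [isWeaklyRegular_cons_iff] at hreg
    have h1 : ∀ j, n₀ + 1 ≤ j → Subsingleton (TorM B j (QuotSMulTop z Z) W) := by
      intro j hj
      obtain ⟨j, rfl⟩ : ∃ k, j = k + 1 := ⟨j - 1, by omega⟩
      exact tor_subsingleton_step Z z hreg.1 W j (h _ (by omega)) (h _ (by omega))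
    have h2 := ih (QuotSMulTop z Z) hreg.2 (n₀ + 1) h1 j
      (by rw [List.length_cons] at hj; omega)
    exact (torCongrLeft j
      (Submodule.quotOfListConsSMulTopEquivQuotSMulTopInner Z z zs) W).toEquiv.subsingleton

end basic

section regular

/-- Tor vanishes in degrees larger than the dimension of a regular local ring. -/
theorem regular_tor_vanish (R : Type u) [CommRing R] [IsRegularLocalRing R] (d : ℕ)
    (hd : ringKrullDim R = d) (M N : Type u) [AddCommGroup M] [Module R M] [Module.Finite R M]
    [AddCommGroup N] [Module R N] [Module.Finite R N] (j : ℕ) (hj : d + 1 ≤ j) :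
    Subsingleton (TorM R j M N) := by
  obtain ⟨rs, hrs, hlen⟩ := exists_list_maximalIdeal R
  have hreg := isRegular_of_ofList_eq_maximalIdeal R rs hrs hlen
  have hlen' : rs.length = d := by
    rw [hd] at hlen
    exact_mod_cast hlen
  have h0 : ∀ j, 1 ≤ j → Subsingleton (TorM R j R N) := by
    intro j hj
    obtain ⟨j, rfl⟩ : ∃ k, j = k + 1 := ⟨j - 1, by omega⟩
    exact tor_subsingleton_of_flat j
  have h1 := tor_subsingleton_list rs R hreg.toIsWeaklyRegular N 1 h0
  have hk : ∀ j, d + 1 ≤ j → Subsingleton (TorM R j (R ⊗[R] (R ⧸ maximalIdeal R)) N) := by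
    intro j hj
    have h2 := h1 j (by omega)
    have e : (R ⊗[R] (R ⧸ maximalIdeal R)) ≃ₗ[R]
        (R ⧸ (Ideal.ofList rs • ⊤ : Submodule R R)) :=
      (TensorProduct.lid R _) ≪≫ₗ Submodule.quotEquivOfEq _ _ (by rw [hrs]; simp)
    exact (torCongrLeft j e N).toEquiv.subsingleton
  have h3 := local_crit (S := R) (B := R) (d + 1) N hk M j hj
  exact (torCongrLeft j (TensorProduct.lid R M).symm N).toEquiv.subsingleton

end regular

section regof

variable {B : Type u} [CommRing B] [IsLocalRing B] [IsNoetherianRing B]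

/-- Rigidity: if `zs` is weakly regular on `Z` and `Tor_j(Z/zs Z, W) = 0` for `j ≥ 1` then
`Tor_j(Z,W) = 0` for `j ≥ 1` and `zs` is weakly regular on `Tor_0(Z,W)`. -/
theorem regular_of_tor_vanish (zs : List B) (hzs : ∀ z ∈ zs, z ∈ maximalIdeal B) (Z : Type u)
    [AddCommGroup Z] [Module B Z] [Module.Finite B Z]
    (hreg : IsWeaklyRegular Z zs) (W : Type u) [AddCommGroup W] [Module B W] [Module.Finite B W]
    (h : ∀ j, 1 ≤ j →
      Subsingleton (TorM B j (Z ⧸ (Ideal.ofList zs • ⊤ : Submodule B Z)) W)) :
    (∀ j, 1 ≤ j → Subsingleton (TorM B j Z W)) ∧ IsWeaklyRegular (TorM B 0 Z W) zs := by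
  induction zs generalizing Z with
  | nil =>
    refine ⟨?_, IsWeaklyRegular.nil _ _⟩
    intro j hj
    have := h j hj
    have e : (Z ⧸ (Ideal.ofList ([] : List B) • ⊤ : Submodule B Z)) ≃ₗ[B] Z :=
      Submodule.quotEquivOfEqBot _ (by simp)
    exact (torCongrLeft j e W).symm.toEquiv.subsingleton
  | cons z zs ih =>
    rw [isWeaklyRegular_cons_iff] at hreg
    obtain ⟨h1, h2⟩ := ih (fun y hy => hzs y (List.mem_cons_of_mem _ hy)) (QuotSMulTop z Z)
      hreg.2 (fun j hj => by
        have := h j hj
        exact (torCongrLeft j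
          (Submodule.quotOfListConsSMulTopEquivQuotSMulTopInner Z z zs) W).symm.toEquiv.subsingleton)
    obtain ⟨f, g, hf, hi, hs, hex⟩ := quot_ses Z z hreg.1
    refine ⟨fun j hj => tor_subsingleton_of_quot z (hzs z (List.mem_cons_self))
      f hf g hi hs hex W j (h1 j hj), ?_⟩
    obtain ⟨δ, -, h4, h5⟩ := exists_torDelta f g hi hs hex W
    have h6 := h1 1 le_rfl
    rw [isWeaklyRegular_cons_iff]
    constructor
    · rw [isSMulRegular_iff_right_eq_zero_of_smul]
      intro x hx
      have h7 : torMap 0 f W x = 0 := by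
        rw [torMap_smul_id 0 z f hf, hx]
      obtain ⟨y, rfl⟩ := (h4 0 x).1 h7
      rw [Subsingleton.elim y 0, map_zero]
    · obtain ⟨e⟩ := exists_quotSMulTop_equiv z (torMap 0 f W)
        (torMap_smul_id 0 z f hf) (torMap 0 g W) (torMap_zero_surjective g hs W) (h5 0)
      exact (e.isWeaklyRegular_congr zs).2 h2

end regof

end Vale.Agent.P177
end

section

/-!
The recursive (Koszul) Euler characteristic: additivity and positivity.
-/

namespace Vale.Agent.P177

open CategoryTheory TensorProduct Function IsLocalRing RingTheory.Sequence Pointwise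

universe u

section

variable {B : Type u} [CommRing B]

/-- Recursive Koszul Euler characteristic of a list of elements. -/
noncomputable def eul : List B → ∀ (X : Type u) [AddCommGroup X] [Module B X], ℤ
  | [], X, _, _ => ((Module.length B X).toNat : ℤ)
  | z :: zs, X, _, _ => eul zs (QuotSMulTop z X) - eul zs (Submodule.torsionBy B X z)

theorem torsionBy_equiv {X Y : Type u} [AddCommGroup X] [Module B X] [AddCommGroup Y]
    [Module B Y] (z : B) (e : X ≃ₗ[B] Y) :
    Nonempty (Submodule.torsionBy B X z ≃ₗ[B] Submodule.torsionBy B Y z) := by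
  refine ⟨LinearEquiv.ofSubmodules e _ _ ?_⟩
  ext y
  simp only [Submodule.mem_map, Submodule.mem_torsionBy_iff]
  constructor
  · rintro ⟨x, hx, rfl⟩
    change z • e x = 0
    rw [← map_smul, hx, map_zero]
  · intro hy
    refine ⟨e.symm y, ?_, by simp⟩
    rw [← map_smul, hy, map_zero]

theorem eul_congr (zs : List B) {X Y : Type u} [AddCommGroup X] [Module B X] [AddCommGroup Y]
    [Module B Y] (e : X ≃ₗ[B] Y) : eul zs X = eul zs Y := by
  induction zs generalizing X Y with
  | nil =>
    unfold eul
    rw [e.length_eq]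
  | cons z zs ih =>
    unfold eul
    obtain ⟨e2⟩ := torsionBy_equiv z e
    rw [ih (QuotSMulTop.congr z e), ih e2]

theorem eul_subsingleton (zs : List B) (X : Type u) [AddCommGroup X] [Module B X]
    [Subsingleton X] : eul zs X = 0 := by
  induction zs generalizing X with
  | nil =>
    unfold eul
    rw [Module.length_eq_zero]
    rfl
  | cons z zs ih =>
    unfold eul
    have : Subsingleton (QuotSMulTop z X) := (Submodule.mkQ_surjective _).subsingleton
    rw [ih, ih, sub_zero]

/-- The six term kernel-cokernel sequence for multiplication by `z`. -/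
theorem six_term (z : B) {X' X X'' : Type u} [AddCommGroup X'] [Module B X']
    [AddCommGroup X] [Module B X] [AddCommGroup X''] [Module B X'']
    (f : X' →ₗ[B] X) (g : X →ₗ[B] X'') (hf : Injective f) (hg : Surjective g) (h : Exact f g) :
    ∃ (k1 : Submodule.torsionBy B X' z →ₗ[B] Submodule.torsionBy B X z)
      (k2 : Submodule.torsionBy B X z →ₗ[B] Submodule.torsionBy B X'' z)
      (δ : Submodule.torsionBy B X'' z →ₗ[B] QuotSMulTop z X')
      (c1 : QuotSMulTop z X' →ₗ[B] QuotSMulTop z X)
      (c2 : QuotSMulTop z X →ₗ[B] QuotSMulTop z X''),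
      Injective k1 ∧ Exact k1 k2 ∧ Exact k2 δ ∧ Exact δ c1 ∧ Exact c1 c2 ∧ Surjective c2 := by
  have hk1 : ∀ x ∈ Submodule.torsionBy B X' z, f x ∈ Submodule.torsionBy B X z := by
    intro x hx
    rw [Submodule.mem_torsionBy_iff] at hx ⊢
    rw [← map_smul, hx, map_zero]
  have hk2 : ∀ x ∈ Submodule.torsionBy B X z, g x ∈ Submodule.torsionBy B X'' z := by
    intro x hx
    rw [Submodule.mem_torsionBy_iff] at hx ⊢
    rw [← map_smul, hx, map_zero]
  let k1 := f.restrict hk1
  let k2 := g.restrict hk2
  have hex : ∀ (Y : Type u) [AddCommGroup Y] [Module B Y],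
      Exact (Submodule.torsionBy B Y z).subtype (LinearMap.lsmul B Y z) := by
    intro Y _ _ y
    simp
  have hex' : ∀ (Y : Type u) [AddCommGroup Y] [Module B Y],
      Exact (LinearMap.lsmul B Y z) (Submodule.mkQ (z • (⊤ : Submodule B Y)) :
        Y →ₗ[B] QuotSMulTop z Y) := by
    intro Y _ _ y
    rw [Submodule.mkQ_apply, Submodule.Quotient.mk_eq_zero]
    rw [Submodule.mem_smul_pointwise_iff_exists]
    simp
  have h1 : f.comp (LinearMap.lsmul B X' z) = (LinearMap.lsmul B X z).comp f := by
    ext x
    simp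
  have h2 : g.comp (LinearMap.lsmul B X z) = (LinearMap.lsmul B X'' z).comp g := by
    ext x
    simp
  refine ⟨k1, k2, SnakeLemma.δ' (LinearMap.lsmul B X' z) (LinearMap.lsmul B X z)
    (LinearMap.lsmul B X'' z) f g h f g h h1 h2 (Submodule.torsionBy B X'' z).subtype
    (hex X'') (Submodule.mkQ _) (hex' X') hg hf, QuotSMulTop.map z f, QuotSMulTop.map z g,
    ?_, ?_, ?_, ?_, ?_, ?_⟩
  · intro x y hxy
    apply Subtype.ext
    apply hf
    exact congrArg Subtype.val hxy
  · rintro ⟨x, hx⟩
    constructor
    · intro hgx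
      have hgx' : g x = 0 := congrArg Subtype.val hgx
      obtain ⟨y, rfl⟩ := (h x).1 hgx'
      refine ⟨⟨y, ?_⟩, rfl⟩
      rw [Submodule.mem_torsionBy_iff] at hx ⊢
      apply hf
      rw [map_smul, hx, map_zero]
    · rintro ⟨⟨y, hy⟩, hyx⟩
      have hyx' : f y = x := congrArg Subtype.val hyx
      apply Subtype.ext
      change g x = 0
      rw [← hyx']
      exact (h _).2 ⟨y, rfl⟩
  · exact SnakeLemma.exact_δ'_right _ _ _ _ _ _ _ _ _ _ _ (Submodule.torsionBy B X z).subtype
      (hex X) _ _ _ _ _ _ k2 rfl (Submodule.injective_subtype _)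
  · exact SnakeLemma.exact_δ'_left _ _ _ _ _ _ _ _ _ _ _ _ _ _ _ (Submodule.mkQ _)
      (hex' X) _ _ (QuotSMulTop.map z f) rfl (Submodule.mkQ_surjective _)
  · exact QuotSMulTop.map_exact z h hg
  · exact QuotSMulTop.map_surjective z hg

end

section FL

variable {B : Type u} [CommRing B] [IsLocalRing B]

/-- `X` has finite length modulo `zs` (in terms of annihilators). -/
def FL (zs : List B) (X : Type u) [AddCommGroup X] [Module B X] : Prop :=
  maximalIdeal B ≤ (Module.annihilator B X ⊔ Ideal.ofList zs).radical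

theorem FL.mono {ws zs : List B} {X Y : Type u} [AddCommGroup X] [Module B X] [AddCommGroup Y]
    [Module B Y] (hX : FL ws X)
    (h : Module.annihilator B X ⊔ Ideal.ofList ws ≤ Module.annihilator B Y ⊔ Ideal.ofList zs) :
    FL zs Y := hX.trans (Ideal.radical_mono h)

theorem FL.of_injective {zs : List B} {X Y : Type u} [AddCommGroup X] [Module B X]
    [AddCommGroup Y] [Module B Y] (hX : FL zs X) (f : Y →ₗ[B] X) (hf : Injective f) : FL zs Y :=
  hX.mono (sup_le_sup_right (LinearMap.annihilator_le_of_injective f hf) _)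

theorem FL.of_surjective {zs : List B} {X Y : Type u} [AddCommGroup X] [Module B X]
    [AddCommGroup Y] [Module B Y] (hX : FL zs X) (f : X →ₗ[B] Y) (hf : Surjective f) : FL zs Y :=
  hX.mono (sup_le_sup_right (LinearMap.annihilator_le_of_surjective f hf) _)

theorem FL.quot {z : B} {zs : List B} {X : Type u} [AddCommGroup X] [Module B X]
    (hX : FL (z :: zs) X) : FL zs (QuotSMulTop z X) := by
  refine hX.mono ?_
  rw [Ideal.ofList_cons, ← sup_assoc]
  refine sup_le_sup_right (sup_le ?_ ?_) _
  · exact LinearMap.annihilator_le_of_surjective _ (Submodule.mkQ_surjective _)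
  · rw [Ideal.span_singleton_le_iff_mem]
    exact QuotSMulTop.mem_annihilator X z

theorem FL.torsionBy {z : B} {zs : List B} {X : Type u} [AddCommGroup X] [Module B X]
    (hX : FL (z :: zs) X) : FL zs (Submodule.torsionBy B X z) := by
  refine hX.mono ?_
  rw [Ideal.ofList_cons, ← sup_assoc]
  refine sup_le_sup_right (sup_le ?_ ?_) _
  · exact LinearMap.annihilator_le_of_injective _ (Submodule.injective_subtype _)
  · rw [Ideal.span_singleton_le_iff_mem, Module.mem_annihilator]
    rintro ⟨x, hx⟩
    apply Subtype.ext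
    exact hx

variable [IsNoetherianRing B]

theorem FL.length_ne_top {X : Type u} [AddCommGroup X] [Module B X] [Module.Finite B X]
    (hX : FL ([] : List B) X) : Module.length B X ≠ ⊤ := by
  unfold FL at hX
  rw [Ideal.ofList_nil, sup_bot_eq] at hX
  obtain ⟨k, hk⟩ := Ideal.exists_pow_le_of_le_radical_of_fg hX (IsNoetherian.noetherian _)
  rw [Module.length_ne_top_iff]
  exact isFiniteLength_of_pow_smul_eq_zero k (fun a ha x => Module.mem_annihilator.1 (hk ha) x)

/-- additivity of `eul` -/
theorem eul_add (zs : List B) {X' X X'' : Type u} [AddCommGroup X'] [Module B X']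
    [AddCommGroup X] [Module B X] [AddCommGroup X''] [Module B X''] [Module.Finite B X']
    [Module.Finite B X] [Module.Finite B X'']
    (f : X' →ₗ[B] X) (g : X →ₗ[B] X'') (hf : Injective f) (hg : Surjective g) (h : Exact f g)
    (hX : FL zs X) : eul zs X = eul zs X' + eul zs X'' := by
  induction zs generalizing X' X X'' with
  | nil =>
    unfold eul
    rw [Module.length_eq_add_of_exact f g hf hg h, ENat.toNat_add
      (hX.of_injective f hf).length_ne_top (hX.of_surjective g hg).length_ne_top]
    push_cast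
    ring
  | cons z zs ih =>
    obtain ⟨k1, k2, δ, c1, c2, e1, e2, e3, e4, e5, e6⟩ := six_term z f g hf hg h
    have key : ∀ {Y Z : Type u} [AddCommGroup Y] [Module B Y] [AddCommGroup Z] [Module B Z]
        [Module.Finite B Y] [Module.Finite B Z] (φ : Y →ₗ[B] Z), FL zs Y →
        eul zs Y = eul zs (LinearMap.ker φ) + eul zs (LinearMap.range φ) := by
      intro Y Z _ _ _ _ _ _ φ hY
      exact ih (LinearMap.ker φ).subtype φ.rangeRestrict (Submodule.injective_subtype _)
        (LinearMap.surjective_rangeRestrict φ) (by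
          intro x
          rw [Subtype.ext_iff]
          simp) hY
    have hX' := hX.of_injective f hf
    have hX'' := hX.of_surjective g hg
    unfold eul
    have a1 := key k1 hX'.torsionBy
    have a2 := key k2 hX.torsionBy
    have a3 := key δ hX''.torsionBy
    have a4 := key c1 hX'.quot
    have a5 := key c2 hX.quot
    have a6 : eul zs (QuotSMulTop z X'') = eul zs (LinearMap.range c2) := by
      rw [LinearMap.range_eq_top.2 e6]
      exact eul_congr zs (Submodule.topEquiv).symm
    have a7 : eul zs (LinearMap.ker k1) = 0 := by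
      rw [LinearMap.ker_eq_bot.2 e1]
      exact eul_subsingleton zs _
    rw [LinearMap.exact_iff.1 e2] at a2
    rw [LinearMap.exact_iff.1 e3] at a3
    rw [LinearMap.exact_iff.1 e4] at a4
    rw [LinearMap.exact_iff.1 e5] at a5
    linarith

theorem eul_ker_add_range (zs : List B) {Y Z : Type u} [AddCommGroup Y] [Module B Y]
    [AddCommGroup Z] [Module B Z] [Module.Finite B Y] [Module.Finite B Z] (φ : Y →ₗ[B] Z)
    (hY : FL zs Y) : eul zs Y = eul zs (LinearMap.ker φ) + eul zs (LinearMap.range φ) :=
  eul_add zs (LinearMap.ker φ).subtype φ.rangeRestrict (Submodule.injective_subtype _)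
    (LinearMap.surjective_rangeRestrict φ) (by
      intro x
      rw [Subtype.ext_iff]
      simp) hY

/-- If `X` already has finite length modulo `zs` then `eul (z :: zs) X = 0`. -/
theorem eul_cons_eq_zero (z : B) (zs : List B) (X : Type u) [AddCommGroup X] [Module B X]
    [Module.Finite B X] (hX : FL zs X) : eul (z :: zs) X = 0 := by
  have h1 := eul_ker_add_range zs (LinearMap.lsmul B X z) hX
  have h2 : eul zs X = eul zs (LinearMap.range (LinearMap.lsmul B X z)) +
      eul zs (QuotSMulTop z X) := by
    refine eul_add zs (LinearMap.range (LinearMap.lsmul B X z)).subtype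
      (Submodule.mkQ _) (Submodule.injective_subtype _) (Submodule.mkQ_surjective _) ?_ hX
    intro x
    rw [Submodule.mkQ_apply, Submodule.Quotient.mk_eq_zero,
      Submodule.mem_smul_pointwise_iff_exists]
    simp
  have h3 : eul zs (LinearMap.ker (LinearMap.lsmul B X z)) =
      eul zs (Submodule.torsionBy B X z) := rfl
  unfold eul
  rw [h3] at h1
  linarith

omit [IsNoetherianRing B] in
/-- `z`-power torsion has finite length modulo `zs`. -/
theorem FL.of_pow {z : B} {zs : List B} {X : Type u} [AddCommGroup X] [Module B X]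
    (hX : FL (z :: zs) X) (n : ℕ) (hz : z ^ n ∈ Module.annihilator B X) : FL zs X := by
  unfold FL at hX ⊢
  rw [Ideal.ofList_cons, ← sup_assoc] at hX
  refine hX.trans ?_
  rw [← Ideal.radical_idem (Module.annihilator B X ⊔ Ideal.ofList zs)]
  apply Ideal.radical_mono
  refine sup_le (sup_le ?_ ?_) ?_
  · exact le_sup_left.trans Ideal.le_radical
  · rw [Ideal.span_singleton_le_iff_mem]
    exact ⟨n, Ideal.mem_sup_left hz⟩
  · exact le_sup_right.trans Ideal.le_radical

theorem supportDim_le_length (zs : List B) (hzs : ∀ z ∈ zs, z ∈ maximalIdeal B) (X : Type u)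
    [AddCommGroup X] [Module B X] [Module.Finite B X] (hX : FL zs X) :
    Module.supportDim B X ≤ zs.length := by
  induction zs generalizing X with
  | nil =>
    unfold FL at hX
    rw [Ideal.ofList_nil, sup_bot_eq] at hX
    unfold Module.supportDim
    rw [List.length_nil, Nat.cast_zero, Order.krullDim_nonpos_iff_forall_isMax]
    rintro ⟨P, hP⟩ ⟨Q, hQ⟩ hPQ
    have h1 : P.asIdeal = maximalIdeal B := by
      apply le_antisymm (le_maximalIdeal P.2.ne_top)
      refine hX.trans ?_
      rw [P.2.radical_le_iff]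
      exact Module.annihilator_le_of_mem_support hP
    change Q.asIdeal ≤ P.asIdeal
    rw [h1]
    exact le_maximalIdeal Q.2.ne_top
  | cons z zs ih =>
    have h1 := ih (fun y hy => hzs y (List.mem_cons_of_mem _ hy)) (QuotSMulTop z X) hX.quot
    have h2 := Module.supportDim_le_supportDim_quotSMulTop_succ (M := X)
      (hzs z List.mem_cons_self)
    refine h2.trans ?_
    rw [List.length_cons]
    push_cast
    gcongr

end FL

end Vale.Agent.P177
end

section

/-!
Euler characteristics of Tor along a regular sequence.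
-/

namespace Vale.Agent.P177

open CategoryTheory TensorProduct Function IsLocalRing RingTheory.Sequence Pointwise

universe u

variable {B : Type u} [CommRing B] [IsLocalRing B]

/-- Finiteness condition for pairs. -/
def FL2 (zs : List B) (Z W : Type u) [AddCommGroup Z] [Module B Z] [AddCommGroup W]
    [Module B W] : Prop :=
  maximalIdeal B ≤ (Module.annihilator B Z ⊔ Module.annihilator B W ⊔ Ideal.ofList zs).radical

theorem FL2.tor {zs : List B} {Z W : Type u} [AddCommGroup Z] [Module B Z] [AddCommGroup W]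
    [Module B W] (h : FL2 zs Z W) (j : ℕ) : FL zs (TorM B j Z W) := by
  refine h.trans (Ideal.radical_mono (sup_le_sup_right (sup_le ?_ ?_) _))
  · intro a ha
    rw [Module.mem_annihilator]
    exact tor_smul_eq_zero_left a (fun m => Module.mem_annihilator.1 ha m) j W
  · intro a ha
    rw [Module.mem_annihilator]
    exact tor_smul_eq_zero_right a (fun m => Module.mem_annihilator.1 ha m) j Z

theorem FL2.quot {z : B} {zs : List B} {Z W : Type u} [AddCommGroup Z] [Module B Z]
    [AddCommGroup W] [Module B W] (h : FL2 (z :: zs) Z W) : FL2 zs (QuotSMulTop z Z) W := by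
  refine h.trans (Ideal.radical_mono ?_)
  rw [Ideal.ofList_cons]
  refine sup_le (sup_le ?_ ?_) (sup_le ?_ ?_)
  · exact le_sup_of_le_left (le_sup_of_le_left
      (LinearMap.annihilator_le_of_surjective _ (Submodule.mkQ_surjective _)))
  · exact le_sup_of_le_left le_sup_right
  · refine le_sup_of_le_left (le_sup_of_le_left ?_)
    rw [Ideal.span_singleton_le_iff_mem]
    exact QuotSMulTop.mem_annihilator Z z
  · exact le_sup_right

variable [IsNoetherianRing B]

theorem eul_tor_quot_succ (z : B) (ws : List B) (Z W : Type u) [AddCommGroup Z] [Module B Z]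
    [Module.Finite B Z] [AddCommGroup W] [Module B W] [Module.Finite B W]
    (hz : IsSMulRegular Z z) (hFL : FL2 (z :: ws) Z W) (n : ℕ) :
    eul ws (TorM B (n + 1) (QuotSMulTop z Z) W) =
      eul ws (QuotSMulTop z (TorM B (n + 1) Z W)) +
        eul ws (Submodule.torsionBy B (TorM B n Z W) z) := by
  obtain ⟨f, g, hf, hi, hs, hex⟩ := quot_ses Z z hz
  obtain ⟨δ, h1, h2, h3⟩ := exists_torDelta f g hi hs hex W
  have i1 := tor_finite (R := B) (n + 1) (QuotSMulTop z Z) W
  have i2 := tor_finite (R := B) n Z W
  have i3 := tor_finite (R := B) (n + 1) Z W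
  rw [eul_ker_add_range ws (δ n) (hFL.quot.tor (n + 1))]
  congr 1
  · rw [LinearMap.exact_iff.1 (h1 n)]
    obtain ⟨e⟩ := exists_quotSMulTop_equiv z (torMap (n + 1) f W)
      (torMap_smul_id (n + 1) z f hf) (torMap (n + 1) g W).rangeRestrict
      (LinearMap.surjective_rangeRestrict _) (by
        intro x
        rw [← h3 (n + 1) x, Subtype.ext_iff]
        rfl)
    exact (eul_congr ws e).symm
  · rw [← LinearMap.exact_iff.1 (h2 n)]
    have : LinearMap.ker (torMap n f W) = Submodule.torsionBy B (TorM B n Z W) z := by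
      ext x
      rw [LinearMap.mem_ker, torMap_smul_id n z f hf, Submodule.mem_torsionBy_iff]
    rw [this]

theorem eul_tor_quot_zero (z : B) (ws : List B) (Z W : Type u) [AddCommGroup Z] [Module B Z]
    [AddCommGroup W] [Module B W]
    (hz : IsSMulRegular Z z) :
    eul ws (TorM B 0 (QuotSMulTop z Z) W) = eul ws (QuotSMulTop z (TorM B 0 Z W)) := by
  obtain ⟨f, g, hf, hi, hs, hex⟩ := quot_ses Z z hz
  obtain ⟨δ, h1, h2, h3⟩ := exists_torDelta f g hi hs hex W
  obtain ⟨e⟩ := exists_quotSMulTop_equiv z (torMap 0 f W)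
      (torMap_smul_id 0 z f hf) (torMap 0 g W) (torMap_zero_surjective g hs W) (h3 0)
  exact (eul_congr ws e).symm

theorem sum_eul_quot (z : B) (ws : List B) (Z W : Type u) [AddCommGroup Z] [Module B Z]
    [Module.Finite B Z] [AddCommGroup W] [Module B W] [Module.Finite B W]
    (hz : IsSMulRegular Z z) (hFL : FL2 (z :: ws) Z W) (n : ℕ) :
    ∑ j ∈ Finset.range (n + 1), (-1 : ℤ) ^ j * eul ws (TorM B j (QuotSMulTop z Z) W) =
      ∑ j ∈ Finset.range (n + 1), (-1 : ℤ) ^ j * eul (z :: ws) (TorM B j Z W) +
        (-1) ^ n * eul ws (Submodule.torsionBy B (TorM B n Z W) z) := by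
  have hdef : ∀ j, eul (z :: ws) (TorM B j Z W) = eul ws (QuotSMulTop z (TorM B j Z W)) -
      eul ws (Submodule.torsionBy B (TorM B j Z W) z) := fun j => rfl
  induction n with
  | zero =>
    simp only [zero_add, Finset.sum_range_one, pow_zero, one_mul]
    rw [eul_tor_quot_zero z ws Z W hz, hdef]
    ring
  | succ n ih =>
    rw [Finset.sum_range_succ, ih, Finset.sum_range_succ _ (n + 1),
      eul_tor_quot_succ z ws Z W hz hFL, hdef]
    ring

/-- Euler characteristic of `Tor(Z/zsZ, W)` along a `Z`-regular sequence `zs`. -/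
theorem sum_length_tor_quot (zs : List B) (W : Type u) [AddCommGroup W] [Module B W]
    [Module.Finite B W] (n : ℕ) (Z : Type u) [AddCommGroup Z] [Module B Z]
    [Module.Finite B Z] (hreg : IsWeaklyRegular Z zs) (hFL : FL2 zs Z W) (n₀ : ℕ)
    (hv : ∀ j, n₀ ≤ j → Subsingleton (TorM B j Z W)) (hn : n₀ + zs.length ≤ n) :
    ∑ j ∈ Finset.range n, (-1 : ℤ) ^ j * ((Module.length B
      (TorM B j (Z ⧸ (Ideal.ofList zs • ⊤ : Submodule B Z)) W)).toNat : ℤ) =
      ∑ j ∈ Finset.range n, (-1 : ℤ) ^ j * eul zs (TorM B j Z W) := by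
  induction zs generalizing Z n₀ with
  | nil =>
    refine Finset.sum_congr rfl fun j _ => ?_
    have e : (Z ⧸ (Ideal.ofList ([] : List B) • ⊤ : Submodule B Z)) ≃ₗ[B] Z :=
      Submodule.quotEquivOfEqBot _ (by simp)
    rw [(torCongrLeft j e W).length_eq]
    rfl
  | cons z zs ih =>
    rw [isWeaklyRegular_cons_iff] at hreg
    rw [List.length_cons] at hn
    have h1 : ∀ j, n₀ + 1 ≤ j → Subsingleton (TorM B j (QuotSMulTop z Z) W) := by
      intro j hj
      obtain ⟨j, rfl⟩ : ∃ k, j = k + 1 := ⟨j - 1, by omega⟩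
      exact tor_subsingleton_step Z z hreg.1 W j (hv _ (by omega)) (hv _ (by omega))
    have h2 := ih (QuotSMulTop z Z) hreg.2 hFL.quot (n₀ + 1) h1 (by omega)
    have h3 : ∀ j, Module.length B
        (TorM B j (Z ⧸ (Ideal.ofList (z :: zs) • ⊤ : Submodule B Z)) W) =
        Module.length B (TorM B j (QuotSMulTop z Z ⧸
          (Ideal.ofList zs • ⊤ : Submodule B (QuotSMulTop z Z))) W) := fun j =>
      (torCongrLeft j
        (Submodule.quotOfListConsSMulTopEquivQuotSMulTopInner Z z zs) W).length_eq
    simp only [h3]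
    rw [h2]
    obtain ⟨m, rfl⟩ : ∃ m, n = m + 1 := ⟨n - 1, by omega⟩
    rw [sum_eul_quot z zs Z W hreg.1 hFL m]
    have h4 := hv m (by omega)
    have h5 : Subsingleton (Submodule.torsionBy B (TorM B m Z W) z) := inferInstance
    rw [eul_subsingleton zs (Submodule.torsionBy B (TorM B m Z W) z), mul_zero, add_zero]

end Vale.Agent.P177
end

section

/-!
Lower bound for dimensions of tensor products of base changes.
-/

namespace Vale.Agent.P177

open CategoryTheory TensorProduct Function IsLocalRing RingTheory.Sequence Pointwise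

universe u

section prelim

variable {S : Type u} [CommRing S] [IsLocalRing S]

/-- A nonzero finitely generated module over a local ring surjects onto the residue field. -/
theorem exists_surjective_residue (M : Type u) [AddCommGroup M] [Module S M] [Module.Finite S M]
    [Nontrivial M] : ∃ g : M →ₗ[S] (S ⧸ maximalIdeal S), Surjective g := by
  obtain ⟨N, hN⟩ := IsCoatomic.exists_coatom (Submodule S M)
  have hs : IsSimpleModule S (M ⧸ N) := isSimpleModule_iff_isCoatom.2 hN
  obtain ⟨I, hI, ⟨e⟩⟩ := isSimpleModule_iff_quot_maximal.1 hs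
  have hI' : I = maximalIdeal S := IsLocalRing.eq_maximalIdeal hI
  subst hI'
  exact ⟨e.toLinearMap ∘ₗ N.mkQ, e.surjective.comp (Submodule.mkQ_surjective N)⟩

/-- A prime of the support starting a long chain is associated: embedding of `S/P`. -/
theorem exists_prime_embedding [IsNoetherianRing S] (n : ℕ) (M : Type u) [AddCommGroup M]
    [Module S M] [Module.Finite S M]
    (hn : (n + 1 : ℕ) ≤ Module.supportDim S M) :
    ∃ P : Ideal S, P.IsPrime ∧ P < maximalIdeal S ∧
      (∃ f : (S ⧸ P) →ₗ[S] M, Injective f) ∧ (n + 1 : ℕ) ≤ Module.supportDim S (S ⧸ P) := by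
  unfold Module.supportDim at hn
  obtain ⟨l, hl⟩ := Order.le_krullDim_iff.1 hn
  have hle : Module.annihilator S M ≤ l.head.1.asIdeal :=
    Module.annihilator_le_of_mem_support l.head.2
  have hprime := l.head.1.2
  obtain ⟨P, hP, hPle⟩ := Ideal.exists_minimalPrimes_le hle
  have hass := Module.associatedPrimes.minimalPrimes_annihilator_subset_associatedPrimes S M hP
  obtain ⟨hPp, x, hx⟩ := isAssociatedPrime_iff.1 hass
  refine ⟨P, hPp, ?_, ?_, ?_⟩
  · have h1 : l.head < l.last := by
      apply l.strictMono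
      rw [Fin.lt_def]
      change 0 < l.length
      omega
    have h2 : l.head.1.asIdeal < l.last.1.asIdeal := h1
    exact (hPle.trans_lt h2).trans_le (le_maximalIdeal l.last.1.2.ne_top)
  · have hker : P = LinearMap.ker (LinearMap.toSpanSingleton S M x) := by
      rw [hx]
      ext a
      rw [Submodule.mem_colon_singleton, LinearMap.mem_ker]
      rfl
    refine ⟨P.liftQ (LinearMap.toSpanSingleton S M x) hker.le, ?_⟩
    rw [← LinearMap.ker_eq_bot, Submodule.ker_liftQ_eq_bot']
    exact hker
  · unfold Module.supportDim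
    rw [Order.le_krullDim_iff]
    have hmem : ∀ i, (l i).1 ∈ Module.support S (S ⧸ P) := by
      intro i
      rw [Module.support_eq_zeroLocus, Ideal.annihilator_quotient]
      have h3 : l.head.1.asIdeal ≤ (l i).1.asIdeal := l.head_le i
      exact hPle.trans h3
    exact ⟨{ length := l.length
             toFun := fun i => ⟨(l i).1, hmem i⟩
             step := fun i => l.step i }, hl⟩

end prelim

section

variable {S B : Type u} [CommRing S] [CommRing B] [Algebra S B]
variable [IsLocalRing S] [IsNoetherianRing S] [IsLocalRing B] [IsNoetherianRing B]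
  [Module.Flat S B] [IsLocalHom (algebraMap S B)]

omit [IsLocalRing B] [IsNoetherianRing B] in
theorem torMap_zero_injective {M' M M'' : Type u} [AddCommGroup M'] [Module B M']
    [AddCommGroup M] [Module B M] [AddCommGroup M''] [Module B M'']
    (f : M' →ₗ[B] M) (g : M →ₗ[B] M'') (hf : Injective f)
    (hg : Surjective g) (h : Exact f g) (Z : Type u) [AddCommGroup Z] [Module B Z]
    (h2 : Subsingleton (TorM B 1 M'' Z)) : Injective (torMap 0 f Z) := by
  obtain ⟨δ, -, h3, -⟩ := exists_torDelta f g hf hg h Z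
  rw [injective_iff_map_eq_zero]
  intro x hx
  obtain ⟨y, rfl⟩ := (h3 0 x).1 hx
  rw [Subsingleton.elim y 0, map_zero]

theorem le_supportDim_tor (Z : Type u) [AddCommGroup Z] [Module B Z] [Module.Finite B Z]
    (hv : ∀ (M : Type u) [AddCommGroup M] [Module S M] [Module.Finite S M],
      Subsingleton (TorM B 1 (B ⊗[S] M) Z))
    (m : ℕ) (hm : (m : WithBot ℕ∞) ≤
      Module.supportDim B (TorM B 0 (B ⊗[S] (S ⧸ maximalIdeal S)) Z))
    (n : ℕ) (M : Type u) [AddCommGroup M] [Module S M] [Module.Finite S M]
    (hn : (n : WithBot ℕ∞) ≤ Module.supportDim S M) :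
    ((n + m : ℕ) : WithBot ℕ∞) ≤ Module.supportDim B (TorM B 0 (B ⊗[S] M) Z) := by
  induction n generalizing M with
  | zero =>
    have hnt : Nontrivial M := by
      rw [← Module.supportDim_ne_bot_iff_nontrivial S M]
      intro hb
      rw [hb] at hn
      simp at hn
    obtain ⟨g, hg⟩ := exists_surjective_residue (S := S) M
    rw [zero_add]
    refine hm.trans ?_
    have hg' : Surjective (g.baseChange B) := by
      rw [LinearMap.baseChange_eq_ltensor]
      exact LinearMap.lTensor_surjective B hg
    exact Module.supportDim_le_of_surjective _ (torMap_zero_surjective (g.baseChange B) hg' Z)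
  | succ n ih =>
    obtain ⟨P, hPp, hPm, ⟨f, hf⟩, hdim⟩ := exists_prime_embedding n M hn
    -- embed `S/P`
    have e1 : Exact f (LinearMap.range f).mkQ := by
      intro y
      simp
    obtain ⟨k1, k2, k3⟩ := baseChange_ses (B := B) f (LinearMap.range f).mkQ hf
      (Submodule.mkQ_surjective _) e1
    have hinj : Injective (torMap 0 (f.baseChange B) Z) :=
      torMap_zero_injective _ _ k1 k2 k3 Z (hv _)
    refine le_trans ?_ (Module.supportDim_le_of_injective _ hinj)
    -- multiplication by an element outside `P`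
    obtain ⟨x, hxm, hxP⟩ := SetLike.exists_of_lt hPm
    have hxreg : IsSMulRegular (S ⧸ P) x := by
      rw [isSMulRegular_iff_right_eq_zero_of_smul]
      intro a ha
      obtain ⟨a, rfl⟩ := Ideal.Quotient.mk_surjective a
      have h1 : Ideal.Quotient.mk P (x * a) = 0 := ha
      rw [Ideal.Quotient.eq_zero_iff_mem] at h1 ⊢
      exact (hPp.mem_or_mem h1).resolve_left hxP
    obtain ⟨φ, ψ, hφ, hi, hs, hex⟩ := quot_ses (S ⧸ P) x hxreg
    obtain ⟨j1, j2, j3⟩ := baseChange_ses (B := B) φ ψ hi hs hex
    have hle : (maximalIdeal S).map (algebraMap S B) ≤ maximalIdeal B :=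
      ((IsLocalRing.local_hom_TFAE (algebraMap S B)).out 0 2).mp ‹_›
    have hb : algebraMap S B x ∈ maximalIdeal B := hle (Ideal.mem_map_of_mem _ hxm)
    have hφ' : ∀ t, torMap 0 (φ.baseChange B) Z t = algebraMap S B x • t :=
      torMap_smul_id 0 (algebraMap S B x) _ (baseChange_smul_eq x φ hφ)
    have hinj2 : Injective (torMap 0 (φ.baseChange B) Z) :=
      torMap_zero_injective _ _ j1 j2 j3 Z (hv _)
    have hreg : IsSMulRegular (TorM B 0 (B ⊗[S] (S ⧸ P)) Z) (algebraMap S B x) := by
      intro a b hab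
      apply hinj2
      rw [hφ', hφ']
      exact hab
    obtain ⟨δ, -, -, h3⟩ := exists_torDelta _ _ j1 j2 j3 Z
    obtain ⟨e⟩ := exists_quotSMulTop_equiv (algebraMap S B x) (torMap 0 (φ.baseChange B) Z)
      hφ' (torMap 0 (ψ.baseChange B) Z) (torMap_zero_surjective _ j2 Z) (h3 0)
    have i1 := tor_finite (R := B) 0 (B ⊗[S] (S ⧸ P)) Z
    rw [← Module.supportDim_quotSMulTop_succ_eq_supportDim hreg hb,
      Module.supportDim_eq_of_equiv e]
    have h4 : (n : WithBot ℕ∞) ≤ Module.supportDim S (QuotSMulTop x (S ⧸ P)) := by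
      have h5 := Module.supportDim_le_supportDim_quotSMulTop_succ (M := S ⧸ P) hxm
      have h6 := hdim.trans h5
      generalize Module.supportDim S (QuotSMulTop x (S ⧸ P)) = a at h6 ⊢
      push_cast at h6
      induction a using WithBot.recBotCoe with
      | bot => simp at h6
      | coe a =>
        have h7 : ((n : ℕ∞) + 1) ≤ a + 1 := by exact_mod_cast h6
        have h8 : (n : ℕ∞) ≤ a := (ENat.add_le_add_iff_right (by simp)).1 h7
        exact_mod_cast h8
    have h9 := ih _ h4
    calc ((n + 1 + m : ℕ) : WithBot ℕ∞) = ((n + m : ℕ) : WithBot ℕ∞) + 1 := by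
          push_cast
          ring
      _ ≤ _ := by gcongr

end

end Vale.Agent.P177
end

section

/-!
Serre's positivity through the reduction to the diagonal, abstract form.
-/

namespace Vale.Agent.P177

open CategoryTheory TensorProduct Function IsLocalRing RingTheory.Sequence Pointwise

universe u

/-- Annihilator of a quotient. -/
theorem annihilator_quotient_le_radical {B : Type u} [CommRing B] (Z : Type u) [AddCommGroup Z]
    [Module B Z] [Module.Finite B Z] (I : Ideal B) :
    Module.annihilator B (Z ⧸ (I • ⊤ : Submodule B Z)) ≤ (Module.annihilator B Z ⊔ I).radical := by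
  have h := Module.support_quotient (R := B) (M := Z) I
  rw [Module.support_eq_zeroLocus, Module.support_eq_zeroLocus,
    ← PrimeSpectrum.zeroLocus_sup] at h
  have h2 := (PrimeSpectrum.zeroLocus_subset_zeroLocus_iff _ _).1 h.ge
  exact h2

theorem nontrivial_tor_zero {B : Type u} [CommRing B] [IsLocalRing B] (X Y : Type u)
    [AddCommGroup X] [Module B X] [Module.Finite B X] [Nontrivial X]
    [AddCommGroup Y] [Module B Y] [Module.Finite B Y] [Nontrivial Y] :
    Nontrivial (TorM B 0 X Y) := by
  have h1 := IsLocalRing.closedPoint_mem_support B X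
  have h2 := IsLocalRing.closedPoint_mem_support B Y
  have h3 := mem_support_tensorProduct _ h1 h2
  have h4 : Nontrivial (X ⊗[B] Y) := Module.nonempty_support_iff.1 ⟨_, h3⟩
  exact (torZero X Y).toEquiv.nontrivial

section residue

variable {S B : Type u} [CommRing S] [CommRing B] [Algebra S B] [IsLocalRing S] [IsLocalRing B]
  [IsLocalHom (algebraMap S B)]

theorem nontrivial_baseChange_residue : Nontrivial (B ⊗[S] (S ⧸ maximalIdeal S)) := by
  have hle : (maximalIdeal S).map (algebraMap S B) ≤ maximalIdeal B :=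
    ((IsLocalRing.local_hom_TFAE (algebraMap S B)).out 0 2).mp ‹_›
  have hne : (maximalIdeal S).map (algebraMap S B) ≠ ⊤ := fun h =>
    (maximalIdeal.isMaximal B).ne_top (top_le_iff.1 (h ▸ hle))
  have : Nontrivial (B ⧸ (maximalIdeal S).map (algebraMap S B)) :=
    Ideal.Quotient.nontrivial_iff.2 hne
  exact (Algebra.TensorProduct.quotIdealMapEquivTensorQuot B (maximalIdeal S)).symm.toEquiv.nontrivial

end residue

section independence

variable {S₁ S₂ B : Type u} [CommRing S₁] [CommRing S₂] [CommRing B] [Algebra S₁ B]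
  [Algebra S₂ B]
  [IsLocalRing S₁] [IsNoetherianRing S₁] [IsLocalRing S₂] [IsNoetherianRing S₂]
  [IsLocalRing B] [IsNoetherianRing B]
  [Module.Flat S₁ B] [Module.Flat S₂ B] [IsLocalHom (algebraMap S₁ B)]
  [IsLocalHom (algebraMap S₂ B)]

omit [IsLocalRing S₁] [IsNoetherianRing S₁] [IsLocalHom (algebraMap S₁ B)] in
/-- Tor-independence of modules coming from the two factors. -/
theorem tor_independent
    (K : Type u) [AddCommGroup K] [Module B K] [Module S₁ K] [IsScalarTower S₁ B K]
    [Module.Flat S₁ K] (e : (B ⊗[S₂] (S₂ ⧸ maximalIdeal S₂)) ≃ₗ[B] K)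
    (N : Type u) [AddCommGroup N] [Module S₁ N] [Module.Finite S₁ N]
    (M : Type u) [AddCommGroup M] [Module S₂ M] [Module.Finite S₂ M] (j : ℕ) (hj : 1 ≤ j) :
    Subsingleton (TorM B j (B ⊗[S₂] M) (B ⊗[S₁] N)) := by
  refine local_crit (S := S₂) (B := B) 1 (B ⊗[S₁] N) ?_ M j hj
  intro j hj
  obtain ⟨i, rfl⟩ : ∃ k, j = k + 1 := ⟨j - 1, by omega⟩
  have h1 : Subsingleton (TorM B (i + 1) (B ⊗[S₁] N) K) :=
    tor_subsingleton_bc i (TensorProduct.isBaseChange S₁ N B) K
  obtain ⟨e2⟩ := tor_symm (R := B) (i + 1) K (B ⊗[S₁] N)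
  have h2 : Subsingleton (TorM B (i + 1) K (B ⊗[S₁] N)) := e2.toEquiv.subsingleton
  exact (torCongrLeft (i + 1) e (B ⊗[S₁] N)).toEquiv.subsingleton

/-- Dimension of the external tensor product. -/
theorem le_supportDim_external
    (hv : ∀ (N : Type u) [AddCommGroup N] [Module S₁ N] [Module.Finite S₁ N]
      (M : Type u) [AddCommGroup M] [Module S₂ M] [Module.Finite S₂ M],
      Subsingleton (TorM B 1 (B ⊗[S₂] M) (B ⊗[S₁] N)))
    (N : Type u) [AddCommGroup N] [Module S₁ N] [Module.Finite S₁ N]
    (M : Type u) [AddCommGroup M] [Module S₂ M] [Module.Finite S₂ M] (a b : ℕ)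
    (ha : (a : WithBot ℕ∞) ≤ Module.supportDim S₂ M)
    (hb : (b : WithBot ℕ∞) ≤ Module.supportDim S₁ N) :
    ((a + b : ℕ) : WithBot ℕ∞) ≤ Module.supportDim B (TorM B 0 (B ⊗[S₂] M) (B ⊗[S₁] N)) := by
  refine le_supportDim_tor (S := S₂) (B := B) (B ⊗[S₁] N) (fun M _ _ _ => hv N M) b ?_ a M ha
  have h1 : ((b + 0 : ℕ) : WithBot ℕ∞) ≤ Module.supportDim B
      (TorM B 0 (B ⊗[S₁] N) (B ⊗[S₂] (S₂ ⧸ maximalIdeal S₂))) := by
    refine le_supportDim_tor (S := S₁) (B := B) (B ⊗[S₂] (S₂ ⧸ maximalIdeal S₂))
      (fun N _ _ _ => ?_) 0 ?_ b N hb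
    · have := hv N (S₂ ⧸ maximalIdeal S₂)
      obtain ⟨e⟩ := tor_symm (R := B) 1 (B ⊗[S₁] N) (B ⊗[S₂] (S₂ ⧸ maximalIdeal S₂))
      exact e.toEquiv.subsingleton
    · have n1 : Nontrivial (B ⊗[S₁] (S₁ ⧸ maximalIdeal S₁)) := nontrivial_baseChange_residue
      have n2 : Nontrivial (B ⊗[S₂] (S₂ ⧸ maximalIdeal S₂)) := nontrivial_baseChange_residue
      have n3 := nontrivial_tor_zero (B := B) (B ⊗[S₁] (S₁ ⧸ maximalIdeal S₁))
        (B ⊗[S₂] (S₂ ⧸ maximalIdeal S₂))
      have n4 := (Module.supportDim_ne_bot_iff_nontrivial B (TorM B 0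
        (B ⊗[S₁] (S₁ ⧸ maximalIdeal S₁)) (B ⊗[S₂] (S₂ ⧸ maximalIdeal S₂)))).2 n3
      generalize Module.supportDim B (TorM B 0
        (B ⊗[S₁] (S₁ ⧸ maximalIdeal S₁)) (B ⊗[S₂] (S₂ ⧸ maximalIdeal S₂))) = c at n4 ⊢
      induction c using WithBot.recBotCoe with
      | bot => exact absurd rfl n4
      | coe a => exact_mod_cast bot_le
  rw [add_zero] at h1
  obtain ⟨e⟩ := tor_symm (R := B) 0 (B ⊗[S₁] N) (B ⊗[S₂] (S₂ ⧸ maximalIdeal S₂))
  rwa [Module.supportDim_eq_of_equiv e] at h1

end independence

section main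

variable {S₁ S₂ B : Type u} [CommRing S₁] [CommRing S₂] [CommRing B] [Algebra S₁ B]
  [Algebra S₂ B]

/-- `(B ⊗ N)/δ(B ⊗ N) = N` if `B = S₁ + (δ)`. -/
theorem exists_quot_equiv (N : Type u) [AddCommGroup N] [Module B N] [Module S₁ N]
    [IsScalarTower S₁ B N] (I : Ideal B)
    (hres : ∀ b : B, ∃ s : S₁, b - algebraMap S₁ B s ∈ I)
    (hkill : ∀ z ∈ I, ∀ t : N, z • t = 0) :
    Nonempty (((B ⊗[S₁] N) ⧸ (I • ⊤ : Submodule B (B ⊗[S₁] N))) ≃ₗ[B] N) := by
  let π : B ⊗[S₁] N →ₗ[B] N := LinearMap.liftBaseChange B (LinearMap.id : N →ₗ[S₁] N)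
  have hπ : ∀ b t, π (b ⊗ₜ t) = b • t := fun b t => by simp [π]
  have hs : Surjective π := fun t => ⟨1 ⊗ₜ t, by rw [hπ, one_smul]⟩
  have hker : LinearMap.ker π = (I • ⊤ : Submodule B (B ⊗[S₁] N)) := by
    apply le_antisymm
    · have key : ∀ x : B ⊗[S₁] N, ∃ t : N, x - (1 : B) ⊗ₜ[S₁] t ∈
          (I • ⊤ : Submodule B (B ⊗[S₁] N)) := by
        intro x
        induction x using TensorProduct.induction_on with
        | zero => exact ⟨0, by simp⟩
        | tmul b t =>
          obtain ⟨s, hs⟩ := hres b
          refine ⟨s • t, ?_⟩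
          have h1 : b ⊗ₜ[S₁] t - (1 : B) ⊗ₜ[S₁] (s • t) =
              (b - algebraMap S₁ B s) • ((1 : B) ⊗ₜ[S₁] t) := by
            rw [← TensorProduct.smul_tmul, TensorProduct.smul_tmul', smul_eq_mul, mul_one,
              TensorProduct.sub_tmul, Algebra.smul_def, mul_one]
          rw [h1]
          exact Submodule.smul_mem_smul hs trivial
        | add x y hx hy =>
          obtain ⟨t, ht⟩ := hx
          obtain ⟨u, hu⟩ := hy
          refine ⟨t + u, ?_⟩
          rw [TensorProduct.tmul_add]
          have := add_mem ht hu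
          convert this using 1
          abel
      intro x hx
      obtain ⟨t, ht⟩ := key x
      have h2 : π (x - (1 : B) ⊗ₜ[S₁] t) = 0 := by
        have : ∀ y ∈ (I • ⊤ : Submodule B (B ⊗[S₁] N)), π y = 0 := by
          intro y hy
          induction hy using Submodule.smul_induction_on' with
          | smul a ha b hb => rw [map_smul, hkill a ha]
          | add a ha b hb h1 h2 => rw [map_add, h1, h2, add_zero]
        exact this _ ht
      rw [map_sub, hπ, one_smul, (LinearMap.mem_ker).1 hx, zero_sub, neg_eq_zero] at h2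
      rwa [h2, TensorProduct.tmul_zero, sub_zero] at ht
    · rw [Submodule.smul_le]
      intro a ha b _
      rw [LinearMap.mem_ker, map_smul, hkill a ha]
  exact ⟨Submodule.quotEquivOfEq _ _ hker.symm ≪≫ₗ π.quotKerEquivOfSurjective hs⟩

variable [IsLocalRing S₁] [IsNoetherianRing S₁] [IsLocalRing S₂] [IsNoetherianRing S₂]
  [IsLocalRing B] [IsNoetherianRing B]
  [Module.Flat S₁ B] [Module.Flat S₂ B]

omit [IsLocalRing S₁] [IsNoetherianRing S₁] in
/-- Reduction to the diagonal for the Euler characteristic. -/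
theorem eulerTor_eq_eul (δ : List B) (hδm : ∀ z ∈ δ, z ∈ maximalIdeal B)
    (hδreg : IsWeaklyRegular B δ)
    (hres : ∀ b : B, ∃ s : S₁, b - algebraMap S₁ B s ∈ Ideal.ofList δ)
    (D : Type u) [AddCommGroup D] [Module B D] [Module S₁ D] [IsScalarTower S₁ B D]
    [Module.Flat S₁ D] (eD : (B ⧸ (Ideal.ofList δ • ⊤ : Submodule B B)) ≃ₗ[B] D)
    (N : Type u) [AddCommGroup N] [Module B N] [Module S₁ N] [Module S₂ N]
    [IsScalarTower S₁ B N] [IsScalarTower S₂ B N] [Module.Finite S₁ N]
    (hkill : ∀ z ∈ Ideal.ofList δ, ∀ t : N, z • t = 0)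
    (hN2 : ∀ b : B, ∃ s : S₂, ∀ t : N, b • t = s • t)
    (M : Type u) [AddCommGroup M] [Module S₂ M] [Module.Finite S₂ M]
    (hv : ∀ j, 1 ≤ j → Subsingleton (TorM B j (B ⊗[S₂] M) (B ⊗[S₁] N)))
    (hlen : Module.length S₂ (M ⊗[S₂] N) ≠ ⊤) (n : ℕ) (hn : 1 + δ.length ≤ n) :
    eulerTor S₂ n M N = eul δ (TorM B 0 (B ⊗[S₁] N) (B ⊗[S₂] M)) ∧
      FL2 δ (B ⊗[S₁] N) (B ⊗[S₂] M) := by
  have hNfin : Module.Finite B N := Module.Finite.of_restrictScalars_finite S₁ B N
  obtain ⟨eq⟩ := exists_quot_equiv (S₁ := S₁) N (Ideal.ofList δ) hres hkill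
  -- regularity of `δ` on `B ⊗ N`
  have h1 : ∀ j, 1 ≤ j → Subsingleton (TorM B j (B ⧸ (Ideal.ofList δ • ⊤ : Submodule B B))
      (B ⊗[S₁] N)) := by
    intro j hj
    obtain ⟨i, rfl⟩ : ∃ k, j = k + 1 := ⟨j - 1, by omega⟩
    have h1 : Subsingleton (TorM B (i + 1) (B ⊗[S₁] N) D) :=
      tor_subsingleton_bc i (TensorProduct.isBaseChange S₁ N B) D
    obtain ⟨e2⟩ := tor_symm (R := B) (i + 1) D (B ⊗[S₁] N)
    have h2 : Subsingleton (TorM B (i + 1) D (B ⊗[S₁] N)) := e2.toEquiv.subsingleton
    exact (torCongrLeft (i + 1) eD (B ⊗[S₁] N)).toEquiv.subsingleton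
  have h2 := (regular_of_tor_vanish δ hδm B hδreg (B ⊗[S₁] N) h1).2
  have h3 : IsWeaklyRegular (B ⊗[S₁] N) δ := by
    have e : TorM B 0 B (B ⊗[S₁] N) ≃ₗ[B] (B ⊗[S₁] N) :=
      (torZero B (B ⊗[S₁] N)) ≪≫ₗ TensorProduct.lid B _
    exact (e.isWeaklyRegular_congr δ).1 h2
  -- vanishing
  have hv' : ∀ j, 1 ≤ j → Subsingleton (TorM B j (B ⊗[S₁] N) (B ⊗[S₂] M)) := by
    intro j hj
    have := hv j hj
    obtain ⟨e⟩ := tor_symm (R := B) j (B ⊗[S₁] N) (B ⊗[S₂] M)
    exact e.toEquiv.subsingleton
  -- finiteness
  have hlenB : Module.length B ((B ⊗[S₂] M) ⊗[B] N) ≠ ⊤ := by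
    rw [← length_tensor_bc (TensorProduct.isBaseChange S₂ M B) N hN2]
    exact hlen
  obtain ⟨k, hk⟩ := exists_pow_le_sup_annihilator (R := B) (B ⊗[S₂] M) N hlenB
  have hFL : FL2 δ (B ⊗[S₁] N) (B ⊗[S₂] M) := by
    have h4 : maximalIdeal B ≤ (Module.annihilator B (B ⊗[S₂] M) ⊔
        Module.annihilator B N).radical := by
      intro x hx
      exact ⟨k, hk (Ideal.pow_mem_pow hx k)⟩
    refine h4.trans ?_
    rw [Ideal.radical_le_radical_iff]
    refine sup_le ?_ ?_
    · exact (le_sup_of_le_left le_sup_right).trans Ideal.le_radical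
    · rw [← eq.annihilator_eq]
      refine (annihilator_quotient_le_radical _ _).trans (Ideal.radical_mono ?_)
      exact sup_le (le_sup_of_le_left le_sup_left) le_sup_right
  refine ⟨?_, hFL⟩
  have h5 := sum_length_tor_quot δ (B ⊗[S₂] M) n (B ⊗[S₁] N) h3 hFL 1 hv' hn
  have h6 : ∀ j, Module.length B (TorM B j ((B ⊗[S₁] N) ⧸
      (Ideal.ofList δ • ⊤ : Submodule B (B ⊗[S₁] N))) (B ⊗[S₂] M)) =
      Module.length S₂ (TorM S₂ j M N) := by
    intro j
    rw [(torCongrLeft j eq (B ⊗[S₂] M)).length_eq]
    obtain ⟨e⟩ := tor_symm (R := B) j N (B ⊗[S₂] M)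
    rw [e.length_eq]
    exact (length_tor_bc j (TensorProduct.isBaseChange S₂ M B) N hN2).symm
  simp only [h6] at h5
  unfold eulerTor
  rw [h5]
  obtain ⟨m, rfl⟩ : ∃ m, n = m + 1 := ⟨n - 1, by omega⟩
  rw [Finset.sum_range_succ']
  rw [Finset.sum_eq_zero, zero_add, pow_zero, one_mul]
  intro i _
  have := hv' (i + 1) (by omega)
  rw [eul_subsingleton δ (TorM B (i + 1) (B ⊗[S₁] N) (B ⊗[S₂] M)), mul_zero]

end main

end Vale.Agent.P177
end

section

/-!
Reduction to the diagonal without Tor independence.
-/

namespace Vale.Agent.P177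

open CategoryTheory TensorProduct Function IsLocalRing RingTheory.Sequence Pointwise

universe u

section main

variable {S₁ S₂ B : Type u} [CommRing S₁] [CommRing S₂] [CommRing B] [Algebra S₁ B]
  [Algebra S₂ B] [IsNoetherianRing S₂]
  [IsLocalRing B] [IsNoetherianRing B]
  [Module.Flat S₁ B] [Module.Flat S₂ B]

omit [IsNoetherianRing S₂] in
/-- Reduction to the diagonal for the Euler characteristic. -/
theorem eulerTor_eq_sum_eul (δ : List B) (hδm : ∀ z ∈ δ, z ∈ maximalIdeal B)
    (hδreg : IsWeaklyRegular B δ)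
    (hres : ∀ b : B, ∃ s : S₁, b - algebraMap S₁ B s ∈ Ideal.ofList δ)
    (D : Type u) [AddCommGroup D] [Module B D] [Module S₁ D] [IsScalarTower S₁ B D]
    [Module.Flat S₁ D] (eD : (B ⧸ (Ideal.ofList δ • ⊤ : Submodule B B)) ≃ₗ[B] D)
    (N : Type u) [AddCommGroup N] [Module B N] [Module S₁ N] [Module S₂ N]
    [IsScalarTower S₁ B N] [IsScalarTower S₂ B N] [Module.Finite S₁ N]
    (hkill : ∀ z ∈ Ideal.ofList δ, ∀ t : N, z • t = 0)
    (hN2 : ∀ b : B, ∃ s : S₂, ∀ t : N, b • t = s • t)
    (M : Type u) [AddCommGroup M] [Module S₂ M] [Module.Finite S₂ M] (n₀ : ℕ)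
    (hv : ∀ j, n₀ ≤ j → Subsingleton (TorM B j (B ⊗[S₁] N) (B ⊗[S₂] M)))
    (hlen : Module.length S₂ (M ⊗[S₂] N) ≠ ⊤) (n : ℕ) (hn : n₀ + δ.length ≤ n) :
    eulerTor S₂ n M N = ∑ j ∈ Finset.range n,
        (-1 : ℤ) ^ j * eul δ (TorM B j (B ⊗[S₁] N) (B ⊗[S₂] M)) ∧
      FL2 δ (B ⊗[S₁] N) (B ⊗[S₂] M) := by
  have hNfin : Module.Finite B N := Module.Finite.of_restrictScalars_finite S₁ B N
  obtain ⟨eq⟩ := exists_quot_equiv (S₁ := S₁) N (Ideal.ofList δ) hres hkill
  -- regularity of `δ` on `B ⊗ N`
  have h1 : ∀ j, 1 ≤ j → Subsingleton (TorM B j (B ⧸ (Ideal.ofList δ • ⊤ : Submodule B B))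
      (B ⊗[S₁] N)) := by
    intro j hj
    obtain ⟨i, rfl⟩ : ∃ k, j = k + 1 := ⟨j - 1, by omega⟩
    have h1 : Subsingleton (TorM B (i + 1) (B ⊗[S₁] N) D) :=
      tor_subsingleton_bc i (TensorProduct.isBaseChange S₁ N B) D
    obtain ⟨e2⟩ := tor_symm (R := B) (i + 1) D (B ⊗[S₁] N)
    have h2 : Subsingleton (TorM B (i + 1) D (B ⊗[S₁] N)) := e2.toEquiv.subsingleton
    exact (torCongrLeft (i + 1) eD (B ⊗[S₁] N)).toEquiv.subsingleton
  have h2 := (regular_of_tor_vanish δ hδm B hδreg (B ⊗[S₁] N) h1).2
  have h3 : IsWeaklyRegular (B ⊗[S₁] N) δ := by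
    have e : TorM B 0 B (B ⊗[S₁] N) ≃ₗ[B] (B ⊗[S₁] N) :=
      (torZero B (B ⊗[S₁] N)) ≪≫ₗ TensorProduct.lid B _
    exact (e.isWeaklyRegular_congr δ).1 h2
  -- finiteness
  have hlenB : Module.length B ((B ⊗[S₂] M) ⊗[B] N) ≠ ⊤ := by
    rw [← length_tensor_bc (TensorProduct.isBaseChange S₂ M B) N hN2]
    exact hlen
  obtain ⟨k, hk⟩ := exists_pow_le_sup_annihilator (R := B) (B ⊗[S₂] M) N hlenB
  have hFL : FL2 δ (B ⊗[S₁] N) (B ⊗[S₂] M) := by
    have h4 : maximalIdeal B ≤ (Module.annihilator B (B ⊗[S₂] M) ⊔
        Module.annihilator B N).radical := by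
      intro x hx
      exact ⟨k, hk (Ideal.pow_mem_pow hx k)⟩
    refine h4.trans ?_
    rw [Ideal.radical_le_radical_iff]
    refine sup_le ?_ ?_
    · exact (le_sup_of_le_left le_sup_right).trans Ideal.le_radical
    · rw [← eq.annihilator_eq]
      refine (annihilator_quotient_le_radical _ _).trans (Ideal.radical_mono ?_)
      exact sup_le (le_sup_of_le_left le_sup_left) le_sup_right
  refine ⟨?_, hFL⟩
  have h5 := sum_length_tor_quot δ (B ⊗[S₂] M) n (B ⊗[S₁] N) h3 hFL n₀ hv hn
  have h6 : ∀ j, Module.length B (TorM B j ((B ⊗[S₁] N) ⧸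
      (Ideal.ofList δ • ⊤ : Submodule B (B ⊗[S₁] N))) (B ⊗[S₂] M)) =
      Module.length S₂ (TorM S₂ j M N) := by
    intro j
    rw [(torCongrLeft j eq (B ⊗[S₂] M)).length_eq]
    obtain ⟨e⟩ := tor_symm (R := B) j N (B ⊗[S₂] M)
    rw [e.length_eq]
    exact (length_tor_bc j (TensorProduct.isBaseChange S₂ M B) N hN2).symm
  simp only [h6] at h5
  unfold eulerTor
  rw [h5]

end main

section shrink

/-- Truncation of Euler characteristics. -/
theorem eulerTor_shrink {R : Type u} [CommRing R] (M N : Type u) [AddCommGroup M] [Module R M]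
    [AddCommGroup N] [Module R N] (m n : ℕ) (hmn : m ≤ n)
    (h : ∀ j, m ≤ j → Subsingleton (TorM R j M N)) : eulerTor R n M N = eulerTor R m M N := by
  unfold eulerTor
  symm
  refine Finset.sum_subset (Finset.range_mono hmn) ?_
  intro j _ hj
  have := h j (by simpa using hj)
  rw [Module.length_eq_zero]
  simp

end shrink

end Vale.Agent.P177
end

section

/-!
The kernel of a surjection from a regular local ring onto a discrete valuation ring is generated
by a regular sequence.
-/

namespace Vale.Agent.P177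

open CategoryTheory TensorProduct Function IsLocalRing RingTheory.Sequence Pointwise

universe u v

theorem exists_regular_ker (V : Type v) [CommRing V] [IsDomain V] [IsDiscreteValuationRing V]
    (r : ℕ) : ∀ (R : Type u) [CommRing R] [IsRegularLocalRing R] (φ : R →+* V),
    Surjective φ → ringKrullDim R = r →
    ∃ zs : List R, (∀ z ∈ zs, z ∈ maximalIdeal R) ∧ IsWeaklyRegular R zs ∧
      Ideal.ofList zs = RingHom.ker φ := by
  induction r with
  | zero =>
    intro R _ _ φ hφ hr
    have hD : IsDomain R := regular_isDomain R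
    have hker : RingHom.ker φ ≤ maximalIdeal R := le_maximalIdeal (RingHom.ker_ne_top φ)
    have h0 : (maximalIdeal R).spanFinrank = 0 := by
      have := exists_nat_ringKrullDim R
      rw [hr] at this
      exact_mod_cast this.symm
    have h1 : maximalIdeal R = ⊥ := by
      rwa [Submodule.spanFinrank_eq_zero_iff_eq_bot ((maximalIdeal R).fg_of_isNoetherianRing)]
        at h0
    refine ⟨[], by simp, IsWeaklyRegular.nil _ _, ?_⟩
    rw [Ideal.ofList_nil]
    exact (le_bot_iff.1 (h1 ▸ hker)).symm
  | succ r ih =>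
    intro R _ _ φ hφ hr
    have hD : IsDomain R := regular_isDomain R
    have hker : RingHom.ker φ ≤ maximalIdeal R := le_maximalIdeal (RingHom.ker_ne_top φ)
    have hkp : (RingHom.ker φ).IsPrime := RingHom.ker_isPrime φ
    by_cases hle : RingHom.ker φ ≤ maximalIdeal R ^ 2
    · -- the maximal ideal is principal and the kernel vanishes
      obtain ⟨ϖ, hϖ⟩ := IsDiscreteValuationRing.exists_irreducible V
      obtain ⟨π, rfl⟩ := hφ ϖ
      have hmV : maximalIdeal V = Ideal.span {φ π} := hϖ.maximalIdeal_eq
      have hmap : (maximalIdeal R).map φ = maximalIdeal V := map_maximalIdeal_of_surjective _ hφ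
      have hle2 : maximalIdeal R ≤ Ideal.span {π} ⊔ maximalIdeal R • maximalIdeal R := by
        intro x hx
        have h1 : φ x ∈ maximalIdeal V := hmap ▸ Ideal.mem_map_of_mem φ hx
        rw [hmV, Ideal.mem_span_singleton'] at h1
        obtain ⟨c, hc⟩ := h1
        obtain ⟨c, rfl⟩ := hφ c
        have h2 : x - c * π ∈ RingHom.ker φ := by
          rw [RingHom.mem_ker, map_sub, map_mul, hc, sub_self]
        have h3 : x = c * π + (x - c * π) := by ring
        rw [h3]
        refine Submodule.add_mem_sup (Ideal.mul_mem_left _ _ (Ideal.mem_span_singleton_self π)) ?_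
        rw [smul_eq_mul, ← pow_two]
        exact hle h2
      have hπm : π ∈ maximalIdeal R := by
        by_contra hcon
        rw [mem_maximalIdeal, mem_nonunits_iff, not_not] at hcon
        exact hϖ.not_isUnit (hcon.map φ)
      have h4 : maximalIdeal R ≤ Ideal.span {π} := by
        apply Submodule.le_of_le_smul_of_le_jacobson_bot (I := maximalIdeal R)
          ((maximalIdeal R).fg_of_isNoetherianRing)
        · rw [IsLocalRing.jacobson_eq_maximalIdeal _ bot_ne_top]
        · exact hle2
      have hπk : π ∉ RingHom.ker φ := by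
        rw [RingHom.mem_ker]
        exact hϖ.ne_zero
      have h5 : RingHom.ker φ = ⊥ := by
        apply Submodule.eq_bot_of_le_smul_of_le_jacobson_bot (maximalIdeal R) _
          ((RingHom.ker φ).fg_of_isNoetherianRing)
        · intro x hx
          have h6 := h4 (hker hx)
          rw [Ideal.mem_span_singleton'] at h6
          obtain ⟨c, rfl⟩ := h6
          have h7 : c ∈ RingHom.ker φ := (hkp.mem_or_mem hx).resolve_right hπk
          rw [mul_comm]
          exact Submodule.smul_mem_smul hπm h7
        · rw [IsLocalRing.jacobson_eq_maximalIdeal _ bot_ne_top]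
      refine ⟨[], by simp, IsWeaklyRegular.nil _ _, ?_⟩
      rw [Ideal.ofList_nil, h5]
    · rw [SetLike.not_le_iff_exists] at hle
      obtain ⟨f, hf, hf2⟩ := hle
      have hfm : f ∈ maximalIdeal R := hker hf
      have hf0 : f ≠ 0 := fun h0 => hf2 (h0 ▸ zero_mem _)
      obtain ⟨hreg, hdim⟩ := regular_quotient R f hfm hf2
      let φ' : R ⧸ Ideal.span {f} →+* V := Ideal.Quotient.lift _ φ (by
        intro x hx
        rw [Ideal.mem_span_singleton'] at hx
        obtain ⟨c, rfl⟩ := hx
        rw [map_mul, (RingHom.mem_ker).1 hf, mul_zero])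
      have hφ' : Surjective φ' := by
        intro x
        obtain ⟨y, rfl⟩ := hφ x
        exact ⟨Ideal.Quotient.mk _ y, Ideal.Quotient.lift_mk _ _ _⟩
      have hd : ringKrullDim (R ⧸ Ideal.span {f}) = r := by
        obtain ⟨k, hk⟩ := exists_nat_eq_ringKrullDim (R ⧸ Ideal.span {f})
        rw [hk, hr] at hdim
        rw [hk]
        norm_cast at hdim ⊢
        omega
      obtain ⟨zs, hzs, hzreg, hzk⟩ := ih (R ⧸ Ideal.span {f}) φ' hφ' hd
      obtain ⟨ws, rfl⟩ : ∃ ws : List R, ws.map (Ideal.Quotient.mk (Ideal.span {f})) = zs := by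
        clear hzs hzreg hzk
        induction zs with
        | nil => exact ⟨[], rfl⟩
        | cons z zs ih =>
          obtain ⟨ws, rfl⟩ := ih
          obtain ⟨w, rfl⟩ := Ideal.Quotient.mk_surjective z
          exact ⟨w :: ws, rfl⟩
      have hker' : Ideal.ofList (f :: ws) = RingHom.ker φ := by
        have h1 : (Ideal.ofList ws).map (Ideal.Quotient.mk (Ideal.span {f})) =
            RingHom.ker φ' := by
          rw [Ideal.map_ofList]
          exact hzk
        apply le_antisymm
        · rw [Ideal.ofList_cons]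
          apply sup_le
          · rw [Ideal.span_singleton_le_iff_mem]
            exact hf
          · intro x hx
            have h2 : Ideal.Quotient.mk (Ideal.span {f}) x ∈ RingHom.ker φ' :=
              h1 ▸ Ideal.mem_map_of_mem _ hx
            rw [RingHom.mem_ker] at h2 ⊢
            rw [← h2]
            exact (Ideal.Quotient.lift_mk _ _ _).symm
        · intro x hx
          have h2 : Ideal.Quotient.mk (Ideal.span {f}) x ∈ RingHom.ker φ' := by
            rw [RingHom.mem_ker]
            exact (Ideal.Quotient.lift_mk _ _ _).trans hx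
          rw [← h1, Ideal.mem_map_iff_of_surjective _ Ideal.Quotient.mk_surjective] at h2
          obtain ⟨y, hy, hxy⟩ := h2
          rw [Ideal.Quotient.eq] at hxy
          have h3 : x = -(y - x) + y := by ring
          rw [h3, Ideal.ofList_cons]
          exact Submodule.add_mem_sup (neg_mem hxy) hy
      refine ⟨f :: ws, ?_, ?_, hker'⟩
      · intro z hz
        apply hker
        rw [← hker']
        exact Ideal.subset_span hz
      · rw [isWeaklyRegular_cons_iff']
        refine ⟨(IsRegular.of_ne_zero hf0).left.isSMulRegular, ?_⟩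
        have heq : (Ideal.span {f} : Submodule R R) = f • ⊤ := by
          rw [← Submodule.ideal_span_singleton_smul, smul_eq_mul, Ideal.mul_top]
        refine (AddEquiv.isWeaklyRegular_congr
          (e := (Submodule.quotEquivOfEq _ _ heq).toAddEquiv) ?_).mp hzreg
        refine List.forall₂_same.mpr fun t _ x => ?_
        obtain ⟨a, rfl⟩ := Ideal.Quotient.mk_surjective t
        change Submodule.quotEquivOfEq _ _ heq (algebraMap R (R ⧸ Ideal.span {f}) a • x) =
          algebraMap R (R ⧸ Ideal.span {f}) a • Submodule.quotEquivOfEq _ _ heq x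
        rw [algebraMap_smul, algebraMap_smul, map_smul]

end Vale.Agent.P177
end

section

/-!
P202, mixed characteristic: the additive normalized length `lam` over a tower of subalgebras.
-/

namespace Vale.Agent.P202.Mix

open Submodule

/-- A directed union of subalgebras of an `R0`-algebra `R`, with ranks: `sub j` is generated over
`sub i` by `rank j / rank i` elements. -/
structure Tower (R0 R : Type*) [CommRing R0] [CommRing R] [Algebra R0 R] (ι : Type*)
    [Preorder ι] where
  /-- the subalgebras -/
  sub : ι → Subalgebra R0 R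
  mono : Monotone sub
  cover : ∀ x : R, ∃ i, x ∈ sub i
  /-- the ranks -/
  rank : ι → ℕ
  rank_pos : ∀ i, 0 < rank i
  fg : ∀ i, (Subalgebra.toSubmodule (sub i)).FG
  gen : ∀ i j, i ≤ j → ∃ (m : ℕ) (e : Fin m → R), m * rank i = rank j ∧
    (∀ k, e k ∈ sub j) ∧ ∀ x ∈ sub j, ∃ c : Fin m → R, (∀ k, c k ∈ sub i) ∧ x = ∑ k, e k * c k

section Ext

variable {R0 R : Type*} [CommRing R0] [CommRing R] [Algebra R0 R]
variable {N : Type*} [AddCommGroup N] [Module R0 N] [Module R N] [IsScalarTower R0 R N]

/-- The `R0`-submodule generated by the products of elements of `B` and elements of `X`. -/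
def ext (B : Subalgebra R0 R) (X : Submodule R0 N) : Submodule R0 N :=
  map₂ (Algebra.lsmul R0 R0 N).toLinearMap (Subalgebra.toSubmodule B) X

theorem smul_mem_ext {B : Subalgebra R0 R} {X : Submodule R0 N} {b : R} {x : N} (hb : b ∈ B)
    (hx : x ∈ X) : b • x ∈ ext B X :=
  apply_mem_map₂ (f := (Algebra.lsmul R0 R0 N).toLinearMap) hb hx

theorem ext_le {B : Subalgebra R0 R} {X Y : Submodule R0 N}
    (h : ∀ b ∈ B, ∀ x ∈ X, b • x ∈ Y) : ext B X ≤ Y :=
  map₂_le.mpr h

theorem ext_mono {B B' : Subalgebra R0 R} {X X' : Submodule R0 N} (h : B ≤ B') (h' : X ≤ X') :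
    ext B X ≤ ext B' X' :=
  map₂_le_map₂ (fun _ hx => h hx) h'

theorem le_ext (B : Subalgebra R0 R) (X : Submodule R0 N) : X ≤ ext B X := by
  intro x hx
  have := smul_mem_ext (B := B) (b := 1) (one_mem B) hx
  rwa [one_smul] at this

theorem ext_fg {B : Subalgebra R0 R} (hB : (Subalgebra.toSubmodule B).FG) {X : Submodule R0 N}
    (hX : X.FG) : (ext B X).FG :=
  hB.map₂ _ hX

theorem smul_ext_mem {B : Subalgebra R0 R} {X : Submodule R0 N} {b : R} (hb : b ∈ B) {x : N}
    (hx : x ∈ ext B X) : b • x ∈ ext B X := by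
  refine map₂_le (f := (Algebra.lsmul R0 R0 N).toLinearMap) (p := Subalgebra.toSubmodule B)
    (q := X) (r := (ext B X).comap ((Algebra.lsmul R0 R0 N) b)) |>.mpr ?_ hx
  intro c hc y hy
  change b • c • y ∈ ext B X
  rw [smul_smul]
  exact smul_mem_ext (B.mul_mem hb hc) hy

theorem ext_ext {B B' : Subalgebra R0 R} (h : B ≤ B') (X : Submodule R0 N) :
    ext B' (ext B X) = ext B' X := by
  refine le_antisymm (ext_le fun b hb x hx => smul_ext_mem hb (ext_mono h le_rfl hx))
    (ext_mono le_rfl (le_ext B X))

theorem map_ext {N' : Type*} [AddCommGroup N'] [Module R0 N'] [Module R N']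
    [IsScalarTower R0 R N'] (f : N →ₗ[R] N') (B : Subalgebra R0 R) (X : Submodule R0 N) :
    (ext B X).map (f.restrictScalars R0) = ext B (X.map (f.restrictScalars R0)) := by
  refine le_antisymm ?_ ?_
  · rw [map_le_iff_le_comap]
    refine ext_le fun b hb x hx => ?_
    have h1 : f (b • x) = b • f x := map_smul f b x
    have h2 : b • f x ∈ ext B (X.map (f.restrictScalars R0)) :=
      smul_mem_ext hb (mem_map_of_mem (f := f.restrictScalars R0) hx)
    rw [← h1] at h2
    exact h2
  · refine ext_le fun b hb y hy => ?_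
    obtain ⟨x, hx, rfl⟩ := hy
    exact ⟨b • x, smul_mem_ext hb hx, map_smul f b x⟩

/-- An `R`-submodule contains the extension of its `R0`-submodules. -/
theorem ext_le_of_le (N' : Submodule R N) {B : Subalgebra R0 R} {X : Submodule R0 N}
    (h : X ≤ N'.restrictScalars R0) : ext B X ≤ N'.restrictScalars R0 := by
  refine ext_le fun b _ x hx => ?_
  have hx' : x ∈ N' := h hx
  exact N'.smul_mem b hx'

end Ext

section Len

variable {R0 : Type*} [CommRing R0] {M M' : Type*} [AddCommGroup M] [Module R0 M]
  [AddCommGroup M'] [Module R0 M']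

theorem len_map_le (f : M →ₗ[R0] M') (X : Submodule R0 M) :
    Module.length R0 (X.map f) ≤ Module.length R0 X :=
  Module.length_le_of_surjective (f.submoduleMap X) (f.submoduleMap_surjective X)

theorem len_mono {X Y : Submodule R0 M} (h : X ≤ Y) :
    Module.length R0 X ≤ Module.length R0 Y :=
  Module.length_le_of_injective (inclusion h) (inclusion_injective h)

/-- additivity of the length for a submodule `X` and a linear map. -/
theorem len_ker_map (f : M →ₗ[R0] M') (X : Submodule R0 M) :
    Module.length R0 X =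
      Module.length R0 (X ⊓ LinearMap.ker f : Submodule R0 M) +
        Module.length R0 (X.map f) := by
  refine Module.length_eq_add_of_exact (inclusion inf_le_left) (f.submoduleMap X)
    (inclusion_injective _) (f.submoduleMap_surjective X) ?_
  intro x
  constructor
  · intro hx
    have h1 : f x.1 = 0 := congrArg Subtype.val hx
    exact ⟨⟨x.1, x.2, h1⟩, Subtype.ext rfl⟩
  · rintro ⟨y, rfl⟩
    exact Subtype.ext y.2.2

/-- The key estimate: if `Z` is contained in `∑ e_k Y` (for endomorphisms `e_k`) and `e_k F ≤ Z'`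
then `l(Z) ≤ l(Z') + m l(Y/F)`, in the form with a linear map `f` with kernel meeting `Y` in
`F`. -/
theorem len_le_add {m : ℕ} (e : Fin m → M →ₗ[R0] M) (Y Z Z' : Submodule R0 M)
    (f : M →ₗ[R0] M') (hZ : ∀ z ∈ Z, ∃ y : Fin m → M, (∀ k, y k ∈ Y) ∧ z = ∑ k, e k (y k))
    (hF : ∀ k, ∀ y ∈ Y, f y = 0 → e k y ∈ Z') :
    Module.length R0 Z ≤ Module.length R0 Z' + m * Module.length R0 (Y.map f) := by
  -- the map `Y^m → M`
  let φ : (Fin m → Y) →ₗ[R0] M := ∑ k, (e k) ∘ₗ Y.subtype ∘ₗ LinearMap.proj k
  have hφ : ∀ y : Fin m → Y, φ y = ∑ k, e k (y k) := by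
    intro y
    simp [φ]
  -- the map `Y^m → (f Y)^m`
  let ψ : (Fin m → Y) →ₗ[R0] (Fin m → Y.map f) :=
    LinearMap.pi fun k => (f.submoduleMap Y) ∘ₗ LinearMap.proj k
  have hψs : Function.Surjective ψ := by
    intro w
    choose y hy using fun k => f.submoduleMap_surjective Y (w k)
    exact ⟨y, funext hy⟩
  have hker : LinearMap.ker ψ ≤ LinearMap.ker (Z'.mkQ ∘ₗ φ) := by
    intro y hy
    rw [LinearMap.mem_ker] at hy ⊢
    rw [LinearMap.comp_apply, hφ, mkQ_apply, Quotient.mk_eq_zero]
    refine sum_mem fun k _ => hF k _ (y k).2 ?_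
    exact congrArg Subtype.val (congrFun hy k)
  have h1 : Module.length R0 Z ≤ Module.length R0 Z' + Module.length R0 (Z.map Z'.mkQ) := by
    rw [len_ker_map Z'.mkQ Z]
    refine add_le_add (len_mono ?_) le_rfl
    rw [ker_mkQ]
    exact inf_le_right
  refine h1.trans (add_le_add le_rfl ?_)
  have h2 : Z.map Z'.mkQ ≤ LinearMap.range (Z'.mkQ ∘ₗ φ) := by
    rintro _ ⟨z, hz, rfl⟩
    obtain ⟨y, hy, rfl⟩ := hZ z hz
    exact ⟨fun k => ⟨y k, hy k⟩, by rw [LinearMap.comp_apply, hφ]⟩
  refine (len_mono h2).trans ?_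
  have h3 : Module.length R0 (LinearMap.range (Z'.mkQ ∘ₗ φ)) ≤
      Module.length R0 (Fin m → Y.map f) := by
    -- factor through `ψ`
    have e1 := (Z'.mkQ ∘ₗ φ).quotKerEquivRange.length_eq
    have e2 := (ψ.quotKerEquivOfSurjective hψs).length_eq
    rw [← e1, ← e2]
    exact Module.length_le_of_surjective (factor hker) (factor_surjective hker)
  refine h3.trans ?_
  rw [Module.length_pi_of_fintype, Finset.sum_const, Finset.card_univ, Fintype.card_fin,
    nsmul_eq_mul]

/-- an inequality of lengths over `R0` for restricted maps. -/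
theorem len_map_eq {f : M →ₗ[R0] M'} (hf : Function.Injective f) (X : Submodule R0 M) :
    Module.length R0 (X.map f) = Module.length R0 X :=
  ((X.equivMapOfInjective f hf).length_eq).symm

end Len

namespace Tower

variable {R0 R : Type*} [CommRing R0] [CommRing R] [Algebra R0 R] {ι : Type*} [Preorder ι]
variable (T : Tower R0 R ι)
variable {N : Type*} [AddCommGroup N] [Module R0 N] [Module R N] [IsScalarTower R0 R N]
variable {N' : Type*} [AddCommGroup N'] [Module R0 N'] [Module R N'] [IsScalarTower R0 R N']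
variable {N'' : Type*} [AddCommGroup N''] [Module R0 N''] [Module R N'']
  [IsScalarTower R0 R N'']

/-- the length of `sub i * X` -/
noncomputable def len (i : ι) (X : Submodule R0 N) : ℕ∞ := Module.length R0 (ext (T.sub i) X)

/-- the normalized length of `sub i * X` -/
noncomputable def nlen (i : ι) (X : Submodule R0 N) : ENNReal :=
  ((T.len i X : ℕ∞) : ENNReal) / (T.rank i : ENNReal)

/-- the normalized length of the `R`-module generated by `X` -/
noncomputable def lamX (X : Submodule R0 N) : ENNReal := ⨅ i, T.nlen i X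

variable (N) in
/-- the additive normalized length -/
noncomputable def lam : ENNReal := ⨆ (X : Submodule R0 N) (_ : X.FG), T.lamX X

variable (N) in
/-- locally finite modules: the `R0`-modules `sub i * X` have finite length. -/
def LF : Prop := ∀ (X : Submodule R0 N), X.FG → Module.length R0 X ≠ ⊤

theorem rank_ne_zero (i : ι) : (T.rank i : ENNReal) ≠ 0 := by
  exact_mod_cast (T.rank_pos i).ne'

theorem exists_gen {i j : ι} (h : i ≤ j) (X : Submodule R0 N) :
    ∃ (m : ℕ) (e : Fin m → N →ₗ[R0] N), m * T.rank i = T.rank j ∧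
      (∀ k, ∃ r : R, r ∈ T.sub j ∧ ∀ x, e k x = r • x) ∧
      ∀ z ∈ ext (T.sub j) X, ∃ y : Fin m → N,
        (∀ k, y k ∈ ext (T.sub i) X) ∧ z = ∑ k, e k (y k) := by
  obtain ⟨m, e, hm, hmem, he⟩ := T.gen i j h
  refine ⟨m, fun k => Algebra.lsmul R0 R0 N (e k), hm, fun k => ⟨e k, hmem k, fun x => rfl⟩, ?_⟩
  intro z hz
  have hz' : z ∈ LinearMap.range (∑ k, (Algebra.lsmul R0 R0 N (e k)) ∘ₗ
      (ext (T.sub i) X).subtype ∘ₗ LinearMap.proj (φ := fun _ : Fin m => ext (T.sub i) X) k) := by
    refine ext_le ?_ hz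
    intro b hb x hx
    obtain ⟨c, hc, rfl⟩ := he b hb
    refine ⟨fun k => ⟨c k • x, smul_mem_ext (hc k) hx⟩, ?_⟩
    rw [LinearMap.sum_apply, Finset.sum_smul]
    refine Finset.sum_congr rfl fun k _ => ?_
    exact (mul_smul (e k) (c k) x).symm
  obtain ⟨y, hy⟩ := hz'
  refine ⟨fun k => y k, fun k => (y k).2, ?_⟩
  rw [← hy, LinearMap.sum_apply]
  rfl

/-- the division by the rank, and an estimate with a factor `m` -/
theorem div_rank_le {i j : ι} {m : ℕ} (hm : m * T.rank i = T.rank j) {a b c : ℕ∞}
    (h : a ≤ b + m * c) :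
    (a : ENNReal) / (T.rank j : ENNReal) ≤
      (b : ENNReal) / (T.rank j : ENNReal) + (c : ENNReal) / (T.rank i : ENNReal) := by
  have h1 : (a : ENNReal) ≤ (b : ENNReal) + (m : ENNReal) * (c : ENNReal) := by
    have := (ENat.toENNReal_le (m := a) (n := b + m * c)).mpr h
    rwa [ENat.toENNReal_add, ENat.toENNReal_mul, ENat.toENNReal_coe] at this
  refine (ENNReal.div_le_div_right h1 _).trans ?_
  rw [ENNReal.add_div]
  refine add_le_add le_rfl ?_
  have hr : (T.rank j : ENNReal) = (m : ENNReal) * (T.rank i : ENNReal) := by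
    rw [← hm]; push_cast; rfl
  have hm0 : (m : ENNReal) ≠ 0 := by
    intro h0
    rw [h0, zero_mul] at hr
    exact T.rank_ne_zero j hr
  rw [hr, ENNReal.mul_div_mul_left _ _ hm0 (ENNReal.natCast_ne_top m)]

theorem nlen_anti {i j : ι} (h : i ≤ j) (X : Submodule R0 N) : T.nlen j X ≤ T.nlen i X := by
  obtain ⟨m, e, hm, -, he⟩ := T.exists_gen h X
  have h1 : T.len j X ≤ 0 + m * T.len i X := by
    have := len_le_add e (ext (T.sub i) X) (ext (T.sub j) X) ⊥ LinearMap.id he
      (by rintro k y - hy; rw [LinearMap.id_apply] at hy; rw [hy, map_zero]; exact zero_mem _)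
    rw [map_id] at this
    refine this.trans (le_of_eq ?_)
    rw [show Module.length R0 (⊥ : Submodule R0 N) = 0 from Module.length_eq_zero]
    rfl
  have := T.div_rank_le hm h1
  rw [ENat.toENNReal_zero, ENNReal.zero_div, zero_add] at this
  exact this

theorem lamX_le_nlen (i : ι) (X : Submodule R0 N) : T.lamX X ≤ T.nlen i X := iInf_le _ i

theorem lamX_le_lam {X : Submodule R0 N} (hX : X.FG) : T.lamX X ≤ T.lam N :=
  le_iSup₂ (f := fun (X : Submodule R0 N) (_ : X.FG) => T.lamX X) X hX

theorem lam_le {a : ENNReal} (h : ∀ X : Submodule R0 N, X.FG → T.lamX X ≤ a) : T.lam N ≤ a :=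
  iSup₂_le h

theorem nlen_map_eq (i : ι) {f : N →ₗ[R] N'} (hf : Function.Injective f) (X : Submodule R0 N) :
    T.nlen i (X.map (f.restrictScalars R0)) = T.nlen i X := by
  rw [nlen, nlen, len, len, ← map_ext, len_map_eq (f := f.restrictScalars R0) hf]

theorem lamX_map_eq {f : N →ₗ[R] N'} (hf : Function.Injective f) (X : Submodule R0 N) :
    T.lamX (X.map (f.restrictScalars R0)) = T.lamX X :=
  iInf_congr fun i => T.nlen_map_eq i hf X

theorem exists_fg_lift {f : N →ₗ[R] N'} (hf : Function.Surjective f) {X : Submodule R0 N'}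
    (hX : X.FG) : ∃ Y : Submodule R0 N, Y.FG ∧ Y.map (f.restrictScalars R0) = X := by
  classical
  obtain ⟨s, rfl⟩ := hX
  choose g hg using hf
  refine ⟨span R0 (s.image g : Finset N), fg_span (Finset.finite_toSet _), ?_⟩
  rw [map_span]
  congr 1
  ext x
  simp only [Finset.coe_image, Set.mem_image, LinearMap.coe_restrictScalars, exists_exists_and_eq_and]
  constructor
  · rintro ⟨y, hy, rfl⟩
    rwa [hg]
  · intro hx
    exact ⟨x, hx, hg x⟩

/-- superadditivity -/
theorem lamX_add_le (f : N →ₗ[R] N') {F X : Submodule R0 N} (hFX : F ≤ X)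
    (hF : ∀ x ∈ F, f x = 0) :
    T.lamX F + T.lamX (X.map (f.restrictScalars R0)) ≤ T.lamX X := by
  refine le_iInf fun i => ?_
  refine (add_le_add (T.lamX_le_nlen i F) (T.lamX_le_nlen i _)).trans ?_
  rw [nlen, nlen, nlen, ← ENNReal.add_div]
  refine ENNReal.div_le_div_right ?_ _
  rw [← ENat.toENNReal_add, ENat.toENNReal_le, len, len, len, ← map_ext,
    len_ker_map (f.restrictScalars R0) (ext (T.sub i) X)]
  refine add_le_add (len_mono (le_inf (ext_mono le_rfl hFX) ?_)) le_rfl
  intro x hx
  rw [LinearMap.mem_ker]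
  exact ext_le_of_le (LinearMap.ker f) (X := F) (fun y hy => hF y hy) hx

/-- approximate subadditivity -/
theorem lamX_le_add [IsDirectedOrder ι] (hN : LF (R0 := R0) N) (f : N →ₗ[R] N')
    {X : Submodule R0 N} (hX : X.FG) {ε : ENNReal} (hε : ε ≠ 0) :
    ∃ F : Submodule R0 N, F.FG ∧ (∀ x ∈ F, f x = 0) ∧
      T.lamX X ≤ T.lamX F + (T.lamX (X.map (f.restrictScalars R0)) + ε) := by
  by_cases htop : T.lamX (X.map (f.restrictScalars R0)) = ⊤
  · exact ⟨⊥, fg_bot, by simp, by rw [htop]; simp⟩
  have hlt : T.lamX (X.map (f.restrictScalars R0)) <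
      T.lamX (X.map (f.restrictScalars R0)) + ε := ENNReal.lt_add_right htop hε
  obtain ⟨i, hi⟩ := iInf_lt_iff.mp hlt
  have hfg : (ext (T.sub i) X).FG := ext_fg (T.fg i) hX
  -- the submodule of `ext (sub i) X` killed by `f`
  let F : Submodule R0 N := ext (T.sub i) X ⊓ LinearMap.ker (f.restrictScalars R0)
  have hFfg : F.FG := by
    have h1 : Module.length R0 F ≠ ⊤ := by
      refine ne_top_of_le_ne_top (hN _ hfg) (len_mono inf_le_left)
    have h2 : IsFiniteLength R0 F := Module.length_ne_top_iff.mp h1
    have := (isFiniteLength_iff_isNoetherian_isArtinian.mp h2).1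
    exact (Submodule.fg_top F).mp (IsNoetherian.noetherian ⊤)
  refine ⟨F, hFfg, fun x hx => hx.2, ?_⟩
  refine le_trans ?_ (add_le_add le_rfl hi.le)
  -- estimate for every `j ≥ i`
  have key : ∀ j, i ≤ j → T.nlen j X ≤ T.nlen j F + T.nlen i (X.map (f.restrictScalars R0)) := by
    intro j hij
    obtain ⟨m, e, hm, he1, he2⟩ := T.exists_gen hij X
    refine T.div_rank_le hm ?_
    have := len_le_add e (ext (T.sub i) X) (ext (T.sub j) X) (ext (T.sub j) F)
      (f.restrictScalars R0) he2 ?_
    · rwa [map_ext] at this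
    · intro k y hy hfy
      obtain ⟨r, hr, hre⟩ := he1 k
      rw [hre]
      exact smul_mem_ext hr ⟨hy, hfy⟩
  have h3 : T.lamX X ≤ ⨅ j, (T.nlen j F + T.nlen i (X.map (f.restrictScalars R0))) := by
    refine le_iInf fun j => ?_
    obtain ⟨l, hil, hjl⟩ := exists_ge_ge i j
    exact (T.lamX_le_nlen l X).trans ((key l hil).trans
      (add_le_add (T.nlen_anti hjl F) le_rfl))
  refine h3.trans (le_of_eq ?_)
  rw [lamX, ENNReal.iInf_add]

/-- ADDITIVITY of the normalized length. -/
theorem lam_eq_add [IsDirectedOrder ι] (hN : LF (R0 := R0) N) {f : N' →ₗ[R] N}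
    {g : N →ₗ[R] N''} (hf : Function.Injective f) (hg : Function.Surjective g)
    (hfg : Function.Exact f g) : T.lam N = T.lam N' + T.lam N'' := by
  refine le_antisymm ?_ ?_
  · refine T.lam_le fun X hX => ?_
    refine ENNReal.le_of_forall_pos_le_add fun ε hε _ => ?_
    obtain ⟨F, hF1, hF2, hF3⟩ := T.lamX_le_add hN g hX (ε := ε) (by exact_mod_cast hε.ne')
    refine hF3.trans ?_
    rw [← add_assoc]
    refine add_le_add (add_le_add ?_ (T.lamX_le_lam (hX.map _))) le_rfl
    -- `F` comes from `N'`
    have hFr : F ≤ LinearMap.range (f.restrictScalars R0) := by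
      intro x hx
      obtain ⟨y, hy⟩ := (hfg x).mp (hF2 x hx)
      exact ⟨y, hy⟩
    have hFeq : (F.comap (f.restrictScalars R0)).map (f.restrictScalars R0) = F := by
      rw [map_comap_eq, inf_eq_right.mpr hFr]
    rw [← hFeq, T.lamX_map_eq hf]
    refine T.lamX_le_lam ?_
    refine fg_of_fg_map_injective (f.restrictScalars R0) hf ?_
    rw [hFeq]; exact hF1
  · refine ENNReal.biSup_add_biSup_le' ⟨⊥, fg_bot⟩ ⟨⊥, fg_bot⟩ fun X hX Y hY => ?_
    obtain ⟨Z, hZ, rfl⟩ := exists_fg_lift hg hY
    have h1 := T.lamX_add_le g (F := X.map (f.restrictScalars R0))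
      (X := X.map (f.restrictScalars R0) ⊔ Z) le_sup_left (by
        rintro _ ⟨x, -, rfl⟩
        exact hfg.apply_apply_eq_zero x)
    have h2 : (X.map (f.restrictScalars R0) ⊔ Z).map (g.restrictScalars R0) =
        Z.map (g.restrictScalars R0) := by
      rw [Submodule.map_sup, sup_eq_right.mpr]
      rintro _ ⟨_, ⟨x, -, rfl⟩, rfl⟩
      have : g (f x) = 0 := hfg.apply_apply_eq_zero x
      change g (f x) ∈ _
      rw [this]
      exact zero_mem _
    rw [h2, T.lamX_map_eq hf] at h1
    exact h1.trans (T.lamX_le_lam ((hX.map _).sup hZ))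

end Tower

end Vale.Agent.P202.Mix
end

section

/-!
P202-CHARP, definitions for the monomial model.

`Lau κ r` is the ring of Laurent polynomials in `Z_0, .., Z_{r-1}, τ`; the polynomial ring
`P = κ[X_0, .., X_r]` acts through `X_l ↦ e_l(Z) τ`.
-/

namespace Vale.Agent.P202.CharP

open Submodule TensorProduct

/-- exponents `(s, j)` of monomials `Z^s τ^j`. -/
abbrev Gx (r : ℕ) : Type := (Fin r → ℤ) × ℤ

/-- Laurent polynomials. -/
def Lau (κ : Type*) [Field κ] (r : ℕ) : Type _ := AddMonoidAlgebra κ (Gx r)

section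

variable (κ : Type*) [Field κ] (r : ℕ)

end

variable {κ : Type*} [Field κ] {r : ℕ}

/-- the polynomial ring in `r + 1` variables. -/
abbrev PP (κ : Type*) [Field κ] (r : ℕ) : Type _ := MvPolynomial (Fin (r + 1)) κ

/-- the ambient module of the Čech complex. -/
abbrev Lam (κ : Type*) [Field κ] (r : ℕ) : Type _ := Finset (Fin r) → Lau κ r

end Vale.Agent.P202.CharP
end

section

/-!
P202-CHARP, task F1: flatness over a polynomial ring from a regular sequence
(local criterion of flatness).
-/

namespace Vale.Agent.P202.CharP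

open Submodule TensorProduct IsLocalRing LinearMap

section general

variable {P : Type*} [CommRing P] {M : Type*} [AddCommGroup M] [Module P M]

/-- adding one regular element to an ideal. -/
lemma lTensor_inj_sup_span (I : Ideal P) (c : P)
    (hI : Function.Injective (I.subtype.lTensor M))
    (hreg : ∀ m : M, c • m ∈ I • (⊤ : Submodule P M) → m ∈ I • (⊤ : Submodule P M)) :
    Function.Injective ((I ⊔ Ideal.span {c}).subtype.lTensor M) := by
  have hc : c ∈ I ⊔ Ideal.span {c} := Ideal.mem_sup_right (Ideal.subset_span rfl)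
  have hle : I ≤ I ⊔ Ideal.span {c} := le_sup_left
  let ι : I →ₗ[P] ↥(I ⊔ Ideal.span {c}) := Submodule.inclusion hle
  let μ : (M ⊗[P] ↥(I ⊔ Ideal.span {c})) →ₗ[P] M :=
    (TensorProduct.rid P M).toLinearMap ∘ₗ ((I ⊔ Ideal.span {c}).subtype.lTensor M)
  let μ' : (M ⊗[P] I) →ₗ[P] M :=
    (TensorProduct.rid P M).toLinearMap ∘ₗ (I.subtype.lTensor M)
  have hμ' : Function.Injective μ' := (TensorProduct.rid P M).injective.comp hI
  have hμι : ∀ u, μ (ι.lTensor M u) = μ' u := by
    intro u
    simp only [μ, μ', LinearMap.comp_apply, ← LinearMap.lTensor_comp_apply]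
    rfl
  have hμt : ∀ (m : M) (j : ↥(I ⊔ Ideal.span {c})), μ (m ⊗ₜ j) = (j : P) • m := by
    intro m j; simp [μ]
  have hμt' : ∀ (m : M) (j : I), μ' (m ⊗ₜ j) = (j : P) • m := by
    intro m j; simp [μ']
  have hμ'r : ∀ u, μ' u ∈ I • (⊤ : Submodule P M) := by
    intro u
    induction u using TensorProduct.induction_on with
    | zero => rw [map_zero]; exact zero_mem _
    | tmul m j => rw [hμt']; exact Submodule.smul_mem_smul j.2 trivial
    | add x y hx hy => rw [map_add]; exact add_mem hx hy
  have hdec : ∀ z : M ⊗[P] ↥(I ⊔ Ideal.span {c}), ∃ (u : M ⊗[P] I) (m : M),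
      z = ι.lTensor M u + m ⊗ₜ[P] (⟨c, hc⟩ : ↥(I ⊔ Ideal.span {c})) := by
    intro z
    induction z using TensorProduct.induction_on with
    | zero => exact ⟨0, 0, by simp⟩
    | tmul m j =>
      obtain ⟨i, hi, s, hs, his⟩ := Submodule.mem_sup.mp j.2
      obtain ⟨b, rfl⟩ := Ideal.mem_span_singleton'.mp hs
      refine ⟨m ⊗ₜ ⟨i, hi⟩, b • m, ?_⟩
      rw [LinearMap.lTensor_tmul, TensorProduct.smul_tmul, ← TensorProduct.tmul_add]
      congr 1
      apply Subtype.ext
      exact his.symm
    | add x y hx hy =>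
      obtain ⟨u, m, rfl⟩ := hx
      obtain ⟨u', m', rfl⟩ := hy
      refine ⟨u + u', m + m', ?_⟩
      rw [map_add, TensorProduct.add_tmul]
      abel
  rw [← LinearMap.ker_eq_bot, LinearMap.ker_eq_bot']
  intro z hz
  have hz' : μ z = 0 := by simp only [μ, LinearMap.comp_apply, hz, map_zero]
  obtain ⟨u, m, rfl⟩ := hdec z
  rw [map_add, hμι, hμt] at hz'
  have hm : m ∈ I • (⊤ : Submodule P M) := by
    apply hreg
    have : c • m = - μ' u := by
      rw [eq_neg_iff_add_eq_zero, add_comm]; exact hz'
    rw [this]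
    exact neg_mem (hμ'r u)
  have hin : ∀ m ∈ I • (⊤ : Submodule P M), ∃ u' : M ⊗[P] I,
      m ⊗ₜ[P] (⟨c, hc⟩ : ↥(I ⊔ Ideal.span {c})) = ι.lTensor M u' := by
    intro m hm
    induction hm using Submodule.smul_induction_on' with
    | smul i hi m' hm' =>
      refine ⟨(c • m') ⊗ₜ ⟨i, hi⟩, ?_⟩
      rw [LinearMap.lTensor_tmul, TensorProduct.smul_tmul, TensorProduct.smul_tmul]
      congr 1
      apply Subtype.ext
      exact mul_comm i c
    | add x hx y hy hx' hy' =>
      obtain ⟨u', h1⟩ := hx'
      obtain ⟨u'', h2⟩ := hy'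
      exact ⟨u' + u'', by rw [TensorProduct.add_tmul, h1, h2, map_add]⟩
  obtain ⟨u', hu'⟩ := hin m hm
  have h0 : μ' (u + u') = 0 := by
    rw [map_add, ← hμι u', ← hu', hμt]
    exact hz'
  have h1 : u + u' = 0 := hμ' (by rw [h0, map_zero])
  rw [hu', ← map_add, h1, map_zero]

/-- one simple step. -/
lemma lTensor_inj_step (n : Ideal P) (hn : Function.Injective (n.subtype.lTensor M))
    {N : Type*} [AddCommGroup N] [Module P N] (N' : Submodule P N) (u : N)
    (hu : ∀ a : P, a • u ∈ N' ↔ a ∈ n) :
    Function.Injective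
      ((Submodule.inclusion (le_sup_left : N' ≤ N' ⊔ Submodule.span P {u})).lTensor M) := by
  have huK : u ∈ N' ⊔ Submodule.span P {u} :=
    Submodule.mem_sup_right (Submodule.mem_span_singleton_self u)
  let K := N' ⊔ Submodule.span P {u}
  let ι : N' →ₗ[P] K := Submodule.inclusion le_sup_left
  let f : n →ₗ[P] (N' × P) :=
    { toFun := fun a => (⟨-((a : P) • u), neg_mem ((hu a).2 a.2)⟩, (a : P))
      map_add' := by
        intro a b
        ext
        · simp [add_smul]; abel
        · simp
      map_smul' := by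
        intro c a
        ext
        · simp [mul_smul]
        · simp }
  let g : (N' × P) →ₗ[P] K := LinearMap.coprod ι (LinearMap.toSpanSingleton P K ⟨u, huK⟩)
  have hg : Function.Surjective g := by
    rintro ⟨x, hx⟩
    obtain ⟨y, hy, s, hs, hys⟩ := Submodule.mem_sup.mp hx
    obtain ⟨b, rfl⟩ := Submodule.mem_span_singleton.mp hs
    refine ⟨(⟨y, hy⟩, b), ?_⟩
    apply Subtype.ext
    simp only [g, LinearMap.coprod_apply, LinearMap.toSpanSingleton_apply]
    exact hys
  have hfg : Function.Exact f g := by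
    rintro ⟨⟨x, hx⟩, b⟩
    constructor
    · intro h
      have h1 : x + b • u = 0 := congrArg Subtype.val h
      have h2 : b ∈ n := by
        rw [← hu]
        have : b • u = -x := by rw [eq_neg_iff_add_eq_zero, add_comm]; exact h1
        rw [this]; exact neg_mem hx
      refine ⟨⟨b, h2⟩, ?_⟩
      ext
      · change -(b • u) = x
        rw [neg_eq_iff_add_eq_zero, add_comm]; exact h1
      · rfl
    · rintro ⟨a, ha⟩
      rw [← ha]
      apply Subtype.ext
      change -((a : P) • u) + (a : P) • u = 0
      exact neg_add_cancel _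
  have hex := _root_.lTensor_exact M hfg hg
  rw [← LinearMap.ker_eq_bot, LinearMap.ker_eq_bot']
  intro z hz
  have h1 : (g.lTensor M) ((LinearMap.inl P N' P).lTensor M z) = 0 := by
    rw [← LinearMap.lTensor_comp_apply]
    have : g ∘ₗ LinearMap.inl P N' P = ι := LinearMap.coprod_inl _ _
    rw [this]; exact hz
  obtain ⟨w, hw⟩ := (hex _).mp h1
  have h2 : n.subtype.lTensor M w = 0 := by
    have h3 := congrArg ((LinearMap.snd P N' P).lTensor M) hw
    rw [← LinearMap.lTensor_comp_apply, ← LinearMap.lTensor_comp_apply, LinearMap.snd_comp_inl,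
      LinearMap.lTensor_zero, LinearMap.zero_apply] at h3
    exact h3
  have h4 : w = 0 := hn (by rw [h2, map_zero])
  have h5 := congrArg ((LinearMap.fst P N' P).lTensor M) hw
  rw [h4, map_zero, map_zero, ← LinearMap.lTensor_comp_apply, LinearMap.fst_comp_inl,
    LinearMap.lTensor_id, LinearMap.id_apply] at h5
  exact h5.symm

/-- a finite filtration. -/
lemma lTensor_inj_chain (n : Ideal P) [n.IsMaximal]
    (hn : Function.Injective (n.subtype.lTensor M))
    {N : Type*} [AddCommGroup N] [Module P N] [IsNoetherian P N] (N' : Submodule P N)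
    (hu : ∀ u : N, ∃ j : ℕ, ∀ a ∈ n ^ j, a • u ∈ N') :
    Function.Injective (N'.subtype.lTensor M) := by
  let S : Set (Submodule P N) :=
    {K | ∃ h : N' ≤ K, Function.Injective ((Submodule.inclusion h).lTensor M)}
  have hS : S.Nonempty := by
    refine ⟨N', le_rfl, ?_⟩
    have : Submodule.inclusion (le_refl N') = LinearMap.id := by ext; rfl
    rw [this, LinearMap.lTensor_id]
    exact Function.injective_id
  obtain ⟨K, ⟨hK1, hK2⟩, hmax⟩ := set_has_maximal_iff_noetherian.mpr ‹IsNoetherian P N› S hS
  have hKtop : K = ⊤ := by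
    by_contra hne
    obtain ⟨u, hu1⟩ : ∃ u, u ∉ K := by
      by_contra h
      push Not at h
      exact hne (Submodule.eq_top_iff'.mpr h)
    obtain ⟨j, hj⟩ := hu u
    -- minimal exponent
    have hex : ∃ j : ℕ, ∀ a ∈ n ^ j, a • u ∈ K := ⟨j, fun a ha => hK1 (hj a ha)⟩
    classical
    have hspec := Nat.find_spec hex
    have hmin : ∀ i < Nat.find hex, ¬ ∀ a ∈ n ^ i, a • u ∈ K := fun i hi => Nat.find_min hex hi
    set t := Nat.find hex with ht
    have ht0 : t ≠ 0 := by
      intro h0
      rw [h0] at hspec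
      apply hu1
      have := hspec 1 (by simp)
      rwa [one_smul] at this
    obtain ⟨s, hs⟩ := Nat.exists_eq_succ_of_ne_zero ht0
    have h1 := hmin s (by omega)
    push Not at h1
    obtain ⟨a, ha, hau⟩ := h1
    have hn1 : n ≠ ⊤ := Ideal.IsMaximal.ne_top inferInstance
    have hau2 : ∀ b : P, b • (a • u) ∈ K ↔ b ∈ n := by
      intro b
      have hforw : ∀ b ∈ n, b • (a • u) ∈ K := by
        intro b hb
        rw [smul_smul]
        apply hspec
        rw [hs, pow_succ']
        exact Ideal.mul_mem_mul hb ha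
      constructor
      · intro hb
        by_contra hbn
        obtain ⟨c, m, hm, hc⟩ := Ideal.IsMaximal.exists_inv (I := n) inferInstance hbn
        apply hau
        have : a • u = c • (b • (a • u)) + m • (a • u) := by
          rw [smul_smul c b, ← add_smul, hc, one_smul]
        rw [this]
        exact add_mem (K.smul_mem _ hb) (hforw m hm)
      · exact hforw b
    have hstep := lTensor_inj_step n hn K (a • u) hau2
    have hlt : K < K ⊔ Submodule.span P {a • u} := by
      rw [left_lt_sup, Submodule.span_singleton_le_iff_mem]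
      exact hau
    refine hmax (K ⊔ Submodule.span P {a • u}) ?_ hlt
    refine ⟨hK1.trans le_sup_left, ?_⟩
    have hcomp : Submodule.inclusion (hK1.trans (le_sup_left : K ≤ K ⊔ Submodule.span P {a • u})) =
      (Submodule.inclusion (le_sup_left : K ≤ K ⊔ Submodule.span P {a • u})) ∘ₗ
        (Submodule.inclusion hK1) := by ext; rfl
    rw [hcomp, LinearMap.lTensor_comp]
    exact hstep.comp hK2
  subst hKtop
  have hcomp : N'.subtype = (⊤ : Submodule P N).subtype ∘ₗ Submodule.inclusion hK1 := by
    ext; rfl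
  have htop : Function.Injective ((⊤ : Submodule P N).subtype.lTensor M) := by
    have : (⊤ : Submodule P N).subtype = (Submodule.topEquiv : _ ≃ₗ[P] N).toLinearMap := by
      ext; rfl
    rw [this]
    exact (LinearEquiv.lTensor M (Submodule.topEquiv : _ ≃ₗ[P] N)).injective
  rw [hcomp, LinearMap.lTensor_comp, LinearMap.coe_comp]
  exact htop.comp hK2

/-- the kernel of `M ⊗ I → M ⊗ (I + K)` comes from the intersection. -/
lemma mem_range_of_inclusion_sup (I K : Ideal P) (z : M ⊗[P] I)
    (hz : (Submodule.inclusion (le_sup_left : I ≤ I ⊔ K)).lTensor M z = 0) :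
    z ∈ LinearMap.range ((Submodule.inclusion (inf_le_left : I ⊓ K ≤ I)).lTensor M) := by
  let f : ↥(I ⊓ K) →ₗ[P] (I × K) :=
    LinearMap.prod (Submodule.inclusion inf_le_left) (-(Submodule.inclusion inf_le_right))
  let g : (I × K) →ₗ[P] ↥(I ⊔ K) :=
    LinearMap.coprod (Submodule.inclusion le_sup_left) (Submodule.inclusion le_sup_right)
  have hg : Function.Surjective g := by
    rintro ⟨x, hx⟩
    obtain ⟨y, hy, s, hs, hys⟩ := Submodule.mem_sup.mp hx
    exact ⟨(⟨y, hy⟩, ⟨s, hs⟩), Subtype.ext hys⟩
  have hfg : Function.Exact f g := by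
    rintro ⟨⟨x, hx⟩, ⟨y, hy⟩⟩
    constructor
    · intro h
      have h1 : x + y = 0 := congrArg Subtype.val h
      have h2 : y = -x := by rw [eq_neg_iff_add_eq_zero, add_comm]; exact h1
      subst h2
      refine ⟨⟨x, hx, by simpa using neg_mem hy⟩, ?_⟩
      ext
      · rfl
      · rfl
    · rintro ⟨⟨a, ha⟩, h⟩
      rw [← h]
      apply Subtype.ext
      change a + -a = 0
      exact add_neg_cancel _
  have hex := _root_.lTensor_exact M hfg hg
  have h1 : (g.lTensor M) ((LinearMap.inl P I K).lTensor M z) = 0 := by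
    rw [← LinearMap.lTensor_comp_apply]
    have : g ∘ₗ LinearMap.inl P I K = Submodule.inclusion le_sup_left :=
      LinearMap.coprod_inl _ _
    rw [this]; exact hz
  obtain ⟨w, hw⟩ := (hex _).mp h1
  refine ⟨w, ?_⟩
  have h5 := congrArg ((LinearMap.fst P I K).lTensor M) hw
  rw [← LinearMap.lTensor_comp_apply, ← LinearMap.lTensor_comp_apply, LinearMap.fst_comp_inl,
      LinearMap.lTensor_id, LinearMap.id_apply] at h5
  rw [← h5]
  rfl

end general

section alg

variable {P A' : Type*} [CommRing P] [CommRing A'] [Algebra P A']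

/-- elements of `n ^ s • I` go to `𝔪 ^ s • (A' ⊗ I)`. -/
lemma tmul_mem_of_mem_pow_smul (n : Ideal P) (m : Ideal A') (hnm : n.map (algebraMap P A') ≤ m)
    (I : Ideal P) (s : ℕ) (a : A') (y : I) (hy : (y : P) ∈ n ^ s • (I : Submodule P P)) :
    a ⊗ₜ[P] y ∈ (m ^ s • (⊤ : Submodule A' (A' ⊗[P] I))) := by
  have hy' : y ∈ n ^ s • (⊤ : Submodule P I) := by
    rw [Submodule.mem_smul_top_iff]
    exact hy
  clear hy
  induction hy' using Submodule.smul_induction_on' with
  | smul c hc y' hy' =>
    have h1 : a ⊗ₜ[P] (c • y') = (algebraMap P A' c) • (a ⊗ₜ[P] y') := by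
      rw [TensorProduct.tmul_smul, algebraMap_smul]
    rw [h1]
    refine Submodule.smul_mem_smul ?_ Submodule.mem_top
    have h2 : algebraMap P A' c ∈ (n ^ s).map (algebraMap P A') := Ideal.mem_map_of_mem _ hc
    rw [Ideal.map_pow] at h2
    exact Ideal.pow_right_mono hnm s h2
  | add x hx y hy hx' hy' =>
    rw [TensorProduct.tmul_add]
    exact add_mem hx' hy'

/-- local criterion. -/
theorem flat_of_maximal_injective [IsNoetherianRing P] [IsLocalRing A'] [IsNoetherianRing A']
    (n : Ideal P) [n.IsMaximal] (hnm : n.map (algebraMap P A') ≤ maximalIdeal A')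
    (hn : Function.Injective (n.subtype.lTensor A')) : Module.Flat P A' := by
  rw [Module.Flat.iff_lTensor_injective']
  intro I
  rw [← LinearMap.ker_eq_bot, LinearMap.ker_eq_bot']
  intro z hz
  obtain ⟨k, hk⟩ := Ideal.exists_pow_inf_eq_pow_smul n (M := P) I
  have hfin : Module.Finite P I := Module.Finite.iff_fg.mpr (IsNoetherian.noetherian I)
  have hkrull := Ideal.iInf_pow_smul_eq_bot_of_isLocalRing (R := A') (M := A' ⊗[P] I)
    (I := maximalIdeal A') (Ideal.IsPrime.ne_top inferInstance)
  have hzmem : z ∈ (⨅ i : ℕ, (maximalIdeal A') ^ i • ⊤ : Submodule A' (A' ⊗[P] I)) := by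
    rw [Submodule.mem_iInf]
    intro s
    -- `J = I + n ^ (s + k)`
    have hJ : Function.Injective ((I ⊔ n ^ (s + k)).subtype.lTensor A') := by
      apply lTensor_inj_chain n hn
      intro u
      refine ⟨s + k, fun a ha => Submodule.mem_sup_right ?_⟩
      exact Ideal.mul_mem_right _ _ ha
    have h1 : (Submodule.inclusion (le_sup_left : I ≤ I ⊔ n ^ (s + k))).lTensor A' z = 0 := by
      apply hJ
      rw [map_zero, ← LinearMap.lTensor_comp_apply]
      exact hz
    obtain ⟨w, hw⟩ := mem_range_of_inclusion_sup I (n ^ (s + k)) z h1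
    rw [← hw]
    have h2 := hk (s + k) (by omega)
    have h3 : ∀ y : ↥(I ⊓ n ^ (s + k)), (y : P) ∈ n ^ s • (I : Submodule P P) := by
      intro y
      have h4 : (y : P) ∈ n ^ (s + k) • (⊤ : Submodule P P) ⊓ I := by
        refine ⟨?_, y.2.1⟩
        have := Submodule.smul_mem_smul (y.2.2 : (y : P) ∈ n ^ (s + k))
          (Submodule.mem_top : (1 : P) ∈ (⊤ : Submodule P P))
        simpa using this
      rw [h2, Nat.add_sub_cancel] at h4
      exact Submodule.smul_mono le_rfl inf_le_right h4
    clear hw
    induction w using TensorProduct.induction_on with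
    | zero => rw [map_zero]; exact zero_mem _
    | tmul a y =>
      rw [LinearMap.lTensor_tmul]
      exact tmul_mem_of_mem_pow_smul n (maximalIdeal A') hnm I s a _ (h3 y)
    | add x y hx hy => rw [map_add]; exact add_mem hx hy
  rw [hkrull] at hzmem
  exact hzmem

/-- the ideal generated by elements whose images form a weakly regular sequence. -/
theorem lTensor_inj_of_regular {k : ℕ} (X : Fin k → P)
    (hreg : RingTheory.Sequence.IsWeaklyRegular A' (List.ofFn fun l => algebraMap P A' (X l))) :
    Function.Injective ((Ideal.span (Set.range X)).subtype.lTensor A') := by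
  have hreg' : ∀ (i : ℕ) (hi : i < k) (m : A'),
      X ⟨i, hi⟩ • m ∈ (Ideal.span (X '' {l | (l : ℕ) < i})) • (⊤ : Submodule P A') →
        m ∈ (Ideal.span (X '' {l | (l : ℕ) < i})) • (⊤ : Submodule P A') := by
    intro i hi m hm
    have h1 := hreg.regular_mod_prev i (by simpa using hi)
    have hid : (Ideal.ofList ((List.ofFn fun l => algebraMap P A' (X l)).take i)) =
        (Ideal.span (X '' {l | (l : ℕ) < i})).map (algebraMap P A') := by
      rw [Ideal.map_span, Ideal.ofList]
      congr 1
      ext a
      simp only [Set.mem_ofPred_eq, Set.mem_image, exists_exists_and_eq_and]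
      rw [List.mem_take_iff_getElem]
      constructor
      · rintro ⟨j, hj, rfl⟩
        simp only [List.length_ofFn, lt_inf_iff] at hj
        exact ⟨⟨j, by omega⟩, by simpa using hj.1, by simp⟩
      · rintro ⟨j, hj, rfl⟩
        exact ⟨j, by simp; omega, by simp⟩
    rw [hid] at h1
    rw [isSMulRegular_on_quot_iff_lsmul_comap_le] at h1
    have h2 : ∀ a : A', a ∈ (Ideal.span (X '' {l | (l : ℕ) < i})).map (algebraMap P A') ↔
        a ∈ (Ideal.span (X '' {l | (l : ℕ) < i})) • (⊤ : Submodule P A') := by
      intro a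
      rw [Ideal.smul_top_eq_map]; rfl
    rw [← h2] at hm ⊢
    have h3 : m ∈ (((Ideal.span (X '' {l | (l : ℕ) < i})).map (algebraMap P A')) •
        (⊤ : Submodule A' A')) := by
      apply h1
      rw [Submodule.mem_comap]
      simp only [List.getElem_ofFn, LinearMap.lsmul_apply, smul_eq_mul, Ideal.mul_top]
      rw [Algebra.smul_def] at hm
      exact hm
    simpa using h3
  have key : ∀ i : ℕ, i ≤ k →
      Function.Injective ((Ideal.span (X '' {l | (l : ℕ) < i})).subtype.lTensor A') := by
    intro i
    induction i with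
    | zero =>
      intro _
      have h0 : Ideal.span (X '' {l | (l : ℕ) < 0}) = ⊥ := by simp
      rw [h0]
      have : Subsingleton (A' ⊗[P] (⊥ : Ideal P)) := by
        refine ⟨fun a b => ?_⟩
        have : ∀ z : A' ⊗[P] (⊥ : Ideal P), z = 0 := by
          intro z
          induction z using TensorProduct.induction_on with
          | zero => rfl
          | tmul a y => rw [Subsingleton.elim y 0, TensorProduct.tmul_zero]
          | add x y hx hy => rw [hx, hy, add_zero]
        rw [this a, this b]
      exact Function.injective_of_subsingleton _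
    | succ i ih =>
      intro hi
      have hset : X '' {l | (l : ℕ) < i + 1} = X '' {l | (l : ℕ) < i} ∪ {X ⟨i, by omega⟩} := by
        ext a
        simp only [Set.mem_image, Set.mem_ofPred_eq, Set.mem_union, Set.mem_singleton_iff]
        constructor
        · rintro ⟨l, hl, rfl⟩
          rcases Nat.lt_succ_iff_lt_or_eq.mp hl with h | h
          · exact Or.inl ⟨l, h, rfl⟩
          · right; congr 1; exact Fin.ext h
        · rintro (⟨l, hl, rfl⟩ | rfl)
          · exact ⟨l, by omega, rfl⟩
          · exact ⟨_, by simp, rfl⟩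
      rw [hset, Ideal.span_union]
      exact lTensor_inj_sup_span _ _ (ih (by omega)) (hreg' i (by omega))
  have h := key k le_rfl
  have hr : X '' {l | (l : ℕ) < k} = Set.range X := by
    have : {l : Fin k | (l : ℕ) < k} = Set.univ := by ext l; simp
    rw [this, Set.image_univ]
  rwa [hr] at h

end alg

section F

variable {κ : Type*} [Field κ] {r : ℕ} {A' : Type*} [CommRing A'] [Algebra (PP κ r) A']

end F

end Vale.Agent.P202.CharP
end

section

/-!
# P177, B7-D1: box ideals

`boxI S b = (X i ^ b i)_i` in `MvPolynomial (Fin d) S`: membership, freeness of the quotient,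
the colon ideal by a variable, the sum with a variable, and nilpotence of the variables.
-/

namespace Vale.Agent.P177.SL

open MvPolynomial

universe u

variable {S : Type u} [CommRing S] {d : ℕ}

/-- The box ideal `(X i ^ b i)_i`. -/
noncomputable def boxI (S : Type u) [CommRing S] {d : ℕ} (b : Fin d → ℕ) : Ideal (MvPolynomial (Fin d) S) :=
  Ideal.span (Set.range fun i => (X i : MvPolynomial (Fin d) S) ^ b i)

theorem X_pow_mem_boxI (b : Fin d → ℕ) (i : Fin d) :
    (X i : MvPolynomial (Fin d) S) ^ b i ∈ boxI S b :=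
  Ideal.subset_span ⟨i, rfl⟩

theorem boxI_eq_monomial (b : Fin d → ℕ) :
    boxI S b = Ideal.span ((fun s => monomial s (1 : S)) ''
      (Set.range fun i => Finsupp.single i (b i))) := by
  unfold boxI
  congr 1
  ext x
  simp only [Set.mem_range, Set.mem_image, exists_exists_eq_and, X_pow_eq_monomial]

theorem mem_boxI {b : Fin d → ℕ} {f : MvPolynomial (Fin d) S} :
    f ∈ boxI S b ↔ ∀ β ∈ f.support, ∃ i, b i ≤ β i := by
  rw [boxI_eq_monomial, mem_ideal_span_monomial_image]
  simp only [Set.mem_range, exists_exists_eq_and, Finsupp.single_le_iff]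

theorem mem_boxI' {b : Fin d → ℕ} {f : MvPolynomial (Fin d) S} :
    f ∈ boxI S b ↔ ∀ β : Fin d →₀ ℕ, (∀ i, β i < b i) → coeff β f = 0 := by
  rw [mem_boxI]
  constructor
  · intro h β hβ
    by_contra hne
    obtain ⟨i, hi⟩ := h β (mem_support_iff.2 hne)
    exact absurd (hβ i) (not_lt.2 hi)
  · intro h β hβ
    by_contra hne
    push Not at hne
    exact mem_support_iff.1 hβ (h β hne)

/-- The index set of the monomial basis. -/
abbrev BoxIdx (b : Fin d → ℕ) : Type := {β : Fin d →₀ ℕ // ∀ i, β i < b i}

instance (b : Fin d → ℕ) : Finite (BoxIdx b) := by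
  refine Finite.of_injective (fun β : BoxIdx b => fun i : Fin d => (⟨β.1 i, β.2 i⟩ : Fin (b i))) ?_
  intro β γ h
  apply Subtype.ext
  ext i
  have := congrFun h i
  simpa using this

/-- The coefficients inside the box. -/
noncomputable def boxCoeff (S : Type u) [CommRing S] {d : ℕ} (b : Fin d → ℕ) :
    MvPolynomial (Fin d) S →ₗ[S] (BoxIdx b → S) :=
  LinearMap.pi fun β => lcoeff S β.1

theorem boxCoeff_apply (b : Fin d → ℕ) (f : MvPolynomial (Fin d) S) (β : BoxIdx b) :
    boxCoeff S b f β = coeff β.1 f := rfl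

theorem boxCoeff_surjective (b : Fin d → ℕ) : Function.Surjective (boxCoeff S b) := by
  classical
  have := Fintype.ofFinite (BoxIdx b)
  intro g
  refine ⟨∑ β : BoxIdx b, monomial β.1 (g β), ?_⟩
  funext γ
  rw [boxCoeff_apply, coeff_sum]
  simp only [coeff_monomial]
  rw [Finset.sum_eq_single γ]
  · simp
  · intro β _ hne
    rw [if_neg]
    intro h
    exact hne (Subtype.ext h)
  · intro h
    exact absurd (Finset.mem_univ _) h

theorem ker_boxCoeff (b : Fin d → ℕ) :
    LinearMap.ker (boxCoeff S b) = (boxI S b).restrictScalars S := by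
  ext f
  rw [LinearMap.mem_ker, Submodule.restrictScalars_mem, mem_boxI']
  constructor
  · intro h β hβ
    exact congrFun h ⟨β, hβ⟩
  · intro h
    funext β
    exact h β.1 β.2

/-- The quotient by a box ideal, in the monomial basis. -/
noncomputable def boxEquiv (S : Type u) [CommRing S] {d : ℕ} (b : Fin d → ℕ) :
    (MvPolynomial (Fin d) S ⧸ boxI S b) ≃ₗ[S] (BoxIdx b → S) :=
  ((Submodule.Quotient.restrictScalarsEquiv S (boxI S b)).symm.trans
    (Submodule.quotEquivOfEq _ _ (ker_boxCoeff b).symm)).trans
      ((boxCoeff S b).quotKerEquivOfSurjective (boxCoeff_surjective b))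

instance box_free (b : Fin d → ℕ) : Module.Free S (MvPolynomial (Fin d) S ⧸ boxI S b) :=
  Module.Free.of_equiv (boxEquiv S b).symm

instance box_finite (b : Fin d → ℕ) : Module.Finite S (MvPolynomial (Fin d) S ⧸ boxI S b) :=
  Module.Finite.equiv (boxEquiv S b).symm

/-- `boxI : X_i = boxI (b - e_i)`. -/
theorem box_colon {b : Fin d → ℕ} {i : Fin d} (hb : 1 ≤ b i) {f : MvPolynomial (Fin d) S} :
    X i * f ∈ boxI S b ↔ f ∈ boxI S (Function.update b i (b i - 1)) := by
  classical
  rw [mem_boxI, mem_boxI, support_X_mul]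
  constructor
  · intro h β hβ
    obtain ⟨j, hj⟩ := h (Finsupp.single i 1 + β)
      (Finset.mem_map.2 ⟨β, hβ, rfl⟩)
    refine ⟨j, ?_⟩
    rcases eq_or_ne j i with rfl | hne
    · simp only [Finsupp.coe_add, Pi.add_apply, Finsupp.single_eq_same] at hj
      rw [Function.update_self]
      omega
    · rw [Function.update_of_ne hne]
      simpa [Finsupp.single_eq_of_ne hne] using hj
  · intro h β hβ
    obtain ⟨γ, hγ, rfl⟩ := Finset.mem_map.1 hβ
    obtain ⟨j, hj⟩ := h γ hγ
    refine ⟨j, ?_⟩
    simp only [addLeftEmbedding_apply, Finsupp.coe_add, Pi.add_apply]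
    rcases eq_or_ne j i with rfl | hne
    · rw [Function.update_self] at hj
      simp only [Finsupp.single_eq_same]
      omega
    · rw [Function.update_of_ne hne] at hj
      omega

/-- `boxI + (X_i) = boxI (b with b_i := 1)`. -/
theorem box_sup {b : Fin d → ℕ} {i : Fin d} (hb : 1 ≤ b i) :
    boxI S b ⊔ Ideal.span {(X i : MvPolynomial (Fin d) S)} =
      boxI S (Function.update b i 1) := by
  classical
  apply le_antisymm
  · refine sup_le ?_ ?_
    · rw [boxI, Ideal.span_le]
      rintro _ ⟨j, rfl⟩
      show (X j : MvPolynomial (Fin d) S) ^ b j ∈ boxI S (Function.update b i 1)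
      rcases eq_or_ne j i with rfl | hne
      · have h := X_pow_mem_boxI (S := S) (Function.update b j 1) j
        rw [Function.update_self, pow_one] at h
        exact Ideal.pow_mem_of_mem _ h _ hb
      · have h := X_pow_mem_boxI (S := S) (Function.update b i 1) j
        rwa [Function.update_of_ne hne] at h
    · rw [Ideal.span_singleton_le_iff_mem]
      have h := X_pow_mem_boxI (S := S) (Function.update b i 1) i
      rwa [Function.update_self, pow_one] at h
  · conv_lhs => rw [boxI]
    rw [Ideal.span_le]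
    rintro _ ⟨j, rfl⟩
    show (X j : MvPolynomial (Fin d) S) ^ (Function.update b i 1 j) ∈
      boxI S b ⊔ Ideal.span {(X i : MvPolynomial (Fin d) S)}
    rcases eq_or_ne j i with rfl | hne
    · rw [Function.update_self, pow_one]
      exact Ideal.mem_sup_right (Ideal.mem_span_singleton_self _)
    · rw [Function.update_of_ne hne]
      exact Ideal.mem_sup_left (X_pow_mem_boxI b j)

/-- Large powers of the ideal of variables lie in the box ideal. -/
theorem box_nil (b : Fin d → ℕ) :
    (Ideal.span (Set.range (X : Fin d → MvPolynomial (Fin d) S))) ^ (∑ i, (b i - 1) + 1) ≤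
      boxI S b := by
  intro f hf
  rw [mem_boxI']
  intro β hβ
  have h := (mem_pow_idealOfVars_iff' (σ := Fin d) (R := S) _ f).1 hf β
  apply h
  rw [Finsupp.degree_eq_sum]
  have : ∑ i, β i ≤ ∑ i, (b i - 1) := Finset.sum_le_sum fun i _ => by
    have := hβ i
    omega
  omega

/-- The box with all sides `1` is the ideal of variables. -/
theorem boxI_one : boxI S (fun _ : Fin d => 1) =
    Ideal.span (Set.range (X : Fin d → MvPolynomial (Fin d) S)) := by
  unfold boxI
  congr 1
  ext x
  simp

theorem boxI_one_eq_ker : boxI S (fun _ : Fin d => 1) =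
    RingHom.ker (constantCoeff : MvPolynomial (Fin d) S →+* S) := by
  ext f
  rw [mem_boxI', RingHom.mem_ker, constantCoeff_eq]
  constructor
  · intro h
    exact h 0 (fun i => by simp)
  · intro h β hβ
    have : β = 0 := by
      ext i
      have := hβ i
      simp only [Finsupp.coe_zero, Pi.zero_apply]
      omega
    rw [this]
    exact h

/-- `S[X]/(X) = S`, as algebras. -/
noncomputable def boxOneAlg (S : Type u) [CommRing S] (d : ℕ) :
    (MvPolynomial (Fin d) S ⧸ boxI S (fun _ : Fin d => 1)) ≃ₐ[S] S :=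
  AlgEquiv.ofBijective
    (Ideal.Quotient.liftₐ (boxI S (fun _ : Fin d => 1)) (aeval (fun _ : Fin d => (0 : S)))
      (fun f hf => by
        rw [boxI_one_eq_ker, RingHom.mem_ker] at hf
        rw [aeval_zero', hf, map_zero]))
    (by
      constructor
      · rw [injective_iff_map_eq_zero]
        intro x
        obtain ⟨f, rfl⟩ := Ideal.Quotient.mk_surjective x
        intro h
        rw [Ideal.Quotient.eq_zero_iff_mem, boxI_one_eq_ker, RingHom.mem_ker]
        have h2 : aeval (fun _ : Fin d => (0 : S)) f = 0 := h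
        rwa [aeval_zero', Algebra.algebraMap_self, RingHom.id_apply] at h2
      · intro s
        refine ⟨Ideal.Quotient.mk _ (C s), ?_⟩
        have : aeval (fun _ : Fin d => (0 : S)) (C s : MvPolynomial (Fin d) S) = s := by
          rw [aeval_C, Algebra.algebraMap_self, RingHom.id_apply]
        exact this)

/-- `S[X]/(X) = S`, as modules. -/
noncomputable def boxOne (S : Type u) [CommRing S] (d : ℕ) :
    (MvPolynomial (Fin d) S ⧸ boxI S (fun _ : Fin d => 1)) ≃ₗ[S] S :=
  (boxOneAlg S d).toLinearEquiv

/-- The multiplication by `X i` on the quotient by a box ideal is nilpotent. -/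
theorem box_X_pow (b : Fin d → ℕ) (i : Fin d) :
    (Ideal.Quotient.mk (boxI S b) (X i)) ^ b i = 0 := by
  rw [← map_pow, Ideal.Quotient.eq_zero_iff_mem]
  exact X_pow_mem_boxI b i

end Vale.Agent.P177.SL
end
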