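import Mathlib
attribute [-instance] DenselyNormedField.toNontriviallyNormedField RCLike.toDenselyNormedField DenselyNormedField.toNormedField NontriviallyNormedField.toNormedField NormedField.toNormedDivisionRing littleWedderburn NormedDivisionRing.toDivisionRing NormedField.toField IdemCommSemiring.toCommSemiring KleeneAlgebra.toIdemSemiring SemiRingCat.instSemiringObjForgetRingHomCarrier BooleanRing.toRing CommCStarAlgebra.toNormedCommRing NormedField.toNormedCommRing CommCStarAlgebra.toCStarAlgebra CStarAlgebra.toNormedRing NormedCommRing.toNormedRing NormedDivisionRing.toNormedRing NormedCommRing.toSeminormedCommRing NormedRing.toSeminormedRing SeminormedCommRing.toSeminormedRing CommSemiRingCat.FilteredColimits.colimitCommSemiring Field.toEuclideanDomain BooleanRing.toCommRing EuclideanDomain.toCommRing NormedCommRing.toCommRing SeminormedCommRing.toCommRing NormedRing.toRing SeminormedRing.toRing CommRing.toAddCommGroupWithOne NonAssocRing.toAddCommGroupWithOne NonAssocCommRing.toNonAssocCommSemiring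 CommSemiring.toNonAssocCommSemiring NonAssocCommSemiring.toNonAssocSemiring LeftPreLieRing.instLieAdmissibleRing RightPreLieRing.instLieAdmissibleRing CommCStarAlgebra.toNonUnitalCommCStarAlgebra NonUnitalCommCStarAlgebra.toNonUnitalNormedCommRing NormedCommRing.toNonUnitalNormedCommRing CStarAlgebra.toNonUnitalCStarAlgebra NonUnitalCommCStarAlgebra.toNonUnitalCStarAlgebra AddCommGroupWithOne.toAddCommMonoidWithOne NonUnitalCStarAlgebra.toNonUnitalNormedRing NonUnitalNormedCommRing.toNonUnitalNormedRing NormedRing.toNonUnitalNormedRing LinearOrderedAddCommGroupWithTop.instLinearOrderedAddCommMonoidWithTop LeftPreLieRing.toNonUnitalNonAssocRing LieAdmissibleRing.toNonUnitalNonAssocRing RightPreLieRing.toNonUnitalNonAssocRing TopologicalSpace.Compacts.instSetLike NonUnitalNormedCommRing.toNonUnitalSeminormedCommRing SeminormedCommRing.toNonUnitalSeminormedCommRing NonUnitalNormedRing.toNonUnitalSeminormedRing NonUnitalSeminormedCommRing.toNonUnitalSeminormedRing SeminormedRing.toNonUnitalSeminormedRing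 LinearOrderedAddCommGroupWithTop.toAddCommMonoid NonUnitalNormedCommRing.toNonUnitalCommRing NonUnitalSeminormedCommRing.toNonUnitalCommRing NonAssocCommRing.toNonUnitalNonAssocCommRing NonUnitalNormedRing.toNonUnitalRing NonUnitalSeminormedRing.toNonUnitalRing Ring.toNonUnitalRing NonUnitalRing.toNonUnitalNonAssocRing NonAssocCommSemiring.toNonUnitalNonAssocCommSemiring NonUnitalNonAssocCommSemiring.toNonUnitalNonAssocSemiring NonUnitalSemiring.toNonUnitalNonAssocSemiring CategoryTheory.CommGrpObj.toGrpObj CategoryTheory.Preadditive.instGrpObj CategoryTheory.CommGrpObj.mk CategoryTheory.instBraidedCategoryType CategoryTheory.Abelian.toPreadditive AddCommMonCat.FilteredColimits.colimitAddCommMonoid AddCommMonoidWithOne.toAddCommMonoid CategoryTheory.BimonObj.toMonObj CategoryTheory.CommRingObj.toRingObj CategoryTheory.GrpObj.toMonObj CategoryTheory.HopfObj.toBimonObj CategoryTheory.RingObj.toMonObj AddMonCat.addMonoidObj AddCommGroupWithOne.toAddGroupWithOne MonTypeEquivalenceMon.monMonoid LinearOrderedAddCommGroupWithTop.toSubNegMonoid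 MulSemiringAction.toDistribMulAction NormedCommGroup.toNormedGroup SemiNormedGrp.str instCoeT NonUnitalNormedRing.toNormedAddCommGroup NormedCommGroup.toSeminormedCommGroup NormedGroup.toSeminormedGroup SeminormedCommGroup.toSeminormedGroup instCommGroupOfIsSimpleGroupOfIsNilpotent CommGroup.toGroup CommGrpTypeEquivalenceCommGrp.commGrpCommGroup GrpTypeEquivalenceGrp.grpGroup NormedCommGroup.toCommGroup NormedGroup.toGroup SeminormedCommGroup.toCommGroup SeminormedGroup.toGroup instNonUnitalCStarAlgebraForall BoxIntegral.Box.instMembershipForallReal LieAdmissibleRing.instLieRing SSet.stdSimplex.instFunLikeObjOppositeSimplexCategoryMkOpFinHAddNatOfNat instDistribSMul LinearOrderedCommGroupWithZero.toLinearOrderedCommMonoidWithZero MonCat.monoidObj instSMulZeroClass instCoeTOfCoeDep Bialgebra.toAlgebra CommSemiring.toBialgebra CommSemiring.toHopfAlgebra HopfAlgebra.toHopfAlgebraStruct HopfAlgebraStruct.toBialgebra NormedAlgebra.toAlgebra LieRing.toAddCommGroup instCoeTC Complex.instRCLike instCoeTCOfCoe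 LinearOrderedCommGroupWithZero.toCommGroupWithZero ContDiffMapSupportedInClass.toDFunLike RKHS.instFunLike TestFunctionClass.toDFunLike CommGroupWithZero.toGroupWithZero CompleteAtomicBooleanAlgebra.toCompleteBooleanAlgebra Real.instRCLike ModuleCat.isModule CompleteAtomicBooleanAlgebra.toCompletelyDistribLattice Invertible.toNeZero Nat.AtLeastTwo.toNeZero Action.instMulAction Torsor.toMulAction Action.FintypeCat.instMulActionObjFiniteOf GradedMonoid.GradeZero.mulAction CompleteBooleanAlgebra.toCompleteDistribLattice CompletelyDistribLattice.toCompleteDistribLattice instCoeHTC instCoeHTCT CompleteBooleanAlgebra.toBooleanAlgebra CompleteLinearOrder.toConditionallyCompleteLinearOrderBot CategoryTheory.Limits.Concrete.instUniqueToTypeTerminal LinearOrderedCommMonoidWithZero.toCommMonoidWithZero ConditionallyCompleteLinearOrderBot.toConditionallyCompleteLinearOrder CompleteDistribLattice.toCoframe CompleteDistribLattice.toFrame BooleanAlgebra.toBiheytingAlgebra CompleteDistribLattice.toBiheytingAlgebra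 CompleteLinearOrder.toBiheytingAlgebra CompletelyDistribLattice.toBiheytingAlgebra SubfieldClass.toNormedField NonUnitalSeminormedRing.toSeminormedAddCommGroup NormedAddCommGroup.toSeminormedAddCommGroup CompleteLinearOrder.toLinearOrder ConditionallyCompleteLinearOrder.toLinearOrder LinearOrderedAddCommGroupWithTop.toLinearOrder LinearOrderedAddCommMonoidWithTop.toLinearOrder LinearOrderedCommMonoidWithZero.toLinearOrder MonoidWithZero.toSemigroupWithZero SemigroupWithZero.toMulZeroClass CompleteBooleanAlgebra.toCompleteLattice CategoryTheory.Mat_.fintype SubfieldClass.toDivisionRing SubfieldClass.toField instNonUnitalAlgHomClassOfNonUnitalAlgEquivClass ProfiniteAddGrp.addGroup RingCat.FilteredColimits.colimitRing CompleteLinearOrder.toCompleteLattice Order.Coframe.toCompleteLattice Order.Frame.toCompleteLattice BiheytingAlgebra.toCoheytingAlgebra Order.Coframe.toCoheytingAlgebra Nat.instAtLeastTwoHAddOfNat BooleanAlgebra.toGeneralizedBooleanAlgebra BiheytingAlgebra.toHeytingAlgebra Order.Frame.toHeytingAlgebra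 PartOrdEmb.str Nat.instNontrivial LieAdmissibleAlgebra.toModule SetLike.GradeZero.instCommRing Fin.completeLinearOrder CoheytingAlgebra.toGeneralizedCoheytingAlgebra GeneralizedBooleanAlgebra.toGeneralizedCoheytingAlgebra HeytingAlgebra.toGeneralizedHeytingAlgebra AddOpposite.instAddZero CategoryTheory.CartesianMonoidalCategory.toSymmetricCategory CategoryTheory.CopyDiscardCategory.toSymmetricCategory CategoryTheory.MarkovCategory.toCopyDiscardCategory CategoryTheory.PositiveCategory.toMarkovCategory CategoryTheory.SymmetricCategory.toBraidedCategory BialgEquivClass.toBialgHomClass LeftPreLieAlgebra.toModule LieAlgebra.toModule NormedSpace.toModule RightPreLieAlgebra.toModule NormedAddCommGroup.toNormedAddGroup Pi.normedRing ConditionallyCompleteLinearOrder.toConditionallyCompleteLattice instSubsingleton Group.IsPerfect.subsingleton_of_isMulCommutative Pi.normedAddCommGroup IsEmpty.instSubsingleton instConditionallyCompletePartialOrderSup CompleteLattice.toCompleteSemilatticeSup ConditionallyCompleteLattice.toConditionallyCompletePartialOrder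 ConditionallyCompletePartialOrder.toConditionallyCompletePartialOrderInf ConditionallyCompletePartialOrder.toConditionallyCompletePartialOrderSup Quaternion.instDivisionRing SetLike.GradeZero.instRing StarSubalgebra.commCStarAlgebra CommMonTypeEquivalenceCommMon.commMonCommMonoid OrderDual.instDivisionSemiring SubringClass.toNormedCommRing NormedAddGroup.toSeminormedAddGroup SeminormedAddCommGroup.toSeminormedAddGroup instDistribLatticeOfLinearOrder BooleanAlgebra.toDistribLattice ChainCompletePartialOrder.instOfCompleteLattice ChainCompletePartialOrder.instOmegaCompletePartialOrder ChainCompletePartialOrder.toPartialOrder CompleteLattice.toLattice CompleteLattice.toPartialOrder' CompletePartialOrder.toOmegaCompletePartialOrder CompleteSemilatticeSup.toPartialOrder ConditionallyCompletePartialOrderInf.toPartialOrder ConditionallyCompletePartialOrderSup.toPartialOrder DistribLattice.toLattice GeneralizedBooleanAlgebra.toDistribLattice GeneralizedCoheytingAlgebra.toDistribLattice GeneralizedCoheytingAlgebra.toLattice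 GeneralizedHeytingAlgebra.toDistribLattice GeneralizedHeytingAlgebra.toLattice LinearOrder.toLattice OmegaCompletePartialOrder.toPartialOrder SemilatticeInf.toPartialOrder Order.Coframe.toDistribLattice Order.Frame.toDistribLattice StarSubalgebra.cstarAlgebra SubalgebraClass.normedRing SubringClass.toNormedRing SetLike.GradeZero.instCommSemiring SetLike.GradeZero.instSemiring SubringClass.toSeminormedCommRing Fin.instBiheytingAlgebra CategoryTheory.instFinCategoryOfFintypeOfIsThin FinEnum.instFintype SetLike.instFintype Unique.fintype CategoryTheory.FinCategory.fintypeObj FirstOrder.Language.instDecidableEqFunctions FirstOrder.Language.instDecidableEqRelations BialgHomClass.toAlgHomClass FinEnum.decEq FunLike.toDecidableEq RCLike.toDecidableEq SubalgebraClass.seminormedRing SubringClass.toSeminormedRing AlgebraicGeometry.Scheme.instPreorderCarrierCarrierCommRingCat NonUnitalNormedRing.toMetricSpace NormedAddCommGroup.toMetricSpace NormedAddGroup.toMetricSpace NormedCommGroup.toMetricSpace NormedDivisionRing.toMetricSpace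 NormedField.toMetricSpace NormedGroup.toMetricSpace NormedRing.toMetricSpace TopologicalSpace.UpgradedIsCompletelyMetrizableSpace.toMetricSpace Pi.smulZeroClass' Pi.mulZeroOneClass Pi.distribSMul' RightPreLieAlgebra.instLieAdmissibleAlgebra decidableEq_of_subsingleton SubringClass.toRing SubsemiringClass.toSemiring instCharZeroOfIsSemireal FloorSemiring.instCharZero IsStrictOrderedRing.toCharZero NumberField.to_charZero RCLike.charZero_rclike AddCommGroupWithOne.toAddCommGroup NormedAddCommGroup.toAddCommGroup SeminormedAddCommGroup.toAddCommGroup Semigrp.str OrderDual.instPow_1 ContinuousAddMonoidHom.instCoeOutOfAddMonoidHomClassOfContinuousMapClass ContinuousMonoidHom.instCoeOutOfMonoidHomClassOfContinuousMapClass HomeomorphClass.instCoeOutHomeomorph IsometryClass.instCoeOutIsometryEquiv instIsSemirealOfIsStrictOrderedRingOfExistsAddOfLE IsRealClosed.toIsSemireal AlgHom.instContinuousLinearMapClassOfAlgHomClass CoalgHomClass.toSemilinearMapClass ContinuousSemilinearEquivClass.continuousSemilinearMapClass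 ContinuousSemilinearMapClass.toSemilinearMapClass PositiveLinearMap.instContinuousLinearMapClassComplexOfLinearMapClassOfOrderHomClass RingHomClass.toLinearMapClassNNRat RingHomClass.toLinearMapClassRat SemilinearIsometryClass.toContinuousSemilinearMapClass SemilinearIsometryClass.toSemilinearMapClass TopRep.hV1 AlgHomClass.linearMapClass NonUnitalAlgHomClass.instSemilinearMapClassOfNonUnitalAlgSemiHomClassToMonoidHomRingHom BialgHomClass.toCoalgHomClass CoalgEquivClass.toCoalgHomClass EMetricSpace.toPseudoEMetricSpace IsValuativeTopology.instValuedValueGroupWithZeroOfIsUniformAddGroup MetricSpace.toEMetricSpace MetricSpace.toPseudoMetricSpace NonUnitalSeminormedRing.toPseudoMetricSpace PseudoEMetricSpace.toUniformSpace PseudoMetricSpace.toPseudoEMetricSpace PseudoMetricSpace.toUniformSpace SeminormedAddCommGroup.toPseudoMetricSpace SeminormedAddGroup.toPseudoMetricSpace SeminormedCommGroup.toPseudoMetricSpace SeminormedGroup.toPseudoMetricSpace SeminormedRing.toPseudoMetricSpace UniformSpace.toTopologicalSpace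 UpgradedStandardBorel.toTopologicalSpace Valued.toUniformSpace WithIdeal.instTopologicalSpace WithIdeal.instUniformSpace TopologicalSpace.UpgradedIsCompletelyPseudoMetrizableSpace.toPseudoMetricSpace ENormedCommMonoid.toESeminormedCommMonoid NormedCommGroup.toENormedCommMonoid AbsoluteValue.mulHomClass SubringClass.toNonAssocCommRing SubringClass.toNonAssocRing Turing.FinTM2.decidableEqK RingConeClass.toSubsemiringClass MonoidWithZero.toMulActionWithZero SubsemiringClass.toNonAssocCommSemiring SubsemiringClass.toNonAssocSemiring boolToProp MulOpposite.instMulOne coePNatNat Nat.Primes.coeNat Nat.Primes.coePNat PadicComplex.normedField instIsDedekindDomainOfIsDomainOfIsDedekindRing IsDedekindDomainDvr.isDedekindDomain OrderAddMonoidHom.instAddMonoidHomClass NormedAddGroup.toAddGroup SeminormedAddGroup.toAddGroup CentroidHomClass.toAddMonoidHomClass AddSubmonoidWithOneClass.toAddMonoidWithOne Fin.instCoheytingAlgebra DivisionRing.toDivInvMonoid instOfNatAtLeastTwo Ideal.Quotient.normedCommRing MulSemiringActionSemiHomClass.toDistribMulActionSemiHomClass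 Group.instTorsor ENormedAddCommMonoid.toESeminormedAddCommMonoid NormedAddCommGroup.toENormedAddCommMonoid Fin.instHeytingAlgebra ValuationClass.toMonoidWithZeroHomClass CommRing.toGrindCommRing Field.toGrindField Ring.toGrindRing CancelCommMonoid.toCancelMonoid CancelCommMonoid.toCommMonoid CancelCommMonoid.toLeftCancelMonoid CancelMonoid.toLeftCancelMonoid CancelMonoid.toRightCancelMonoid CommGroup.toCancelCommMonoid CommGroup.toCommMonoid CommGroup.toDivisionCommMonoid CommMonoidWithZero.toCommMonoid DivInvOneMonoid.toDivInvMonoid DivisionCommMonoid.toCommMonoid DivisionMonoid.toDivInvMonoid ENormedCommMonoid.toENormedMonoid ENormedMonoid.toESeminormedMonoid ESeminormedCommMonoid.toCommMonoid ESeminormedCommMonoid.toESeminormedMonoid ESeminormedMonoid.toMonoid Group.toCancelMonoid Group.toDivisionMonoid GroupWithZero.toDivisionMonoid LeftCancelMonoid.toMonoid NormedGroup.toENormedMonoid RightCancelMonoid.toMonoid GradedMonoid.GradeZero.commMonoid GradedMonoid.GradeZero.monoid Ideal.Quotient.semiNormedCommRing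 Monoid.End.instMonoidHomClass instCStarAlgebraForall instCommCStarAlgebraForall Pi.normedCommutativeRing AddHom.addHomClass CommSemiring.toGrindCommSemiring Semiring.toGrindSemiring CommMonCat.str instIsDomain DivisionRing.isDomain EuclideanDomain.instIsDomain Field.isDomain IsDedekindDomain.toIsDomain IsStrictOrderedRing.isDomain SubfieldClass.toSubringClass Field.instIsLocalRing IsDiscreteValuationRing.toIsLocalRing ValuationRing.isLocalRing PositiveLinearMap.instInnerProductSpaceComplexPreGNS RCLike.toInnerProductSpaceReal LinearOrderedAddCommGroupWithTop.toSubtractionMonoid AddCancelCommMonoid.toAddCommMonoid AddCommGroup.toAddCancelCommMonoid ESeminormedAddCommMonoid.toAddCommMonoid instNonUnitalCommCStarAlgebraForall NonUnitalAlgHomClass.toNonUnitalRingHomClass instSMulCommClassOfIsScalarTower LeftPreLieAlgebra.toSMulCommClass LieAdmissibleAlgebra.toSMulCommClass RightPreLieAlgebra.toSMulCommClass Pi.nonUnitalNormedCommRing Pi.nonUnitalNormedRing Pi.mulZeroClass AddCancelCommMonoid.toAddCancelMonoid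 AddCancelMonoid.toAddLeftCancelMonoid AddLeftCancelMonoid.toAddMonoid AddRightCancelMonoid.toAddMonoid ENormedAddCommMonoid.toENormedAddMonoid ENormedAddMonoid.toESeminormedAddMonoid ESeminormedAddCommMonoid.toESeminormedAddMonoid ESeminormedAddMonoid.toAddMonoid NormedAddGroup.toENormedAddMonoid instInfiniteOfUncountable instNontrivialOfCharZero CharZero.infinite Denumerable.instInfinite DivisionRing.toNontrivial EuclideanDomain.toNontrivial GroupWithZero.toNontrivial Infinite.instNontrivial IsAlgClosed.instInfinite IsDomain.toNontrivial IsOrderedRing.toIsStrictOrderedRing IsSimpleAddGroup.toNontrivial IsSimpleGroup.toNontrivial IsSimpleOrder.toNontrivial IsSimpleRing.instNontrivial IsStrictOrderedRing.toNontrivial LinearOrderedAddCommGroupWithTop.toNontrivial NoMaxOrder.infinite NoMinOrder.infinite NontriviallyNormedField.infinite FirstOrder.Language.instInfiniteOfModelDloOrderOfNonempty Pi.instTopForall Pi.mulOneClass InvOneClass.toOne One.ofOfNat1 UnitalShelf.toOne TwoSidedIdeal.instIsTwoSidedCoeOrderHomIdealAsIdeal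 instMulActionSemiHomClassMulActionHom SaturatedAddSubmonoid.instAddSubmonoidClass AbsoluteValue.zeroHomClass BialgEquivClass.toCoalgEquivClass instNonemptyOfMonad AddCommGroup.toGrindIntModule SemilinearIsometryEquivClass.toSemilinearIsometryClass Pi.addMonoidWithOne AddMonoidAlgebra.instBialgebra AddMonoidAlgebra.instHopfAlgebra AddMonoidAlgebra.instHopfAlgebraStruct Pi.nonAssocRing Vector.instHMul Module.End.instDivisionRing Pi.commMagma LinearMap.uniqueOfLeft AddCommMonoid.toGrindNatModule Fin.addCommGroup Fin.instNonUnitalCommRing Std.Time.WallTime.instHAddOffset_1 CommRing.Pic.instFreeOfSubsingleton NonUnitalStarSubalgebra.nonUnitalCStarAlgebra NonUnitalStarSubalgebra.nonUnitalCommCStarAlgebra bot_nonempty infSet_to_nonempty instInhabitedOfMonad supSet_to_nonempty top_nonempty AddTorsor.nonempty BooleanAlgebra.toBoundedOrder BoundedOrder.toOrderBot CoheytingAlgebra.toBoundedOrder CoheytingAlgebra.toOrderTop ConditionallyCompleteLinearOrderBot.toOrderBot ConnectedSpace.toNonempty GeneralizedBooleanAlgebra.toOrderBot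 GeneralizedCoheytingAlgebra.toOrderBot HeytingAlgebra.toBoundedOrder HeytingAlgebra.toOrderBot IdemSemiring.toOrderBot IrreducibleSpace.toNonempty LinearOrderedAddCommGroupWithTop.toOrderTop LinearOrderedAddCommMonoidWithTop.toOrderTop LinearOrderedCommMonoidWithZero.toOrderBot MulZeroClass.negZeroClass Nontrivial.to_nonempty One.instNonempty Torsor.nonempty Unique.instInhabited Zero.instNonempty CategoryTheory.IsConnected.is_nonempty Pi.hasDistribNeg IsInvariantSubring.toMulSemiringAction Pi.nonUnitalNonAssocRing AddSubgroupClass.normedAddCommGroup NonUnitalSubalgebraClass.nonUnitalNormedRing BialgHomClass.toMonoidHomClass MulCharClass.toMonoidHomClass MulDistribMulActionSemiHomClass.toMonoidHomClass Zero.ofOfNat0 ConvexCone.instAddMemClass AddGroup.instAddTorsor BooleanAlgebra.toBot BooleanAlgebra.toTop CategoryTheory.isConnected_of_nonempty_and_subsingleton CompletePartialOrder.toSupSet CompleteSemilatticeInf.toInfSet CompleteSemilatticeSup.toSupSet ConditionallyCompleteLattice.toInfSet ConditionallyCompleteLattice.toSupSet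 ConditionallyCompletePartialOrderInf.toInfSet ConditionallyCompletePartialOrderSup.toSupSet GeneralizedBooleanAlgebra.toBot GeneralizedHeytingAlgebra.toOrderTop IrreducibleSpace.connectedSpace LeftPreLieAlgebra.toIsScalarTower LieAdmissibleAlgebra.toIsScalarTower LieRinehartAlgebra.toIsScalarTower NormedAddTorsor.toAddTorsor NormedAddTorsor.toAddTorsor' PathConnectedSpace.connectedSpace Preorder.smallCategory RightPreLieAlgebra.toIsScalarTower SeminormedAddCommGroup.toNormedAddTorsor CategoryTheory.Groupoid.toCategory CategoryTheory.IsSifted.instIsConnected CategoryTheory.StrictBicategory.category MulActionWithZero.toMulAction MulDistribMulAction.toMulAction MulSemiringAction.toMulDistribMulAction instRingHomSurjectiveForallEvalRingHom Fin.instBoundedOrder PosNum.dvd Algebra.IsQuadraticExtension.toFree Module.Free.self Pi.instOne IsDedekindDomain.isDedekindDomainDvr IsDedekindDomain.toIsDedekindRing ModuleCat.CoextendScalars.hasSMul instFiniteProp instTopologicalSpaceFin ContractibleSpace.instOfNonemptyOfIndiscreteTopology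 ContractibleSpace.instOfNonemptyOfSubsingleton ContractibleSpace.instPathConnectedSpace Convex.instPathConnectedSpace Fin.addCommMonoid Fin.instCommMonoid Fin.instNontrivial NormedSpace.instPathConnectedSpace RealTopologicalVectorSpace.contractibleSpace SimplyConnectedSpace.instPathConnectedSpace SimplyConnectedSpace.ofContractible CategoryTheory.IsSifted.isSifted_of_hasBinaryCoproducts_and_nonempty instCoeOutOfCoeFun TensorProduct.instModuleFstSnd Pi.instBotForall Pi.seminormedCommRing AddMonoidAlgebra.distribMulAction SMulMemClass.toModule SubalgebraClass.toAlgebra SubmoduleClass.module' Pi.addCommMagma Ideal.Quotient.instCoeQuotient MulEquivClass.toMonoidWithZeroHomClass MulRingSeminormClass.toMonoidWithZeroHomClass OrderRingHom.instRingHomClass instCoeHTCOfCoeHeadOfCoeOTC instCoeHTCTOfCoeTailOfCoeHTC instCoeTailIntOfIntCast instCoeTailNatOfNatCast instCoeTailRatOfRatCast BialgEquivClass.instCoeToBialgEquiv BialgHomClass.instCoeToBialgHom CoalgEquivClass.instCoeToCoalgEquiv CoalgHomClass.instCoeToCoalgHom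 CompletelyPositiveMapClass.instCoeToCompletelyPositiveMap DivisionRing.toNNRatCast DivisionRing.toRatCast DivisionSemiring.toNNRatCast LinearMapClass.instCoeToLinearMap NNRatCast.toCoeTail NonUnitalStarRingHomClass.instCoeHeadNonUnitalStarRingHom SemilinearMapClass.instCoeToSemilinearMap StarAlgEquivClass.instCoeHead StarRingEquivClass.instCoeHead CommBialgCat.instCommRingObjForgetBialgHomCarrier Subsingleton.to_isCancelMulZero MulSemiringActionSemiHomClass.toRingHomClass Algebra.Generators.instRing RingHomInvPair.triples RingHomInvPair.triples₂ invertibleTwo Module.Free.of_subsingleton SubringClass.toNegMemClass Module.FaithfullyFlat.instOfNontrivialOfFree Module.FaithfullyFlat.of_isIntegral_of_isDomain Module.FaithfullyFlat.self CommMonoid.toCommSemigroup CommSemigroup.toSemigroup LeftCancelMonoid.toLeftCancelSemigroup LeftCancelSemigroup.toSemigroup RightCancelMonoid.toRightCancelSemigroup RightCancelSemigroup.toSemigroup instIsSimpleModule AddQuantale.instAddLeftMono CentroidHom.instSMulCommClass_1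 LeftPreLieAlgebra.instLieAdmissibleAlgebra LieAdmissibleAlgebra.instLieAlgebra LieAlgebra.ofAssociativeAlgebra SubsemiringClass.addSubmonoidWithOneClass Submodule.normedAddCommGroup Submodule.Quotient.normedAddCommGroup ringChar.charP Pi.addGroupWithOne instIsRightCancelAddOfAddRightReflectLE instFiniteCarrierToTopAndTotallyDisconnectedSpaceSecondCountableTopologyOfObj ContinuousAlgHom.instAlgHomClass Pi.seminormedRing GradedMonoid.instNatPowOfNat AlgebraicGeometry.instOrderTopCarrierCarrierCommRingCatOfIsIntegral Module.FaithfullyFlat.toFlat SubgroupClass.normedCommGroup Pi.commRing AddSubgroup.normedAddCommGroup Pi.subNegZeroMonoid AddSubgroupClass.seminormedAddCommGroup NonUnitalSubalgebraClass.nonUnitalSeminormedRing SimpleGraph.TripartiteFromTriangles.graph.instDecidableRelAdj Finite.of_subsingleton SetLike.instFinite Pi.instIsRightCancelAdd OneHom.oneHomClass instIsCancelMulZero instIsCancelMulZero_1 instIsSemisimpleModuleOfIsSimpleModule instIsSemisimpleRingOfSubsingleton of_isDiscreteValuationRing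 GCDMonoid.toIsCancelMulZero IsSemisimpleRing.isSemisimpleModule IsSimpleRing.instIsSemisimpleRing NoZeroDivisors.to_isCancelMulZero UniqueFactorizationMonoid.toIsCancelMulZero ValuationRing.of_field SemilatSupCat.isSemilatticeSup Ordinal.leftDistribClass AddMonoidAlgebra.smulZeroClass SetLike.smul' SubalgebraClass.toNormedAlgebra SubMulAction.SMulMemClass.toMulAction Submodule.Quotient.distribSMul Submodule.Quotient.distribSMul' Submodule.Quotient.smulZeroClass' SubgroupClass.normedGroup forall_prop_decidable Array.instDecidableForallForallMemOfDecidablePred Finset.decidableDforallFinset Fintype.decidableForallFintype Multiset.decidableDforallMultiset Option.decidableForallMem Vector.instDecidableForallForallMemOfDecidablePred Std.DTreeMap.Raw.instSingletonSigma EquivLike.toEmbeddingLike IsScalarTower.to_smulCommClass ValuationSubring.instSubringClass OpenNormalAddSubgroup.instAddSubgroupClass Pi.instMinForall_mathlib Pi.commSemiring Pi.instIdemCommSemiringForall Pi.instIdemSemiring Pi.instKleeneAlgebraForall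 -- iprune

set_option linter.all false

section

/-!
Traces, characters of commutative rings acting on finite dimensional vector spaces, and
independence of characters.
-/

namespace Vale.Agent.P177

open Function Module

section trace

variable {K : Type*} [Field K] {V' V V'' : Type*} [AddCommGroup V'] [Module K V']
  [AddCommGroup V] [Module K V] [AddCommGroup V''] [Module K V''] [FiniteDimensional K V]

/-- The trace is additive in exact sequences. -/
theorem trace_add_of_exact (f : V' →ₗ[K] V) (g : V →ₗ[K] V'') (hf : Injective f)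
    (hg : Surjective g) (h : Exact f g) (φ' : V' →ₗ[K] V') (φ : V →ₗ[K] V) (φ'' : V'' →ₗ[K] V'')
    (h1 : ∀ v, f (φ' v) = φ (f v)) (h2 : ∀ v, g (φ v) = φ'' (g v)) :
    LinearMap.trace K V φ = LinearMap.trace K V' φ' + LinearMap.trace K V'' φ'' := by
  have : FiniteDimensional K V' := FiniteDimensional.of_injective f hf
  have : FiniteDimensional K V'' := Module.Finite.of_surjective g hg
  obtain ⟨s, hs⟩ := g.exists_rightInverse_of_surjective (LinearMap.range_eq_top.2 hg)
  have hs' : ∀ v, g (s v) = v := fun v => LinearMap.congr_fun hs v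
  have hmem : ∀ v, (LinearMap.id - s ∘ₗ g : V →ₗ[K] V) v ∈ LinearMap.range f := by
    intro v
    rw [LinearMap.mem_range, ← Set.mem_range, ← h]
    simp [hs']
  let ρ : V →ₗ[K] V' := (LinearEquiv.ofInjective f hf).symm.toLinearMap ∘ₗ
    (LinearMap.id - s ∘ₗ g : V →ₗ[K] V).codRestrict (LinearMap.range f) hmem
  have hρ : ∀ v, f (ρ v) = v - s (g v) := by
    intro v
    have := LinearEquiv.apply_symm_apply (LinearEquiv.ofInjective f hf)
      ((LinearMap.id - s ∘ₗ g : V →ₗ[K] V).codRestrict (LinearMap.range f) hmem v)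
    have h3 := congrArg Subtype.val this
    exact h3
  have hρf : ∀ v, ρ (f v) = v := by
    intro v
    apply hf
    rw [hρ, h.apply_apply_eq_zero, map_zero, sub_zero]
  have hφ : φ = f ∘ₗ (ρ ∘ₗ φ) + s ∘ₗ (g ∘ₗ φ) := by
    ext v
    simp [hρ]
  have e1 : (ρ ∘ₗ φ) ∘ₗ f = φ' := by
    ext v
    simp [← h1, hρf]
  have e2 : (g ∘ₗ φ) ∘ₗ s = φ'' := by
    ext v
    simp [h2, hs']
  calc LinearMap.trace K V φ = LinearMap.trace K V (f ∘ₗ (ρ ∘ₗ φ)) +
        LinearMap.trace K V (s ∘ₗ (g ∘ₗ φ)) := by rw [← map_add, ← hφ]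
    _ = _ := by
      rw [LinearMap.trace_comp_comm' (ρ ∘ₗ φ) f, LinearMap.trace_comp_comm' (g ∘ₗ φ) s, e1, e2]

end trace

section characters

variable {Ω : Type*} [Field Ω] [IsAlgClosed Ω] {R : Type*} [CommRing R]

theorem exists_common_eigenvector (n : ℕ) : ∀ (V : Type*) [AddCommGroup V] [Module Ω V]
    [FiniteDimensional Ω V] (ρ : R →+* Module.End Ω V), finrank Ω V = n → Nontrivial V →
    ∃ v : V, v ≠ 0 ∧ ∀ r, ∃ c : Ω, ρ r v = c • v := by
  induction n using Nat.strong_induction_on with
  | _ n ih =>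
    intro V _ _ _ ρ hn hV
    by_cases hsc : ∀ r, ∃ c : Ω, ∀ v, ρ r v = c • v
    · obtain ⟨v, hv⟩ := exists_ne (0 : V)
      exact ⟨v, hv, fun r => ⟨(hsc r).choose, (hsc r).choose_spec v⟩⟩
    push Not at hsc
    obtain ⟨r, hr⟩ := hsc
    obtain ⟨c, hc⟩ := Module.End.exists_eigenvalue (ρ r)
    obtain ⟨v, hv⟩ := hc.exists_hasEigenvector
    let W : Submodule Ω V := LinearMap.ker (ρ r - c • LinearMap.id)
    have hvW : v ∈ W := by
      simp only [W, LinearMap.mem_ker, LinearMap.sub_apply, LinearMap.smul_apply,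
        LinearMap.id_apply]
      rw [hv.apply_eq_smul, sub_self]
    have hcomm : ∀ (s : R) (w : V), ρ r (ρ s w) = ρ s (ρ r w) := by
      intro s w
      rw [← Module.End.mul_apply, ← map_mul, mul_comm, map_mul, Module.End.mul_apply]
    have hWst : ∀ s : R, ∀ w ∈ W, ρ s w ∈ W := by
      intro s w hw
      simp only [W, LinearMap.mem_ker, LinearMap.sub_apply, LinearMap.smul_apply,
        LinearMap.id_apply, sub_eq_zero] at hw ⊢
      rw [hcomm, hw, map_smul]
    have hWne : W ≠ ⊤ := by
      intro htop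
      obtain ⟨w, hw⟩ := hr c
      apply hw
      have h1 : w ∈ W := htop ▸ Submodule.mem_top
      simpa only [W, LinearMap.mem_ker, LinearMap.sub_apply, LinearMap.smul_apply,
        LinearMap.id_apply, sub_eq_zero] using h1
    let ρW : R →+* Module.End Ω W :=
      { toFun := fun s => (ρ s).restrict (hWst s)
        map_one' := by ext; simp
        map_mul' := fun a b => by ext; simp
        map_zero' := by ext; simp
        map_add' := fun a b => by ext; simp }
    have hlt : finrank Ω W < n := hn ▸ Submodule.finrank_lt hWne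
    have hnt : Nontrivial W := ⟨⟨v, hvW⟩, 0, fun h => hv.2 (congrArg Subtype.val h)⟩
    obtain ⟨w, hw0, hw⟩ := ih _ hlt W ρW rfl hnt
    refine ⟨w.1, fun h => hw0 (Subtype.ext h), fun s => ?_⟩
    obtain ⟨c', hc'⟩ := hw s
    exact ⟨c', congrArg Subtype.val hc'⟩

/-- A commutative ring acting on a finite dimensional vector space over an algebraically closed
field: the trace is a sum of characters. -/
theorem exists_characters (n : ℕ) : ∀ (V : Type*) [AddCommGroup V] [Module Ω V]
    [FiniteDimensional Ω V] (ρ : R →+* Module.End Ω V), finrank Ω V = n →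
    ∃ σ : Fin n → (R →+* Ω), (∀ r, LinearMap.trace Ω V (ρ r) = ∑ j, σ j r) ∧
      ∀ j r (c : Ω), (∀ v, ρ r v = c • v) → σ j r = c := by
  induction n with
  | zero =>
    intro V _ _ _ ρ hn
    refine ⟨fun j => j.elim0, fun r => ?_, fun j => j.elim0⟩
    have : Subsingleton V := finrank_zero_iff.1 hn
    rw [Subsingleton.elim (ρ r) 0]
    simp
  | succ n ih =>
    intro V _ _ _ ρ hn
    have hnt : Nontrivial V := Module.nontrivial_of_finrank_pos (R := Ω) (by omega)
    obtain ⟨v, hv0, hv⟩ := exists_common_eigenvector (n + 1) V ρ hn hnt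
    choose c hc using hv
    have hinj : ∀ a b : Ω, a • v = b • v → a = b := fun a b h =>
      smul_left_injective Ω hv0 h
    let σ₀ : R →+* Ω :=
      { toFun := c
        map_one' := hinj _ _ (by rw [← hc]; simp)
        map_mul' := fun a b => hinj _ _ (by
          rw [← hc, map_mul, Module.End.mul_apply, hc, map_smul, hc, smul_smul, mul_comm])
        map_zero' := hinj _ _ (by rw [← hc]; simp)
        map_add' := fun a b => hinj _ _ (by rw [← hc, map_add, LinearMap.add_apply, hc, hc,
          add_smul]) }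
    let L : Submodule Ω V := Submodule.span Ω {v}
    have hLst : ∀ r, L ≤ L.comap (ρ r) := by
      intro r
      rw [Submodule.span_le, Set.singleton_subset_iff]
      change ρ r v ∈ L
      rw [hc]
      exact Submodule.smul_mem _ _ (Submodule.mem_span_singleton_self v)
    let ρQ : R →+* Module.End Ω (V ⧸ L) :=
      { toFun := fun r => L.mapQ L (ρ r) (hLst r)
        map_one' := by ext; simp
        map_mul' := fun a b => by ext; simp
        map_zero' := by ext; simp
        map_add' := fun a b => by ext; simp }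
    have hfr : finrank Ω (V ⧸ L) = n := by
      have h1 := Submodule.finrank_quotient_add_finrank L
      have h2 : finrank Ω L = 1 := finrank_span_singleton hv0
      omega
    obtain ⟨σ, hσ, hσ2⟩ := ih (V ⧸ L) ρQ hfr
    refine ⟨Fin.cons σ₀ σ, fun r => ?_, ?_⟩
    · rw [Fin.sum_univ_succ]
      simp only [Fin.cons_zero, Fin.cons_succ]
      rw [← hσ r]
      have h3 := trace_add_of_exact (LinearMap.toSpanSingleton Ω V v) L.mkQ
        (by
          intro a b hab
          exact hinj _ _ (by simpa using hab)) L.mkQ_surjective (by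
          rw [LinearMap.exact_iff, Submodule.ker_mkQ, LinearMap.range_toSpanSingleton])
        (c r • LinearMap.id) (ρ r) (ρQ r)
        (fun a => by
          simp [hc, smul_smul, mul_comm])
        (fun w => rfl)
      rw [h3]
      congr 1
      rw [map_smul]
      simp [σ₀]
    · intro j r a ha
      refine Fin.cases ?_ (fun j => ?_) j
      · simp only [Fin.cons_zero]
        exact hinj _ _ (by
          change c r • v = a • v
          rw [← hc, ha])
      · simp only [Fin.cons_succ]
        refine hσ2 j r a fun w => ?_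
        obtain ⟨w, rfl⟩ := L.mkQ_surjective w
        change L.mkQ (ρ r w) = _
        rw [ha, map_smul]

end characters

/-- Independence of characters. -/
theorem finsupp_eq_of_sum_eq {ι R Ω : Type*} [CommRing R] [Field Ω] [CharZero Ω]
    (χ : ι → (R →+* Ω)) (hχ : Injective χ) (D D' : ι →₀ ℤ)
    (h : ∀ r, D.sum (fun i m => (m : Ω) * χ i r) = D'.sum (fun i m => (m : Ω) * χ i r)) :
    D = D' := by
  have hli := linearIndependent_monoidHom R Ω
  have hli' : LinearIndependent Ω (fun i : ι => (χ i : R → Ω)) :=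
    hli.comp (fun i => ((χ i : R →+* Ω) : R →* Ω)) (fun a b hab => hχ (by
      ext r
      exact DFunLike.congr_fun hab r))
  let toΩ : (ι →₀ ℤ) → (ι →₀ Ω) := fun D => D.mapRange (Int.cast : ℤ → Ω) Int.cast_zero
  have hto : Injective toΩ := Finsupp.mapRange_injective _ _ Int.cast_injective
  apply hto
  apply hli'
  ext r
  have key : ∀ D : ι →₀ ℤ, (Finsupp.linearCombination Ω (fun i : ι => (χ i : R → Ω)) (toΩ D)) r =
      D.sum (fun i m => (m : Ω) * χ i r) := by
    intro D
    rw [Finsupp.linearCombination_apply, Finsupp.sum_mapRange_index (by simp)]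
    rw [Finsupp.sum, Finset.sum_apply]
    rfl
  rw [key, key, h]

end Vale.Agent.P177
end

section

/-! Power series rings over a field are regular local rings of the expected dimension. -/

namespace Vale.Agent.P177

open IsLocalRing

section General

variable {σ R : Type*} [Finite σ] [CommRing R]

theorem mem_span_X_of_constantCoeff_eq_zero (p : MvPowerSeries σ R)
    (hp : MvPowerSeries.constantCoeff p = 0) :
    p ∈ (Ideal.span (Set.range MvPowerSeries.X) : Ideal (MvPowerSeries σ R)) := by
  have h1 : Ideal.map (MvPowerSeries.toAdicCompletionAlgEquiv σ R).toRingEquiv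
      (Ideal.span (Set.range MvPowerSeries.X)) =
      (MvPolynomial.idealOfVars σ R).map (algebraMap _ _) := by
    simp_rw [Ideal.map_span, ← Set.range_comp]
    congr 2; ext1
    simp [AdicCompletion.algebraMap_apply, ← MvPolynomial.coe_X,
      MvPowerSeries.toAdicCompletion_coe]
  replace h1 := h1.trans
    (AdicCompletion.ker_evalOneₐ_eq_map _ (MvPolynomial.idealOfVars_fg σ R)).symm
  have h2 : MvPowerSeries.toAdicCompletionAlgEquiv σ R p ∈
      RingHom.ker (AdicCompletion.evalOneₐ (MvPolynomial.idealOfVars σ R)).toRingHom := by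
    rw [RingHom.mem_ker]
    change AdicCompletion.evalOneₐ (MvPolynomial.idealOfVars σ R)
      (MvPowerSeries.toAdicCompletion σ R p) = 0
    rw [MvPowerSeries.toAdicCompletion, AdicCompletion.evalOneₐ_liftAlgHom (hf := fun h ↦
      AlgHom.ext fun _ ↦ by
      simpa [Ideal.Quotient.mk_eq_mk_iff_sub_mem] using
        MvPowerSeries.truncTotal_sub_truncTotal_mem_pow_idealOfVars h (le_refl _) _)]
    have h3 : MvPowerSeries.truncTotalAlgHom σ R 1 p = 0 := by
      rw [MvPowerSeries.truncTotalAlgHom_apply, Ideal.Quotient.eq_zero_iff_mem]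
      refine (MvPolynomial.mem_pow_idealOfVars_iff' ..).mpr fun x hx ↦ ?_
      have hx0 : x = 0 := by
        rw [← Finsupp.degree_eq_zero_iff]
        omega
      rw [MvPowerSeries.coeff_truncTotal _ hx, hx0]
      simpa using hp
    rw [h3, map_zero]
  rw [← h1] at h2
  have h3 := Ideal.mem_map_of_equiv (MvPowerSeries.toAdicCompletionAlgEquiv σ R).toRingEquiv
    (I := (Ideal.span (Set.range MvPowerSeries.X))) (MvPowerSeries.toAdicCompletionAlgEquiv σ R p)
  obtain ⟨q, hq, hqp⟩ := h3.mp h2
  have : q = p := (MvPowerSeries.toAdicCompletionAlgEquiv σ R).injective hqp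
  rwa [← this]

end General

variable (σ : Type*) [Finite σ] (k : Type*) [Field k]

theorem mvPowerSeries_maximalIdeal [IsLocalRing (MvPowerSeries σ k)] :
    maximalIdeal (MvPowerSeries σ k) = Ideal.span (Set.range MvPowerSeries.X) := by
  apply le_antisymm
  · intro p hp
    apply mem_span_X_of_constantCoeff_eq_zero
    by_contra hne
    exact (mem_maximalIdeal p).mp hp
      (MvPowerSeries.isUnit_iff_constantCoeff.mpr (isUnit_iff_ne_zero.mpr hne))
  · rw [Ideal.span_le]
    rintro _ ⟨i, rfl⟩
    rw [SetLike.mem_coe, mem_maximalIdeal, mem_nonunits_iff, MvPowerSeries.isUnit_iff_constantCoeff]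
    simp

theorem le_ringKrullDim_mvPowerSeries_fin (n : ℕ) :
    (n : WithBot ℕ∞) ≤ ringKrullDim (MvPowerSeries (Fin n) k) := by
  induction n with
  | zero =>
    have : Nontrivial (MvPowerSeries (Fin 0) k) := inferInstance
    simpa using ringKrullDim_nonneg_of_nontrivial (R := MvPowerSeries (Fin 0) k)
  | succ n ih =>
    rw [ringKrullDim_eq_of_ringEquiv (MvPowerSeries.finSuccEquiv k n).toRingEquiv]
    refine le_trans ?_ ringKrullDim_succ_le_ringKrullDim_powerseries
    push_cast
    gcongr

theorem le_ringKrullDim_mvPowerSeries :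
    (Nat.card σ : WithBot ℕ∞) ≤ ringKrullDim (MvPowerSeries σ k) := by
  rw [ringKrullDim_eq_of_ringEquiv
    (MvPowerSeries.renameEquiv k (Finite.equivFin σ)).toRingEquiv]
  exact le_ringKrullDim_mvPowerSeries_fin k _

theorem mvPowerSeries_isRegularLocalRing : IsRegularLocalRing (MvPowerSeries σ k) := by
  apply IsRegularLocalRing.of_spanFinrank_maximalIdeal_le
  refine le_trans ?_ (le_ringKrullDim_mvPowerSeries σ k)
  rw [mvPowerSeries_maximalIdeal]
  norm_cast
  refine le_trans (Submodule.spanFinrank_span_le_ncard_of_finite (Set.finite_range _)) ?_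
  rw [← Set.image_univ]
  refine le_trans (Set.ncard_image_le Set.finite_univ) ?_
  rw [Set.ncard_univ]

theorem mvPowerSeries_ringKrullDim : ringKrullDim (MvPowerSeries σ k) = Nat.card σ := by
  apply le_antisymm ?_ (le_ringKrullDim_mvPowerSeries σ k)
  refine le_trans (ringKrullDim_le_spanFinrank_maximalIdeal _) ?_
  rw [mvPowerSeries_maximalIdeal]
  norm_cast
  refine le_trans (Submodule.spanFinrank_span_le_ncard_of_finite (Set.finite_range _)) ?_
  rw [← Set.image_univ]
  refine le_trans (Set.ncard_image_le Set.finite_univ) ?_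
  rw [Set.ncard_univ]

end Vale.Agent.P177
end

section

/-! Flatness of the inclusions of power series rings. -/

namespace Vale.Agent.P177

/-- Power series over a Noetherian ring are flat. -/
theorem mvPowerSeries_flat (ι T : Type*) [Finite ι] [CommRing T] [IsNoetherianRing T] :
    Module.Flat T (MvPowerSeries ι T) := by
  have h1 : Module.Flat T (MvPolynomial ι T) := inferInstance
  have h2 : Module.Flat (MvPolynomial ι T) (MvPowerSeries ι T) :=
    Module.Flat.of_linearEquiv (MvPowerSeries.toAdicCompletionAlgEquiv ι T).toLinearEquiv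
  have : IsScalarTower T (MvPolynomial ι T) (MvPowerSeries ι T) := inferInstance
  exact Module.Flat.trans T (MvPolynomial ι T) (MvPowerSeries ι T)

theorem optionEquivLeft_rename_some {σ k : Type*} [Finite σ] [CommRing k]
    (p : MvPowerSeries σ k) :
    MvPowerSeries.optionEquivLeft σ k (MvPowerSeries.rename (some : σ → Option σ) p) =
      PowerSeries.C p := by
  ext n x
  rw [MvPowerSeries.coeff_coeff_optionEquivLeft, PowerSeries.coeff_C]
  split_ifs with hn
  · subst hn
    have h1 : x.optionElim 0 = Finsupp.embDomain Function.Embedding.some x := by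
      rw [Finsupp.embDomain_eq_mapDomain]
      ext a
      cases a with
      | none =>
        rw [Finsupp.mapDomain_of_notMem_range _ _ (by simp)]
        simp
      | some a =>
        rw [Finsupp.optionElim_apply_some]
        exact (Finsupp.mapDomain_apply (Option.some_injective σ) x a).symm
    rw [h1]
    exact MvPowerSeries.coeff_embDomain_rename Function.Embedding.some p x
  · rw [map_zero]
    apply MvPowerSeries.coeff_rename_eq_zero
    rintro ⟨y, hy⟩
    apply hn
    have h2 : Finsupp.mapDomain some y none = (x.optionElim n) none := by rw [hy]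
    rw [Finsupp.mapDomain_of_notMem_range _ _ (by simp)] at h2
    simpa using h2.symm

theorem flat_rename_some (σ k : Type*) [Finite σ] [CommRing k] [IsNoetherianRing k] :
    (MvPowerSeries.rename (R := k) (some : σ → Option σ)).toRingHom.Flat := by
  have h1 : (PowerSeries.C (R := MvPowerSeries σ k)).Flat := by
    have := mvPowerSeries_flat Unit (MvPowerSeries σ k)
    rw [← PowerSeries.algebraMap_eq, RingHom.flat_algebraMap_iff]
    exact this
  have h2 : (MvPowerSeries.rename (R := k) (some : σ → Option σ)).toRingHom =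
      ((MvPowerSeries.optionEquivLeft σ k).symm.toRingEquiv.toRingHom).comp
        (PowerSeries.C (R := MvPowerSeries σ k)) := by
    ext1 p
    apply (MvPowerSeries.optionEquivLeft σ k).injective
    exact (optionEquivLeft_rename_some p).trans
      ((MvPowerSeries.optionEquivLeft σ k).apply_symm_apply _).symm
  rw [h2]
  exact RingHom.Flat.comp h1 (RingHom.Flat.of_bijective
    (MvPowerSeries.optionEquivLeft σ k).symm.bijective)

theorem flat_rename_of_bijective {σ τ k : Type*} [Finite σ] [Finite τ] [CommRing k] (e : σ ≃ τ) :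
    (MvPowerSeries.rename (R := k) e).toRingHom.Flat :=
  RingHom.Flat.of_bijective (MvPowerSeries.renameEquiv k e).bijective

universe u v

theorem flat_rename_aux (k : Type*) [CommRing k] [IsNoetherianRing k] (σ : Type u) [Finite σ]
    (n : ℕ) : ∀ (τ : Type v) [Finite τ] (e : σ ↪ τ), Nat.card τ = Nat.card σ + n →
      (MvPowerSeries.rename (R := k) e).toRingHom.Flat := by
  induction n with
  | zero =>
    intro τ _ e h
    have hb : Function.Bijective e :=
      Function.Injective.bijective_of_nat_card_le e.injective (by omega)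
    exact flat_rename_of_bijective (Equiv.ofBijective e hb)
  | succ n ih =>
    intro τ _ e h
    classical
    obtain ⟨t, ht⟩ : ∃ t, t ∉ Set.range e := by
      by_contra hcon
      push Not at hcon
      have := Nat.card_congr (Equiv.ofBijective e ⟨e.injective, hcon⟩)
      omega
    let e' : σ ↪ {x : τ // x ≠ t} := ⟨fun s => ⟨e s, fun h => ht ⟨s, h⟩⟩, fun a b hab => by
      exact e.injective (congrArg Subtype.val hab)⟩
    have hcard : Nat.card {x : τ // x ≠ t} = Nat.card σ + n := by
      have h5 := Nat.card_congr (Equiv.optionSubtypeNe t)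
      rw [Finite.card_option] at h5
      omega
    have h1 := ih _ e' hcard
    have h2 := flat_rename_some {x : τ // x ≠ t} k
    have h3 := flat_rename_of_bijective (k := k) (Equiv.optionSubtypeNe t)
    have h4 : (MvPowerSeries.rename (R := k) e).toRingHom =
      ((MvPowerSeries.rename (R := k) (Equiv.optionSubtypeNe t)).toRingHom.comp
        (MvPowerSeries.rename (R := k)
          (some : {x : τ // x ≠ t} → Option {x : τ // x ≠ t})).toRingHom).comp
        (MvPowerSeries.rename (R := k) e').toRingHom := by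
      ext1 p
      change MvPowerSeries.rename e p = MvPowerSeries.rename (Equiv.optionSubtypeNe t)
        (MvPowerSeries.rename some (MvPowerSeries.rename e' p))
      rw [MvPowerSeries.rename_rename, MvPowerSeries.rename_rename]
      rfl
    rw [h4]
    exact h1.comp (h2.comp h3)

theorem flat_rename {σ τ k : Type*} [Finite σ] [Finite τ] [CommRing k] [IsNoetherianRing k]
    (e : σ ↪ τ) : (MvPowerSeries.rename (R := k) e).toRingHom.Flat := by
  obtain ⟨n, hn⟩ := Nat.exists_eq_add_of_le (Nat.card_le_card_of_injective e e.injective)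
  exact flat_rename_aux k σ n τ e hn

end Vale.Agent.P177
end

section

/-!
Flat local base change: length and dimension.
-/

namespace Vale.Agent.P177

open IsLocalRing TensorProduct

universe u v w

section general

variable {A : Type u} {C : Type v} [CommRing A] [CommRing C] [Algebra A C] [Module.Flat A C]

lemma mem_support_baseChange (M : Type w) [AddCommGroup M] [Module A M]
    (P : PrimeSpectrum C) (h : PrimeSpectrum.comap (algebraMap A C) P ∈ Module.support A M) :
    P ∈ Module.support C (C ⊗[A] M) := by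
  obtain ⟨m, hm⟩ := Module.mem_support_iff_exists_annihilator.mp h
  rw [Module.mem_support_iff_exists_annihilator]
  refine ⟨1 ⊗ₜ m, ?_⟩
  intro c hc
  rw [Submodule.mem_annihilator_span_singleton] at hc
  let J : Ideal A := (Submodule.span A {m}).annihilator
  let f : (A ⧸ J) →ₗ[A] M := Submodule.liftQ J (LinearMap.toSpanSingleton A M m) (by
    intro a ha
    rw [LinearMap.mem_ker, LinearMap.toSpanSingleton_apply]
    exact (Submodule.mem_annihilator_span_singleton m a).mp ha)
  have hf : Function.Injective f := by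
    rw [← LinearMap.ker_eq_bot, Submodule.ker_liftQ_eq_bot']
    ext a
    rw [LinearMap.mem_ker, LinearMap.toSpanSingleton_apply]
    exact (Submodule.mem_annihilator_span_singleton m a)
  have hfC : Function.Injective (f.lTensor C) := Module.Flat.lTensor_preserves_injective_linearMap f hf
  have h1 : f.lTensor C (c ⊗ₜ[A] (Ideal.Quotient.mk J 1)) = 0 := by
    rw [LinearMap.lTensor_tmul]
    have : f (Ideal.Quotient.mk J 1) = m := by
      change f (Submodule.Quotient.mk 1) = m
      rw [Submodule.liftQ_apply, LinearMap.toSpanSingleton_apply, one_smul]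
    rw [this]
    rw [TensorProduct.smul_tmul', smul_eq_mul, mul_one] at hc
    exact hc
  have h2 : c ⊗ₜ[A] (Ideal.Quotient.mk J 1) = 0 := hfC (by rw [h1, map_zero])
  have h3 : Ideal.Quotient.mk (J.map (algebraMap A C)) c = 0 := by
    apply (Algebra.TensorProduct.quotIdealMapEquivTensorQuot C J).injective
    rw [Algebra.TensorProduct.quotIdealMapEquivTensorQuot_mk, map_zero]
    exact h2
  rw [Ideal.Quotient.eq_zero_iff_mem] at h3
  have h4 : J.map (algebraMap A C) ≤ P.asIdeal := by
    rw [Ideal.map_le_iff_le_comap]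
    exact hm
  exact h4 h3

theorem supportDim_le_baseChange_of_faithfullyFlat [Module.FaithfullyFlat A C]
    (M : Type w) [AddCommGroup M] [Module A M] :
    Module.supportDim A M ≤ Module.supportDim C (C ⊗[A] M) := by
  refine iSup_le fun l => ?_
  let l' : LTSeries (PrimeSpectrum A) := l.map Subtype.val (fun _ _ h => h)
  obtain ⟨Q, hQ, hQl⟩ := Ideal.exists_isPrime_liesOver_of_faithfullyFlat (B := C) l'.last.asIdeal
  obtain ⟨L, hlen, -, hmap⟩ := Ideal.exists_ltSeries_of_hasGoingDown l' Q
  have hmem : ∀ i, L i ∈ Module.support C (C ⊗[A] M) := by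
    intro i
    apply mem_support_baseChange
    have h1 : PrimeSpectrum.comap (algebraMap A C) (L i) ∈ l'.toList := by
      rw [← hmap]
      apply List.mem_map_of_mem
      rw [RelSeries.mem_toList]
      exact ⟨i, rfl⟩
    rw [RelSeries.mem_toList] at h1
    obtain ⟨j, hj⟩ := h1
    rw [← hj]
    exact (l j).2
  let L' : LTSeries (Module.support C (C ⊗[A] M)) :=
    { length := L.length
      toFun := fun i => ⟨L i, hmem i⟩
      step := fun i => L.step i }
  have : (l.length : WithBot ℕ∞) = L'.length := by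
    change (l.length : WithBot ℕ∞) = (L.length : WithBot ℕ∞)
    rw [hlen]
    rfl
  rw [this]
  exact le_iSup (fun p : LTSeries (Module.support C (C ⊗[A] M)) => (p.length : WithBot ℕ∞)) L'

end general

section TaskG

variable (A C : Type u) [CommRing A] [IsLocalRing A] [IsNoetherianRing A]
  [CommRing C] [IsLocalRing C] [IsNoetherianRing C] [Algebra A C] [Module.Flat A C]
  (hloc : (maximalIdeal A).map (algebraMap A C) = maximalIdeal C)
  (hres : ∀ c : C, ∃ a : A, c - algebraMap A C a ∈ maximalIdeal C)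

omit [IsNoetherianRing A] [IsNoetherianRing C] [Module.Flat A C] in
include hloc in
lemma isLocalHom_of_map_maximalIdeal : IsLocalHom (algebraMap A C) :=
  ((local_hom_TFAE (algebraMap A C)).out 0 2).mpr hloc.le

omit [IsNoetherianRing A] [IsNoetherianRing C] in
include hloc in
theorem length_baseChange' (T : Type u) [AddCommGroup T] [Module A T] :
    Module.length C (C ⊗[A] T) = Module.length A T := by
  have := isLocalHom_of_map_maximalIdeal A C hloc
  rw [IsLocalRing.length_baseChange, hloc]
  have : Module.length C (C ⧸ maximalIdeal C) = 1 := by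
    rw [Module.length_eq_one_iff]
    exact isSimpleModule_iff_quot_maximal.mpr ⟨_, inferInstance, ⟨LinearEquiv.refl _ _⟩⟩
  rw [this, mul_one]

omit [IsNoetherianRing A] [IsNoetherianRing C] in
include hloc in
theorem supportDim_le_baseChange (M : Type u) [AddCommGroup M] [Module A M] [Module.Finite A M] :
    Module.supportDim A M ≤ Module.supportDim C (C ⊗[A] M) := by
  have := isLocalHom_of_map_maximalIdeal A C hloc
  have : Module.FaithfullyFlat A C := Module.FaithfullyFlat.of_flat_of_isLocalHom
  exact supportDim_le_baseChange_of_faithfullyFlat M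

end TaskG

end Vale.Agent.P177
end

section

/-!
Relative lengths and Euler characteristics of filtered complexes.
-/

namespace Vale.Agent.P177

open Function

section rl

variable {A : Type*} [CommRing A] {C C' : Type*} [AddCommGroup C] [Module A C] [AddCommGroup C']
  [Module A C']

end rl

section complex

variable {A : Type*} [CommRing A] (C : ℕ → Type*) [∀ i, AddCommGroup (C i)] [∀ i, Module A (C i)]
  (D : ∀ i, C (i + 1) →ₗ[A] C i)

end complex

end Vale.Agent.P177
end

section

/-!
# P177: the eigenflag filtration (abstract form)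

`P` is a commutative ring acting on an additive group `E`, `T j t` (for `t : Fin j → Fin n`) are the
Pluecker coordinates of an eigenflag and `M s` is a family of additive subgroups of `E` indexed by a
group `G` of degrees, with `T j t • M s ≤ M (s + d j)`.

The filtration of `(M s)^n` by the kernels `K j s` of the wedge with the `j`-th Pluecker vector has the
graded pieces `M (s + d j - d (j+1))`.
-/

namespace Vale.Agent.P177.Flag

open Finset

variable {P E G : Type*} [CommRing P] [AddCommGroup E] [Module P E] [AddCommGroup G] {n : ℕ}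

/-- The wedge of a vector `v` with a vector `T` of the `j`-th exterior power, in coordinates. -/
def wdg {j : ℕ} (T : (Fin j → Fin n) → P) (v : Fin n → E) (t : Fin (j + 1) → Fin n) : E :=
  ∑ k : Fin (j + 1), ((-1) ^ (k : ℕ) * T (fun i => t (k.succAbove i))) • v (t k)

theorem wdg_add {j : ℕ} (T : (Fin j → Fin n) → P) (v w : Fin n → E) (t : Fin (j + 1) → Fin n) :
    wdg T (v + w) t = wdg T v t + wdg T w t := by
  simp [wdg, smul_add, Finset.sum_add_distrib]

theorem wdg_zero {j : ℕ} (T : (Fin j → Fin n) → P) (t : Fin (j + 1) → Fin n) :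
    wdg T (0 : Fin n → E) t = 0 := by
  simp [wdg]

theorem wdg_neg {j : ℕ} (T : (Fin j → Fin n) → P) (v : Fin n → E) (t : Fin (j + 1) → Fin n) :
    wdg T (-v) t = - wdg T v t := by
  simp [wdg]

theorem wdg_smul {j : ℕ} (T : (Fin j → Fin n) → P) (r : P) (v : Fin n → E)
    (t : Fin (j + 1) → Fin n) : wdg T (r • v) t = r • wdg T v t := by
  simp only [wdg, Pi.smul_apply, Finset.smul_sum]
  refine Finset.sum_congr rfl fun k _ => ?_
  rw [smul_comm]

theorem wdg_sum {j : ℕ} {ι : Type*} (S : Finset ι) (T : (Fin j → Fin n) → P)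
    (v : ι → Fin n → E) (t : Fin (j + 1) → Fin n) :
    wdg T (∑ a ∈ S, v a) t = ∑ a ∈ S, wdg T (v a) t := by
  classical
  induction S using Finset.induction_on with
  | empty => simp [wdg_zero]
  | insert a S ha ih => rw [Finset.sum_insert ha, Finset.sum_insert ha, wdg_add, ih]

/-- Wedge of a vector with coordinates `(u i) • e`. -/
theorem wdg_smul_const {j : ℕ} (T : (Fin j → Fin n) → P) (u : Fin n → P) (e : E)
    (t : Fin (j + 1) → Fin n) : wdg T (fun i => u i • e) t = wdg T u t • e := by
  simp only [wdg, Finset.sum_smul, smul_smul, smul_eq_mul]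

theorem wdg_zero_deg (T : (Fin 0 → Fin n) → P) (hT : ∀ t, T t = 1) (v : Fin n → E)
    (t : Fin 1 → Fin n) : wdg T v t = v (t 0) := by
  simp [wdg, hT]

/-- Expansion of the wedge at a tuple `cons i τ`. -/
theorem wdg_cons {j : ℕ} (T : (Fin (j + 1) → Fin n) → P) (v : Fin n → E) (i : Fin n)
    (τ : Fin (j + 1) → Fin n) :
    wdg T v (Fin.cons i τ) = T τ • v i
      - ∑ k : Fin (j + 1), ((-1) ^ (k : ℕ) * T (Fin.cons i (fun l => τ (k.succAbove l)))) •
          v (τ k) := by
  rw [wdg, Fin.sum_univ_succ]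
  have h0 : (fun a : Fin (j + 1) => (Fin.cons i τ : Fin (j + 2) → Fin n) ((0 : Fin (j+2)).succAbove a))
      = τ := by
    funext a; simp
  rw [h0]
  simp only [Fin.val_zero, pow_zero, one_mul, Fin.cons_zero, Fin.val_succ, Fin.cons_succ]
  rw [sub_eq_add_neg, ← Finset.sum_neg_distrib]
  congr 1
  refine Finset.sum_congr rfl fun k _ => ?_
  have h1 : (fun a : Fin (j + 1) => (Fin.cons i τ : Fin (j + 2) → Fin n) (k.succ.succAbove a))
      = Fin.cons i (fun l => τ (k.succAbove l)) := by
    funext a
    refine Fin.cases ?_ (fun b => ?_) a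
    · simp
    · simp
  rw [h1, pow_succ]
  simp [mul_comm, neg_smul]

/-- If `v ∧ T = 0` then `T τ • v` is a combination of the contractions of `T`. -/
theorem smul_of_wdg_eq_zero {j : ℕ} (T : (Fin (j + 1) → Fin n) → P) (v : Fin n → E)
    (hv : ∀ t, wdg T v t = 0) (τ : Fin (j + 1) → Fin n) :
    T τ • v = ∑ k : Fin (j + 1), fun i =>
      ((-1) ^ (k : ℕ) * T (Fin.cons i (fun l => τ (k.succAbove l)))) • v (τ k) := by
  funext i
  have h := wdg_cons T v i τ
  rw [hv] at h
  rw [Finset.sum_apply]
  rw [Pi.smul_apply]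
  exact (sub_eq_zero.mp h.symm)

/-- The relations satisfied by the Pluecker coordinates of a full flag. -/
structure FlagRel (T : ∀ j : ℕ, (Fin j → Fin n) → P) : Prop where
  zero : ∀ t, T 0 t = 1
  same : ∀ (j : ℕ) (ρ : Fin j → Fin n) (t : Fin (j + 2) → Fin n),
    wdg (T (j + 1)) (fun i => T (j + 1) (Fin.cons i ρ)) t = 0
  incl : ∀ (j : ℕ) (ρ : Fin j → Fin n) (t : Fin (j + 3) → Fin n),
    wdg (T (j + 2)) (fun i => T (j + 1) (Fin.cons i ρ)) t = 0
  step : ∀ (j : ℕ) (ρ : Fin j → Fin n) (t : Fin (j + 1) → Fin n),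
    wdg (T j) (fun i => T (j + 1) (Fin.cons i ρ)) t = T j ρ * T (j + 1) t

/-- `X` acts on the `j`-th graded piece of the flag by `c j`. -/
def EigRel (T : ∀ j : ℕ, (Fin j → Fin n) → P) (X : Matrix (Fin n) (Fin n) P) (c : ℕ → P) : Prop :=
  ∀ (j : ℕ) (ρ : Fin j → Fin n) (t : Fin (j + 1) → Fin n),
    wdg (T j) (fun i => (∑ l, X i l * T (j + 1) (Fin.cons l ρ))
      - c j * T (j + 1) (Fin.cons i ρ)) t = 0

/-- A graded family of subgroups on which the coordinates act. The coordinates `T j` with `n < j`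
are usually zero, so that injectivity is only required for `j ≤ n`. -/
structure Graded (T : ∀ j : ℕ, (Fin j → Fin n) → P) (d : ℕ → G) (M : G → AddSubgroup E) :
    Prop where
  d_zero : d 0 = 0
  mem : ∀ (j : ℕ) (t : Fin j → Fin n) (s : G) (e : E), e ∈ M s → T j t • e ∈ M (s + d j)
  inj : ∀ (j : ℕ), j ≤ n → ∀ (s : G) (e : E), e ∈ M s → (∀ t, T j t • e = 0) → e = 0

/-- The kernel filtration. -/
def K (T : ∀ j : ℕ, (Fin j → Fin n) → P) (M : G → AddSubgroup E) (j : ℕ) (s : G) :
    AddSubgroup (Fin n → E) where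
  carrier := {v | (∀ i, v i ∈ M s) ∧ ∀ t, wdg (T j) v t = 0}
  zero_mem' := ⟨fun _ => (M s).zero_mem, fun t => wdg_zero _ t⟩
  add_mem' := by
    rintro v w ⟨h1, h2⟩ ⟨h3, h4⟩
    exact ⟨fun i => (M s).add_mem (h1 i) (h3 i), fun t => by rw [wdg_add, h2, h4, add_zero]⟩
  neg_mem' := by
    rintro v ⟨h1, h2⟩
    exact ⟨fun i => (M s).neg_mem (h1 i), fun t => by rw [wdg_neg, h2, neg_zero]⟩

variable {T : ∀ j : ℕ, (Fin j → Fin n) → P} {d : ℕ → G} {M : G → AddSubgroup E}

omit [AddCommGroup G] in
theorem mem_K {j : ℕ} {s : G} {v : Fin n → E} :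
    v ∈ K T M j s ↔ (∀ i, v i ∈ M s) ∧ ∀ t, wdg (T j) v t = 0 := Iff.rfl

theorem Graded.wdg_mem (hM : Graded T d M) {j : ℕ} {s : G} {v : Fin n → E}
    (hv : ∀ i, v i ∈ M s) (t : Fin (j + 1) → Fin n) : wdg (T j) v t ∈ M (s + d j) := by
  refine AddSubgroup.sum_mem _ fun k _ => ?_
  rw [mul_smul]
  rcases neg_one_pow_eq_or P (k : ℕ) with h | h
  · rw [h, one_smul]; exact hM.mem _ _ _ _ (hv _)
  · rw [h, neg_smul, one_smul]; exact AddSubgroup.neg_mem _ (hM.mem _ _ _ _ (hv _))

omit [AddCommGroup G] in
/-- A vector in `K (j+1)` multiplied by a Pluecker coordinate is a combination of contractions. -/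
theorem smul_of_mem_K {j : ℕ} {s : G} {v : Fin n → E} (hv : v ∈ K T M (j + 1) s)
    (τ : Fin (j + 1) → Fin n) :
    T (j + 1) τ • v = ∑ k : Fin (j + 1), ((-1 : P) ^ (k : ℕ)) • (fun i =>
      T (j + 1) (Fin.cons i (fun l => τ (k.succAbove l))) • v (τ k)) := by
  rw [smul_of_wdg_eq_zero _ _ hv.2 τ]
  refine Finset.sum_congr rfl fun k _ => ?_
  funext i; simp [mul_smul]

/-- Action of a matrix with entries in `P` on vectors with entries in `E`. -/
def act (X : Matrix (Fin n) (Fin n) P) (v : Fin n → E) : Fin n → E :=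
  fun i => ∑ l, X i l • v l

theorem act_smul (X : Matrix (Fin n) (Fin n) P) (r : P) (v : Fin n → E) :
    act X (r • v) = r • act X v := by
  funext i
  simp only [act, Pi.smul_apply, Finset.smul_sum]
  exact Finset.sum_congr rfl fun l _ => smul_comm _ _ _

theorem act_sum (X : Matrix (Fin n) (Fin n) P) {ι : Type*} (S : Finset ι) (v : ι → Fin n → E) :
    act X (∑ a ∈ S, v a) = ∑ a ∈ S, act X (v a) := by
  funext i
  simp only [act, Finset.sum_apply, Finset.smul_sum]
  exact Finset.sum_comm

theorem act_smul_const (X : Matrix (Fin n) (Fin n) P) (u : Fin n → P) (e : E) :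
    act X (fun i => u i • e) = fun i => (∑ l, X i l * u l) • e := by
  funext i
  simp only [act, Finset.sum_smul, smul_smul]

omit [AddCommGroup G] in
theorem act_mem {X : Matrix (Fin n) (Fin n) P} {s : G}
    (hX : ∀ i l, ∀ e ∈ M s, X i l • e ∈ M s) {v : Fin n → E} (hv : ∀ i, v i ∈ M s) (i : Fin n) :
    act X v i ∈ M s :=
  AddSubgroup.sum_mem _ fun l _ => hX i l _ (hv l)

/-- The wedge of `v ∈ K (j+1)` with `T j` is proportional to `T (j+1)`. -/
theorem prop_of_mem_K (hT : FlagRel T) (hM : Graded T d M) {j : ℕ} (hj : j < n) {s : G}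
    {v : Fin n → E}
    (hv : v ∈ K T M (j + 1) s) (t t' : Fin (j + 1) → Fin n) :
    T (j + 1) t' • wdg (T j) v t = T (j + 1) t • wdg (T j) v t' := by
  have key : T (j + 1) t' • wdg (T j) v t - T (j + 1) t • wdg (T j) v t' = 0 := by
    refine hM.inj (j + 1) hj ((s + d j) + d (j + 1)) _ ?_ fun τ => ?_
    · exact (M _).sub_mem (hM.mem _ _ _ _ (hM.wdg_mem hv.1 t))
        (hM.mem _ _ _ _ (hM.wdg_mem hv.1 t'))
    · have h1 : ∀ t : Fin (j + 1) → Fin n, T (j + 1) τ • wdg (T j) v t =
          ∑ k : Fin (j + 1), ((-1 : P) ^ (k : ℕ)) •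
            ((T j (fun l => τ (k.succAbove l)) * T (j + 1) t) • v (τ k)) := by
        intro t
        rw [← wdg_smul, smul_of_mem_K hv τ, wdg_sum]
        refine Finset.sum_congr rfl fun k _ => ?_
        rw [wdg_smul, wdg_smul_const, hT.step]
      rw [smul_sub, smul_comm (T (j + 1) τ) (T (j + 1) t'), smul_comm (T (j + 1) τ) (T (j + 1) t),
        h1, h1, Finset.smul_sum, Finset.smul_sum, ← Finset.sum_sub_distrib]
      refine Finset.sum_eq_zero fun k _ => ?_
      rw [smul_comm (T (j + 1) t'), smul_comm (T (j + 1) t), ← smul_sub, smul_smul, smul_smul]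
      rw [show T (j + 1) t' * (T j (fun l => τ (k.succAbove l)) * T (j + 1) t)
        = T (j + 1) t * (T j (fun l => τ (k.succAbove l)) * T (j + 1) t') by ring]
      simp
  exact sub_eq_zero.mp key

/-- Exactness of the Koszul cocycle complex of `T j` at the places 0 and 1 (colon property) at
the degree `s`: a family of elements of `M s` proportional to `T j` is a multiple of it. -/
def Col (T : ∀ j : ℕ, (Fin j → Fin n) → P) (d : ℕ → G) (M : G → AddSubgroup E) (j : ℕ) (s : G) :
    Prop :=
  ∀ β : (Fin j → Fin n) → E, (∀ t, β t ∈ M s) →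
    (∀ t t', T j t' • β t = T j t • β t') → ∃ a ∈ M (s - d j), ∀ t, β t = T j t • a

/-- The Skoda property at the degree `s`. -/
def Sko (T : ∀ j : ℕ, (Fin j → Fin n) → P) (d : ℕ → G) (M : G → AddSubgroup E) (j : ℕ) (s : G) :
    Prop :=
  ∀ a ∈ M s, ∃ g : (Fin j → Fin n) → E, (∀ ρ, g ρ ∈ M (s - d j)) ∧ a = ∑ ρ, T j ρ • g ρ

end Vale.Agent.P177.Flag
end

section

/-!
# P177: Pluecker relations for determinants

For vectors `v 0, v 1, ..` over a commutative ring the determinants `detT v j t` (rows
`v 0, .., v (j-1)`, columns `t`) satisfy `FlagRel`, and `EigRel` if the flag is an eigenflag.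
-/

namespace Vale.Agent.P177.Flag

open Finset

variable {P E : Type*} [CommRing P] [AddCommGroup E] [Module P E] {n : ℕ}

/-- The Pluecker coordinates of `v 0 ∧ .. ∧ v (j-1)`. -/
def detT (v : ℕ → Fin n → P) (j : ℕ) (t : Fin j → Fin n) : P :=
  Matrix.det (Matrix.of fun a b : Fin j => v a (t b))

theorem wdg_detT (v : ℕ → Fin n → P) (j : ℕ) (w : Fin n → P) (t : Fin (j + 1) → Fin n) :
    wdg (detT v j) w t = (-1) ^ j * detT (Function.update v j w) (j + 1) t := by
  have h : detT (Function.update v j w) (j + 1) t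
      = ∑ k : Fin (j + 1), (-1) ^ (j + (k : ℕ)) * w (t k) *
        detT v j (fun i => t (k.succAbove i)) := by
    rw [detT, Matrix.det_succ_row _ (Fin.last j)]
    refine Finset.sum_congr rfl fun k _ => ?_
    simp only [Matrix.of_apply, Fin.val_last, Function.update_self]
    congr 1
    rw [detT]
    congr 1
    ext a b
    simp only [Matrix.submatrix_apply, Matrix.of_apply, Fin.succAbove_last, Fin.val_castSucc]
    rw [Function.update_of_ne (ne_of_lt a.2)]
  rw [h, wdg, Finset.mul_sum]
  refine Finset.sum_congr rfl fun k _ => ?_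
  rw [pow_add, smul_eq_mul]
  have : ((-1 : P) ^ j) * (-1) ^ j = 1 := by rw [← mul_pow]; simp
  linear_combination (-((-1 : P) ^ (k : ℕ) * detT v j (fun i => t (k.succAbove i)) * w (t k))) * this

theorem wdg_detT_row (v : ℕ → Fin n → P) (j a : ℕ) (ha : a < j) (t : Fin (j + 1) → Fin n) :
    wdg (detT v j) (v a) t = 0 := by
  rw [wdg_detT]
  have : detT (Function.update v j (v a)) (j + 1) t = 0 := by
    rw [detT]
    refine Matrix.det_zero_of_row_eq (i := ⟨a, by omega⟩) (j := Fin.last j) ?_ ?_
    · intro h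
      have := congrArg Fin.val h
      simp at this
      omega
    · funext b
      simp only [Matrix.of_apply, Fin.val_last, Function.update_self]
      rw [Function.update_of_ne (ne_of_lt ha)]
  rw [this, mul_zero]

theorem wdg_detT_self (v : ℕ → Fin n → P) (j : ℕ) (t : Fin (j + 1) → Fin n) :
    wdg (detT v j) (v j) t = (-1) ^ j * detT v (j + 1) t := by
  rw [wdg_detT, Function.update_eq_self]

/-- Expansion of `detT` along the first column. -/
theorem detT_cons (v : ℕ → Fin n → P) (j : ℕ) (i : Fin n) (ρ : Fin j → Fin n) :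
    detT v (j + 1) (Fin.cons i ρ) = ∑ a : Fin (j + 1), ((-1) ^ (a : ℕ) *
      Matrix.det (Matrix.of fun x y : Fin j => v (a.succAbove x) (ρ y))) * v a i := by
  rw [detT, Matrix.det_succ_column_zero]
  refine Finset.sum_congr rfl fun a _ => ?_
  simp only [Matrix.of_apply, Fin.cons_zero]
  have : (Matrix.of fun a b : Fin (j + 1) => v a ((Fin.cons i ρ : Fin (j + 1) → Fin n) b)).submatrix
      a.succAbove Fin.succ = Matrix.of fun x y : Fin j => v (a.succAbove x) (ρ y) := by
    ext x y
    simp
  rw [this]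
  ring

/-- The contraction of `detT v (j+1)` as a combination of the vectors `v a`. -/
theorem detT_cons_fun (v : ℕ → Fin n → P) (j : ℕ) (ρ : Fin j → Fin n) :
    (fun i => detT v (j + 1) (Fin.cons i ρ)) = ∑ a : Fin (j + 1), ((-1) ^ (a : ℕ) *
      Matrix.det (Matrix.of fun x y : Fin j => v (a.succAbove x) (ρ y))) • v a := by
  funext i
  rw [detT_cons, Finset.sum_apply]
  rfl

theorem flagRel_detT (v : ℕ → Fin n → P) : FlagRel (detT v) where
  zero t := by simp [detT]
  same j ρ t := by
    rw [detT_cons_fun, wdg_sum]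
    refine Finset.sum_eq_zero fun a _ => ?_
    rw [wdg_smul, wdg_detT_row _ _ _ a.2, smul_zero]
  incl j ρ t := by
    rw [detT_cons_fun, wdg_sum]
    refine Finset.sum_eq_zero fun a _ => ?_
    rw [wdg_smul, wdg_detT_row _ _ _ (by have := a.2; omega), smul_zero]
  step j ρ t := by
    rw [detT_cons_fun, wdg_sum, Fin.sum_univ_castSucc]
    rw [Finset.sum_eq_zero, zero_add]
    · rw [wdg_smul, Fin.val_last, wdg_detT_self]
      have h1 : Matrix.det (Matrix.of fun x y : Fin j => v ((Fin.last j).succAbove x) (ρ y))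
          = detT v j ρ := by
        rw [detT]
        congr 1
        ext x y
        simp
      rw [h1, smul_eq_mul]
      have : ((-1 : P) ^ j) * (-1) ^ j = 1 := by rw [← mul_pow]; simp
      linear_combination (detT v j ρ * detT v (j + 1) t) * this
    · intro a _
      rw [wdg_smul, Fin.val_castSucc, wdg_detT_row _ _ _ a.2, smul_zero]

/-- If `(X - c j) (v a)` wedges to zero with `v 0 ∧ .. ∧ v (j-1)` for `a ≤ j` then `EigRel`. -/
theorem eigRel_detT (v : ℕ → Fin n → P) (X : Matrix (Fin n) (Fin n) P) (c : ℕ → P)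
    (h : ∀ j a, a ≤ j → ∀ t, wdg (detT v j) (fun i => (∑ l, X i l * v a l) - c j * v a i) t = 0) :
    EigRel (detT v) X c := by
  intro j ρ t
  have h1 : (fun i => (∑ l, X i l * detT v (j + 1) (Fin.cons l ρ))
      - c j * detT v (j + 1) (Fin.cons i ρ)) = ∑ a : Fin (j + 1), ((-1) ^ (a : ℕ) *
      Matrix.det (Matrix.of fun x y : Fin j => v (a.succAbove x) (ρ y))) •
        (fun i => (∑ l, X i l * v a l) - c j * v a i) := by
    funext i
    simp only [detT_cons, Finset.sum_apply, Pi.smul_apply, smul_eq_mul, mul_sub,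
      Finset.sum_sub_distrib, Finset.mul_sum]
    congr 1
    · rw [Finset.sum_comm]
      refine Finset.sum_congr rfl fun a _ => Finset.sum_congr rfl fun l _ => ?_
      ring
    · refine Finset.sum_congr rfl fun a _ => ?_
      ring
  rw [h1, wdg_sum]
  refine Finset.sum_eq_zero fun a _ => ?_
  rw [wdg_smul, h j a (by have := a.2; omega), smul_zero]

/-- The vectors in the span of `v 0, .., v (j-1)` wedge to zero. -/
theorem wdg_detT_of_mem_span (v : ℕ → Fin n → P) (j : ℕ) {w : Fin n → P}
    (hw : w ∈ Submodule.span P (v '' Set.Iio j)) (t : Fin (j + 1) → Fin n) :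
    wdg (detT v j) w t = 0 := by
  induction hw using Submodule.span_induction with
  | mem x hx =>
      obtain ⟨a, ha, rfl⟩ := hx
      exact wdg_detT_row v j a ha t
  | zero => exact wdg_zero _ _
  | add x y _ _ hx hy => rw [wdg_add, hx, hy, add_zero]
  | smul r x _ hx => rw [wdg_smul, hx, smul_zero]

theorem map_detT {Q : Type*} [CommRing Q] (f : P →+* Q) (v : ℕ → Fin n → P) (j : ℕ)
    (t : Fin j → Fin n) : f (detT v j t) = detT (fun a i => f (v a i)) j t := by
  rw [detT, detT, RingHom.map_det]
  rfl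

end Vale.Agent.P177.Flag
end

section

/-!
# P177: simultaneous triangularization and the eigenflag over the absolute integral closure
-/

namespace Vale.Agent.P177.Flag

open Module

/-- A commuting family of endomorphisms (given as a ring homomorphism from a commutative ring) of a
nonzero finite dimensional vector space over an algebraically closed field has a common
eigenvector. -/
theorem exists_common_eigenvector {F V R : Type*} [Field F] [IsAlgClosed F] [AddCommGroup V]
    [Module F V] [FiniteDimensional F V] [Nontrivial V] [CommRing R] (ρ : R →+* Module.End F V) :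
    ∃ (v : V) (σ : R →+* F), v ≠ 0 ∧ ∀ r, ρ r v = σ r • v := by
  classical
  -- choose a nonzero invariant subspace of minimal dimension
  have hex : ∃ d : ℕ, ∃ W : Submodule F V, W ≠ ⊥ ∧ (∀ r, ∀ w ∈ W, ρ r w ∈ W) ∧
      finrank F W = d := ⟨_, ⊤, top_ne_bot, fun _ _ _ => Submodule.mem_top, rfl⟩
  obtain ⟨W, hW0, hWinv, hWd⟩ := Nat.find_spec hex
  have hmin : ∀ W' : Submodule F V, W' ≠ ⊥ → (∀ r, ∀ w ∈ W', ρ r w ∈ W') → W' ≤ W → W' = W := by
    intro W' h0 hinv hle
    refine Submodule.eq_of_le_of_finrank_le hle ?_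
    rw [hWd]
    exact Nat.find_min' hex ⟨W', h0, hinv, rfl⟩
  have hsc : ∀ r, ∃ c : F, ∀ w ∈ W, ρ r w = c • w := by
    intro r
    have : Nontrivial W := Submodule.nontrivial_iff_ne_bot.mpr hW0
    obtain ⟨c, hc⟩ := Module.End.exists_eigenvalue ((ρ r).restrict (hWinv r))
    obtain ⟨w, hw⟩ := hc.exists_hasEigenvector
    refine ⟨c, ?_⟩
    have key : W ⊓ LinearMap.ker (ρ r - algebraMap F (Module.End F V) c) = W := by
      refine hmin _ ?_ ?_ inf_le_left
      · rw [Submodule.ne_bot_iff]
        refine ⟨w, ⟨w.2, ?_⟩, fun h => hw.2 (Subtype.ext h)⟩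
        rw [SetLike.mem_coe, LinearMap.mem_ker, LinearMap.sub_apply, sub_eq_zero,
          Module.algebraMap_end_apply]
        have := hw.apply_eq_smul
        exact congrArg Subtype.val this
      · intro s x hx
        refine ⟨hWinv s x hx.1, ?_⟩
        have h1 := hx.2
        rw [SetLike.mem_coe, LinearMap.mem_ker, LinearMap.sub_apply, sub_eq_zero,
          Module.algebraMap_end_apply] at h1 ⊢
        rw [← Module.End.mul_apply, ← map_mul, mul_comm, map_mul, Module.End.mul_apply, h1,
          map_smul]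
    intro x hx
    rw [← key] at hx
    have h1 := hx.2
    rwa [SetLike.mem_coe, LinearMap.mem_ker, LinearMap.sub_apply, sub_eq_zero,
      Module.algebraMap_end_apply] at h1
  choose c hc using hsc
  obtain ⟨v, hv, hv0⟩ := (Submodule.ne_bot_iff W).mp hW0
  have hinj : ∀ a b : F, a • v = b • v → a = b := fun a b h => smul_left_injective F hv0 h
  refine ⟨v, { toFun := c, map_one' := ?_, map_mul' := ?_, map_zero' := ?_, map_add' := ?_ },
    hv0, fun r => hc r v hv⟩
  · refine hinj _ _ ?_
    rw [← hc _ v hv, map_one, one_smul, Module.End.one_apply]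
  · intro r s
    refine hinj _ _ ?_
    rw [← hc _ v hv, map_mul, Module.End.mul_apply, hc _ v hv, map_smul, hc _ v hv, smul_smul,
      mul_comm]
  · refine hinj _ _ ?_
    rw [← hc _ v hv, map_zero, zero_smul, LinearMap.zero_apply]
  · intro r s
    refine hinj _ _ ?_
    rw [← hc _ v hv, map_add, LinearMap.add_apply, hc _ v hv, hc _ v hv, add_smul]

/-- Simultaneous triangularization. -/
theorem exists_tri {F R : Type*} [Field F] [IsAlgClosed F] [CommRing R] (n : ℕ) :
    ∀ {V : Type*} [AddCommGroup V] [Module F V] [FiniteDimensional F V] (ρ : R →+* Module.End F V),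
    finrank F V = n → ∃ (b : Fin n → V) (σ : Fin n → R →+* F), LinearIndependent F b ∧ ∀ j r,
      ρ r (b j) - σ j r • b j ∈ Submodule.span F (b '' Set.Iio j) := by
  induction n with
  | zero =>
    intro V _ _ _ ρ hn
    refine ⟨fun j => j.elim0, fun j => j.elim0, linearIndependent_empty_type, fun j => j.elim0⟩
  | succ n ih =>
    intro V _ _ _ ρ hn
    have : Nontrivial V := Module.nontrivial_of_finrank_pos (R := F) (by omega)
    obtain ⟨v, σ, hv, hσ⟩ := exists_common_eigenvector ρ
    set W := Submodule.span F {v} with hW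
    have hWinv : ∀ r, W ≤ W.comap (ρ r) := by
      intro r
      rw [hW, Submodule.span_singleton_le_iff_mem, Submodule.mem_comap, hσ r]
      exact Submodule.smul_mem _ _ (Submodule.mem_span_singleton_self v)
    let ρ' : R →+* Module.End F (V ⧸ W) :=
      { toFun := fun r => W.mapQ W (ρ r) (hWinv r)
        map_one' := by
          ext x
          simp
        map_mul' := fun r s => by
          ext x
          simp
        map_zero' := by
          ext x
          simp
        map_add' := fun r s => by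
          ext x
          simp }
    have hρ' : ∀ r x, ρ' r (W.mkQ x) = W.mkQ (ρ r x) := fun r x => rfl
    have hq : finrank F (V ⧸ W) = n := by
      have h1 := Submodule.finrank_quotient_add_finrank W
      have h2 : finrank F W = 1 := finrank_span_singleton hv
      omega
    obtain ⟨b', σ', hli, hb'⟩ := ih ρ' hq
    have hsurj : Function.Surjective W.mkQ := W.mkQ_surjective
    choose w hw using fun i => hsurj (b' i)
    have hbw : b' = fun i => W.mkQ (w i) := funext fun i => (hw i).symm
    refine ⟨Fin.cons v w, Fin.cons σ σ', ?_, ?_⟩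
    · rw [Fintype.linearIndependent_iff] at hli ⊢
      intro g hg
      rw [Fin.sum_univ_succ] at hg
      simp only [Fin.cons_zero, Fin.cons_succ] at hg
      have h1 : ∀ i : Fin n, g i.succ = 0 := by
        refine hli (fun i => g i.succ) ?_
        have h2 := congrArg W.mkQ hg
        rw [map_add, map_smul, map_sum, map_zero] at h2
        have h3 : W.mkQ v = 0 := by
          rw [Submodule.mkQ_apply, Submodule.Quotient.mk_eq_zero]
          exact Submodule.mem_span_singleton_self v
        rw [h3, smul_zero, zero_add] at h2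
        rw [← h2]
        exact Finset.sum_congr rfl fun i _ => by rw [map_smul, hw]
      have h0 : g 0 = 0 := by
        rw [Finset.sum_eq_zero (fun i _ => by rw [h1 i, zero_smul]), add_zero] at hg
        exact (smul_eq_zero.mp hg).resolve_right hv
      intro i
      induction i using Fin.cases with
      | zero => exact h0
      | succ i => exact h1 i
    · intro j r
      induction j using Fin.cases with
      | zero =>
        simp only [Fin.cons_zero]
        rw [hσ, sub_self]
        exact Submodule.zero_mem _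
      | succ j =>
        simp only [Fin.cons_succ]
        have h1 := hb' j r
        rw [hbw] at h1
        have h2 : W.mkQ (ρ r (w j) - σ' j r • w j)
            ∈ (Submodule.span F (w '' Set.Iio j)).map W.mkQ := by
          rw [Submodule.map_span, ← Set.image_comp]
          rw [map_sub, map_smul, ← hρ']
          exact h1
        obtain ⟨x, hx, hxe⟩ := h2
        have h3 : ρ r (w j) - σ' j r • w j - x ∈ W := by
          rw [← Submodule.Quotient.mk_eq_zero, ← Submodule.mkQ_apply, map_sub, hxe, sub_self]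
        have h4 : W ≤ Submodule.span F ((Fin.cons v w : Fin (n + 1) → V) '' Set.Iio j.succ) := by
          rw [hW, Submodule.span_singleton_le_iff_mem]
          exact Submodule.subset_span ⟨0, Fin.succ_pos j, rfl⟩
        have h5 : Submodule.span F (w '' Set.Iio j)
            ≤ Submodule.span F ((Fin.cons v w : Fin (n + 1) → V) '' Set.Iio j.succ) := by
          refine Submodule.span_mono ?_
          rintro _ ⟨i, hi, rfl⟩
          exact ⟨i.succ, Fin.succ_lt_succ_iff.mpr hi, by simp⟩
        have := Submodule.add_mem _ (h4 h3) (h5 hx)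
        rwa [sub_add_cancel] at this

section General

variable {P Q : Type*} [CommRing P] [CommRing Q] {n : ℕ}

theorem detT_eq_zero_of_lt (v : ℕ → Fin n → P) {j : ℕ} (hj : n < j) (t : Fin j → Fin n) :
    detT v j t = 0 := by
  obtain ⟨p, q, hpq, h⟩ := Fintype.exists_ne_map_eq_of_card_lt t (by simpa using hj)
  rw [detT]
  refine Matrix.det_zero_of_column_eq hpq fun a => ?_
  simp [h]

theorem wdg_detT_of_le (v : ℕ → Fin n → P) {j : ℕ} (hj : n ≤ j) (w : Fin n → P)
    (t : Fin (j + 1) → Fin n) : wdg (detT v j) w t = 0 := by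
  rw [wdg_detT, detT_eq_zero_of_lt _ (by omega), mul_zero]

/-- If the top coordinate is nonzero then all Plücker tensors are nonzero. -/
theorem exists_detT_ne_zero (v : ℕ → Fin n → P) {N : ℕ} (h : ∃ t, detT v N t ≠ 0) :
    ∀ j ≤ N, ∃ t, detT v j t ≠ 0 := by
  induction N with
  | zero =>
    intro j hj
    obtain rfl : j = 0 := by omega
    exact h
  | succ N ih =>
    intro j hj
    rcases Nat.lt_or_ge N j with h1 | h1
    · obtain rfl : j = N + 1 := by omega
      exact h
    · refine ih ?_ j h1
      by_contra hcon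
      push Not at hcon
      obtain ⟨t, ht⟩ := h
      have h2 := wdg_detT_self v N t
      rw [wdg, Finset.sum_eq_zero] at h2
      · have h3 : (-1 : P) ^ N * ((-1) ^ N * detT v (N + 1) t) = 0 := by rw [← h2, mul_zero]
        rw [← mul_assoc, ← mul_pow, neg_one_mul, neg_neg, one_pow, one_mul] at h3
        exact ht h3
      · intro k _
        rw [hcon]
        simp

end General

section Main

variable {Λ R Ω L : Type*} [CommRing Λ] [CommRing R] [Algebra Λ R] [Field Ω] [Algebra Λ Ω]
  [AddCommGroup L] [Module R L] [Module Λ L] [IsScalarTower Λ R L] {n : ℕ}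

/-- The matrices of the `R`-action on a free `Λ`-module. -/
noncomputable def actMat (b : Basis (Fin n) Λ L) : R →ₐ[Λ] Matrix (Fin n) (Fin n) Λ :=
  (LinearMap.toMatrixAlgEquiv b).toAlgHom.comp (Algebra.lsmul Λ Λ L)

theorem actMat_apply (b : Basis (Fin n) Λ L) (r : R) (i j : Fin n) :
    actMat b r i j = b.repr (r • b j) i := by
  simp [actMat, LinearMap.toMatrixAlgEquiv_apply]

variable (Ω) in
/-- The action of `R` on `Ω^n`. -/
noncomputable def actEnd (b : Basis (Fin n) Λ L) : R →+* Module.End Ω (Fin n → Ω) :=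
  ((Matrix.toLinAlgEquiv' (R := Ω) (n := Fin n)).toAlgHom.toRingHom.comp
    (algebraMap Λ Ω).mapMatrix).comp (actMat (R := R) b).toRingHom

theorem actEnd_apply (b : Basis (Fin n) Λ L) (r : R) (v : Fin n → Ω) (i : Fin n) :
    actEnd Ω b r v i = ∑ l, algebraMap Λ Ω (actMat b r i l) * v l := by
  simp [actEnd, Matrix.toLinAlgEquiv'_apply, Matrix.mulVec, dotProduct]

theorem actEnd_algebraMap (b : Basis (Fin n) Λ L) (a : Λ) (v : Fin n → Ω) :
    actEnd Ω b (algebraMap Λ R a) v = algebraMap Λ Ω a • v := by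
  funext i
  rw [actEnd_apply]
  simp only [AlgHom.commutes, Matrix.algebraMap_matrix_apply, Algebra.algebraMap_self,
    RingHom.id_apply, Pi.smul_apply, smul_eq_mul]
  rw [Finset.sum_eq_single i]
  · simp
  · intro l _ hl
    simp [Ne.symm hl]
  · simp

theorem actEnd_eq_zero (b : Basis (Fin n) Λ L) {r : R} (h : actMat b r = 0) :
    actEnd Ω b r = 0 := by
  ext v i
  simp [actEnd_apply, h]

theorem trace_actEnd (b : Basis (Fin n) Λ L) (r : R) :
    LinearMap.trace Ω (Fin n → Ω) (actEnd Ω b r)
      = algebraMap Λ Ω (LinearMap.trace Λ L (Algebra.lsmul Λ Λ L r)) := by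
  rw [LinearMap.trace_eq_matrix_trace Λ b, AddMonoidHom.map_trace,
    LinearMap.trace_eq_matrix_trace Ω (Pi.basisFun Ω (Fin n))]
  congr 1
  ext i j
  rw [LinearMap.toMatrix_apply, Pi.basisFun_repr, actEnd_apply, Matrix.map_apply,
    LinearMap.toMatrix_apply, Finset.sum_eq_single j]
  · simp [actMat_apply]
  · intro l _ hl
    simp [hl]
  · simp

theorem eq_zero_of_smul_mem_span {V : Type*} [AddCommGroup V] [Module Ω V] {b : Fin n → V}
    (hli : LinearIndependent Ω b) {j : Fin n} {c : Ω}
    (h : c • b j ∈ Submodule.span Ω (b '' Set.Iio j)) : c = 0 := by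
  by_contra hc
  refine hli.notMem_span_image (s := Set.Iio j) (x := j) (by simp) ?_
  have := Submodule.smul_mem _ c⁻¹ h
  rwa [smul_smul, inv_mul_cancel₀ hc, one_smul] at this

/-- A flag of eigenvectors for the action of `R` on `Λ^n`, over `Ω`. -/
structure EigFlag (b : Basis (Fin n) Λ L) (v : ℕ → Fin n → Ω) (σ : Fin n → R →ₐ[Λ] Ω) : Prop where
  integral : ∀ j i, IsIntegral Λ (v j i)
  zero : ∀ j, n ≤ j → v j = 0
  li : LinearIndependent Ω (fun j : Fin n => v j)
  eig : ∀ (j : Fin n) (r : R), actEnd Ω b r (v j) - σ j r • v j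
    ∈ Submodule.span Ω (v '' Set.Iio (j : ℕ))

/-- Existence of the eigenflag. -/
theorem exists_eigFlag [IsDomain Λ] [IsAlgClosed Ω] [FaithfulSMul Λ Ω]
    [Algebra.IsAlgebraic Λ Ω] (b : Basis (Fin n) Λ L) :
    ∃ (v : ℕ → Fin n → Ω) (σ : Fin n → R →ₐ[Λ] Ω), EigFlag b v σ := by
  classical
  obtain ⟨b', σ', hli, hb'⟩ := exists_tri n (actEnd (R := R) Ω b) (by simp)
  obtain ⟨y, hy, hint⟩ := Algebra.IsAlgebraic.exists_integral_multiples Λ
    (Finset.univ.image fun q : Fin n × Fin n => b' q.1 q.2)
  have hy' : algebraMap Λ Ω y ≠ 0 := by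
    rwa [Ne, FaithfulSMul.algebraMap_eq_zero_iff]
  set v : ℕ → Fin n → Ω := fun j => if h : j < n then y • b' ⟨j, h⟩ else 0 with hv
  have hvj : ∀ j : Fin n, v j = algebraMap Λ Ω y • b' j := fun j => by
    rw [hv, algebraMap_smul]; simp [j.2]
  have hspan : ∀ j : Fin n, Submodule.span Ω (b' '' Set.Iio j)
      ≤ Submodule.span Ω (v '' Set.Iio (j : ℕ)) := by
    intro j
    rw [Submodule.span_le]
    rintro _ ⟨i, hi, rfl⟩
    have h1 : b' i = (algebraMap Λ Ω y)⁻¹ • v i := by
      rw [hvj, smul_smul, inv_mul_cancel₀ hy', one_smul]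
    rw [SetLike.mem_coe, h1]
    exact Submodule.smul_mem _ _ (Submodule.subset_span ⟨i, Fin.lt_def.mp hi, rfl⟩)
  refine ⟨v, fun j => { (σ' j) with commutes' := ?_ }, ?_, ?_, ?_, ?_⟩
  · intro a
    have h := hb' j (algebraMap Λ R a)
    rw [actEnd_algebraMap, ← sub_smul] at h
    exact (sub_eq_zero.mp (eq_zero_of_smul_mem_span hli h)).symm
  · intro j i
    by_cases h : j < n
    · have h1 : v j i = y • b' ⟨j, h⟩ i := by rw [hv]; simp [h]
      rw [h1]
      exact hint _ (Finset.mem_image.mpr ⟨(⟨j, h⟩, i), Finset.mem_univ _, rfl⟩)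
    · have h1 : v j i = 0 := by rw [hv]; simp [h]
      rw [h1]
      exact isIntegral_zero
  · intro j hj
    rw [hv]
    simp [Nat.not_lt.mpr hj]
  · have h1 : (fun j : Fin n => v j) = fun j => (Units.mk0 _ hy') • b' j := by
      funext j
      rw [hvj]
      rfl
    rw [h1]
    exact hli.units_smul (fun _ => Units.mk0 _ hy')
  · intro j r
    rw [hvj, map_smul, smul_comm, ← smul_sub]
    exact Submodule.smul_mem _ _ (hspan j (hb' j r))

namespace EigFlag

variable {b : Basis (Fin n) Λ L} {v : ℕ → Fin n → Ω} {σ : Fin n → R →ₐ[Λ] Ω}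

theorem eig' (h : EigFlag b v σ) (j : Fin n) (r : R) :
    actEnd Ω b r (v j) - σ j r • v j
      ∈ Submodule.span Ω ((fun j : Fin n => v j) '' Set.Iio j) := by
  have h1 := h.eig j r
  have h2 : v '' Set.Iio (j : ℕ) = (fun j : Fin n => v j) '' Set.Iio j := by
    ext x
    constructor
    · rintro ⟨i, hi, rfl⟩
      exact ⟨⟨i, lt_trans hi j.2⟩, Fin.lt_def.mpr hi, rfl⟩
    · rintro ⟨i, hi, rfl⟩
      exact ⟨i, Fin.lt_def.mp hi, rfl⟩
  rwa [h2] at h1

/-- If `r` acts as zero on `L` then `σ j r = 0`. -/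
theorem eq_zero_of_act (h : EigFlag b v σ) (j : Fin n) {r : R} (hr : actMat b r = 0) :
    σ j r = 0 := by
  have h1 := h.eig' j r
  rw [actEnd_eq_zero b hr, LinearMap.zero_apply, zero_sub, ← neg_smul] at h1
  exact neg_eq_zero.mp (eq_zero_of_smul_mem_span h.li h1)

theorem eq_zero_of_smul (h : EigFlag b v σ) (j : Fin n) {r : R} (hr : ∀ x : L, r • x = 0) :
    σ j r = 0 := by
  refine h.eq_zero_of_act j ?_
  ext i l
  rw [actMat_apply, hr]
  simp

theorem integral_char (h : EigFlag b v σ) (j : Fin n) (r : R) : IsIntegral Λ (σ j r) := by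
  refine ⟨(actMat b r).charpoly, Matrix.charpoly_monic _, ?_⟩
  have h1 : actMat b (Polynomial.aeval r (actMat b r).charpoly) = 0 := by
    rw [← Polynomial.aeval_algHom_apply, Matrix.aeval_self_charpoly]
  have h2 := h.eq_zero_of_act j h1
  rwa [← Polynomial.aeval_algHom_apply] at h2

theorem trace_eq (h : EigFlag b v σ) (r : R) :
    algebraMap Λ Ω (LinearMap.trace Λ L (Algebra.lsmul Λ Λ L r)) = ∑ j, σ j r := by
  rw [← trace_actEnd (Ω := Ω) b r]
  rcases Nat.eq_zero_or_pos n with rfl | hn
  · rw [LinearMap.trace_eq_matrix_trace Ω (Pi.basisFun Ω (Fin 0))]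
    simp
  have : Nonempty (Fin n) := ⟨⟨0, hn⟩⟩
  set B := basisOfLinearIndependentOfCardEqFinrank h.li (by simp) with hB
  have hBj : ∀ j : Fin n, B j = v j := fun j => by
    rw [hB, coe_basisOfLinearIndependentOfCardEqFinrank]
  have hBf : (⇑B : Fin n → _) = fun j : Fin n => v j := funext hBj
  rw [LinearMap.trace_eq_matrix_trace Ω B, Matrix.trace]
  refine Finset.sum_congr rfl fun j _ => ?_
  rw [Matrix.diag_apply, LinearMap.toMatrix_apply]
  have h1 := h.eig' j r
  rw [← hBf, Basis.mem_span_image] at h1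
  have h2 : B.repr (actEnd Ω b r (v j) - σ j r • v j) j = 0 := by
    by_contra hne
    have := h1 (Finsupp.mem_support_iff.mpr hne)
    simp at this
  rw [map_sub, map_smul, ← hBj, Basis.repr_self] at h2
  simpa [sub_eq_zero] using h2

theorem detT_ne_zero (h : EigFlag b v σ) : detT v n id ≠ 0 := by
  have h1 : LinearIndependent Ω (Matrix.of fun a b : Fin n => v a b).row := h.li
  have h2 := Matrix.linearIndependent_rows_iff_isUnit.mp h1
  rw [Matrix.isUnit_iff_isUnit_det] at h2
  exact h2.ne_zero

theorem exists_detT_ne_zero (h : EigFlag b v σ) (j : ℕ) (hj : j ≤ n) : ∃ t, detT v j t ≠ 0 :=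
  Flag.exists_detT_ne_zero v ⟨id, h.detT_ne_zero⟩ j hj

theorem eigRel (h : EigFlag b v σ) (r : R) :
    EigRel (detT v) ((actMat b r).map (algebraMap Λ Ω))
      (fun j => if hj : j < n then σ ⟨j, hj⟩ r else 0) := by
  refine eigRel_detT v _ _ fun j a haj t => ?_
  by_cases hj : j < n
  · have haj' : a < n := by omega
    have h1 := h.eig ⟨a, haj'⟩ r
    simp only at h1
    refine wdg_detT_of_mem_span v j ?_ t
    have h2 : (fun i => (∑ l, ((actMat b r).map (algebraMap Λ Ω)) i l * v a l)
        - (if hj : j < n then σ ⟨j, hj⟩ r else 0) * v a i)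
        = (actEnd Ω b r (v a) - σ ⟨a, haj'⟩ r • v a)
          + (σ ⟨a, haj'⟩ r - σ ⟨j, hj⟩ r) • v a := by
      funext i
      rw [Pi.add_apply, Pi.sub_apply, actEnd_apply]
      simp only [Matrix.map_apply, hj, dif_pos, Pi.smul_apply, smul_eq_mul]
      ring
    rw [h2]
    refine Submodule.add_mem _ (Submodule.span_mono (Set.image_mono ?_) h1) ?_
    · exact Set.Iio_subset_Iio haj
    · rcases Nat.lt_or_ge a j with h3 | h3
      · exact Submodule.smul_mem _ _ (Submodule.subset_span ⟨a, h3, rfl⟩)
      · obtain rfl : a = j := by omega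
        rw [sub_self, zero_smul]
        exact Submodule.zero_mem _
  · exact wdg_detT_of_le v (by omega) _ t

/-- The eigenvectors and the eigenvalues lie in every subalgebra containing a certain finite set of
integral elements. -/
theorem exists_finset (h : EigFlag b v σ) (I : Ideal R) [Module.Finite Λ (R ⧸ I)]
    (hI : ∀ r ∈ I, ∀ x : L, r • x = 0) :
    ∃ S : Finset Ω, (∀ x ∈ S, IsIntegral Λ x) ∧ ∀ B : Subalgebra Λ Ω, (S : Set Ω) ⊆ B →
      (∀ j i, v j i ∈ B) ∧ (∀ j r, σ j r ∈ B) := by
  classical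
  obtain ⟨G, hG⟩ := (Module.finite_def (R := Λ) (M := R ⧸ I)).mp inferInstance
  have hsurj : Function.Surjective (Ideal.Quotient.mk I) := Ideal.Quotient.mk_surjective
  choose g hg using fun x : R ⧸ I => hsurj x
  refine ⟨(Finset.univ.image fun q : Fin n × Fin n => v q.1 q.2) ∪
    (Finset.univ ×ˢ G).image (fun q : Fin n × (R ⧸ I) => σ q.1 (g q.2)), ?_, ?_⟩
  · intro x hx
    rw [Finset.mem_union, Finset.mem_image, Finset.mem_image] at hx
    rcases hx with ⟨q, _, rfl⟩ | ⟨q, _, rfl⟩
    · exact h.integral _ _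
    · exact h.integral_char _ _
  · intro B hB
    constructor
    · intro j i
      by_cases hj : j < n
      · refine hB (Finset.mem_coe.mpr (Finset.mem_union_left _ ?_))
        exact Finset.mem_image.mpr ⟨(⟨j, hj⟩, i), Finset.mem_univ _, rfl⟩
      · rw [h.zero j (by omega)]
        exact B.zero_mem
    · intro j r
      have hr : (Ideal.Quotient.mk I r) ∈ Submodule.span Λ (G : Set (R ⧸ I)) := by
        rw [hG]
        exact Submodule.mem_top
      have key : ∀ y ∈ Submodule.span Λ (G : Set (R ⧸ I)), ∀ r : R, Ideal.Quotient.mk I r = y →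
          σ j r ∈ B := by
        intro y hy
        induction hy using Submodule.span_induction with
        | mem x hx =>
          intro r hr
          have h1 : σ j (r - g x) = 0 := by
            refine h.eq_zero_of_smul j (hI _ ?_)
            rw [← Ideal.Quotient.eq_zero_iff_mem, map_sub, hr, hg, sub_self]
          rw [map_sub, sub_eq_zero] at h1
          rw [h1]
          refine hB (Finset.mem_coe.mpr (Finset.mem_union_right _ ?_))
          exact Finset.mem_image.mpr
            ⟨(j, x), Finset.mem_product.mpr ⟨Finset.mem_univ _, hx⟩, rfl⟩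
        | zero =>
          intro r hr
          rw [h.eq_zero_of_smul j (hI _ (Ideal.Quotient.eq_zero_iff_mem.mp hr))]
          exact B.zero_mem
        | add x y _ _ hx hy =>
          intro r hr
          have h1 := hx (g x) (hg x)
          have h2 := hy (r - g x) (by rw [map_sub, hr, hg]; abel)
          have h3 := B.add_mem h1 h2
          rwa [← map_add, add_sub_cancel] at h3
        | smul a x _ hx =>
          intro r hr
          have h1 := hx (g x) (hg x)
          have h2 : σ j (r - algebraMap Λ R a * g x) = 0 := by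
            refine h.eq_zero_of_smul j (hI _ ?_)
            rw [← Ideal.Quotient.eq_zero_iff_mem, map_sub, map_mul, hr, hg, Algebra.smul_def,
              sub_eq_zero]
            rfl
          rw [map_sub, sub_eq_zero, map_mul, AlgHom.commutes] at h2
          rw [h2]
          exact B.mul_mem (B.algebraMap_mem a) h1
      exact key _ hr r rfl

/-- The eigenvectors inside a subalgebra. -/
def vec (B : Subalgebra Λ Ω) (hv : ∀ j i, v j i ∈ B) : ℕ → Fin n → B := fun j i => ⟨v j i, hv j i⟩

theorem coe_detT_vec (B : Subalgebra Λ Ω) (hv : ∀ j i, v j i ∈ B) (j : ℕ) (t : Fin j → Fin n) :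
    ((detT (vec B hv) j t : B) : Ω) = detT v j t :=
  map_detT B.val.toRingHom (vec B hv) j t

end EigFlag

end Main

end Vale.Agent.P177.Flag
end

section

/-!
P202-CHARP, definitions: base change to `A'` followed by restriction of scalars to `A`, and the
Frobenius copy of a ring.
-/

namespace Vale.Agent.P202.CharP

open Submodule TensorProduct IsLocalRing

section

variable {B : Type*} [CommRing B] {Λ : Type*} [AddCommGroup Λ] [Module B Λ]

end

/-- the ring `A`, to be seen as an `A`-algebra through the `e`-th power of the Frobenius. -/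
def Fr (p : ℕ) (A : Type*) (e : ℕ) : Type _ := (fun _ _ => A) p e

section

variable (p : ℕ) [Fact p.Prime] (A : Type*) [CommRing A] (e : ℕ)

instance : CommRing (Fr p A e) := inferInstanceAs (CommRing A)

instance [IsLocalRing A] : IsLocalRing (Fr p A e) := inferInstanceAs (IsLocalRing A)

instance [IsNoetherianRing A] : IsNoetherianRing (Fr p A e) :=
  inferInstanceAs (IsNoetherianRing A)

instance [CharP A p] : Algebra A (Fr p A e) := (iterateFrobenius A p e).toAlgebra

/-- the identity `A ≃ Fr p A e`. -/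
def toFr : A ≃+* Fr p A e := RingEquiv.refl A

end

lemma algebraMap_Fr (p : ℕ) [Fact p.Prime] (A : Type*) [CommRing A] [CharP A p] (e : ℕ) (a : A) :
    algebraMap A (Fr p A e) a = toFr p A e (a ^ p ^ e) := rfl

end Vale.Agent.P202.CharP
end

section

/-!
P202-AK, definitions: relative Frobenius, restriction of scalars along a ring homomorphism,
coefficientwise Frobenius on power series.
-/

namespace Vale.Agent.P202.CharP.ArbK

open IsLocalRing TensorProduct

universe u

section

variable {A R : Type*} [CommRing A] [CommRing R] (ρ : A →+* R)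

end

/-- `A` is an unramified flat extension of `R` through which the `p^e`-th power Frobenius of `R`
factors: `R → A → R` and `A → R → A` are the Frobenius maps, `A → R` is finite and surjective on
residue fields. -/
structure RelFrob (p e : ℕ) (R A : Type*) [CommRing R] [IsLocalRing R] [CommRing A]
    [IsLocalRing A] [Algebra R A] (ρ : A →+* R) : Prop where
  flat : Module.Flat R A
  max : maximalIdeal A = (maximalIdeal R).map (algebraMap R A)
  rf : ∀ r : R, ρ (algebraMap R A r) = r ^ p ^ e
  fr : ∀ a : A, algebraMap R A (ρ a) = a ^ p ^ e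
  fin : ρ.Finite
  res : ∀ r : R, ∃ a : A, r - ρ a ∈ maximalIdeal R

section

variable (p : ℕ) [Fact p.Prime] (n : ℕ) (k : Type*) [Field k] [CharP k p] (e : ℕ)

end

end Vale.Agent.P202.CharP.ArbK
end

section

/-!
P177, perfect ideals: `J ⊆ C` (perfect of characteristic `p`) closed under
`a^(i/p) b^((p-i)/p)` lifts to the ideal `WI J` of `W(C)`, the `p`-adic closure of the ideal
generated by the Teichmueller elements `[c]`, `c ∈ J`; `W(C) / WI J` has no `p`-torsion and
`WI J` reduces to `J`.
-/

namespace Vale.Agent.P177.PI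

open WittVector

universe u

section

variable (p : ℕ) [hp : Fact p.Prime] {C : Type u} [CommRing C]

/-- perfect ideals: closed under `a^(i/p) b^((p-i)/p)`. -/
def IsPerf (J : Ideal C) : Prop :=
  ∀ a ∈ J, ∀ b ∈ J, ∀ i ≤ p, ∀ c : C, c ^ p = a ^ i * b ^ (p - i) → c ∈ J

/-- the ideal generated by the Teichmueller elements of `J`. -/
noncomputable def TI (J : Ideal C) : Ideal (WittVector p C) :=
  Ideal.span ((fun c => teichmuller p c) '' (J : Set C))

/-- `TI J + p ^ N W(C)`. -/
noncomputable def TN (J : Ideal C) (N : ℕ) : Ideal (WittVector p C) :=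
  TI p J ⊔ Ideal.span {(p : WittVector p C) ^ N}

/-- the lift of `J`: the `p`-adic closure of `TI J`. -/
noncomputable def WI (J : Ideal C) : Ideal (WittVector p C) := ⨅ N, TN p J N

theorem mem_WI {J : Ideal C} {x : WittVector p C} : x ∈ WI p J ↔ ∀ N, x ∈ TN p J N := by
  unfold WI
  exact Submodule.mem_iInf _

theorem te_mem_TI {J : Ideal C} {c : C} (hc : c ∈ J) : teichmuller p c ∈ TI p J :=
  Ideal.subset_span ⟨c, hc, rfl⟩

theorem TI_le_TN (J : Ideal C) (N : ℕ) : TI p J ≤ TN p J N := le_sup_left

theorem TI_le_WI (J : Ideal C) : TI p J ≤ WI p J := le_iInf fun N => TI_le_TN p J N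

theorem te_mem_WI {J : Ideal C} {c : C} (hc : c ∈ J) : teichmuller p c ∈ WI p J :=
  TI_le_WI p J (te_mem_TI p hc)

theorem p_pow_mem_TN (J : Ideal C) (N : ℕ) (x : WittVector p C) :
    (p : WittVector p C) ^ N * x ∈ TN p J N :=
  Ideal.mul_mem_right _ _ ((le_sup_right : _ ≤ TN p J N) (Ideal.mem_span_singleton_self _))

theorem mem_TN_iff {J : Ideal C} {N : ℕ} {x : WittVector p C} :
    x ∈ TN p J N ↔ ∃ y ∈ TI p J, ∃ z, x = y + (p : WittVector p C) ^ N * z := by
  unfold TN
  rw [Submodule.mem_sup]
  constructor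
  · rintro ⟨y, hy, w, hw, rfl⟩
    rw [Ideal.mem_span_singleton'] at hw
    obtain ⟨z, rfl⟩ := hw
    exact ⟨y, hy, z, by rw [mul_comm]⟩
  · rintro ⟨y, hy, z, rfl⟩
    exact ⟨y, hy, _, Ideal.mul_mem_right _ _ (Ideal.mem_span_singleton_self _), rfl⟩

theorem WI_mono {J J' : Ideal C} (h : J ≤ J') : WI p J ≤ WI p J' := by
  have h1 : TI p J ≤ TI p J' := Ideal.span_mono (Set.image_mono h)
  exact iInf_mono fun N => sup_le_sup_right h1 _

end

section

variable (p : ℕ) [hp : Fact p.Prime] {C : Type u} [CommRing C] [CharP C p] [PerfectRing C p]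

/-- the `p ^ e`-th root. -/
noncomputable def rt (e : ℕ) (c : C) : C := (iterateFrobeniusEquiv C p e).symm c

theorem rt_pow (e : ℕ) (c : C) : rt p e c ^ p ^ e = c := by
  rw [rt, ← iterateFrobenius_def, ← coe_iterateFrobeniusEquiv]
  exact RingEquiv.apply_symm_apply _ _

theorem pow_inj {a b : C} (h : a ^ p = b ^ p) : a = b := by
  apply (_root_.frobeniusEquiv C p).injective
  rw [_root_.frobeniusEquiv_apply, _root_.frobeniusEquiv_apply, frobenius_def, frobenius_def, h]

theorem rt_succ_pow (e : ℕ) (c : C) : rt p (e + 1) c ^ p = rt p e c := by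
  have h : (rt p (e + 1) c ^ p) ^ p ^ e = rt p e c ^ p ^ e := by
    rw [rt_pow, ← pow_mul, ← pow_succ', rt_pow]
  apply (iterateFrobeniusEquiv C p e).injective
  rw [coe_iterateFrobeniusEquiv, iterateFrobenius_def, iterateFrobenius_def, h]

variable {p} in
/-- iterated geometric means. -/
theorem IsPerf.mean {J : Ideal C} (hJ : IsPerf p J) {a b : C} (ha : a ∈ J) (hb : b ∈ J)
    (n j : ℕ) (hj : j ≤ p ^ n) : rt p n a ^ j * rt p n b ^ (p ^ n - j) ∈ J := by
  induction n generalizing j with
  | zero =>
    rw [pow_zero] at hj ⊢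
    have h0 : ∀ c : C, rt p 0 c = c := fun c => by
      have := rt_pow p 0 c
      rwa [pow_zero, pow_one] at this
    rw [h0, h0]
    interval_cases j
    · simpa using hb
    · simpa using ha
  | succ n ih =>
    have hp0 : 0 < p := hp.out.pos
    obtain ⟨q, r, hr, rfl⟩ : ∃ q r, r < p ∧ j = p * q + r :=
      ⟨j / p, j % p, Nat.mod_lt _ hp0, (Nat.div_add_mod j p).symm⟩
    rcases Nat.eq_zero_or_pos r with rfl | hr0
    · have hq : q ≤ p ^ n := by
        rw [add_zero, pow_succ'] at hj
        exact Nat.le_of_mul_le_mul_left hj hp0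
      have h1 := ih q hq
      have h2 : rt p (n + 1) a ^ (p * q + 0) * rt p (n + 1) b ^ (p ^ (n + 1) - (p * q + 0)) =
          rt p n a ^ q * rt p n b ^ (p ^ n - q) := by
        rw [add_zero, pow_mul, rt_succ_pow, pow_succ', ← Nat.mul_sub, pow_mul, rt_succ_pow]
      rw [h2]
      exact h1
    · have hq : q < p ^ n := by
        by_contra hcon
        push Not at hcon
        have : p ^ (n + 1) ≤ p * q := by
          rw [pow_succ']
          exact Nat.mul_le_mul_left p hcon
        omega
      have hu := ih q hq.le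
      have hv := ih (q + 1) hq
      refine hJ _ hv _ hu r hr.le _ ?_
      obtain ⟨m, hm⟩ : ∃ m, p ^ n = q + 1 + m := ⟨p ^ n - (q + 1), by omega⟩
      obtain ⟨s, hs⟩ : ∃ s, p = r + s := ⟨p - r, by omega⟩
      have e1 : p ^ n - q = m + 1 := by omega
      have e2 : p ^ n - (q + 1) = m := by omega
      have e3 : p - r = s := by omega
      have e4 : p ^ (n + 1) - (p * q + r) = p * m + s := by
        rw [pow_succ', hm]
        have : p * (q + 1 + m) = p * q + p + p * m := by ring
        omega
      rw [e1, e2, e3, e4, mul_pow, ← pow_mul, ← pow_mul, mul_comm (p * q + r) p,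
        mul_comm (p * m + s) p, pow_mul, pow_mul, rt_succ_pow, rt_succ_pow]
      rw [mul_pow, mul_pow, ← pow_mul, ← pow_mul, ← pow_mul, ← pow_mul]
      have h5 : (p * q + r) = (q + 1) * r + q * s := by
        have : p * q = (r + s) * q := by rw [← hs]
        rw [this]; ring
      have h6 : p * m + s = m * r + (m + 1) * s := by
        have : p * m = (r + s) * m := by rw [← hs]
        rw [this]; ring
      rw [h5, h6]
      ring

/-- Lemma A: the carry of `[a] + [b]` lies in `WI J`. -/
theorem exists_carry {J : Ideal C} (hJ : IsPerf p J) {a b : C} (ha : a ∈ J) (hb : b ∈ J) :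
    ∃ c ∈ WI p J, teichmuller p a + teichmuller p b =
      teichmuller p (a + b) + (p : WittVector p C) * c := by
  have hp0 : 0 < p := hp.out.pos
  -- existence of `c`
  obtain ⟨c, hc⟩ : ∃ c : WittVector p C, teichmuller p a + teichmuller p b -
      teichmuller p (a + b) = (p : WittVector p C) * c := by
    have h1 : (teichmuller p a + teichmuller p b - teichmuller p (a + b)).coeff 0 = 0 := by
      have h2 : WittVector.constantCoeff
          (teichmuller p a + teichmuller p b - teichmuller p (a + b)) = 0 := by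
        rw [map_sub, map_add]
        change (teichmuller p a).coeff 0 + (teichmuller p b).coeff 0 -
          (teichmuller p (a + b)).coeff 0 = 0
        rw [teichmuller_coeff_zero, teichmuller_coeff_zero, teichmuller_coeff_zero, sub_self]
      exact h2
    rw [← WittVector.mem_span_p_iff_coeff_zero_eq_zero, Ideal.mem_span_singleton'] at h1
    obtain ⟨y, hy⟩ := h1
    exact ⟨y, by rw [← hy, mul_comm]⟩
  refine ⟨c, (mem_WI p).2 fun n => ?_, by rw [← hc]; ring⟩
  set α := rt p n a with hα
  set β := rt p n b with hβ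
  -- `([α] + [β]) ^ (p ^ n) ≡ [a + b] mod p ^ (n + 1)`
  have h3 : (p : WittVector p C) ∣ (teichmuller p α + teichmuller p β) -
      teichmuller p (α + β) := by
    have h1 : (teichmuller p α + teichmuller p β - teichmuller p (α + β)).coeff 0 = 0 := by
      have h2 : WittVector.constantCoeff
          (teichmuller p α + teichmuller p β - teichmuller p (α + β)) = 0 := by
        rw [map_sub, map_add]
        change (teichmuller p α).coeff 0 + (teichmuller p β).coeff 0 -
          (teichmuller p (α + β)).coeff 0 = 0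
        rw [teichmuller_coeff_zero, teichmuller_coeff_zero, teichmuller_coeff_zero, sub_self]
      exact h2
    rw [← WittVector.mem_span_p_iff_coeff_zero_eq_zero, Ideal.mem_span_singleton] at h1
    exact h1
  have h4 := dvd_sub_pow_of_dvd_sub h3 n
  rw [← map_pow (teichmuller p), show (α + β) ^ p ^ n = a + b by
    rw [add_pow_char_pow, hα, hβ, rt_pow, rt_pow]] at h4
  obtain ⟨w, hw⟩ := h4
  -- the binomial expansion
  rcases Nat.eq_zero_or_pos n with hn | hn
  · subst hn
    unfold TN
    rw [pow_zero, Ideal.span_singleton_one, sup_top_eq]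
    trivial
  obtain ⟨M, hM⟩ : ∃ M, p ^ n = M + 1 :=
    ⟨p ^ n - 1, by have := Nat.one_le_pow n p hp0; omega⟩
  have h5 : ∀ i ∈ Finset.range M, ∃ s ∈ TI p J, teichmuller p α ^ (i + 1) *
      teichmuller p β ^ (p ^ n - (i + 1)) * ((p ^ n).choose (i + 1) : WittVector p C) =
        (p : WittVector p C) * s := by
    intro i hi
    rw [Finset.mem_range] at hi
    obtain ⟨k, hk⟩ := hp.out.dvd_choose_pow (n := n) (k := i + 1) (by omega) (by omega)
    refine ⟨teichmuller p (α ^ (i + 1) * β ^ (p ^ n - (i + 1))) * (k : WittVector p C), ?_, ?_⟩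
    · exact Ideal.mul_mem_right _ _ (te_mem_TI p (hJ.mean ha hb n (i + 1) (by omega)))
    · rw [hk, map_mul, map_pow, map_pow]
      push_cast
      ring
  obtain ⟨S, hS, hSe⟩ : ∃ S ∈ TI p J, ∑ i ∈ Finset.range M, teichmuller p α ^ (i + 1) *
      teichmuller p β ^ (p ^ n - (i + 1)) * ((p ^ n).choose (i + 1) : WittVector p C) =
        (p : WittVector p C) * S := by
    choose! s hs hs' using h5
    refine ⟨∑ i ∈ Finset.range M, s i, Ideal.sum_mem _ hs, ?_⟩
    rw [Finset.mul_sum]
    exact Finset.sum_congr rfl hs'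
  have h6 : (teichmuller p α + teichmuller p β) ^ p ^ n = (p : WittVector p C) * S +
      teichmuller p b + teichmuller p a := by
    have h7 : teichmuller p α ^ p ^ n = teichmuller p a := by rw [← map_pow, hα, rt_pow]
    have h8 : teichmuller p β ^ p ^ n = teichmuller p b := by rw [← map_pow, hβ, rt_pow]
    rw [add_pow]
    have h9 : p ^ n + 1 = (M + 1) + 1 := by rw [hM]
    rw [h9, Finset.sum_range_succ, Finset.sum_range_succ', hSe, ← hM, h7]
    simp only [pow_zero, Nat.sub_zero, Nat.choose_zero_right, Nat.choose_self, Nat.cast_one,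
      mul_one, one_mul, h8, Nat.sub_self]
  rw [h6] at hw
  have h7 : (p : WittVector p C) * c = (p : WittVector p C) * (-S + p ^ n * w) := by
    rw [← hc]
    have h10 : (p : WittVector p C) ^ (n + 1) = p * p ^ n := pow_succ' _ _
    rw [h10] at hw
    linear_combination hw
  have h8 : c = -S + p ^ n * w := by
    have h9 : (c - (-S + p ^ n * w)) * (p : WittVector p C) = 0 := by
      linear_combination h7
    exact sub_eq_zero.1 (WittVector.eq_zero_of_p_mul_eq_zero _ h9)
  rw [h8, mem_TN_iff]
  exact ⟨-S, neg_mem hS, w, rfl⟩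

/-- the structure of `TI J`. -/
theorem exists_of_mem_TI {J : Ideal C} (hJ : IsPerf p J) {x : WittVector p C} (hx : x ∈ TI p J) :
    x.coeff 0 ∈ J ∧ ∃ y ∈ WI p J, x = teichmuller p (x.coeff 0) + (p : WittVector p C) * y := by
  refine Submodule.span_induction (p := fun x _ => x.coeff 0 ∈ J ∧ ∃ y ∈ WI p J,
    x = teichmuller p (x.coeff 0) + (p : WittVector p C) * y) ?_ ?_ ?_ ?_ hx
  · rintro _ ⟨c, hc, rfl⟩
    have h0 : (teichmuller p c).coeff 0 = c := teichmuller_coeff_zero p c
    simp only [h0]
    exact ⟨hc, 0, zero_mem _, by rw [mul_zero, add_zero]⟩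
  · have h0 : (0 : WittVector p C).coeff 0 = 0 := WittVector.zero_coeff p C 0
    rw [h0, WittVector.teichmuller_zero]
    exact ⟨zero_mem _, 0, zero_mem _, by rw [mul_zero, add_zero]⟩
  · rintro x y - - ⟨hx0, x', hx', hxe⟩ ⟨hy0, y', hy', hye⟩
    have h0 : (x + y).coeff 0 = x.coeff 0 + y.coeff 0 :=
      map_add (WittVector.constantCoeff (p := p) (R := C)) x y
    rw [h0]
    obtain ⟨c, hc, hce⟩ := exists_carry p hJ hx0 hy0
    refine ⟨add_mem hx0 hy0, c + x' + y', add_mem (add_mem hc hx') hy', ?_⟩
    generalize x.coeff 0 = a at *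
    generalize y.coeff 0 = b at *
    rw [hxe, hye]
    linear_combination hce
  · rintro w x - ⟨hx0, x', hx', hxe⟩
    rw [smul_eq_mul]
    have h0 : (w * x).coeff 0 = w.coeff 0 * x.coeff 0 :=
      map_mul (WittVector.constantCoeff (p := p) (R := C)) w x
    obtain ⟨w', hw'⟩ : ∃ w', w = teichmuller p (w.coeff 0) + (p : WittVector p C) * w' := by
      have h1 : (w - teichmuller p (w.coeff 0)).coeff 0 = 0 := by
        have h2 : WittVector.constantCoeff (w - teichmuller p (w.coeff 0)) = 0 := by
          rw [map_sub]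
          change w.coeff 0 - (teichmuller p (w.coeff 0)).coeff 0 = 0
          rw [teichmuller_coeff_zero, sub_self]
        exact h2
      rw [← WittVector.mem_span_p_iff_coeff_zero_eq_zero, Ideal.mem_span_singleton'] at h1
      obtain ⟨y, hy⟩ := h1
      exact ⟨y, by linear_combination -hy⟩
    rw [h0]
    refine ⟨Ideal.mul_mem_left _ _ hx0, teichmuller p (w.coeff 0) * x' +
      w' * (teichmuller p (x.coeff 0) + p * x'), ?_, ?_⟩
    · exact add_mem (Ideal.mul_mem_left _ _ hx') (Ideal.mul_mem_left _ _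
        (add_mem (te_mem_WI p hx0) (Ideal.mul_mem_left _ _ hx')))
    · rw [map_mul]
      generalize x.coeff 0 = a at *
      generalize w.coeff 0 = b at *
      rw [hxe, hw']
      ring

theorem exists_of_mem_WI {J : Ideal C} (hJ : IsPerf p J) {x : WittVector p C} (hx : x ∈ WI p J) :
    x.coeff 0 ∈ J ∧ ∃ y ∈ WI p J, x = teichmuller p (x.coeff 0) + (p : WittVector p C) * y := by
  -- the element `y`
  obtain ⟨y, hy⟩ : ∃ y, x = teichmuller p (x.coeff 0) + (p : WittVector p C) * y := by
    have h1 : (x - teichmuller p (x.coeff 0)).coeff 0 = 0 := by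
      have h2 : WittVector.constantCoeff (x - teichmuller p (x.coeff 0)) = 0 := by
        rw [map_sub]
        change x.coeff 0 - (teichmuller p (x.coeff 0)).coeff 0 = 0
        rw [teichmuller_coeff_zero, sub_self]
      exact h2
    rw [← WittVector.mem_span_p_iff_coeff_zero_eq_zero, Ideal.mem_span_singleton'] at h1
    obtain ⟨y, hy⟩ := h1
    exact ⟨y, by linear_combination -hy⟩
  have key : ∀ N, x.coeff 0 ∈ J ∧ y ∈ TN p J N := by
    intro N
    obtain ⟨z, hz, w, hw⟩ := (mem_TN_iff p).1 ((mem_WI p).1 hx (N + 1))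
    obtain ⟨hz0, z', hz', hze⟩ := exists_of_mem_TI p hJ hz
    have h0 : x.coeff 0 = z.coeff 0 := by
      have h1 : WittVector.constantCoeff x = WittVector.constantCoeff z := by
        rw [hw, map_add, map_mul, map_pow, map_natCast, CharP.cast_eq_zero, zero_pow (by omega),
          zero_mul, add_zero]
      exact h1
    refine ⟨h0 ▸ hz0, ?_⟩
    have h2 : y = z' + p ^ N * w := by
      have h3 : (y - (z' + p ^ N * w)) * (p : WittVector p C) = 0 := by
        rw [h0] at hy
        generalize z.coeff 0 = a at *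
        have h4 : (p : WittVector p C) ^ (N + 1) = p * p ^ N := pow_succ' _ _
        rw [h4] at hw
        linear_combination -hy + hw + hze
      exact sub_eq_zero.1 (WittVector.eq_zero_of_p_mul_eq_zero _ h3)
    rw [h2]
    exact add_mem ((mem_WI p).1 hz' N) (p_pow_mem_TN p J N w)
  exact ⟨(key 0).1, y, (mem_WI p).2 fun N => (key N).2, hy⟩

/-- the reduction of `WI J` is `J`. -/
theorem coeff_zero_mem {J : Ideal C} (hJ : IsPerf p J) {x : WittVector p C} (hx : x ∈ WI p J) :
    x.coeff 0 ∈ J := (exists_of_mem_WI p hJ hx).1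

/-- `W(C) / WI J` has no `p`-torsion. -/
theorem mem_of_p_mul_mem {J : Ideal C} (hJ : IsPerf p J) {x : WittVector p C}
    (hx : (p : WittVector p C) * x ∈ WI p J) : x ∈ WI p J := by
  obtain ⟨-, y, hy, he⟩ := exists_of_mem_WI p hJ hx
  have h0 : ((p : WittVector p C) * x).coeff 0 = 0 := by
    have h1 : WittVector.constantCoeff ((p : WittVector p C) * x) = 0 := by
      rw [map_mul, map_natCast, CharP.cast_eq_zero, zero_mul]
    exact h1
  rw [h0, WittVector.teichmuller_zero, zero_add] at he
  have h2 : x = y := by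
    have h3 : (x - y) * (p : WittVector p C) = 0 := by linear_combination he
    exact sub_eq_zero.1 (WittVector.eq_zero_of_p_mul_eq_zero _ h3)
  rw [h2]
  exact hy

theorem mem_of_p_pow_mul_mem {J : Ideal C} (hJ : IsPerf p J) (n : ℕ) {x : WittVector p C}
    (hx : (p : WittVector p C) ^ n * x ∈ WI p J) : x ∈ WI p J := by
  induction n with
  | zero => rwa [pow_zero, one_mul] at hx
  | succ n ih =>
    apply ih
    apply mem_of_p_mul_mem p hJ
    have : (p : WittVector p C) ^ (n + 1) * x = p * (p ^ n * x) := by ring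
    rwa [this] at hx

/-- an element of `WI J` with vanishing reduction is `p` times an element of `WI J`. -/
theorem exists_p_mul_of_coeff_zero {J : Ideal C} (hJ : IsPerf p J) {x : WittVector p C}
    (hx : x ∈ WI p J) (h0 : x.coeff 0 = 0) : ∃ y ∈ WI p J, x = (p : WittVector p C) * y := by
  obtain ⟨-, y, hy, he⟩ := exists_of_mem_WI p hJ hx
  exact ⟨y, hy, by rw [he, h0, WittVector.teichmuller_zero, zero_add]⟩

end

end Vale.Agent.P177.PI
end

section

/-!
# Witt vector lemmas (P202, mixed characteristic): coefficients of `[a] * x` and the key lemma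
-/

namespace P202.Mix

open WittVector

variable {p : ℕ} [hp : Fact (Nat.Prime p)]


theorem tmul_aux1 {R : Type*} (a : MvPolynomial R ℚ) (x : WittVector p (MvPolynomial R ℚ)) :
    teichmuller p a * x = WittVector.mk p (fun n => a ^ p ^ n * x.coeff n) := by
  apply (ghostMap.bijective_of_invertible p (MvPolynomial R ℚ)).1
  rw [map_mul]
  ext1 n
  simp only [Pi.mul_apply, ghostMap_apply, ghostComponent_teichmuller]
  simp only [ghostComponent_apply, aeval_wittPolynomial, Finset.mul_sum]
  refine Finset.sum_congr rfl fun i hi => ?_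
  have hin : i ≤ n := Nat.lt_succ_iff.1 (Finset.mem_range.1 hi)
  simp only [coeff_mk, mul_pow, ← pow_mul]
  rw [← pow_add p i (n - i), Nat.add_sub_cancel' hin]
  ring

theorem tmul_aux2 {R : Type*} (a : MvPolynomial R ℤ) (x : WittVector p (MvPolynomial R ℤ)) :
    teichmuller p a * x = WittVector.mk p (fun n => a ^ p ^ n * x.coeff n) := by
  refine map_injective (MvPolynomial.map (Int.castRingHom ℚ))
    (MvPolynomial.map_injective _ Int.cast_injective) ?_
  rw [map_mul, map_teichmuller, tmul_aux1]
  ext n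
  simp [map_coeff]

theorem teichmuller_mul {R : Type*} [CommRing R] (a : R) (x : WittVector p R) :
    teichmuller p a * x = WittVector.mk p (fun n => a ^ p ^ n * x.coeff n) := by
  obtain ⟨a', rfl⟩ := MvPolynomial.counit_surjective R a
  obtain ⟨x', rfl⟩ := map_surjective _ (MvPolynomial.counit_surjective R) x
  rw [← map_teichmuller, ← map_mul, tmul_aux2]
  ext n
  simp [map_coeff]

theorem teichmuller_mul_coeff {R : Type*} [CommRing R] (a : R) (x : WittVector p R) (n : ℕ) :
    (teichmuller p a * x).coeff n = a ^ p ^ n * x.coeff n := by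
  rw [teichmuller_mul, coeff_mk]


/-- Congruence modulo `p ^ n` is equality of the first `n` coefficients (perfect rings). -/
theorem dvd_sub_iff {C : Type*} [CommRing C] [CharP C p] [PerfectRing C p] (x y : WittVector p C) (n : ℕ) :
    (p : WittVector p C) ^ n ∣ x - y ↔ ∀ i < n, x.coeff i = y.coeff i := by
  rw [← Ideal.mem_span_singleton, mem_span_p_pow_iff_le_coeff_eq_zero,
    le_coeff_eq_iff_le_sub_coeff_eq_zero]

theorem coeff_eq_of_dvd_sub {C : Type*} [CommRing C] [CharP C p] [PerfectRing C p] {x y : WittVector p C}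
    {n : ℕ} (h : (p : WittVector p C) ^ n ∣ x - y) {i : ℕ} (hi : i < n) : x.coeff i = y.coeff i :=
  (dvd_sub_iff x y n).1 h i hi

/-- One step of the key lemma: divisibility of `y` by a further power of `[t]` modulo
`p ^ (I + 1)`. -/
theorem key_step {C : Type*} [CommRing C] [CharP C p] [PerfectRing C p] (t : C) (x y : WittVector p C)
    (I : ℕ) (hI : y.coeff I = 0)
    (hy : (p : WittVector p C) ^ (I + 1) ∣ (p - teichmuller p t) * y - teichmuller p t ^ (I + 1) * x)
    (m : ℕ) (hm : m ≤ I) (v : WittVector p C) (hv : (p : WittVector p C) ^ (I + 1) ∣ y - teichmuller p t ^ m * v) :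
    ∃ v' : WittVector p C, (p : WittVector p C) ^ (I + 1) ∣ y - teichmuller p t ^ (m + 1) * v' := by
  classical
  let u : WittVector p C := v + teichmuller p t ^ (I - m) * x
  have hpy : (p : WittVector p C) ^ (I + 1) ∣ y * p - teichmuller p (t ^ (m + 1)) * u := by
    have h1 : y * p - teichmuller p (t ^ (m + 1)) * u =
        ((p - teichmuller p t) * y - teichmuller p t ^ (I + 1) * x) +
          teichmuller p t * (y - teichmuller p t ^ m * v) := by
      have h2 : teichmuller p t ^ (I + 1) = teichmuller p t ^ (m + 1) * teichmuller p t ^ (I - m) := by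
        rw [← pow_add]; congr 1; omega
      rw [map_pow, h2]; simp only [u]; ring
    rw [h1]
    exact dvd_add hy (Dvd.dvd.mul_left hv _)
  have hc : ∀ k < I, y.coeff k ^ p = t ^ ((m + 1) * p ^ (k + 1)) * u.coeff (k + 1) := by
    intro k hk
    have := coeff_eq_of_dvd_sub hpy (i := k + 1) (by omega)
    rw [mul_charP_coeff_succ, teichmuller_mul_coeff, ← pow_mul] at this
    exact this
  refine ⟨WittVector.mk p (fun k => if k < I then (_root_.frobeniusEquiv C p).symm (u.coeff (k + 1))
    else 0), ?_⟩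
  rw [dvd_sub_iff]
  intro i hi
  rw [← map_pow, teichmuller_mul_coeff, coeff_mk]
  by_cases h : i < I
  · rw [if_pos h]
    apply (_root_.frobeniusEquiv C p).injective
    rw [map_mul, map_pow, map_pow, RingEquiv.apply_symm_apply, _root_.frobeniusEquiv_apply,
      _root_.frobeniusEquiv_apply, frobenius_def, frobenius_def, hc i h]
    congr 1
    rw [← pow_mul, ← pow_mul]
    congr 1
    rw [pow_succ]; ring
  · rw [if_neg h, mul_zero]
    have : i = I := by omega
    rw [this, hI]

/-- KEY LEMMA (T3). -/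
theorem key {C : Type*} [CommRing C] [CharP C p] [PerfectRing C p] (t : C)
    (ht : t ∈ nonZeroDivisors C) (x : WittVector p C) (I : ℕ)
    (h0 : (-(∑ j ∈ Finset.range (I + 1), (p : WittVector p C) ^ j * teichmuller p t ^ (I - j)) * x).coeff I
      = 0) :
    ∃ v w : WittVector p C, x = (p - teichmuller p t) * v + (p : WittVector p C) ^ (I + 1) * w := by
  set y : WittVector p C := -(∑ j ∈ Finset.range (I + 1), (p : WittVector p C) ^ j * teichmuller p t ^ (I - j)) * x
    with hydef
  have hgeom : (∑ j ∈ Finset.range (I + 1), (p : WittVector p C) ^ j * teichmuller p t ^ (I - j)) *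
      ((p : WittVector p C) - teichmuller p t) = (p : WittVector p C) ^ (I + 1) - teichmuller p t ^ (I + 1) := by
    have := Commute.geom_sum₂_mul (Commute.all (p : WittVector p C) (teichmuller p t)) (I + 1)
    simpa using this
  have hy : ((p : WittVector p C) - teichmuller p t) * y - teichmuller p t ^ (I + 1) * x =
      (p : WittVector p C) ^ (I + 1) * (-x) := by
    have : ((p : WittVector p C) - teichmuller p t) * y = -((p : WittVector p C) ^ (I + 1) -
        teichmuller p t ^ (I + 1)) * x := by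
      rw [← hgeom, hydef]; ring
    rw [this]; ring
  have hind : ∀ m ≤ I + 1, ∃ v : WittVector p C, (p : WittVector p C) ^ (I + 1) ∣ y - teichmuller p t ^ m * v := by
    intro m
    induction m with
    | zero => intro _; exact ⟨y, by simp⟩
    | succ m ih =>
      intro hm
      obtain ⟨v, hv⟩ := ih (by omega)
      exact key_step t x y I h0 ⟨-x, hy⟩ m (by omega) v hv
  obtain ⟨v, hv⟩ := hind (I + 1) le_rfl
  have h1 : (p : WittVector p C) ^ (I + 1) ∣ teichmuller p (t ^ (I + 1)) *
      (x - (p - teichmuller p t) * v) - 0 := by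
    have h2 : teichmuller p (t ^ (I + 1)) * (x - (p - teichmuller p t) * v) - 0 =
        ((p : WittVector p C) - teichmuller p t) * (y - teichmuller p t ^ (I + 1) * v) -
        (((p : WittVector p C) - teichmuller p t) * y - teichmuller p t ^ (I + 1) * x) := by
      rw [map_pow]; ring
    rw [h2]
    exact dvd_sub (Dvd.dvd.mul_left hv _) ⟨-x, hy⟩
  have h3 : (p : WittVector p C) ^ (I + 1) ∣ (x - (p - teichmuller p t) * v) - 0 := by
    rw [dvd_sub_iff]
    intro i hi
    have h4 := coeff_eq_of_dvd_sub h1 hi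
    rw [teichmuller_mul_coeff, zero_coeff] at h4
    rw [zero_coeff]
    have ht' : (t ^ (I + 1)) ^ p ^ i ∈ nonZeroDivisors C := pow_mem (pow_mem ht _) _
    exact (mul_left_mem_nonZeroDivisors_eq_zero_iff ht').1 h4
  obtain ⟨w, hw⟩ := h3
  refine ⟨v, w, ?_⟩
  rw [sub_zero] at hw
  rw [← hw]; ring

end P202.Mix
end

section

/-!
P177, the key lemma T3 inside a perfect ideal `J`: divisibility by `p - [t]` modulo `p ^ n` of an
element of `WI J`, with cofactors in `WI J`.
-/

namespace Vale.Agent.P177.PI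

open WittVector _root_.P202.Mix

universe u

section

variable (p : ℕ) [hp : Fact p.Prime] {C : Type u} [CommRing C] [CharP C p] [PerfectRing C p]

theorem pow_pow_inj {a b : C} (n : ℕ) (h : a ^ p ^ n = b ^ p ^ n) : a = b := by
  apply (iterateFrobeniusEquiv C p n).injective
  rw [coe_iterateFrobeniusEquiv, iterateFrobenius_def, iterateFrobenius_def, h]

theorem rt_mul (e : ℕ) (a b : C) : rt p e (a * b) = rt p e a * rt p e b := by
  unfold rt
  exact map_mul _ a b

omit [PerfectRing C p] in
theorem p_mul_coeff_zero (y : WittVector p C) : ((p : WittVector p C) * y).coeff 0 = 0 := by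
  have h1 : WittVector.constantCoeff ((p : WittVector p C) * y) = 0 := by
    rw [map_mul, map_natCast, CharP.cast_eq_zero, zero_mul]
  exact h1

omit [PerfectRing C p] in
theorem te_add_p_mul_coeff_succ (a : C) (y : WittVector p C) (k : ℕ) :
    (teichmuller p a + (p : WittVector p C) * y).coeff (k + 1) = y.coeff k ^ p := by
  rw [coeff_add_of_disjoint]
  · rw [teichmuller_coeff_pos p a (k + 1) (Nat.succ_pos k), zero_add, mul_comm,
      mul_charP_coeff_succ]
  · intro n
    rcases Nat.eq_zero_or_pos n with rfl | hn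
    · exact Or.inr (p_mul_coeff_zero p y)
    · exact Or.inl (teichmuller_coeff_pos p a n hn)

/-- `WI J` in Witt coordinates. -/
theorem coeff_of_mem_WI {J : Ideal C} (hJ : IsPerf p J) {x : WittVector p C} (hx : x ∈ WI p J)
    (k : ℕ) : ∃ c ∈ J, x.coeff k = c ^ p ^ k := by
  induction k generalizing x with
  | zero => exact ⟨x.coeff 0, coeff_zero_mem p hJ hx, by rw [pow_zero, pow_one]⟩
  | succ k ih =>
    obtain ⟨-, y, hy, he⟩ := exists_of_mem_WI p hJ hx
    obtain ⟨c, hc, hce⟩ := ih hy
    refine ⟨c, hc, ?_⟩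
    rw [he, te_add_p_mul_coeff_succ, hce, ← pow_mul, pow_succ]

theorem mem_WI_of_coeff {J : Ideal C} {x : WittVector p C}
    (h : ∀ k, ∃ c ∈ J, x.coeff k = c ^ p ^ k) : x ∈ WI p J := by
  rw [mem_WI]
  intro N
  rcases Nat.eq_zero_or_pos N with rfl | hN
  · unfold TN
    rw [pow_zero, Ideal.span_singleton_one, sup_top_eq]
    trivial
  obtain ⟨n, rfl⟩ : ∃ n, N = n + 1 := ⟨N - 1, by omega⟩
  obtain ⟨z, hz⟩ := dvd_sub_sum_teichmuller_iterateFrobeniusEquiv_coeff x n
  rw [mem_TN_iff]
  refine ⟨_, ?_, z, sub_eq_iff_eq_add'.1 hz⟩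
  refine Ideal.sum_mem _ fun i _ => Ideal.mul_mem_right _ _ (te_mem_TI p ?_)
  obtain ⟨c, hc, hce⟩ := h i
  have : ((_root_.frobeniusEquiv C p).symm ^ i) (x.coeff i) = c := by
    apply pow_pow_inj p i
    have h1 : ∀ (i : ℕ) (a : C), ((_root_.frobeniusEquiv C p).symm ^ i) a ^ p ^ i = a := by
      intro i
      induction i with
      | zero => intro a; simp
      | succ i ih =>
        intro a
        rw [pow_succ (_root_.frobeniusEquiv C p).symm, pow_succ p, pow_mul]
        change (((_root_.frobeniusEquiv C p).symm ^ i)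
          ((_root_.frobeniusEquiv C p).symm a) ^ p ^ i) ^ p = a
        rw [ih]
        have := (_root_.frobeniusEquiv C p).apply_symm_apply a
        rwa [_root_.frobeniusEquiv_apply, frobenius_def] at this
    rw [h1, hce]
  rw [this]
  exact hc

theorem mem_WI_iff_coeff {J : Ideal C} (hJ : IsPerf p J) {x : WittVector p C} :
    x ∈ WI p J ↔ ∀ k, ∃ c ∈ J, x.coeff k = c ^ p ^ k :=
  ⟨fun hx => coeff_of_mem_WI p hJ hx, mem_WI_of_coeff p⟩

/-- `x` congruent modulo `p ^ k` to `[t] ^ m * v`, `v ∈ WI J`. -/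
def Dv (J : Ideal C) (t : C) (y : WittVector p C) (k m : ℕ) : Prop :=
  ∃ v ∈ WI p J, (p : WittVector p C) ^ k ∣ y - teichmuller p t ^ m * v

theorem Dv_iff {J : Ideal C} (hJ : IsPerf p J) {t : C} {y : WittVector p C} {k m : ℕ} :
    Dv p J t y k m ↔ ∀ i < k, ∃ c ∈ J, y.coeff i = (t ^ m * c) ^ p ^ i := by
  constructor
  · rintro ⟨v, hv, hd⟩ i hi
    obtain ⟨c, hc, hce⟩ := coeff_of_mem_WI p hJ hv i
    refine ⟨c, hc, ?_⟩
    rw [coeff_eq_of_dvd_sub hd hi, ← map_pow, teichmuller_mul_coeff, hce, mul_pow]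
  · intro h
    have h' : ∀ i, ∃ c ∈ J, i < k → y.coeff i = (t ^ m * c) ^ p ^ i := by
      intro i
      by_cases hi : i < k
      · obtain ⟨c, hc, hce⟩ := h i hi
        exact ⟨c, hc, fun _ => hce⟩
      · exact ⟨0, zero_mem _, fun hi' => absurd hi' hi⟩
    choose c hc hce using h'
    refine ⟨WittVector.mk p fun i => c i ^ p ^ i, mem_WI_of_coeff p fun i =>
      ⟨c i, hc i, by rw [coeff_mk]⟩, ?_⟩
    rw [dvd_sub_iff]
    intro i hi
    rw [hce i hi, ← map_pow, teichmuller_mul_coeff, coeff_mk, mul_pow]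

/-- the step `S(k + 1, m) → S(k, m + 1)`. -/
theorem Dv_step {J : Ideal C} (hJ : IsPerf p J) {t : C} {x y : WittVector p C}
    (hx : x ∈ WI p J) {I : ℕ}
    (hy : (p : WittVector p C) ^ (I + 1) ∣ (p - teichmuller p t) * y - teichmuller p t ^ (I + 1) * x)
    {k m : ℕ} (hm : m ≤ I) (hk : k ≤ I) (h : Dv p J t y (k + 1) m) : Dv p J t y k (m + 1) := by
  obtain ⟨v, hv, hd⟩ := h
  rw [Dv_iff p hJ]
  intro i hi
  set u : WittVector p C := v + teichmuller p t ^ (I - m) * x with hu
  have hu' : u ∈ WI p J := add_mem hv (Ideal.mul_mem_left _ _ hx)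
  have hpy : (p : WittVector p C) ^ (k + 1) ∣ y * p - teichmuller p (t ^ (m + 1)) * u := by
    have h1 : y * p - teichmuller p (t ^ (m + 1)) * u =
        ((p - teichmuller p t) * y - teichmuller p t ^ (I + 1) * x) +
          teichmuller p t * (y - teichmuller p t ^ m * v) := by
      have h2 : teichmuller p t ^ (I + 1) = teichmuller p t ^ (m + 1) * teichmuller p t ^ (I - m) := by
        rw [← pow_add]; congr 1; omega
      rw [map_pow, h2, hu]; ring
    rw [h1]
    exact dvd_add ((pow_dvd_pow _ (by omega)).trans hy) (Dvd.dvd.mul_left hd _)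
  obtain ⟨c, hc, hce⟩ := coeff_of_mem_WI p hJ hu' (i + 1)
  refine ⟨c, hc, ?_⟩
  have h3 := coeff_eq_of_dvd_sub hpy (i := i + 1) (by omega)
  rw [mul_charP_coeff_succ, teichmuller_mul_coeff, hce, ← mul_pow] at h3
  apply pow_inj p
  rw [h3, ← pow_mul, pow_succ p i]

/-- T3 inside `J`. -/
theorem t3J {J : Ideal C} (hJ : IsPerf p J) {t : C} (ht : t ∈ nonZeroDivisors C)
    {x : WittVector p C} (hx : x ∈ WI p J) (I n : ℕ) (hn : n ≤ I + 1) {b : C} (hb : b ∈ J)
    (h0 : (-(∑ j ∈ Finset.range (I + 1), (p : WittVector p C) ^ j * teichmuller p t ^ (I - j)) *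
      x).coeff I = (t ^ n * b) ^ p ^ I) :
    ∃ v ∈ WI p J, ∃ w ∈ WI p J, x = (p - teichmuller p t) * v + (p : WittVector p C) ^ n * w := by
  set y : WittVector p C := -(∑ j ∈ Finset.range (I + 1), (p : WittVector p C) ^ j *
    teichmuller p t ^ (I - j)) * x with hydef
  have hyJ : y ∈ WI p J := Ideal.mul_mem_left _ _ hx
  have hgeom : (∑ j ∈ Finset.range (I + 1), (p : WittVector p C) ^ j * teichmuller p t ^ (I - j)) *
      ((p : WittVector p C) - teichmuller p t) = (p : WittVector p C) ^ (I + 1) -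
        teichmuller p t ^ (I + 1) := by
    have := Commute.geom_sum₂_mul (Commute.all (p : WittVector p C) (teichmuller p t)) (I + 1)
    simpa using this
  have hy : ((p : WittVector p C) - teichmuller p t) * y - teichmuller p t ^ (I + 1) * x =
      (p : WittVector p C) ^ (I + 1) * (-x) := by
    have : ((p : WittVector p C) - teichmuller p t) * y = -((p : WittVector p C) ^ (I + 1) -
        teichmuller p t ^ (I + 1)) * x := by
      rw [← hgeom, hydef]; ring
    rw [this]; ring
  -- first phase
  have hA : ∀ m ≤ n, Dv p J t y (I + 1) m := by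
    intro m
    induction m with
    | zero =>
      intro _
      exact ⟨y, hyJ, by rw [pow_zero, one_mul, sub_self]; exact dvd_zero _⟩
    | succ m ih =>
      intro hm
      have h1 := Dv_step p hJ hx ⟨-x, hy⟩ (k := I) (m := m) (by omega) le_rfl (ih (by omega))
      rw [Dv_iff p hJ] at h1 ⊢
      intro i hi
      rcases Nat.lt_succ_iff_lt_or_eq.1 hi with h | h
      · exact h1 i h
      · subst h
        refine ⟨t ^ (n - (m + 1)) * b, Ideal.mul_mem_left _ _ hb, ?_⟩
        rw [h0, ← mul_assoc, ← pow_add]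
        congr 3
        omega
  -- second phase
  have hB : ∀ i, n + i ≤ I + 1 → Dv p J t y (I + 1 - i) (n + i) := by
    intro i
    induction i with
    | zero => intro _; exact hA n le_rfl
    | succ i ih =>
      intro hi
      have h1 := ih (by omega)
      have h2 : I + 1 - i = (I - i) + 1 := by omega
      rw [h2] at h1
      have h3 := Dv_step p hJ hx ⟨-x, hy⟩ (k := I - i) (m := n + i) (by omega) (by omega) h1
      have h4 : I + 1 - (i + 1) = I - i := by omega
      rw [h4]
      exact h3
  obtain ⟨v, hv, hd⟩ := hB (I + 1 - n) (by omega)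
  have e1 : I + 1 - (I + 1 - n) = n := by omega
  have e2 : n + (I + 1 - n) = I + 1 := by omega
  rw [e1, e2] at hd
  have h1 : (p : WittVector p C) ^ n ∣ teichmuller p (t ^ (I + 1)) *
      (x - (p - teichmuller p t) * v) - 0 := by
    have h2 : teichmuller p (t ^ (I + 1)) * (x - (p - teichmuller p t) * v) - 0 =
        ((p : WittVector p C) - teichmuller p t) * (y - teichmuller p t ^ (I + 1) * v) -
        (((p : WittVector p C) - teichmuller p t) * y - teichmuller p t ^ (I + 1) * x) := by
      rw [map_pow]; ring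
    rw [h2]
    exact dvd_sub (Dvd.dvd.mul_left hd _) ((pow_dvd_pow _ hn).trans ⟨-x, hy⟩)
  have h3 : (p : WittVector p C) ^ n ∣ (x - (p - teichmuller p t) * v) - 0 := by
    rw [dvd_sub_iff]
    intro i hi
    have h4 := coeff_eq_of_dvd_sub h1 hi
    rw [teichmuller_mul_coeff, zero_coeff] at h4
    rw [zero_coeff]
    have ht' : (t ^ (I + 1)) ^ p ^ i ∈ nonZeroDivisors C := pow_mem (pow_mem ht _) _
    exact (mul_left_mem_nonZeroDivisors_eq_zero_iff ht').1 h4
  obtain ⟨w, hw⟩ := h3
  rw [sub_zero] at hw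
  refine ⟨v, hv, w, ?_, by rw [← hw]; ring⟩
  apply mem_of_p_pow_mul_mem p hJ n
  rw [← hw]
  exact sub_mem hx (Ideal.mul_mem_left _ _ hv)

/-- the invariant of an element of `(p - [t], p ^ (I + 1))`. -/
theorem inv_of_mem (t : C) (I : ℕ) (v w x : WittVector p C)
    (hx : x = (p - teichmuller p t) * v + (p : WittVector p C) ^ (I + 1) * w) :
    (-(∑ j ∈ Finset.range (I + 1), (p : WittVector p C) ^ j * teichmuller p t ^ (I - j)) *
      x).coeff I = (t ^ (I + 1)) ^ p ^ I * v.coeff I := by
  have hgeom : (∑ j ∈ Finset.range (I + 1), (p : WittVector p C) ^ j * teichmuller p t ^ (I - j)) *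
      ((p : WittVector p C) - teichmuller p t) = (p : WittVector p C) ^ (I + 1) -
        teichmuller p t ^ (I + 1) := by
    have := Commute.geom_sum₂_mul (Commute.all (p : WittVector p C) (teichmuller p t)) (I + 1)
    simpa using this
  rw [← teichmuller_mul_coeff]
  refine coeff_eq_of_dvd_sub (n := I + 1) ?_ (by omega)
  refine ⟨-v - (∑ j ∈ Finset.range (I + 1), (p : WittVector p C) ^ j *
    teichmuller p t ^ (I - j)) * w, ?_⟩
  rw [hx, map_pow]
  linear_combination (-v) * hgeom

/-- relations modulo `(p - [t], p ^ (I + 1))` hold inside `J` after multiplication by `[g ^ θ]`,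
`g ∈ J`, `θ = m / p ^ k`, with precision `n ≤ θ (I + 1)`. -/
theorem te_mul_mem {J : Ideal C} (hJ : IsPerf p J) {t : C} (ht : t ∈ nonZeroDivisors C)
    {x : WittVector p C} (hx : x ∈ WI p J) (I : ℕ) {v w : WittVector p C}
    (hxe : x = (p - teichmuller p t) * v + (p : WittVector p C) ^ (I + 1) * w)
    {g : C} (hg : g ∈ J) (k m n : ℕ) (hm : m ≤ p ^ k) (hn : n * p ^ k ≤ (I + 1) * m) :
    ∃ v' ∈ WI p J, ∃ w' ∈ WI p J, teichmuller p (rt p k (g ^ m)) * x =
      (p - teichmuller p t) * v' + (p : WittVector p C) ^ n * w' := by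
  have hp0 : 0 < p := hp.out.pos
  have hpk : 0 < p ^ k := Nat.pow_pos hp0
  have hnI : n ≤ I + 1 := by
    have h1 : n * p ^ k ≤ (I + 1) * p ^ k := hn.trans (Nat.mul_le_mul_left _ hm)
    exact Nat.le_of_mul_le_mul_right h1 hpk
  -- the invariant
  have hinv := inv_of_mem p t I v w x hxe
  obtain ⟨a, ha, hae⟩ := coeff_of_mem_WI p hJ (Ideal.mul_mem_left (WI p J)
    (-(∑ j ∈ Finset.range (I + 1), (p : WittVector p C) ^ j * teichmuller p t ^ (I - j))) hx) I
  set a' : C := rt p I (v.coeff I) with ha'
  have haa' : a = t ^ (I + 1) * a' := by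
    apply pow_pow_inj p I
    rw [← hae, hinv, mul_pow, ha', rt_pow]
  -- the element `b`
  set b : C := rt p k (t ^ ((I + 1) * m - n * p ^ k)) *
    (rt p k (g * a') ^ m * rt p k a ^ (p ^ k - m)) with hbdef
  have hb : b ∈ J := by
    refine Ideal.mul_mem_left _ _ ?_
    exact hJ.mean (Ideal.mul_mem_right _ _ hg) ha k m hm
  have hbe : t ^ n * b = rt p k (g ^ m) * a := by
    apply pow_pow_inj p k
    rw [hbdef, mul_pow, mul_pow, mul_pow, mul_pow, ← pow_mul, ← pow_mul, ← pow_mul,
      mul_comm m (p ^ k), mul_comm (p ^ k - m) (p ^ k), pow_mul (rt p k (g * a')),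
      pow_mul (rt p k a), rt_pow, rt_pow, rt_pow, rt_pow]
    have h1 : a ^ p ^ k = a ^ m * a ^ (p ^ k - m) := by
      rw [← pow_add]; congr 1; omega
    have h2 : a ^ m = t ^ ((I + 1) * m) * a' ^ m := by
      rw [haa', mul_pow, ← pow_mul]
    have h3 : t ^ ((I + 1) * m) = t ^ (n * p ^ k) * t ^ ((I + 1) * m - n * p ^ k) := by
      rw [← pow_add]; congr 1; omega
    rw [h1, h2, h3, mul_pow]
    ring
  refine t3J p hJ ht (Ideal.mul_mem_left _ _ hx) I n hnI hb ?_
  rw [hbe, mul_pow]
  have h4 : -(∑ j ∈ Finset.range (I + 1), (p : WittVector p C) ^ j * teichmuller p t ^ (I - j)) *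
      (teichmuller p (rt p k (g ^ m)) * x) = teichmuller p (rt p k (g ^ m)) *
      (-(∑ j ∈ Finset.range (I + 1), (p : WittVector p C) ^ j * teichmuller p t ^ (I - j)) *
        x) := by ring
  rw [h4, teichmuller_mul_coeff, hae]

end

end Vale.Agent.P177.PI
end

section

/-!
P177, (FE) part A: the Rees ring of a graded family of ideals `M s` of a commutative ring `W`
modulo the graded family `N s`; everything in degree `s` is `M s / N s`.
-/

namespace Vale.Agent.P177.PI

universe u v

/-- A graded family of pairs of ideals `N s ≤ M s`. -/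
structure RFam (W : Type u) [CommRing W] (G : Type v) [AddCommGroup G] where
  /-- the ideals -/
  M : G → Ideal W
  /-- the denominators -/
  N : G → Ideal W
  le : ∀ s, N s ≤ M s
  one : (1 : W) ∈ M 0
  mul : ∀ {s s' : G} {x y : W}, x ∈ M s → y ∈ M s' → x * y ∈ M (s + s')
  mulN : ∀ {s s' : G} {x y : W}, x ∈ M s → y ∈ N s' → x * y ∈ N (s + s')

namespace RFam

variable {W : Type u} [CommRing W] {G : Type v} [AddCommGroup G] (F : RFam W G)

/-- the Rees ring. -/
def MM : Subring (AddMonoidAlgebra W G) where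
  carrier := {f | ∀ s, f.coeff s ∈ F.M s}
  mul_mem' := by
    classical
    intro f g hf hg s
    rw [AddMonoidAlgebra.coeff_mul]
    refine Ideal.sum_mem _ fun a _ => Ideal.sum_mem _ fun b _ => ?_
    dsimp only
    split_ifs with h
    · rw [← h]; exact F.mul (hf a) (hg b)
    · exact zero_mem _
  one_mem' := by
    classical
    intro s
    rw [AddMonoidAlgebra.one_def, AddMonoidAlgebra.coeff_single]
    by_cases h : s = 0
    · subst h
      rw [Finsupp.single_eq_same]
      exact F.one
    · rw [Finsupp.single_eq_of_ne h]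
      exact zero_mem _
  add_mem' := by
    intro f g hf hg s
    exact add_mem (hf s) (hg s)
  zero_mem' := fun s => zero_mem _
  neg_mem' := by
    intro f hf s
    exact neg_mem (hf s)

/-- the ideal of denominators. -/
def NN : Ideal F.MM where
  carrier := {f | ∀ s, (f : AddMonoidAlgebra W G).coeff s ∈ F.N s}
  add_mem' := by
    intro f g hf hg s
    exact add_mem (hf s) (hg s)
  zero_mem' := fun s => zero_mem _
  smul_mem' := by
    classical
    intro f g hg s
    change ((f : AddMonoidAlgebra W G) * (g : AddMonoidAlgebra W G)).coeff s ∈ F.N s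
    rw [AddMonoidAlgebra.coeff_mul]
    refine Ideal.sum_mem _ fun a _ => Ideal.sum_mem _ fun b _ => ?_
    dsimp only
    split_ifs with h
    · rw [← h]; exact F.mulN (f.2 a) (hg b)
    · exact zero_mem _

/-- the graded ring. -/
abbrev E : Type _ := F.MM ⧸ F.NN

theorem single_mem {s : G} {x : W} (hx : x ∈ F.M s) :
    (AddMonoidAlgebra.single s x : AddMonoidAlgebra W G) ∈ F.MM := by
  classical
  intro s'
  rw [AddMonoidAlgebra.coeff_single]
  by_cases h : s' = s
  · subst h
    rw [Finsupp.single_eq_same]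
    exact hx
  · rw [Finsupp.single_eq_of_ne h]
    exact zero_mem _

open Classical in
/-- the class of an element of degree `s`. -/
noncomputable def cls (s : G) (x : W) : F.E :=
  if h : x ∈ F.M s then Ideal.Quotient.mk F.NN ⟨AddMonoidAlgebra.single s x, F.single_mem h⟩ else 0

theorem cls_of_mem {s : G} {x : W} (h : x ∈ F.M s) :
    F.cls s x = Ideal.Quotient.mk F.NN ⟨AddMonoidAlgebra.single s x, F.single_mem h⟩ :=
  dif_pos h

theorem cls_eq_zero_iff {s : G} {x : W} (h : x ∈ F.M s) : F.cls s x = 0 ↔ x ∈ F.N s := by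
  classical
  rw [F.cls_of_mem h, Ideal.Quotient.eq_zero_iff_mem]
  constructor
  · intro h1
    have h2 := h1 s
    change (AddMonoidAlgebra.single s x : AddMonoidAlgebra W G).coeff s ∈ F.N s at h2
    rw [AddMonoidAlgebra.coeff_single, Finsupp.single_eq_same] at h2
    exact h2
  · intro h1 s'
    change (AddMonoidAlgebra.single s x : AddMonoidAlgebra W G).coeff s' ∈ F.N s'
    rw [AddMonoidAlgebra.coeff_single]
    by_cases h : s' = s
    · subst h
      rw [Finsupp.single_eq_same]
      exact h1
    · rw [Finsupp.single_eq_of_ne h]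
      exact zero_mem _

theorem cls_add {s : G} {x y : W} (hx : x ∈ F.M s) (hy : y ∈ F.M s) :
    F.cls s (x + y) = F.cls s x + F.cls s y := by
  rw [F.cls_of_mem hx, F.cls_of_mem hy, F.cls_of_mem (add_mem hx hy), ← map_add]
  congr 1
  apply Subtype.ext
  exact AddMonoidAlgebra.single_add s x y

theorem cls_zero (s : G) : F.cls s 0 = 0 := (F.cls_eq_zero_iff (zero_mem _)).2 (zero_mem _)

theorem cls_neg {s : G} {x : W} (hx : x ∈ F.M s) : F.cls s (-x) = - F.cls s x := by
  rw [eq_neg_iff_add_eq_zero, ← F.cls_add (neg_mem hx) hx, neg_add_cancel, cls_zero]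

theorem cls_sub {s : G} {x y : W} (hx : x ∈ F.M s) (hy : y ∈ F.M s) :
    F.cls s (x - y) = F.cls s x - F.cls s y := by
  rw [sub_eq_add_neg, F.cls_add hx (neg_mem hy), F.cls_neg hy, sub_eq_add_neg]

theorem cls_mul {s s' : G} {x y : W} (hx : x ∈ F.M s) (hy : y ∈ F.M s') :
    F.cls s x * F.cls s' y = F.cls (s + s') (x * y) := by
  rw [F.cls_of_mem hx, F.cls_of_mem hy, F.cls_of_mem (F.mul hx hy), ← map_mul]
  congr 1
  apply Subtype.ext
  exact (AddMonoidAlgebra.single_mul_single s s' x y)

theorem cls_one : F.cls 0 1 = 1 := by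
  rw [F.cls_of_mem F.one]
  rfl

theorem cls_eq_iff {s : G} {x y : W} (hx : x ∈ F.M s) (hy : y ∈ F.M s) :
    F.cls s x = F.cls s y ↔ x - y ∈ F.N s := by
  rw [← sub_eq_zero, ← F.cls_sub hx hy, F.cls_eq_zero_iff (sub_mem hx hy)]

theorem cls_sum {ι : Type*} (S : Finset ι) {s : G} (x : ι → W) (hx : ∀ i ∈ S, x i ∈ F.M s) :
    F.cls s (∑ i ∈ S, x i) = ∑ i ∈ S, F.cls s (x i) := by
  classical
  induction S using Finset.induction_on with
  | empty => simp [F.cls_zero]
  | insert a S ha ih =>
    rw [Finset.sum_insert ha, Finset.sum_insert ha,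
      F.cls_add (hx a (Finset.mem_insert_self _ _))
        (Ideal.sum_mem _ fun i hi => hx i (Finset.mem_insert_of_mem hi)),
      ih fun i hi => hx i (Finset.mem_insert_of_mem hi)]

theorem cls_pow_neg_one_mul {s : G} (k : ℕ) {x : W} (hx : x ∈ F.M s) :
    F.cls s ((-1) ^ k * x) = (-1) ^ k * F.cls s x := by
  rcases Nat.even_or_odd k with h | h
  · rw [h.neg_one_pow, h.neg_one_pow, one_mul, one_mul]
  · rw [h.neg_one_pow, h.neg_one_pow, neg_one_mul, neg_one_mul, F.cls_neg hx]

/-- scalars of degree zero: every element of `W`. -/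
theorem mem_zero (x : W) : x ∈ F.M 0 := by
  have := Ideal.mul_mem_left _ x F.one
  rwa [mul_one] at this

/-- the degree `s` part. -/
def part (s : G) : AddSubgroup F.E where
  carrier := {e | ∃ x ∈ F.M s, e = F.cls s x}
  add_mem' := by
    rintro _ _ ⟨x, hx, rfl⟩ ⟨y, hy, rfl⟩
    exact ⟨x + y, add_mem hx hy, (F.cls_add hx hy).symm⟩
  zero_mem' := ⟨0, zero_mem _, (F.cls_zero s).symm⟩
  neg_mem' := by
    rintro _ ⟨x, hx, rfl⟩
    exact ⟨-x, neg_mem hx, (F.cls_neg hx).symm⟩

theorem cls_mem_part {s : G} {x : W} (hx : x ∈ F.M s) : F.cls s x ∈ F.part s := ⟨x, hx, rfl⟩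

end RFam

end Vale.Agent.P177.PI
end

section

/-!
P177, (FE) part B: the eigenflag filtration of `(M s / N s) ^ n`, for a graded family of pairs of
ideals `N s ≤ M s` of a commutative ring `W` and Pluecker coordinates `τ j t ∈ M (d j)` satisfying
the relations modulo `N`.
-/

namespace Vale.Agent.P177.PI

open Vale.Agent.P177.Flag

universe u v

variable {W : Type u} [CommRing W] {G : Type v} [AddCommGroup G] {n : ℕ}

/-- the data of a flag modulo `N`. -/
structure FData (F : RFam W G) (τ : ∀ j : ℕ, (Fin j → Fin n) → W) (d : ℕ → G)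
    (good : G → Prop) : Prop where
  d_zero : d 0 = 0
  mem : ∀ j t, τ j t ∈ F.M (d j)
  zero : ∀ t, τ 0 t = 1
  same : ∀ (j : ℕ) (ρ : Fin j → Fin n) (t : Fin (j + 2) → Fin n),
    wdg (τ (j + 1)) (fun i => τ (j + 1) (Fin.cons i ρ)) t ∈ F.N (d (j + 1) + d (j + 1))
  incl : ∀ (j : ℕ) (ρ : Fin j → Fin n) (t : Fin (j + 3) → Fin n),
    wdg (τ (j + 2)) (fun i => τ (j + 1) (Fin.cons i ρ)) t ∈ F.N (d (j + 2) + d (j + 1))
  step : ∀ (j : ℕ) (ρ : Fin j → Fin n) (t : Fin (j + 1) → Fin n),
    wdg (τ j) (fun i => τ (j + 1) (Fin.cons i ρ)) t - τ j ρ * τ (j + 1) t ∈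
      F.N (d j + d (j + 1))
  top : ∀ (i : Fin n) (t : Fin (n + 1) → Fin n), wdg (τ n) (Pi.single i (1 : W)) t ∈ F.N (d n)
  good_add : ∀ s j, good s → good (s + d j)
  inj : ∀ j, j ≤ n → ∀ s, good s → ∀ x ∈ F.M s, (∀ t, τ j t * x ∈ F.N (s + d j)) → x ∈ F.N s

/-- the colon property in degree `s`. -/
def ColN (F : RFam W G) (τ : ∀ j : ℕ, (Fin j → Fin n) → W) (d : ℕ → G) (j : ℕ) (s : G) : Prop :=
  ∀ β : (Fin j → Fin n) → W, (∀ t, β t ∈ F.M s) →
    (∀ t t', τ j t' * β t - τ j t * β t' ∈ F.N (s + d j)) →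
    ∃ a ∈ F.M (s - d j), ∀ t, β t - τ j t * a ∈ F.N s

/-- the Skoda property in degree `s`. -/
def SkoN (F : RFam W G) (τ : ∀ j : ℕ, (Fin j → Fin n) → W) (d : ℕ → G) (j : ℕ) (s : G) : Prop :=
  ∀ a ∈ F.M s, ∃ g : (Fin j → Fin n) → W, (∀ ρ, g ρ ∈ F.M (s - d j)) ∧
    a - ∑ ρ, τ j ρ * g ρ ∈ F.N s

/-- the filtration. -/
def KW (F : RFam W G) (τ : ∀ j : ℕ, (Fin j → Fin n) → W) (d : ℕ → G) (j : ℕ) (s : G) :
    Submodule W (Fin n → W) where
  carrier := {v | (∀ i, v i ∈ F.M s) ∧ ∀ t, wdg (τ j) v t ∈ F.N (s + d j)}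
  zero_mem' := ⟨fun _ => zero_mem _, fun t => by rw [wdg_zero]; exact zero_mem _⟩
  add_mem' := by
    rintro v w ⟨h1, h2⟩ ⟨h3, h4⟩
    exact ⟨fun i => add_mem (h1 i) (h3 i), fun t => by
      rw [wdg_add]; exact add_mem (h2 t) (h4 t)⟩
  smul_mem' := by
    rintro c v ⟨h1, h2⟩
    exact ⟨fun i => Ideal.mul_mem_left _ _ (h1 i), fun t => by
      rw [wdg_smul]; exact Ideal.mul_mem_left _ _ (h2 t)⟩

variable {F : RFam W G} {τ : ∀ j : ℕ, (Fin j → Fin n) → W} {d : ℕ → G} {good : G → Prop}

theorem mem_KW {j : ℕ} {s : G} {v : Fin n → W} :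
    v ∈ KW F τ d j s ↔ (∀ i, v i ∈ F.M s) ∧ ∀ t, wdg (τ j) v t ∈ F.N (s + d j) := Iff.rfl

/-- the coordinates in the graded ring. -/
noncomputable def TT (F : RFam W G) (τ : ∀ j : ℕ, (Fin j → Fin n) → W) (d : ℕ → G) (j : ℕ)
    (t : Fin j → Fin n) : F.E := F.cls (d j) (τ j t)

open Classical in
/-- the family of good degrees. -/
noncomputable def MF (F : RFam W G) (good : G → Prop) (s : G) : AddSubgroup F.E :=
  if good s then F.part s else ⊥

theorem MF_of_good {s : G} (h : good s) : MF F good s = F.part s := if_pos h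

theorem wdg_cls (hmem : ∀ j t, τ j t ∈ F.M (d j)) {j : ℕ} {s : G} {v : Fin n → W}
    (hv : ∀ i, v i ∈ F.M s) (t : Fin (j + 1) → Fin n) :
    wdg (TT F τ d j) (fun i => F.cls s (v i)) t = F.cls (d j + s) (wdg (τ j) v t) := by
  unfold wdg
  rw [F.cls_sum]
  · refine Finset.sum_congr rfl fun k _ => ?_
    rw [smul_eq_mul, smul_eq_mul, mul_assoc, mul_assoc, TT, F.cls_mul (hmem _ _) (hv _),
      F.cls_pow_neg_one_mul _ (F.mul (hmem _ _) (hv _))]
  · intro k _
    rw [smul_eq_mul, mul_assoc]
    exact Ideal.mul_mem_left _ _ (F.mul (hmem _ _) (hv _))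

theorem wdg_mem_M (hmem : ∀ j t, τ j t ∈ F.M (d j)) {j : ℕ} {s : G} {v : Fin n → W}
    (hv : ∀ i, v i ∈ F.M s) (t : Fin (j + 1) → Fin n) : wdg (τ j) v t ∈ F.M (d j + s) := by
  unfold wdg
  refine Ideal.sum_mem _ fun k _ => ?_
  rw [smul_eq_mul, mul_assoc]
  exact Ideal.mul_mem_left _ _ (F.mul (hmem _ _) (hv _))

theorem FData.flagRel (h : FData F τ d good) : FlagRel (TT F τ d) where
  zero t := by rw [TT, h.zero, h.d_zero, F.cls_one]
  same j ρ t := by
    have h1 := wdg_cls (F := F) (d := d) h.mem (j := j + 1) (s := d (j + 1))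
      (v := fun i => τ (j + 1) (Fin.cons i ρ)) (fun i => h.mem _ _) t
    refine h1.trans ?_
    rw [F.cls_eq_zero_iff (wdg_mem_M h.mem (fun i => h.mem _ _) t)]
    exact h.same j ρ t
  incl j ρ t := by
    have h1 := wdg_cls (F := F) (d := d) h.mem (j := j + 2) (s := d (j + 1))
      (v := fun i => τ (j + 1) (Fin.cons i ρ)) (fun i => h.mem _ _) t
    refine h1.trans ?_
    rw [F.cls_eq_zero_iff (wdg_mem_M h.mem (fun i => h.mem _ _) t)]
    exact h.incl j ρ t
  step j ρ t := by
    have h1 := wdg_cls (F := F) (d := d) h.mem (j := j) (s := d (j + 1))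
      (v := fun i => τ (j + 1) (Fin.cons i ρ)) (fun i => h.mem _ _) t
    refine h1.trans ?_
    rw [TT, TT, F.cls_mul (h.mem _ _) (h.mem _ _),
      F.cls_eq_iff (wdg_mem_M h.mem (fun i => h.mem _ _) t) (F.mul (h.mem _ _) (h.mem _ _))]
    exact h.step j ρ t

theorem FData.graded (h : FData F τ d good) : Graded (TT F τ d) d (MF F good) where
  d_zero := h.d_zero
  mem j t s e he := by
    classical
    by_cases hs : good s
    · rw [MF_of_good hs] at he
      rw [MF_of_good (h.good_add s j hs)]
      obtain ⟨x, hx, rfl⟩ := he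
      rw [smul_eq_mul, TT, F.cls_mul (h.mem _ _) hx]
      have h2 := F.cls_mem_part (F.mul (h.mem j t) hx)
      rw [add_comm (d j) s] at h2 ⊢
      exact h2
    · rw [MF, if_neg hs, AddSubgroup.mem_bot] at he
      rw [he, smul_zero]
      exact zero_mem _
  inj j hj s e he h0 := by
    classical
    by_cases hs : good s
    · rw [MF_of_good hs] at he
      obtain ⟨x, hx, rfl⟩ := he
      rw [F.cls_eq_zero_iff hx]
      refine h.inj j hj s hs x hx fun t => ?_
      have h1 := h0 t
      rw [smul_eq_mul, TT, F.cls_mul (h.mem _ _) hx, F.cls_eq_zero_iff (F.mul (h.mem _ _) hx),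
        add_comm] at h1
      exact h1
    · rw [MF, if_neg hs, AddSubgroup.mem_bot] at he
      exact he

theorem mem_K_iff (h : FData F τ d good) {j : ℕ} {s : G} (hs : good s) {v : Fin n → W}
    (hv : ∀ i, v i ∈ F.M s) :
    (fun i => F.cls s (v i)) ∈ K (TT F τ d) (MF F good) j s ↔ v ∈ KW F τ d j s := by
  rw [mem_K, mem_KW]
  constructor
  · rintro ⟨-, h2⟩
    refine ⟨hv, fun t => ?_⟩
    have h3 := h2 t
    rw [wdg_cls h.mem hv, F.cls_eq_zero_iff (wdg_mem_M h.mem hv t), add_comm] at h3
    exact h3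
  · rintro ⟨-, h2⟩
    refine ⟨fun i => ?_, fun t => ?_⟩
    · rw [MF_of_good hs]
      exact F.cls_mem_part (hv i)
    · rw [wdg_cls h.mem hv, F.cls_eq_zero_iff (wdg_mem_M h.mem hv t), add_comm]
      exact h2 t

/-- coordinates. -/
theorem exists_coordN (h : FData F τ d good) {j : ℕ} (hj : j < n) {s : G} (hs : good s)
    (hcol : ColN F τ d (j + 1) (s + d j)) {v : Fin n → W} (hv : v ∈ KW F τ d (j + 1) s) :
    ∃ a ∈ F.M (s + d j - d (j + 1)), ∀ t, wdg (τ j) v t - τ (j + 1) t * a ∈ F.N (s + d j) := by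
  have hmem : ∀ t, wdg (τ j) v t ∈ F.M (s + d j) := fun t => by
    have := wdg_mem_M h.mem hv.1 t
    rwa [add_comm] at this
  refine hcol (fun t => wdg (τ j) v t) hmem fun t t' => ?_
  have h1 := prop_of_mem_K h.flagRel h.graded hj ((mem_K_iff h hs hv.1).2 hv) t t'
  rw [wdg_cls h.mem hv.1, wdg_cls h.mem hv.1, smul_eq_mul, smul_eq_mul, TT, TT,
    add_comm (d j) s, F.cls_mul (h.mem _ _) (hmem t), F.cls_mul (h.mem _ _) (hmem t'),
    F.cls_eq_iff (F.mul (h.mem _ _) (hmem t)) (F.mul (h.mem _ _) (hmem t'))] at h1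
  rw [add_comm (s + d j)]
  exact h1

theorem coordN_unique (h : FData F τ d good) {j : ℕ} (hj : j ≤ n) {s : G} (hs : good s) {a b : W}
    (ha : a ∈ F.M s) (hb : b ∈ F.M s) (hab : ∀ t, τ j t * a - τ j t * b ∈ F.N (s + d j)) :
    a - b ∈ F.N s := by
  refine h.inj j hj s hs _ (sub_mem ha hb) fun t => ?_
  rw [mul_sub]
  exact hab t

/-- the pieces `M s / N s`. -/
abbrev Gr (F : RFam W G) (s : G) : Type _ := (F.M s) ⧸ (Submodule.comap (F.M s).subtype (F.N s))

theorem Gr.mk_eq_iff {s : G} (x y : F.M s) :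
    (Submodule.Quotient.mk x : Gr F s) = Submodule.Quotient.mk y ↔ (x : W) - y ∈ F.N s := by
  rw [Submodule.Quotient.eq]
  rfl

section feHom

variable (h : FData F τ d good) {j : ℕ} (hj : j < n) {s : G} (hs : good s)
  (hs' : good (s + d j - d (j + 1))) (hcol : ColN F τ d (j + 1) (s + d j))

include h hj hs hs' hcol in
theorem coordN_exists_unique (v : KW F τ d (j + 1) s) :
    ∃ q : Gr F (s + d j - d (j + 1)), ∀ a : F.M (s + d j - d (j + 1)),
      Submodule.Quotient.mk a = q ↔
        ∀ t, wdg (τ j) (v : Fin n → W) t - τ (j + 1) t * a ∈ F.N (s + d j) := by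
  obtain ⟨a, ha, hva⟩ := exists_coordN h hj hs hcol v.2
  refine ⟨Submodule.Quotient.mk ⟨a, ha⟩, fun b => ?_⟩
  rw [Gr.mk_eq_iff]
  constructor
  · intro hb t
    have h1 := F.mulN (h.mem (j + 1) t) hb
    rw [show d (j + 1) + (s + d j - d (j + 1)) = s + d j by abel] at h1
    have h2 : wdg (τ j) (v : Fin n → W) t - τ (j + 1) t * b =
        (wdg (τ j) (v : Fin n → W) t - τ (j + 1) t * a) - τ (j + 1) t * (b - a) := by ring
    rw [h2]
    exact sub_mem (hva t) h1
  · intro hb
    refine coordN_unique h hj hs' b.2 ha fun t => ?_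
    have h2 : τ (j + 1) t * b - τ (j + 1) t * a =
        (wdg (τ j) (v : Fin n → W) t - τ (j + 1) t * a) -
          (wdg (τ j) (v : Fin n → W) t - τ (j + 1) t * b) := by ring
    rw [h2, show s + d j - d (j + 1) + d (j + 1) = s + d j by abel]
    exact sub_mem (hva t) (hb t)

/-- the coordinate map of the `(j + 1)`-st piece. -/
noncomputable def feHom : KW F τ d (j + 1) s →ₗ[W] Gr F (s + d j - d (j + 1)) where
  toFun v := (coordN_exists_unique h hj hs hs' hcol v).choose
  map_add' v w := by
    obtain ⟨a, ha⟩ := Submodule.Quotient.mk_surjective _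
      (coordN_exists_unique h hj hs hs' hcol v).choose
    obtain ⟨b, hb⟩ := Submodule.Quotient.mk_surjective _
      (coordN_exists_unique h hj hs hs' hcol w).choose
    have h1 := ((coordN_exists_unique h hj hs hs' hcol v).choose_spec a).1 ha
    have h2 := ((coordN_exists_unique h hj hs hs' hcol w).choose_spec b).1 hb
    rw [← ha, ← hb, ← Submodule.Quotient.mk_add]
    symm
    refine ((coordN_exists_unique h hj hs hs' hcol (v + w)).choose_spec (a + b)).2 fun t => ?_
    have h3 : wdg (τ j) ((v + w : KW F τ d (j + 1) s) : Fin n → W) t -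
        τ (j + 1) t * ((a + b : F.M (s + d j - d (j + 1))) : W) =
        (wdg (τ j) (v : Fin n → W) t - τ (j + 1) t * a) +
          (wdg (τ j) (w : Fin n → W) t - τ (j + 1) t * b) := by
      rw [Submodule.coe_add, Submodule.coe_add, wdg_add]; ring
    rw [h3]
    exact add_mem (h1 t) (h2 t)
  map_smul' c v := by
    obtain ⟨a, ha⟩ := Submodule.Quotient.mk_surjective _
      (coordN_exists_unique h hj hs hs' hcol v).choose
    have h1 := ((coordN_exists_unique h hj hs hs' hcol v).choose_spec a).1 ha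
    rw [← ha, RingHom.id_apply, ← Submodule.Quotient.mk_smul]
    symm
    refine ((coordN_exists_unique h hj hs hs' hcol (c • v)).choose_spec (c • a)).2 fun t => ?_
    have h3 : wdg (τ j) ((c • v : KW F τ d (j + 1) s) : Fin n → W) t -
        τ (j + 1) t * ((c • a : F.M (s + d j - d (j + 1))) : W) =
        c * (wdg (τ j) (v : Fin n → W) t - τ (j + 1) t * a) := by
      rw [Submodule.coe_smul, Submodule.coe_smul, wdg_smul, smul_eq_mul, smul_eq_mul]; ring
    rw [h3]
    exact Ideal.mul_mem_left _ _ (h1 t)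

end feHom

end Vale.Agent.P177.PI
end

section

/-!
# The polynomial `H` of the key extension (P202, mixed characteristic, T4)
-/

namespace P202.Mix

open WittVector Polynomial LaurentPolynomial

variable {p : ℕ} [hp : Fact (Nat.Prime p)]


section

variable {C : Type*} [CommRing C]

theorem map_map_comp {D E : Type*} [CommRing D] [CommRing E] (f : C →+* D) (g : D →+* E) :
    (WittVector.map (p := p) g).comp (WittVector.map f) = WittVector.map (g.comp f) := by
  ext x n
  simp [WittVector.map_coeff]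

/-- The scalar `-∑ p ^ j [t] ^ (I - j)`. -/
noncomputable def kap (t : C) (I : ℕ) : WittVector p C :=
  -(∑ j ∈ Finset.range (I + 1), (p : WittVector p C) ^ j * teichmuller p t ^ (I - j))

/-- The polynomial `H`. -/
noncomputable def HH (t : C) (I : ℕ) (G : Polynomial (WittVector p C)) : Polynomial C :=
  (WittVector.map (Polynomial.C) (kap t I) *
    G.eval₂ (WittVector.map (Polynomial.C)) (teichmuller p (X : Polynomial C))).coeff I

theorem map_kap {D : Type*} [CommRing D] (f : C →+* D) (t : C) (I : ℕ) :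
    WittVector.map f (kap (p := p) t I) = kap (f t) I := by
  simp [kap, map_neg, map_sum, map_mul, map_pow, map_teichmuller]

theorem eval₂_HH {D : Type*} [CommRing D] (f : C →+* D) (c : D) (t : C) (I : ℕ)
    (G : Polynomial (WittVector p C)) :
    eval₂ f c (HH t I G) =
      (kap (f t) I * G.eval₂ (WittVector.map f) (teichmuller p c)).coeff I := by
  have h1 : eval₂ f c (HH t I G) = (WittVector.map (eval₂RingHom f c)
      (WittVector.map (Polynomial.C) (kap t I) *
        G.eval₂ (WittVector.map (Polynomial.C)) (teichmuller p (X : Polynomial C)))).coeff I := by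
    rw [WittVector.map_coeff]; rfl
  have h2 : (eval₂RingHom f c).comp Polynomial.C = f := by
    ext x; simp
  rw [h1, map_mul, Polynomial.hom_eval₂, map_map_comp, map_teichmuller, ← RingHom.comp_apply,
    map_map_comp, h2, map_kap]
  simp

theorem HH_reverse (t : C) (I : ℕ) (G : Polynomial (WittVector p C)) :
    HH t I G * X ^ (HH t I G.reverse).natDegree =
      X ^ (G.natDegree * p ^ I) * (HH t I G.reverse).reverse := by
  apply toLaurent_injective
  have hT : (teichmuller p (LaurentPolynomial.T (-1) : C[T;T⁻¹])) *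
      teichmuller p (LaurentPolynomial.T 1 : C[T;T⁻¹]) = 1 := by
    rw [← map_mul, ← LaurentPolynomial.T_add]; simp
  let _ : Invertible (teichmuller p (LaurentPolynomial.T 1 : C[T;T⁻¹])) :=
    ⟨teichmuller p (LaurentPolynomial.T (-1) : C[T;T⁻¹]), hT, by rw [mul_comm]; exact hT⟩
  have hinv : ⅟(teichmuller p (LaurentPolynomial.T 1 : C[T;T⁻¹])) =
      teichmuller p (LaurentPolynomial.T (-1) : C[T;T⁻¹]) := rfl
  -- value of `toLaurent H`
  have hA : toLaurent (HH t I G) = (kap (LaurentPolynomial.C t) I *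
      G.eval₂ (WittVector.map (LaurentPolynomial.C)) (teichmuller p (LaurentPolynomial.T 1))).coeff I := by
    rw [← eval₂_HH]
    conv_lhs => rw [← Polynomial.eval₂_C_X (p := HH t I G)]
    rw [Polynomial.hom_eval₂]
    congr 1
    · ext x; simp
    · simp
  have hB : LaurentPolynomial.invert (toLaurent (HH t I G.reverse)) =
      (kap (LaurentPolynomial.C t) I * G.reverse.eval₂ (WittVector.map (LaurentPolynomial.C))
        (teichmuller p (LaurentPolynomial.T (-1)))).coeff I := by
    rw [← eval₂_HH]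
    have : LaurentPolynomial.invert (toLaurent (HH t I G.reverse)) =
        ((LaurentPolynomial.invert : C[T;T⁻¹] ≃ₐ[C] C[T;T⁻¹]).toRingEquiv.toRingHom.comp
          (toLaurent : C[X] →+* C[T;T⁻¹])) (HH t I G.reverse) := rfl
    rw [this]
    conv_lhs => rw [← Polynomial.eval₂_C_X (p := HH t I G.reverse)]
    rw [Polynomial.hom_eval₂]
    congr 1
    · ext x; simp
    · simp
  have hAB : toLaurent (HH t I G) = LaurentPolynomial.T (G.natDegree * p ^ I : ℕ) *
      LaurentPolynomial.invert (toLaurent (HH t I G.reverse)) := by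
    rw [hA, hB, ← Polynomial.eval₂_reverse_mul_pow, hinv, ← map_pow]
    rw [show kap (LaurentPolynomial.C t) I * (eval₂ (WittVector.map LaurentPolynomial.C)
        (teichmuller p (LaurentPolynomial.T (-1))) G.reverse *
        teichmuller p (LaurentPolynomial.T 1 ^ G.natDegree)) =
        teichmuller p (LaurentPolynomial.T 1 ^ G.natDegree) * (kap (LaurentPolynomial.C t) I *
        eval₂ (WittVector.map LaurentPolynomial.C)
        (teichmuller p (LaurentPolynomial.T (-1))) G.reverse) by ring]
    rw [teichmuller_mul_coeff, ← pow_mul, LaurentPolynomial.T_pow]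
    simp
  rw [map_mul, map_mul, LaurentPolynomial.toLaurent_reverse, hAB, toLaurent_X_pow, toLaurent_X_pow]
  ring

theorem HH_natDegree_le (t : C) (I : ℕ) (G : Polynomial (WittVector p C)) :
    (HH t I G).natDegree ≤ G.natDegree * p ^ I := by
  have h := HH_reverse t I G
  by_cases h0 : HH t I G = 0
  · simp [h0]
  have : Nontrivial C := Polynomial.Nontrivial.of_polynomial_ne h0
  have h1 : (HH t I G * X ^ (HH t I G.reverse).natDegree).natDegree =
      (HH t I G).natDegree + (HH t I G.reverse).natDegree := by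
    rw [Polynomial.natDegree_mul_X_pow _ h0]
  have h2 : (X ^ (G.natDegree * p ^ I) * (HH t I G.reverse).reverse).natDegree ≤
      G.natDegree * p ^ I + (HH t I G.reverse).natDegree := by
    refine natDegree_mul_le.trans ?_
    exact Nat.add_le_add (natDegree_X_pow_le _) (reverse_natDegree_le _)
  rw [h] at h1
  omega

theorem HH_coeff (t : C) (I : ℕ) (G : Polynomial (WittVector p C)) (hG : G.Monic) :
    (HH t I G).coeff (G.natDegree * p ^ I) = (kap (p := p) t I).coeff I := by
  have h := congrArg (fun q => q.coeff (G.natDegree * p ^ I + (HH t I G.reverse).natDegree))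
    (HH_reverse t I G)
  rw [Polynomial.coeff_mul_X_pow] at h
  rw [h, mul_comm (X ^ _), add_comm, Polynomial.coeff_mul_X_pow, Polynomial.coeff_reverse,
    Polynomial.revAt_le le_rfl, Nat.sub_self]
  rw [Polynomial.coeff_zero_eq_eval_zero, ← Polynomial.eval₂_id, eval₂_HH]
  have : G.reverse.eval₂ (WittVector.map (RingHom.id C)) (teichmuller p (0 : C)) = 1 := by
    rw [teichmuller_zero, Polynomial.eval₂_at_zero, coeff_zero_reverse, hG.leadingCoeff, map_one]
  rw [this, mul_one]
  rfl

/-- If `t` lies in the Jacobson radical then the leading coefficient of `H` is a unit. -/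
theorem isUnit_kap_coeff [CharP C p] [Nontrivial C] (t : C) (ht : t ∈ (⊥ : Ideal C).jacobson)
    (I : ℕ) : IsUnit ((kap (p := p) t I).coeff I) := by
  set J := Ideal.span {t} with hJ
  let q := Ideal.Quotient.mk J
  have hq : q t = 0 := Ideal.Quotient.eq_zero_iff_mem.2 (Ideal.mem_span_singleton_self t)
  have hJ1 : J ≠ ⊤ := by
    intro h
    have h1 : (1 : C) ∈ J := h ▸ Submodule.mem_top
    obtain ⟨a, ha⟩ := Ideal.mem_span_singleton'.1 h1
    have h2 := (Ideal.mem_jacobson_bot.1 ht) (-a)
    rw [mul_neg, mul_comm t a, ha] at h2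
    simp at h2
  have hnt : Nontrivial (C ⧸ J) := Ideal.Quotient.nontrivial_iff.2 hJ1
  have hch : CharP (C ⧸ J) p := by
    rw [CharP.charP_iff_prime_eq_zero hp.out]
    have : ((p : ℕ) : C ⧸ J) = q ((p : ℕ) : C) := (map_natCast q p).symm
    rw [this, CharP.cast_eq_zero, map_zero]
  have h1 : q ((kap (p := p) t I).coeff I) = (-1) ^ p ^ I := by
    rw [← WittVector.map_coeff, map_kap, hq]
    have h2 : (kap (p := p) (0 : C ⧸ J) I) = (-1) * (p : WittVector p (C ⧸ J)) ^ I := by
      rw [kap, Finset.sum_range_succ, Finset.sum_eq_zero]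
      · simp
      · intro j hj
        rw [teichmuller_zero, zero_pow, mul_zero]
        have := Finset.mem_range.1 hj
        omega
    rw [h2]
    have h3 := WittVector.mul_pow_charP_coeff_succ (p := p) (-1 : WittVector p (C ⧸ J)) (m := 0) (n := I)
    rw [zero_add] at h3
    rw [h3]
    congr 1
    change WittVector.constantCoeff (p := p) (-1 : WittVector p (C ⧸ J)) = -1
    rw [map_neg, map_one]
  have h4 : (kap (p := p) t I).coeff I - (-1) ^ p ^ I ∈ J := by
    rw [← Ideal.Quotient.eq_zero_iff_mem, map_sub]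
    change q _ - q _ = 0
    rw [h1]; simp
  obtain ⟨a, ha⟩ := Ideal.mem_span_singleton'.1 h4
  have h5 : ((-1 : C) ^ p ^ I) * ((-1 : C) ^ p ^ I) = 1 := by
    rw [← mul_pow]; simp
  have h6 : (kap (p := p) t I).coeff I = (-1) ^ p ^ I * (t * ((-1) ^ p ^ I * a) + 1) := by
    have : (kap (p := p) t I).coeff I = a * t + (-1) ^ p ^ I := by rw [ha]; ring
    rw [this]
    calc a * t + (-1) ^ p ^ I = ((-1 : C) ^ p ^ I * (-1) ^ p ^ I) * (a * t) + (-1) ^ p ^ I := by
          rw [h5]; ring
      _ = _ := by ring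
  rw [h6]
  exact (IsUnit.of_mul_eq_one _ h5).mul (Ideal.mem_jacobson_bot.1 ht _)

end

end P202.Mix
end

section

/-!
# P177: the eigenflag filtration when the relations hold only after multiplication by `η`

Same as `Flag/Core.lean`, but every relation is only assumed after multiplication by an element
`η` (the properties `inj`, `Col`, `Sko` are exact). The errors are killed by explicit powers
of `η`.
-/

namespace Vale.Agent.P177.Flag

open Finset

variable {P E G : Type*} [CommRing P] [AddCommGroup E] [Module P E] [AddCommGroup G] {n : ℕ}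

/-- The relations of the Pluecker coordinates of a flag up to `η`. -/
structure FlagRelE (η : P) (T : ∀ j : ℕ, (Fin j → Fin n) → P) : Prop where
  zero : ∀ t, T 0 t = 1
  same : ∀ (j : ℕ) (ρ : Fin j → Fin n) (t : Fin (j + 2) → Fin n),
    η * wdg (T (j + 1)) (fun i => T (j + 1) (Fin.cons i ρ)) t = 0
  incl : ∀ (j : ℕ) (ρ : Fin j → Fin n) (t : Fin (j + 3) → Fin n),
    η * wdg (T (j + 2)) (fun i => T (j + 1) (Fin.cons i ρ)) t = 0
  step : ∀ (j : ℕ) (ρ : Fin j → Fin n) (t : Fin (j + 1) → Fin n),
    η * wdg (T j) (fun i => T (j + 1) (Fin.cons i ρ)) t = η * (T j ρ * T (j + 1) t)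

variable {η : P} {T : ∀ j : ℕ, (Fin j → Fin n) → P} {d : ℕ → G} {M : G → AddSubgroup E}

end Vale.Agent.P177.Flag
end

section

/-!
# P177: the eigenflag data of a graded family of ideals, relations up to `η`

`FDataE` is `FData` (PI/FEB.lean) with all relations multiplied by `η : W`. It yields the
hypotheses of `Flag/Eta.lean` for `P = E = F.E`, `T = TT F τ d`, `M = MF F good`.
-/

namespace Vale.Agent.P177.PI

open Vale.Agent.P177.Flag

universe u v

variable {W : Type u} [CommRing W] {G : Type v} [AddCommGroup G] {n : ℕ}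

/-- the data of a flag, with relations modulo `N` after multiplication by `η`. -/
structure FDataE (F : RFam W G) (τ : ∀ j : ℕ, (Fin j → Fin n) → W) (d : ℕ → G)
    (good : G → Prop) (η : W) : Prop where
  d_zero : d 0 = 0
  mem : ∀ j t, τ j t ∈ F.M (d j)
  zero : ∀ t, τ 0 t = 1
  same : ∀ (j : ℕ) (ρ : Fin j → Fin n) (t : Fin (j + 2) → Fin n),
    η * wdg (τ (j + 1)) (fun i => τ (j + 1) (Fin.cons i ρ)) t ∈ F.N (d (j + 1) + d (j + 1))
  incl : ∀ (j : ℕ) (ρ : Fin j → Fin n) (t : Fin (j + 3) → Fin n),
    η * wdg (τ (j + 2)) (fun i => τ (j + 1) (Fin.cons i ρ)) t ∈ F.N (d (j + 2) + d (j + 1))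
  step : ∀ (j : ℕ) (ρ : Fin j → Fin n) (t : Fin (j + 1) → Fin n),
    η * (wdg (τ j) (fun i => τ (j + 1) (Fin.cons i ρ)) t - τ j ρ * τ (j + 1) t) ∈
      F.N (d j + d (j + 1))
  top : ∀ (i : Fin n) (t : Fin (n + 1) → Fin n), η * wdg (τ n) (Pi.single i (1 : W)) t ∈ F.N (d n)
  good_add : ∀ s j, good s → good (s + d j)
  inj : ∀ j, j ≤ n → ∀ s, good s → ∀ x ∈ F.M s, (∀ t, τ j t * x ∈ F.N (s + d j)) → x ∈ F.N s

variable {F : RFam W G} {τ : ∀ j : ℕ, (Fin j → Fin n) → W} {d : ℕ → G} {good : G → Prop} {η : W}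

theorem cls_zero_mul {s : G} (w : W) {x : W} (hx : x ∈ F.M s) :
    F.cls 0 w * F.cls s x = F.cls s (w * x) := by
  rw [F.cls_mul (F.mem_zero w) hx, zero_add]

theorem cls_zero_smul_mem (w : W) (s' : G) : ∀ e ∈ MF F good s', F.cls 0 w • e ∈ MF F good s' := by
  classical
  intro e he
  by_cases hs' : good s'
  · rw [MF_of_good hs'] at he ⊢
    obtain ⟨x, hx, rfl⟩ := he
    rw [smul_eq_mul, cls_zero_mul w hx]
    exact F.cls_mem_part (Ideal.mul_mem_left _ _ hx)
  · rw [MF, if_neg hs', AddSubgroup.mem_bot] at he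
    rw [he, smul_eq_mul, mul_zero]
    exact zero_mem _

theorem FDataE.flagRelE (h : FDataE F τ d good η) : FlagRelE (F.cls 0 η) (TT F τ d) where
  zero t := by rw [TT, h.zero, h.d_zero, F.cls_one]
  same j ρ t := by
    have h1 := wdg_cls (F := F) (d := d) h.mem (j := j + 1) (s := d (j + 1))
      (v := fun i => τ (j + 1) (Fin.cons i ρ)) (fun i => h.mem _ _) t
    have h2 : F.cls 0 η * wdg (TT F τ d (j + 1))
        (fun i => F.cls (d (j + 1)) (τ (j + 1) (Fin.cons i ρ))) t = 0 := by
      rw [h1, cls_zero_mul η (wdg_mem_M h.mem (fun i => h.mem _ _) t),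
        F.cls_eq_zero_iff (Ideal.mul_mem_left _ _ (wdg_mem_M h.mem (fun i => h.mem _ _) t))]
      exact h.same j ρ t
    exact h2
  incl j ρ t := by
    have h1 := wdg_cls (F := F) (d := d) h.mem (j := j + 2) (s := d (j + 1))
      (v := fun i => τ (j + 1) (Fin.cons i ρ)) (fun i => h.mem _ _) t
    have h2 : F.cls 0 η * wdg (TT F τ d (j + 2))
        (fun i => F.cls (d (j + 1)) (τ (j + 1) (Fin.cons i ρ))) t = 0 := by
      rw [h1, cls_zero_mul η (wdg_mem_M h.mem (fun i => h.mem _ _) t),
        F.cls_eq_zero_iff (Ideal.mul_mem_left _ _ (wdg_mem_M h.mem (fun i => h.mem _ _) t))]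
      exact h.incl j ρ t
    exact h2
  step j ρ t := by
    have h1 := wdg_cls (F := F) (d := d) h.mem (j := j) (s := d (j + 1))
      (v := fun i => τ (j + 1) (Fin.cons i ρ)) (fun i => h.mem _ _) t
    have h2 : F.cls 0 η * wdg (TT F τ d j)
        (fun i => F.cls (d (j + 1)) (τ (j + 1) (Fin.cons i ρ))) t
        = F.cls 0 η * (TT F τ d j ρ * TT F τ d (j + 1) t) := by
      rw [h1, cls_zero_mul η (wdg_mem_M h.mem (fun i => h.mem _ _) t), TT, TT,
        F.cls_mul (h.mem _ _) (h.mem _ _), cls_zero_mul η (F.mul (h.mem _ _) (h.mem _ _)),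
        F.cls_eq_iff (Ideal.mul_mem_left _ _ (wdg_mem_M h.mem (fun i => h.mem _ _) t))
          (Ideal.mul_mem_left _ _ (F.mul (h.mem _ _) (h.mem _ _))), ← mul_sub]
      exact h.step j ρ t
    exact h2

theorem FDataE.graded (h : FDataE F τ d good η) : Graded (TT F τ d) d (MF F good) where
  d_zero := h.d_zero
  mem j t s e he := by
    classical
    by_cases hs : good s
    · rw [MF_of_good hs] at he
      rw [MF_of_good (h.good_add s j hs)]
      obtain ⟨x, hx, rfl⟩ := he
      rw [smul_eq_mul, TT, F.cls_mul (h.mem _ _) hx]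
      have h2 := F.cls_mem_part (F.mul (h.mem j t) hx)
      rw [add_comm (d j) s] at h2 ⊢
      exact h2
    · rw [MF, if_neg hs, AddSubgroup.mem_bot] at he
      rw [he, smul_eq_mul, mul_zero]
      exact zero_mem _
  inj j hj s e he h0 := by
    classical
    by_cases hs : good s
    · rw [MF_of_good hs] at he
      obtain ⟨x, hx, rfl⟩ := he
      rw [F.cls_eq_zero_iff hx]
      refine h.inj j hj s hs x hx fun t => ?_
      have h1 := h0 t
      rw [smul_eq_mul, TT, F.cls_mul (h.mem _ _) hx, F.cls_eq_zero_iff (F.mul (h.mem _ _) hx),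
        add_comm] at h1
      exact h1
    · rw [MF, if_neg hs, AddSubgroup.mem_bot] at he
      exact he

/-- the colon property in the graded ring. -/
theorem FDataE.col (h : FDataE F τ d good η) {j : ℕ} {s : G} (hs : good s)
    (hs' : good (s - d j)) (hcol : ColN F τ d j s) : Col (TT F τ d) d (MF F good) j s := by
  intro β hβ hpr
  rw [MF_of_good hs] at hβ
  choose b hb hbe using hβ
  obtain ⟨a, ha, hab⟩ := hcol b hb fun t t' => by
    have h1 := hpr t t'
    rw [hbe, hbe, smul_eq_mul, smul_eq_mul, TT, TT, F.cls_mul (h.mem _ _) (hb t),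
      F.cls_mul (h.mem _ _) (hb t'),
      F.cls_eq_iff (F.mul (h.mem _ _) (hb t)) (F.mul (h.mem _ _) (hb t'))] at h1
    rw [add_comm s]
    exact h1
  refine ⟨F.cls (s - d j) a, ?_, fun t => ?_⟩
  · rw [MF_of_good hs']
    exact F.cls_mem_part ha
  · have h2 := F.mul (h.mem j t) ha
    rw [add_sub_cancel] at h2
    rw [hbe, smul_eq_mul, TT, F.cls_mul (h.mem _ _) ha, add_sub_cancel, F.cls_eq_iff (hb t) h2]
    exact hab t

/-- the Skoda property in the graded ring. -/
theorem FDataE.sko (h : FDataE F τ d good η) {j : ℕ} {s : G} (hs : good s)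
    (hs' : good (s - d j)) (hsko : SkoN F τ d j s) : Sko (TT F τ d) d (MF F good) j s := by
  intro a ha
  rw [MF_of_good hs] at ha
  obtain ⟨x, hx, rfl⟩ := ha
  obtain ⟨g, hg, hxg⟩ := hsko x hx
  have h2 : ∀ ρ, τ j ρ * g ρ ∈ F.M s := fun ρ => by
    have := F.mul (h.mem j ρ) (hg ρ)
    rwa [add_sub_cancel] at this
  refine ⟨fun ρ => F.cls (s - d j) (g ρ), fun ρ => ?_, ?_⟩
  · rw [MF_of_good hs']
    exact F.cls_mem_part (hg ρ)
  · have h3 : ∀ ρ, TT F τ d j ρ • F.cls (s - d j) (g ρ) = F.cls s (τ j ρ * g ρ) := fun ρ => by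
      rw [smul_eq_mul, TT, F.cls_mul (h.mem _ _) (hg ρ), add_sub_cancel]
    rw [Finset.sum_congr rfl fun ρ _ => h3 ρ, ← F.cls_sum _ _ fun ρ _ => h2 ρ,
      F.cls_eq_iff hx (Ideal.sum_mem _ fun ρ _ => h2 ρ)]
    exact hxg

/-- the degree `s` part of the graded ring is `M s / N s`. -/
noncomputable def grPart (F : RFam W G) (s : G) : Gr F s →+ F.part s :=
  QuotientAddGroup.lift _
    { toFun := fun x : F.M s => (⟨F.cls s x, F.cls_mem_part x.2⟩ : F.part s)
      map_zero' := Subtype.ext (F.cls_zero s)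
      map_add' := fun x y => Subtype.ext (F.cls_add x.2 y.2) } (by
    intro x hx
    exact Subtype.ext ((F.cls_eq_zero_iff x.2).2 hx))

theorem grPart_mk {s : G} (x : F.M s) :
    ((grPart F s (Submodule.Quotient.mk x) : F.part s) : F.E) = F.cls s x := rfl

theorem grPart_bijective (s : G) : Function.Bijective (grPart F s) := by
  constructor
  · rw [injective_iff_map_eq_zero]
    intro q hq
    obtain ⟨x, rfl⟩ := Submodule.Quotient.mk_surjective _ q
    have h1 : F.cls s x = 0 := congrArg Subtype.val hq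
    rw [F.cls_eq_zero_iff x.2] at h1
    rw [Submodule.Quotient.mk_eq_zero]
    exact h1
  · rintro ⟨_, x, hx, rfl⟩
    exact ⟨Submodule.Quotient.mk ⟨x, hx⟩, Subtype.ext rfl⟩

theorem grPart_smul {s : G} (w : W) (q : Gr F s) :
    ((grPart F s (w • q) : F.part s) : F.E) = F.cls 0 w • ((grPart F s q : F.part s) : F.E) := by
  obtain ⟨x, rfl⟩ := Submodule.Quotient.mk_surjective _ q
  rw [← Submodule.Quotient.mk_smul, grPart_mk, grPart_mk, smul_eq_mul, cls_zero_mul w x.2]
  rfl

end Vale.Agent.P177.PI
end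

section

/-!
P177: Euler characteristics of a module with an approximate filtration.

`D` is a ring, `η` an element such that modules killed by a power of `η` are invisible. `K j` are
additive subgroups of the `D`-module `X`, stable under `D` only up to `η`, `φ j` are additive maps
from `K (j + 1)` to `D`-modules `M j`, bijective modulo `K j` and `D`-linear up to `η`. Then the
Euler characteristic of `X` is the sum of the Euler characteristics of the `M j`.
-/

namespace Vale.Agent.P177.Ap

universe u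

variable {D : Type u} [CommRing D]

/-- An Euler characteristic `θ` on the `D`-modules killed by `q`, defined on the class `Adm` of
admissible modules, which does not see the modules killed by powers of `η`. -/
structure IsTheta (η q : D) (θ : ∀ (X : Type u) [AddCommGroup X] [Module D X], ℝ)
    (Adm : ∀ (X : Type u) [AddCommGroup X] [Module D X], Prop) : Prop where
  zero : ∀ (X : Type u) [AddCommGroup X] [Module D X], (∀ x : X, x = 0) → Adm X ∧ θ X = 0
  iso : ∀ {X Y : Type u} [AddCommGroup X] [Module D X] [AddCommGroup Y] [Module D Y]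
    (f : X →ₗ[D] Y) (k : ℕ), (∀ x : X, q • x = 0) → (∀ y : Y, q • y = 0) →
    (∀ x, f x = 0 → η ^ k • x = 0) → (∀ y, ∃ x, f x = η ^ k • y) →
    (Adm X ↔ Adm Y) ∧ θ X = θ Y
  ext : ∀ {X' X X'' : Type u} [AddCommGroup X'] [Module D X'] [AddCommGroup X] [Module D X]
    [AddCommGroup X''] [Module D X''] (f : X' →ₗ[D] X) (g : X →ₗ[D] X''),
    Function.Injective f → Function.Surjective g → Function.Exact f g →
    (∀ x : X, q • x = 0) → Adm X' → Adm X'' → Adm X ∧ θ X = θ X' + θ X''

section Core

variable {X : Type u} [AddCommGroup X] [Module D X]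

/-- the largest submodule contained in an additive subgroup. -/
def core (K : AddSubgroup X) : Submodule D X where
  carrier := {v | ∀ d : D, d • v ∈ K}
  add_mem' := by
    intro a b ha hb d
    rw [smul_add]
    exact K.add_mem (ha d) (hb d)
  zero_mem' := by
    intro d
    rw [smul_zero]
    exact K.zero_mem
  smul_mem' := by
    intro c v hv d
    rw [smul_smul]
    exact hv _

theorem core_le {K : AddSubgroup X} {v : X} (hv : v ∈ core (D := D) K) : v ∈ K := by
  have h := hv 1
  rwa [one_smul] at h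

theorem core_mono {K K' : AddSubgroup X} (h : K ≤ K') : core (D := D) K ≤ core (D := D) K' :=
  fun _ hv d => h (hv d)

/-- the largest submodule on which an additive map is linear. -/
def linPart {M : Type u} [AddCommGroup M] [Module D M] (K : AddSubgroup X) (φ : K →+ M) :
    Submodule D X where
  carrier := {v | ∃ hv : v ∈ core (D := D) K, ∀ d : D,
    φ ⟨d • v, hv d⟩ = d • φ ⟨v, core_le hv⟩}
  add_mem' := by
    rintro a b ⟨ha, ha'⟩ ⟨hb, hb'⟩
    refine ⟨Submodule.add_mem _ ha hb, fun d => ?_⟩
    have h1 : (⟨d • (a + b), (Submodule.add_mem _ ha hb) d⟩ : K) =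
        ⟨d • a, ha d⟩ + ⟨d • b, hb d⟩ := Subtype.ext (smul_add _ _ _)
    have h2 : (⟨a + b, core_le (Submodule.add_mem _ ha hb)⟩ : K) =
        ⟨a, core_le ha⟩ + ⟨b, core_le hb⟩ := rfl
    rw [h1, h2, map_add, map_add, smul_add, ha', hb']
  zero_mem' := by
    refine ⟨Submodule.zero_mem _, fun d => ?_⟩
    have h1 : (⟨d • (0 : X), (Submodule.zero_mem (core (D := D) K)) d⟩ : K) = 0 :=
      Subtype.ext (smul_zero _)
    have h2 : (⟨(0 : X), core_le (Submodule.zero_mem (core (D := D) K))⟩ : K) = 0 := rfl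
    rw [h1, h2, map_zero, smul_zero]
  smul_mem' := by
    rintro c v ⟨hv, hv'⟩
    refine ⟨Submodule.smul_mem _ c hv, fun d => ?_⟩
    have h1 : (⟨d • c • v, (Submodule.smul_mem _ c hv) d⟩ : K) = ⟨(d * c) • v, hv (d * c)⟩ :=
      Subtype.ext (smul_smul _ _ _)
    rw [h1, hv', mul_smul, hv' c]

/-- the linear map on the part where `φ` is linear. -/
def linMap {M : Type u} [AddCommGroup M] [Module D M] (K : AddSubgroup X) (φ : K →+ M) :
    linPart (D := D) K φ →ₗ[D] M where
  toFun v := φ ⟨v.1, core_le v.2.1⟩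
  map_add' a b := by
    rw [← map_add]
    rfl
  map_smul' d v := v.2.2 d

end Core

section Main

variable {η q : D} {θ : ∀ (X : Type u) [AddCommGroup X] [Module D X], ℝ}
  {Adm : ∀ (X : Type u) [AddCommGroup X] [Module D X], Prop}

/-- A submodule of finite `η`-index has the same Euler characteristic. -/
theorem IsTheta.sub (Θ : IsTheta η q θ Adm) {X : Type u} [AddCommGroup X] [Module D X]
    (hq : ∀ x : X, q • x = 0) {A B : Submodule D X} (hAB : A ≤ B) (k : ℕ)
    (h : ∀ v ∈ B, η ^ k • v ∈ A) : (Adm A ↔ Adm B) ∧ θ A = θ B := by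
  refine Θ.iso (Submodule.inclusion hAB) k (fun x => Subtype.ext (hq _))
    (fun x => Subtype.ext (hq _)) (fun x hx => ?_) (fun y => ⟨⟨η ^ k • y.1, h _ y.2⟩, rfl⟩)
  have h1 : x = 0 := Submodule.inclusion_injective hAB (hx.trans (map_zero _).symm)
  rw [h1, smul_zero]

/-- **Approximate filtrations.** -/
theorem IsTheta.filtration (Θ : IsTheta η q θ Adm) {X : Type u} [AddCommGroup X] [Module D X]
    (hq : ∀ x : X, q • x = 0) (n : ℕ) (K : ℕ → AddSubgroup X) (h0 : K 0 = ⊥) (hn : K n = ⊤)
    (hmono : ∀ j < n, K j ≤ K (j + 1))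
    (hst : ∀ j ≤ n, ∀ (d : D), ∀ v ∈ K j, η • d • v ∈ K j)
    (M : ℕ → Type u) [∀ j, AddCommGroup (M j)] [∀ j, Module D (M j)]
    (hM : ∀ j < n, Adm (M j)) (hMq : ∀ j < n, ∀ m : M j, q • m = 0)
    (φ : ∀ j, K (j + 1) →+ M j)
    (hφη : ∀ j < n, ∀ (v : X) (hv : v ∈ K (j + 1)) (hv' : η • v ∈ K (j + 1)),
      φ j ⟨η • v, hv'⟩ = η • φ j ⟨v, hv⟩)
    (hφD : ∀ j < n, ∀ (d : D) (v : X) (hv : v ∈ K (j + 1)) (hv' : d • v ∈ K (j + 1)),
      η • (φ j ⟨d • v, hv'⟩ - d • φ j ⟨v, hv⟩) = 0)
    (hφ0 : ∀ j < n, ∀ (v : X) (hv : v ∈ K (j + 1)), v ∈ K j → φ j ⟨v, hv⟩ = 0)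
    (hφker : ∀ j < n, ∀ (v : X) (hv : v ∈ K (j + 1)), φ j ⟨v, hv⟩ = 0 → η • v ∈ K j)
    (hφsurj : ∀ j < n, ∀ m : M j, ∃ v : K (j + 1), φ j v = η • m) :
    Adm X ∧ θ X = ∑ j ∈ Finset.range n, θ (M j) := by
  -- `η K ≤ core K`
  have hcore : ∀ j ≤ n, ∀ v ∈ K j, η • v ∈ core (D := D) (K j) := by
    intro j hj v hv d
    rw [smul_comm]
    exact hst j hj d v hv
  have hlin : ∀ j < n, ∀ v ∈ core (D := D) (K (j + 1)), η • v ∈ linPart (D := D) (K (j + 1)) (φ j) := by
    intro j hj v hv
    refine ⟨Submodule.smul_mem _ η hv, fun d => ?_⟩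
    have h1 : (⟨d • η • v, (Submodule.smul_mem _ η hv) d⟩ : K (j + 1)) =
        ⟨η • d • v, hcore (j + 1) hj (d • v) (hv d) |> core_le⟩ :=
      Subtype.ext (smul_comm _ _ _)
    rw [h1, hφη j hj (d • v) (hv d), hφη j hj v (core_le hv), smul_comm d η, ← sub_eq_zero,
      ← smul_sub]
    exact hφD j hj d v (core_le hv) (hv d)
  have key : ∀ j ≤ n, Adm (core (D := D) (K j)) ∧
      θ (core (D := D) (K j)) = ∑ i ∈ Finset.range j, θ (M i) := by
    intro j
    induction j with
    | zero =>
      intro _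
      rw [Finset.sum_range_zero]
      refine Θ.zero _ fun x => Subtype.ext ?_
      have h1 : x.1 ∈ (⊥ : AddSubgroup X) := h0 ▸ core_le x.2
      exact h1
    | succ j ih =>
      intro hj
      have hj' : j < n := hj
      obtain ⟨ihA, ihθ⟩ := ih hj'.le
      set A := core (D := D) (K j) with hA
      set B := core (D := D) (K (j + 1)) with hB
      set G := linPart (D := D) (K (j + 1)) (φ j) with hG
      set ψ := linMap (D := D) (K (j + 1)) (φ j) with hψ
      have hGB : G ≤ B := fun v hv => hv.1
      have hAB : A ≤ B := core_mono (hmono j hj')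
      -- the range
      have hr : (Adm (LinearMap.range ψ) ↔ Adm (M j)) ∧ θ (LinearMap.range ψ) = θ (M j) := by
        refine Θ.iso (LinearMap.range ψ).subtype 3 (fun x => Subtype.ext (hMq j hj' _))
          (hMq j hj') (fun x hx => ?_) (fun m => ?_)
        · have h1 : x = 0 := Subtype.ext hx
          rw [h1, smul_zero]
        · obtain ⟨v, hv⟩ := hφsurj j hj' m
          have h1 : η • v.1 ∈ B := hcore (j + 1) hj v.1 v.2
          have h2 : η • η • v.1 ∈ G := hlin j hj' _ h1
          refine ⟨⟨ψ ⟨_, h2⟩, ⟨_, rfl⟩⟩, ?_⟩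
          show φ j ⟨η • η • v.1, _⟩ = η ^ 3 • m
          rw [hφη j hj' (η • v.1) (core_le h1), hφη j hj' v.1 v.2, hv, smul_smul, smul_smul]
          congr 1
          ring
      -- the kernel
      have hk : (Adm (LinearMap.ker ψ) ↔ Adm A) ∧ θ (LinearMap.ker ψ) = θ A := by
        have hAG : (Adm (A ⊓ G : Submodule D X) ↔ Adm A) ∧ θ (A ⊓ G : Submodule D X) = θ A := by
          refine Θ.sub hq inf_le_left 1 fun v hv => ?_
          rw [pow_one]
          exact ⟨Submodule.smul_mem _ _ hv, hlin j hj' _ (hAB hv)⟩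
        have hAK : (Adm (A ⊓ G : Submodule D X) ↔ Adm (LinearMap.ker ψ)) ∧
            θ (A ⊓ G : Submodule D X) = θ (LinearMap.ker ψ) := by
          let f : (A ⊓ G : Submodule D X) →ₗ[D] LinearMap.ker ψ :=
            LinearMap.codRestrict _ (Submodule.inclusion (inf_le_right : A ⊓ G ≤ G)) (by
              intro v
              rw [LinearMap.mem_ker]
              exact hφ0 j hj' v.1 _ (core_le v.2.1))
          refine Θ.iso f 1 (fun x => Subtype.ext (hq _))
            (fun x => Subtype.ext (Subtype.ext (hq _))) (fun x hx => ?_) (fun y => ?_)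
          · have h1 : x = 0 := Subtype.ext (congrArg (fun z => ((z : LinearMap.ker ψ).1 : G).1) hx)
            rw [h1, smul_zero]
          · have h1 : η • y.1.1 ∈ A := by
              intro d
              rw [smul_comm]
              have h2 : d • y ∈ (⊤ : Submodule D (LinearMap.ker ψ)) := trivial
              have h3 : ψ (d • y.1) = 0 := by
                rw [map_smul, LinearMap.mem_ker.1 y.2, smul_zero]
              exact hφker j hj' (d • y.1.1) (core_le (d • y.1).2.1) h3
            refine ⟨⟨η • y.1.1, h1, Submodule.smul_mem _ _ y.1.2⟩, ?_⟩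
            rw [pow_one]
            rfl
        exact ⟨hAK.1.symm.trans hAG.1, hAK.2.symm.trans hAG.2⟩
      have he := Θ.ext (LinearMap.ker ψ).subtype ψ.rangeRestrict
        (Submodule.subtype_injective _) ψ.surjective_rangeRestrict
        (by
          intro v
          rw [← LinearMap.mem_ker, LinearMap.ker_rangeRestrict]
          constructor
          · intro h
            exact ⟨⟨v, h⟩, rfl⟩
          · rintro ⟨w, rfl⟩
            exact w.2)
        (fun x => Subtype.ext (hq _)) (hk.1.2 ihA) (hr.1.2 (hM j hj'))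
      have hGB' := Θ.sub hq hGB 1 (fun v hv => by rw [pow_one]; exact hlin j hj' v hv)
      refine ⟨hGB'.1.1 he.1, ?_⟩
      rw [← hGB'.2, he.2, hk.2, hr.2, ihθ, Finset.sum_range_succ]
  have h1 := key n le_rfl
  have h2 : core (D := D) (K n) = ⊤ := by
    rw [hn]
    exact eq_top_iff.2 fun v _ d => trivial
  have h3 : (Adm (⊤ : Submodule D X) ↔ Adm X) ∧ θ (⊤ : Submodule D X) = θ X := by
    refine Θ.iso (⊤ : Submodule D X).subtype 0 (fun x => Subtype.ext (hq _)) hq
      (fun x hx => ?_) (fun y => ⟨⟨y, trivial⟩, ?_⟩)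
    · have h1 : x = 0 := Subtype.ext hx
      rw [h1, smul_zero]
    · rw [pow_zero, one_smul]
      rfl
  rw [h2] at h1
  exact ⟨h3.1.1 h1.1, h3.2.symm.trans h1.2⟩

end Main

end Vale.Agent.P177.Ap
end

section

/-!
P177: the eigenflag filtration when the Pluecker relations hold only after multiplication by `η`,
and the resulting formula for Euler characteristics.
-/

namespace Vale.Agent.P177.Ap

open Vale.Agent.P177.Flag

universe u

section Rel

variable {P E G : Type*} [CommRing P] [AddCommGroup E] [Module P E] [AddCommGroup G] {n : ℕ}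

/-- The relations of a full flag, up to `η`. -/
structure FlagRelA (η : P) (T : ∀ j : ℕ, (Fin j → Fin n) → P) : Prop where
  zero : ∀ t, T 0 t = 1
  same : ∀ (j : ℕ) (ρ : Fin j → Fin n) (t : Fin (j + 2) → Fin n),
    η * wdg (T (j + 1)) (fun i => T (j + 1) (Fin.cons i ρ)) t = 0
  incl : ∀ (j : ℕ) (ρ : Fin j → Fin n) (t : Fin (j + 3) → Fin n),
    η * wdg (T (j + 2)) (fun i => T (j + 1) (Fin.cons i ρ)) t = 0
  step : ∀ (j : ℕ) (ρ : Fin j → Fin n) (t : Fin (j + 1) → Fin n),
    η * (wdg (T j) (fun i => T (j + 1) (Fin.cons i ρ)) t - T j ρ * T (j + 1) t) = 0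
  top : ∀ (i : Fin n) (t : Fin (n + 1) → Fin n), η * wdg (T n) (Pi.single i (1 : P)) t = 0

/-- `X` acts on the `j`-th graded piece of the flag by `c j`, up to `η`. -/
def EigRelA (η : P) (T : ∀ j : ℕ, (Fin j → Fin n) → P) (X : Matrix (Fin n) (Fin n) P)
    (c : ℕ → P) : Prop :=
  ∀ (j : ℕ), j < n → ∀ (ρ : Fin j → Fin n) (t : Fin (j + 1) → Fin n),
    η * wdg (T j) (fun i => (∑ l, X i l * T (j + 1) (Fin.cons l ρ))
      - c j * T (j + 1) (Fin.cons i ρ)) t = 0

/-- The kernel filtration, up to `η`. -/
def KA (η : P) (T : ∀ j : ℕ, (Fin j → Fin n) → P) (M : G → AddSubgroup E) (j : ℕ) (s : G) :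
    AddSubgroup (Fin n → E) where
  carrier := {v | (∀ i, v i ∈ M s) ∧ ∀ t, η ^ j • wdg (T j) v t = 0}
  zero_mem' := ⟨fun _ => (M s).zero_mem, fun t => by rw [wdg_zero, smul_zero]⟩
  add_mem' := by
    rintro v w ⟨h1, h2⟩ ⟨h3, h4⟩
    exact ⟨fun i => (M s).add_mem (h1 i) (h3 i), fun t => by
      rw [wdg_add, smul_add, h2, h4, add_zero]⟩
  neg_mem' := by
    rintro v ⟨h1, h2⟩
    exact ⟨fun i => (M s).neg_mem (h1 i), fun t => by rw [wdg_neg, smul_neg, h2, neg_zero]⟩

variable {η : P} {T : ∀ j : ℕ, (Fin j → Fin n) → P} {d : ℕ → G} {M : G → AddSubgroup E}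

omit [AddCommGroup G] in
theorem KA_zero (hT : FlagRelA η T) (s : G) {v : Fin n → E} :
    v ∈ KA η T M 0 s ↔ v = 0 := by
  constructor
  · rintro ⟨-, h2⟩
    funext i
    have := h2 (fun _ => i)
    rwa [pow_zero, one_smul, wdg_zero_deg _ hT.zero] at this
  · rintro rfl
    exact AddSubgroup.zero_mem _

omit [AddCommGroup G] in
theorem pow_mem_M (hη : ∀ s, ∀ e ∈ M s, η • e ∈ M s) {s : G} {e : E} (he : e ∈ M s) (k : ℕ) :
    η ^ k • e ∈ M s := by
  induction k with
  | zero => rwa [pow_zero, one_smul]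
  | succ k ih => rw [pow_succ', mul_smul]; exact hη _ _ ih

/-- If `v ∧ T = 0` then `T τ • v` is a combination of contractions (signs outside). -/
theorem smul_of_wdg {j : ℕ} (T : (Fin (j + 1) → Fin n) → P) (w : Fin n → E)
    (hw : ∀ t, wdg T w t = 0) (τ : Fin (j + 1) → Fin n) :
    T τ • w = ∑ k : Fin (j + 1), ((-1 : P) ^ (k : ℕ)) • (fun i =>
      T (Fin.cons i (fun l => τ (k.succAbove l))) • w (τ k)) := by
  rw [smul_of_wdg_eq_zero _ _ hw τ]
  refine Finset.sum_congr rfl fun k _ => ?_
  funext i; simp [mul_smul]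

/-- wedging with `S` a vector killed by the wedge with `T`. -/
theorem wdg_of_rel {j j' : ℕ} (T : (Fin (j + 1) → Fin n) → P) (S : (Fin j' → Fin n) → P)
    (hrel : ∀ (ρ : Fin j → Fin n) (t : Fin (j' + 1) → Fin n),
      η * wdg S (fun i => T (Fin.cons i ρ)) t = 0)
    (w : Fin n → E) (hw : ∀ t, wdg T w t = 0) (τ : Fin (j + 1) → Fin n)
    (t : Fin (j' + 1) → Fin n) : T τ • (η • wdg S w t) = 0 := by
  rw [smul_comm (T τ) η, ← wdg_smul, smul_of_wdg T w hw τ, wdg_sum, Finset.smul_sum]
  refine Finset.sum_eq_zero fun k _ => ?_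
  rw [wdg_smul, wdg_smul_const, smul_comm η, smul_smul η, hrel, zero_smul, smul_zero]

theorem KA_mono (hT : FlagRelA η T) (hM : Graded T d M)
    (hη : ∀ s, ∀ e ∈ M s, η • e ∈ M s) (j : ℕ) (hj : j < n) (s : G) :
    KA η T M j s ≤ KA η T M (j + 1) s := by
  intro v hv
  cases j with
  | zero =>
    rw [(KA_zero hT s).1 hv]
    exact AddSubgroup.zero_mem _
  | succ j =>
    refine ⟨hv.1, fun t => ?_⟩
    have hmem : wdg (T (j + 1 + 1)) v t ∈ M (s + d (j + 1 + 1)) := hM.wdg_mem hv.1 t
    refine hM.inj (j + 1) hj.le _ _ (pow_mem_M hη hmem _) fun τ => ?_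
    have h1 := wdg_of_rel (η := η) (T (j + 1)) (T (j + 1 + 1)) (hT.incl j) (η ^ (j + 1) • v)
      (fun t => by rw [wdg_smul]; exact hv.2 t) τ t
    rw [wdg_smul, smul_smul η, ← pow_succ'] at h1
    exact h1

omit [AddCommGroup G] in
theorem KA_top (hT : FlagRelA η T) (hn : 0 < n) {s : G} {v : Fin n → E}
    (hv : ∀ i, v i ∈ M s) : v ∈ KA η T M n s := by
  refine ⟨hv, fun t => ?_⟩
  have h1 : v = ∑ i, (fun k => (Pi.single i (1 : P) : Fin n → P) k • v i) := by
    funext k
    rw [Finset.sum_apply]
    simp [Pi.single_apply]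
  obtain ⟨m, rfl⟩ := Nat.exists_eq_succ_of_ne_zero hn.ne'
  rw [h1, wdg_sum, Finset.smul_sum]
  refine Finset.sum_eq_zero fun i _ => ?_
  rw [wdg_smul_const, smul_smul, pow_succ, mul_assoc, hT.top, mul_zero, zero_smul]

/-- The eigenvector relation, up to powers of `η`. -/
theorem eig_A (hM : Graded T d M) (hη : ∀ s, ∀ e ∈ M s, η • e ∈ M s)
    {X : Matrix (Fin n) (Fin n) P} {c : ℕ → P} (hX : EigRelA η T X c) {j : ℕ} (hj : j < n) {s : G}
    (hXM : ∀ i l, ∀ e ∈ M s, X i l • e ∈ M s) (hcM : ∀ e ∈ M s, c j • e ∈ M s)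
    {v : Fin n → E} (hv : v ∈ KA η T M (j + 1) s) (t : Fin (j + 1) → Fin n) :
    η ^ (j + 2) • wdg (T j) (Vale.Agent.P177.Flag.act X v - c j • v) t = 0 := by
  have hmem : ∀ i, (Vale.Agent.P177.Flag.act X v - c j • v) i ∈ M s := fun i =>
    (M s).sub_mem (Vale.Agent.P177.Flag.act_mem hXM hv.1 i) (hcM _ (hv.1 i))
  refine hM.inj (j + 1) hj _ _ (pow_mem_M hη (hM.wdg_mem hmem t) _) fun τ => ?_
  set w : Fin n → E := η ^ (j + 1) • v with hw
  have hw0 : ∀ t, wdg (T (j + 1)) w t = 0 := fun t => by rw [hw, wdg_smul]; exact hv.2 t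
  have h1 : η ^ (j + 2) • wdg (T j) (Vale.Agent.P177.Flag.act X v - c j • v) t =
      η • wdg (T j) (Vale.Agent.P177.Flag.act X w - c j • w) t := by
    rw [hw, act_smul, smul_comm (c j), ← smul_sub, wdg_smul, smul_smul η, ← pow_succ']
  rw [h1, smul_comm (T (j + 1) τ), ← wdg_smul, smul_sub, ← act_smul,
    smul_comm (T (j + 1) τ) (c j) w, smul_of_wdg _ w hw0 τ,
    act_sum, Finset.smul_sum, ← Finset.sum_sub_distrib, wdg_sum, Finset.smul_sum]
  refine Finset.sum_eq_zero fun k _ => ?_
  rw [act_smul, smul_comm (c j), ← smul_sub, wdg_smul, act_smul_const]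
  have : ((fun i => (∑ l, X i l * T (j + 1) (Fin.cons l (fun l => τ (k.succAbove l)))) • w (τ k)) -
      c j • fun i => T (j + 1) (Fin.cons i (fun l => τ (k.succAbove l))) • w (τ k))
      = fun i => ((∑ l, X i l * T (j + 1) (Fin.cons l (fun l => τ (k.succAbove l))))
        - c j * T (j + 1) (Fin.cons i (fun l => τ (k.succAbove l)))) • w (τ k) := by
    funext i
    simp only [Pi.sub_apply, Pi.smul_apply, sub_smul, mul_smul]
  rw [this, wdg_smul_const, smul_comm η, smul_smul η, hX j hj, zero_smul, smul_zero]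

/-- A matrix satisfying the eigenvector relations preserves the filtration up to `η ^ 2`. -/
theorem act_KA (hT : FlagRelA η T) (hM : Graded T d M)
    (hη : ∀ s, ∀ e ∈ M s, η • e ∈ M s)
    {X : Matrix (Fin n) (Fin n) P} {c : ℕ → P} (hX : EigRelA η T X c) {j : ℕ} (hj : j < n) {s : G}
    (hXM : ∀ i l, ∀ e ∈ M s, X i l • e ∈ M s) (hcM : ∀ e ∈ M s, c j • e ∈ M s)
    {v : Fin n → E} (hv : v ∈ KA η T M (j + 1) s) :
    η ^ 2 • Vale.Agent.P177.Flag.act X v ∈ KA η T M (j + 1) s := by
  have hmemX : ∀ i, Vale.Agent.P177.Flag.act X v i ∈ M s := fun i => Vale.Agent.P177.Flag.act_mem hXM hv.1 i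
  have hmem : ∀ i, (Vale.Agent.P177.Flag.act X v - c j • v) i ∈ M s := fun i =>
    (M s).sub_mem (hmemX i) (hcM _ (hv.1 i))
  refine ⟨fun i => pow_mem_M hη (hmemX i) 2, fun t => ?_⟩
  -- the difference
  have h1 : η ^ (j + 3) • wdg (T (j + 1)) (Vale.Agent.P177.Flag.act X v - c j • v) t = 0 := by
    cases j with
    | zero =>
      have h2 : ∀ i, η ^ 2 • (Vale.Agent.P177.Flag.act X v - c 0 • v) i = 0 := fun i => by
        have := eig_A hM hη hX hj hXM hcM hv (fun _ => i)
        rwa [wdg_zero_deg _ hT.zero] at this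
      have h3 : η ^ 2 • (Vale.Agent.P177.Flag.act X v - c 0 • v) = 0 := funext h2
      rw [show 0 + 3 = 1 + 2 from rfl, pow_add, mul_smul, ← wdg_smul, h3, wdg_zero, smul_zero]
    | succ j =>
      refine hM.inj (j + 1) hj.le _ _ (pow_mem_M hη (hM.wdg_mem hmem t) _) fun τ => ?_
      have h2 := wdg_of_rel (η := η) (T (j + 1)) (T (j + 1 + 1)) (hT.incl j)
        (η ^ (j + 1 + 2) • (Vale.Agent.P177.Flag.act X v - c (j + 1) • v))
        (fun t => by rw [wdg_smul]; exact eig_A hM hη hX hj hXM hcM hv t) τ t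
      rw [wdg_smul, smul_smul η, ← pow_succ'] at h2
      exact h2
  have h2 : Vale.Agent.P177.Flag.act X v = (Vale.Agent.P177.Flag.act X v - c j • v) + c j • v := by abel
  rw [wdg_smul, smul_smul, ← pow_add, show j + 1 + 2 = j + 3 from rfl, h2, wdg_add, smul_add, h1,
    zero_add, wdg_smul, smul_comm, show j + 3 = 2 + (j + 1) by ring, pow_add, mul_smul, hv.2,
    smul_zero, smul_zero]

/-- The wedge of `v ∈ K (j+1)` with `T j` is proportional to `T (j+1)`, up to a power of `η`. -/
theorem prop_A (hT : FlagRelA η T) (hM : Graded T d M)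
    (hη : ∀ s, ∀ e ∈ M s, η • e ∈ M s) {j : ℕ} (hj : j < n) {s : G}
    {v : Fin n → E} (hv : v ∈ KA η T M (j + 1) s) (t t' : Fin (j + 1) → Fin n) :
    T (j + 1) t' • η ^ (j + 2) • wdg (T j) v t = T (j + 1) t • η ^ (j + 2) • wdg (T j) v t' := by
  have key : T (j + 1) t' • η ^ (j + 2) • wdg (T j) v t -
      T (j + 1) t • η ^ (j + 2) • wdg (T j) v t' = 0 := by
    refine hM.inj (j + 1) hj ((s + d j) + d (j + 1)) _ ?_ fun τ => ?_
    · exact (M _).sub_mem (hM.mem _ _ _ _ (pow_mem_M hη (hM.wdg_mem hv.1 t) _))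
        (hM.mem _ _ _ _ (pow_mem_M hη (hM.wdg_mem hv.1 t') _))
    · set w : Fin n → E := η ^ (j + 1) • v with hw
      have hw0 : ∀ t, wdg (T (j + 1)) w t = 0 := fun t => by rw [hw, wdg_smul]; exact hv.2 t
      have h1 : ∀ t : Fin (j + 1) → Fin n, T (j + 1) τ • η ^ (j + 2) • wdg (T j) v t =
          ∑ k : Fin (j + 1), ((-1 : P) ^ (k : ℕ)) •
            ((η * (T j (fun l => τ (k.succAbove l)) * T (j + 1) t)) • w (τ k)) := by
        intro t
        have h2 : η ^ (j + 2) • wdg (T j) v t = η • wdg (T j) w t := by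
          rw [hw, wdg_smul, smul_smul η, ← pow_succ']
        rw [h2, smul_comm (T (j + 1) τ) η, ← wdg_smul, smul_of_wdg _ w hw0 τ, wdg_sum,
          Finset.smul_sum]
        refine Finset.sum_congr rfl fun k _ => ?_
        rw [wdg_smul, wdg_smul_const, smul_comm η, smul_smul η]
        congr 2
        have h3 := hT.step j (fun l => τ (k.succAbove l)) t
        rw [mul_sub, sub_eq_zero] at h3
        exact h3
      rw [smul_sub, smul_comm (T (j + 1) τ) (T (j + 1) t'), smul_comm (T (j + 1) τ) (T (j + 1) t),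
        h1, h1, Finset.smul_sum, Finset.smul_sum, ← Finset.sum_sub_distrib]
      refine Finset.sum_eq_zero fun k _ => ?_
      rw [smul_comm (T (j + 1) t'), smul_comm (T (j + 1) t), ← smul_sub, smul_smul, smul_smul]
      rw [show T (j + 1) t' * (η * (T j (fun l => τ (k.succAbove l)) * T (j + 1) t))
        = T (j + 1) t * (η * (T j (fun l => τ (k.succAbove l)) * T (j + 1) t')) by ring]
      simp
  exact sub_eq_zero.mp key

theorem coord_unique_A (hM : Graded T d M) {j : ℕ} (hj : j ≤ n) {s : G} {a b : E}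
    (ha : a ∈ M s) (hb : b ∈ M s) (h : ∀ t, T j t • a = T j t • b) : a = b := by
  rw [← sub_eq_zero]
  exact hM.inj j hj s _ ((M s).sub_mem ha hb) fun t => by rw [smul_sub, h, sub_self]

theorem exists_coord_A (hT : FlagRelA η T) (hM : Graded T d M)
    (hη : ∀ s, ∀ e ∈ M s, η • e ∈ M s) {j : ℕ} (hj : j < n) {s : G}
    (hcol : Col T d M (j + 1) (s + d j)) {v : Fin n → E} (hv : v ∈ KA η T M (j + 1) s) :
    ∃ a ∈ M (s + d j - d (j + 1)), ∀ t, η ^ (n + 1) • wdg (T j) v t = T (j + 1) t • a := by
  refine hcol _ (fun t => pow_mem_M hη (hM.wdg_mem hv.1 t) _) fun t t' => ?_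
  have h1 := prop_A hT hM hη hj hv t t'
  obtain ⟨k, hk⟩ := Nat.exists_eq_add_of_le (show j + 2 ≤ n + 1 by omega)
  rw [hk, add_comm (j + 2) k, pow_add, mul_smul, mul_smul, smul_comm (T (j + 1) t'),
    smul_comm (T (j + 1) t), h1]

/-- The coordinate map. -/
noncomputable def coordA (hT : FlagRelA η T) (hM : Graded T d M)
    (hη : ∀ s, ∀ e ∈ M s, η • e ∈ M s) {j : ℕ} (hj : j < n) {s : G}
    (hcol : Col T d M (j + 1) (s + d j)) :
    (KA η T M (j + 1) s) →+ (M (s + d j - d (j + 1))) where
  toFun v := ⟨(exists_coord_A hT hM hη hj hcol v.2).choose,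
    (exists_coord_A hT hM hη hj hcol v.2).choose_spec.1⟩
  map_zero' := by
    apply Subtype.ext
    have h := (exists_coord_A hT hM hη hj hcol (KA η T M (j + 1) s).zero_mem).choose_spec
    refine coord_unique_A (j := j + 1) hM hj h.1 (AddSubgroup.zero_mem _) fun t => ?_
    have h2 := h.2 t
    refine h2.symm.trans ?_
    rw [wdg_zero]
    simp
  map_add' v w := by
    apply Subtype.ext
    have hv := (exists_coord_A hT hM hη hj hcol v.2).choose_spec
    have hw := (exists_coord_A hT hM hη hj hcol w.2).choose_spec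
    have hvw := (exists_coord_A hT hM hη hj hcol (v + w).2).choose_spec
    refine coord_unique_A (j := j + 1) hM hj hvw.1 (AddSubgroup.add_mem _ hv.1 hw.1)
      fun t => ?_
    refine (hvw.2 t).symm.trans ?_
    change η ^ (n + 1) • wdg (T j) ((v : Fin n → E) + (w : Fin n → E)) t =
      T (j + 1) t • (_ + _)
    rw [smul_add, wdg_add, smul_add, hv.2 t, hw.2 t]

theorem coordA_spec (hT : FlagRelA η T) (hM : Graded T d M)
    (hη : ∀ s, ∀ e ∈ M s, η • e ∈ M s) {j : ℕ} (hj : j < n) {s : G}
    (hcol : Col T d M (j + 1) (s + d j)) (v : KA η T M (j + 1) s) (t : Fin (j + 1) → Fin n) :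
    η ^ (n + 1) • wdg (T j) (v : Fin n → E) t =
      T (j + 1) t • ((coordA hT hM hη hj hcol v : M _) : E) :=
  (exists_coord_A hT hM hη hj hcol v.2).choose_spec.2 t

theorem coordA_eq (hT : FlagRelA η T) (hM : Graded T d M)
    (hη : ∀ s, ∀ e ∈ M s, η • e ∈ M s) {j : ℕ} (hj : j < n) {s : G}
    (hcol : Col T d M (j + 1) (s + d j)) (v : KA η T M (j + 1) s)
    (a : M (s + d j - d (j + 1)))
    (h : ∀ t, η ^ (n + 1) • wdg (T j) (v : Fin n → E) t = T (j + 1) t • (a : E)) :
    coordA hT hM hη hj hcol v = a := by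
  apply Subtype.ext
  refine coord_unique_A (j := j + 1) hM hj (coordA hT hM hη hj hcol v).2 a.2 fun t => ?_
  rw [← coordA_spec, h]

/-- Surjectivity up to `η ^ (n + 1)`. -/
theorem exists_of_coord_A (hT : FlagRelA η T) (hM : Graded T d M)
    (hη : ∀ s, ∀ e ∈ M s, η • e ∈ M s) {j : ℕ} (hj : j < n) {s : G}
    (hcol : Col T d M (j + 1) (s + d j)) (hsko : Sko T d M j (s + d j - d (j + 1)))
    (a : M (s + d j - d (j + 1))) :
    ∃ v : KA η T M (j + 1) s, ((coordA hT hM hη hj hcol v : M _) : E) = η ^ (n + 1) • (a : E) := by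
  obtain ⟨g, hg, hag⟩ := hsko a.1 a.2
  have hg' : ∀ ρ, g ρ ∈ M (s - d (j + 1)) := by
    intro ρ
    have := hg ρ
    rwa [show s + d j - d (j + 1) - d j = s - d (j + 1) by abel] at this
  have hv : (∑ ρ, fun i => T (j + 1) (Fin.cons i ρ) • g ρ) ∈ KA η T M (j + 1) s := by
    refine ⟨fun i => ?_, fun t => ?_⟩
    · rw [Finset.sum_apply]
      refine AddSubgroup.sum_mem _ fun ρ _ => ?_
      have := hM.mem (j + 1) (Fin.cons i ρ) _ _ (hg' ρ)
      rwa [sub_add_cancel] at this
    · rw [wdg_sum, Finset.smul_sum]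
      refine Finset.sum_eq_zero fun ρ _ => ?_
      rw [wdg_smul_const, smul_smul, pow_succ, mul_assoc, hT.same, mul_zero, zero_smul]
  refine ⟨⟨_, hv⟩, ?_⟩
  have h1 := coordA_eq hT hM hη hj hcol ⟨_, hv⟩ ⟨η ^ (n + 1) • (a : E), pow_mem_M hη a.2 _⟩
    (fun t => ?_)
  · rw [h1]
  · show η ^ (n + 1) • wdg (T j) (∑ ρ, fun i => T (j + 1) (Fin.cons i ρ) • g ρ) t =
      T (j + 1) t • η ^ (n + 1) • (a : E)
    rw [hag, wdg_sum, Finset.smul_sum, Finset.smul_sum, Finset.smul_sum]
    refine Finset.sum_congr rfl fun ρ _ => ?_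
    rw [wdg_smul_const, smul_comm (T (j + 1) t), pow_succ, mul_smul, mul_smul]
    congr 1
    have h3 := hT.step j ρ t
    rw [mul_sub, sub_eq_zero] at h3
    rw [smul_smul, h3, smul_smul (T (j + 1) t), smul_smul η]
    congr 1
    ring

end Rel

section Theta

variable {D : Type u} [CommRing D] {η' q : D}
  {θ : ∀ (X : Type u) [AddCommGroup X] [Module D X], ℝ}
  {Adm : ∀ (X : Type u) [AddCommGroup X] [Module D X], Prop}

theorem IsTheta.pow (Θ : IsTheta η' q θ Adm) (m : ℕ) : IsTheta (η' ^ m) q θ Adm where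
  zero := Θ.zero
  iso f k h1 h2 h3 h4 := by
    refine Θ.iso f (m * k) h1 h2 (fun x hx => ?_) (fun y => ?_)
    · rw [pow_mul]
      exact h3 x hx
    · rw [pow_mul]
      exact h4 y
  ext := Θ.ext

variable {P E G : Type*} [CommRing P] [AddCommGroup E] [Module P E] [AddCommGroup G] {n : ℕ}
  {η : P} {T : ∀ j : ℕ, (Fin j → Fin n) → P} {d : ℕ → G} {M : G → AddSubgroup E}

/-- **The flag formula.** `X` is the `D`-module `(M s) ^ n`, on which `D` acts through matrices
with eigencharacters `c j` with respect to an approximate flag; the pieces are isomorphic to the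
`D`-modules `N j` up to `η ^ k`. -/
theorem IsTheta.flagK (k : ℕ) (Θ : IsTheta η' q θ Adm) (hT : FlagRelA η T) (hM : Graded T d M)
    (hη : ∀ s, ∀ e ∈ M s, η • e ∈ M s) (hn : 0 < n) (s : G)
    (hcol : ∀ j < n, Col T d M (j + 1) (s + d j))
    (hsko : ∀ j < n, Sko T d M j (s + d j - d (j + 1)))
    {X : Type u} [AddCommGroup X] [Module D X] (hq : ∀ x : X, q • x = 0)
    (ι : X →+ (Fin n → E)) (hι : Function.Injective ι) (hιM : ∀ x i, ι x i ∈ M s)
    (hιs : ∀ v : Fin n → E, (∀ i, v i ∈ M s) → ∃ x, ι x = v)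
    (A : D → Matrix (Fin n) (Fin n) P) (hA : ∀ r x, ι (r • x) = Vale.Agent.P177.Flag.act (A r) (ι x))
    (hAM : ∀ r i l, ∀ e ∈ M s, A r i l • e ∈ M s)
    (c : D → ℕ → P) (hcM : ∀ r j s, ∀ e ∈ M s, c r j • e ∈ M s)
    (hEig : ∀ r, EigRelA η T (A r) (c r))
    (hη' : ∀ x, ι (η' • x) = η • ι x) (hcη : ∀ j, c η' j = η)
    (N : ℕ → Type u) [∀ j, AddCommGroup (N j)] [∀ j, Module D (N j)]
    (hN : ∀ j < n, Adm (N j)) (hNq : ∀ j < n, ∀ m : N j, q • m = 0)
    (π : ∀ j, M (s + d j - d (j + 1)) →+ N j) (hπ : ∀ j < n, ∀ m : N j, ∃ e, π j e = η' ^ k • m)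
    (hπ0 : ∀ j < n, ∀ e, π j e = 0 → η ^ k • (e : E) = 0)
    (hπD : ∀ j < n, ∀ (r : D) (e : M (s + d j - d (j + 1))),
      π j ⟨c r j • (e : E), hcM r j _ _ e.2⟩ = r • π j e) :
    Adm X ∧ θ X = ∑ j ∈ Finset.range n, θ (N j) := by
  classical
  -- powers of `η'`
  have hη'p : ∀ k x, ι (η' ^ k • x) = η ^ k • ι x := by
    intro k
    induction k with
    | zero => intro x; rw [pow_zero, pow_zero, one_smul, one_smul]
    | succ k ih => intro x; rw [pow_succ', mul_smul, hη', ih, pow_succ', mul_smul]
  have hπη : ∀ j < n, ∀ k (e : M (s + d j - d (j + 1))),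
      π j ⟨η ^ k • (e : E), pow_mem_M hη e.2 k⟩ = η' ^ k • π j e := by
    intro j hj k
    induction k with
    | zero =>
      intro e
      have h0 : (⟨η ^ 0 • (e : E), pow_mem_M hη e.2 0⟩ : M (s + d j - d (j + 1))) = e :=
        Subtype.ext (by
          show η ^ 0 • (e : E) = e
          rw [pow_zero, one_smul])
      rw [h0, pow_zero, one_smul]
    | succ k ih =>
      intro e
      have h1 := hπD j hj η' ⟨η ^ k • (e : E), pow_mem_M hη e.2 k⟩
      rw [ih] at h1
      have h0 : (⟨η ^ (k + 1) • (e : E), pow_mem_M hη e.2 (k + 1)⟩ :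
          M (s + d j - d (j + 1))) = ⟨c η' j • η ^ k • (e : E), hcM η' j _ _
            (pow_mem_M hη e.2 k)⟩ :=
        Subtype.ext (by
          show η ^ (k + 1) • (e : E) = c η' j • η ^ k • (e : E)
          rw [hcη, smul_smul, ← pow_succ'])
      rw [h0, h1, smul_smul, ← pow_succ']
  let K' : ℕ → AddSubgroup X := fun j => (KA η T M j s).comap ι
  let ιK : ∀ j, K' j →+ KA η T M j s := fun j =>
    { toFun := fun x => ⟨ι x.1, x.2⟩
      map_zero' := Subtype.ext (map_zero ι)
      map_add' := fun x y => Subtype.ext (map_add ι _ _) }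
  let φ : ∀ j, K' (j + 1) →+ N j := fun j =>
    if hj : j < n then (π j).comp ((coordA hT hM hη hj (hcol j hj)).comp (ιK (j + 1))) else 0
  have hφ : ∀ j (hj : j < n) (v : K' (j + 1)),
      φ j v = π j (coordA hT hM hη hj (hcol j hj) (ιK (j + 1) v)) := by
    intro j hj v
    simp only [φ, dif_pos hj]
    rfl
  refine (Θ.pow (n + 2 + k)).filtration hq n K' ?_ ?_ ?_ ?_ N hN hNq φ ?_ ?_ ?_ ?_ ?_
  · -- `K 0`
    rw [eq_bot_iff]
    intro x hx
    have h1 : ι x = 0 := (KA_zero hT s).1 hx
    exact hι (h1.trans (map_zero ι).symm)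
  · -- `K n`
    rw [eq_top_iff]
    intro x _
    exact KA_top hT hn (hιM x)
  · intro j hj x hx
    exact KA_mono hT hM hη j hj s hx
  · -- stability
    intro j hj r x hx
    show ι _ ∈ KA η T M j s
    rw [hη'p, hA]
    cases j with
    | zero =>
      have h1 : ι x = 0 := (KA_zero hT s).1 hx
      rw [h1]
      have h2 : Vale.Agent.P177.Flag.act (A r) (0 : Fin n → E) = 0 := by
        funext i
        simp [Vale.Agent.P177.Flag.act]
      rw [h2, smul_zero]
      exact AddSubgroup.zero_mem _
    | succ j =>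
      have h1 := act_KA hT hM hη (hEig r) hj (hAM r) (hcM r j s) hx
      rw [show n + 2 + k = (n + k) + 2 by ring, pow_add, mul_smul]
      refine ⟨fun i => ?_, fun t => ?_⟩
      · exact pow_mem_M hη (h1.1 i) (n + k)
      · rw [wdg_smul, smul_comm, h1.2, smul_zero]
  · -- `η'`-linearity
    intro j hj v hv hv'
    rw [hφ j hj, hφ j hj, ← hπη j hj]
    congr 1
    refine coordA_eq hT hM hη hj (hcol j hj) _ _ fun t => ?_
    show η ^ (n + 1) • wdg (T j) (ι (η' ^ (n + 2 + k) • v)) t = T (j + 1) t • η ^ (n + 2 + k) • _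
    rw [hη'p, wdg_smul, smul_comm (η ^ (n + 1)), smul_comm (T (j + 1) t)]
    congr 1
    exact coordA_spec hT hM hη hj (hcol j hj) (ιK (j + 1) ⟨v, hv⟩) t
  · -- `D`-linearity
    intro j hj r v hv hv'
    have h1 : φ j ⟨r • v, hv'⟩ = r • φ j ⟨v, hv⟩ := by
      rw [hφ j hj, hφ j hj, ← hπD j hj]
      congr 1
      refine coordA_eq hT hM hη hj (hcol j hj) _ _ fun t => ?_
      show η ^ (n + 1) • wdg (T j) (ι (r • v)) t = T (j + 1) t • c r j • _
      rw [smul_comm (T (j + 1) t) (c r j)]
      have h2 := coordA_spec hT hM hη hj (hcol j hj) (ιK (j + 1) ⟨v, hv⟩) t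
      rw [← h2]
      show η ^ (n + 1) • wdg (T j) (ι (r • v)) t = c r j • η ^ (n + 1) • wdg (T j) (ι v) t
      have h3 := eig_A hM hη (hEig r) hj (hAM r) (hcM r j s) hv t
      obtain ⟨l, hl⟩ := Nat.exists_eq_add_of_le (show j + 2 ≤ n + 1 by omega)
      have h4 : η ^ (n + 1) • wdg (T j) (Vale.Agent.P177.Flag.act (A r) (ι v) - c r j • ι v) t = 0 := by
        rw [hl, add_comm (j + 2) l, pow_add, mul_smul, h3, smul_zero]
      have h5 : Vale.Agent.P177.Flag.act (A r) (ι v) = (Vale.Agent.P177.Flag.act (A r) (ι v) - c r j • ι v) + c r j • ι v := by abel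
      rw [hA, h5, wdg_add, smul_add, h4, zero_add, wdg_smul, smul_comm]
    rw [h1, sub_self, smul_zero]
  · -- zero on `K j`
    intro j hj v hv hv'
    rw [hφ j hj]
    have h1 : coordA hT hM hη hj (hcol j hj) (ιK (j + 1) ⟨v, hv⟩) = 0 := by
      refine coordA_eq hT hM hη hj (hcol j hj) _ _ fun t => ?_
      show η ^ (n + 1) • wdg (T j) (ι v) t = T (j + 1) t • (0 : E)
      obtain ⟨l, hl⟩ := Nat.exists_eq_add_of_le (show j ≤ n + 1 by omega)
      rw [smul_zero, hl, add_comm j l, pow_add, mul_smul, hv'.2 t, smul_zero]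
    rw [h1, map_zero]
  · -- kernel
    intro j hj v hv h0
    rw [hφ j hj] at h0
    have h1 := hπ0 j hj _ h0
    have h2 : ∀ t, η ^ (n + 2 + k) • wdg (T j) (ι v) t = 0 := by
      intro t
      have h3 := coordA_spec hT hM hη hj (hcol j hj) (ιK (j + 1) ⟨v, hv⟩) t
      have h4 : η ^ k • η ^ (n + 1) • wdg (T j) (ι v) t = 0 := by
        have h5 : η ^ (n + 1) • wdg (T j) (ι v) t = _ := h3
        rw [h5, smul_comm, h1, smul_zero]
      rw [show n + 2 + k = 1 + (k + (n + 1)) by ring, pow_add, mul_smul, pow_add, mul_smul, h4,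
        smul_zero]
    show ι _ ∈ KA η T M j s
    rw [hη'p]
    refine ⟨fun i => pow_mem_M hη (hιM v i) _, fun t => ?_⟩
    rw [wdg_smul, h2, smul_zero]
  · -- cokernel
    intro j hj m
    obtain ⟨e, he⟩ := hπ j hj m
    obtain ⟨v, hv⟩ := exists_of_coord_A hT hM hη hj (hcol j hj) (hsko j hj) e
    obtain ⟨x, hx⟩ := hιs v.1 v.2.1
    have hxK : η' • x ∈ K' (j + 1) := by
      show ι _ ∈ KA η T M (j + 1) s
      rw [hη', hx]
      refine ⟨fun i => hη _ _ (v.2.1 i), fun t => ?_⟩
      rw [wdg_smul, smul_comm, v.2.2, smul_zero]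
    refine ⟨⟨_, hxK⟩, ?_⟩
    rw [hφ j hj, pow_add, mul_smul, ← he, ← hπη j hj]
    congr 1
    refine coordA_eq hT hM hη hj (hcol j hj) _ _ fun t => ?_
    show η ^ (n + 1) • wdg (T j) (ι (η' • x)) t = T (j + 1) t • η ^ (n + 2) • (e : E)
    have h2 := coordA_spec hT hM hη hj (hcol j hj) v t
    rw [hv] at h2
    rw [hη', hx, wdg_smul, smul_comm (η ^ (n + 1)), h2, smul_comm η, smul_smul η, ← pow_succ']

/-- **The flag formula** (`flagK` for `k = 1`). -/
theorem IsTheta.flag (Θ : IsTheta η' q θ Adm) (hT : FlagRelA η T) (hM : Graded T d M)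
    (hη : ∀ s, ∀ e ∈ M s, η • e ∈ M s) (hn : 0 < n) (s : G)
    (hcol : ∀ j < n, Col T d M (j + 1) (s + d j))
    (hsko : ∀ j < n, Sko T d M j (s + d j - d (j + 1)))
    {X : Type u} [AddCommGroup X] [Module D X] (hq : ∀ x : X, q • x = 0)
    (ι : X →+ (Fin n → E)) (hι : Function.Injective ι) (hιM : ∀ x i, ι x i ∈ M s)
    (hιs : ∀ v : Fin n → E, (∀ i, v i ∈ M s) → ∃ x, ι x = v)
    (A : D → Matrix (Fin n) (Fin n) P) (hA : ∀ r x, ι (r • x) = Vale.Agent.P177.Flag.act (A r) (ι x))
    (hAM : ∀ r i l, ∀ e ∈ M s, A r i l • e ∈ M s)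
    (c : D → ℕ → P) (hcM : ∀ r j s, ∀ e ∈ M s, c r j • e ∈ M s)
    (hEig : ∀ r, EigRelA η T (A r) (c r))
    (hη' : ∀ x, ι (η' • x) = η • ι x) (hcη : ∀ j, c η' j = η)
    (N : ℕ → Type u) [∀ j, AddCommGroup (N j)] [∀ j, Module D (N j)]
    (hN : ∀ j < n, Adm (N j)) (hNq : ∀ j < n, ∀ m : N j, q • m = 0)
    (π : ∀ j, M (s + d j - d (j + 1)) →+ N j) (hπ : ∀ j < n, Function.Surjective (π j))
    (hπ0 : ∀ j < n, ∀ e, π j e = 0 → η • (e : E) = 0)
    (hπD : ∀ j < n, ∀ (r : D) (e : M (s + d j - d (j + 1))),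
      π j ⟨c r j • (e : E), hcM r j _ _ e.2⟩ = r • π j e) :
    Adm X ∧ θ X = ∑ j ∈ Finset.range n, θ (N j) :=
  Θ.flagK 1 hT hM hη hn s hcol hsko hq ι hι hιM hιs A hA hAM c hcM hEig hη' hcη N hN hNq π
    (fun j hj _ => hπ j hj _) (fun j hj e he => by rw [pow_one]; exact hπ0 j hj e he) hπD

end Theta

end Vale.Agent.P177.Ap
end

section

/-!
# P177: the flag formula for a graded family of pairs of ideals

`W` is a commutative ring (in the application `W(C)`), `F : RFam W G` a family `N s ≤ M s`,
`τ j t ∈ M (d j)` the Pluecker coordinates, relations modulo `N` after multiplication by `η`.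
`X` is the `D`-module `(M s / N s) ^ n`, on which `D` acts through matrices over `W`. Then
`θ X = ∑ θ (N_j)`, `N_j` the module `M (s + d j - d (j+1)) / N` with `D` acting through the
`j`-th eigencharacter.
-/

namespace Vale.Agent.P177.PI

open Vale.Agent.P177.Flag Vale.Agent.P177.Ap

universe u v w

section

variable {W : Type w} [CommRing W] {G : Type v} [AddCommGroup G] {n : ℕ}

variable {F : RFam W G} {τ : ∀ j : ℕ, (Fin j → Fin n) → W} {d : ℕ → G} {good : G → Prop} {η : W}

/-- relation of an operator `X` with the scalars `c` modulo `N`, up to `η`, in degrees `< n`. -/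
def EigNA (F : RFam W G) (τ : ∀ j : ℕ, (Fin j → Fin n) → W) (d : ℕ → G) (η : W)
    (X : Matrix (Fin n) (Fin n) W) (c : ℕ → W) : Prop :=
  ∀ j : ℕ, j < n → ∀ (ρ : Fin j → Fin n) (t : Fin (j + 1) → Fin n),
    η * wdg (τ j) (fun i => (∑ l, X i l * τ (j + 1) (Fin.cons l ρ))
      - c j * τ (j + 1) (Fin.cons i ρ)) t ∈ F.N (d j + d (j + 1))

theorem EigNA.zero : EigNA F τ d η 0 0 := by
  intro j _ ρ t
  have h1 : (fun i : Fin n => (∑ l, (0 : Matrix (Fin n) (Fin n) W) i l *
      τ (j + 1) (Fin.cons l ρ)) - (0 : ℕ → W) j * τ (j + 1) (Fin.cons i ρ)) = 0 := by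
    funext i
    simp
  rw [h1, wdg_zero, mul_zero]
  exact zero_mem _

theorem EigNA.add {X Y : Matrix (Fin n) (Fin n) W} {a b : ℕ → W} (hX : EigNA F τ d η X a)
    (hY : EigNA F τ d η Y b) : EigNA F τ d η (X + Y) (a + b) := by
  intro j hj ρ t
  have h1 : (fun i : Fin n => (∑ l, (X + Y) i l * τ (j + 1) (Fin.cons l ρ)) -
      (a + b) j * τ (j + 1) (Fin.cons i ρ)) =
      (fun i : Fin n => (∑ l, X i l * τ (j + 1) (Fin.cons l ρ)) -
        a j * τ (j + 1) (Fin.cons i ρ)) +
      (fun i : Fin n => (∑ l, Y i l * τ (j + 1) (Fin.cons l ρ)) -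
        b j * τ (j + 1) (Fin.cons i ρ)) := by
    funext i
    simp only [Pi.add_apply, Matrix.add_apply, add_mul, Finset.sum_add_distrib]
    ring
  rw [h1, wdg_add, mul_add]
  exact add_mem (hX j hj ρ t) (hY j hj ρ t)

theorem EigNA.smul {X : Matrix (Fin n) (Fin n) W} {a : ℕ → W} (w : W)
    (hX : EigNA F τ d η X a) : EigNA F τ d η (w • X) (w • a) := by
  intro j hj ρ t
  have h1 : (fun i : Fin n => (∑ l, (w • X) i l * τ (j + 1) (Fin.cons l ρ)) -
      (w • a) j * τ (j + 1) (Fin.cons i ρ)) =
      w • (fun i : Fin n => (∑ l, X i l * τ (j + 1) (Fin.cons l ρ)) -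
        a j * τ (j + 1) (Fin.cons i ρ)) := by
    funext i
    simp only [Pi.smul_apply, Matrix.smul_apply, smul_eq_mul, mul_sub, Finset.mul_sum, mul_assoc]
  rw [h1, wdg_smul, smul_eq_mul, mul_left_comm]
  exact Ideal.mul_mem_left _ _ (hX j hj ρ t)

theorem EigNA.one (w : W) : EigNA F τ d η (w • (1 : Matrix (Fin n) (Fin n) W)) (fun _ => w) := by
  intro j _ ρ t
  have h1 : (fun i : Fin n => (∑ l, (w • (1 : Matrix (Fin n) (Fin n) W)) i l *
      τ (j + 1) (Fin.cons l ρ)) - w * τ (j + 1) (Fin.cons i ρ)) = 0 := by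
    funext i
    simp [Matrix.smul_apply, Matrix.one_apply]
  rw [h1, wdg_zero, mul_zero]
  exact zero_mem _

end

section Sum

variable {W : Type w} [CommRing W] {G : Type v} [AddCommGroup G] {n : ℕ}

variable {F : RFam W G} {τ : ∀ j : ℕ, (Fin j → Fin n) → W} {d : ℕ → G} {good : G → Prop} {η : W}

variable {D : Type u} [CommRing D] {η' q : D}
  {θ : ∀ (X : Type u) [AddCommGroup X] [Module D X], ℝ}
  {Adm : ∀ (X : Type u) [AddCommGroup X] [Module D X], Prop}

end Sum

section Gen

variable {W : Type w} [CommRing W] {G : Type v} [AddCommGroup G] {n : ℕ}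

variable {F : RFam W G} {τ : ∀ j : ℕ, (Fin j → Fin n) → W} {d : ℕ → G} {good : G → Prop} {η : W}

variable {R : Type*} [CommRing R] {D : Type u} [CommRing D] {q : D}
  {θ : ∀ (X : Type u) [AddCommGroup X] [Module D X], ℝ}
  {Adm : ∀ (X : Type u) [AddCommGroup X] [Module D X], Prop}

end Gen

end Vale.Agent.P177.PI
end

section

/-!
P177: Weierstrass division for `Λ[[x_1, .., x_n]]` by monic polynomials `F_l(x_l)` with lower
coefficients in `I`, `Λ` noetherian and `I`-adically complete.
-/

namespace Vale.Agent.P177.Lf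

section pi

variable {L : Type*} [CommRing L] (I : Ideal L) {σ : Type*}

theorem mem_pow_smul_pi {m : ℕ} (hfg : (I ^ m).FG) (v : σ → L) :
    v ∈ (I ^ m • (⊤ : Submodule L (σ → L))) ↔ ∀ i, v i ∈ I ^ m := by
  constructor
  · intro h i
    have h2 : (LinearMap.proj i : (σ → L) →ₗ[L] L) v ∈
        Submodule.map (LinearMap.proj i : (σ → L) →ₗ[L] L)
          (I ^ m • (⊤ : Submodule L (σ → L))) := Submodule.mem_map_of_mem h
    rw [Submodule.map_smul''] at h2
    have h3 := Submodule.smul_mono (le_refl (I ^ m)) (le_top : Submodule.map (LinearMap.proj i :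
      (σ → L) →ₗ[L] L) (⊤ : Submodule L (σ → L)) ≤ ⊤) h2
    simpa using h3
  · intro h
    obtain ⟨s, e, he⟩ := Submodule.fg_iff_exists_fin_generating_family.1 hfg
    have h1 : ∀ i, ∃ b : Fin s → L, ∑ j, b j • e j = v i := by
      intro i
      have := h i
      rw [← he, Submodule.mem_span_range_iff_exists_fun] at this
      exact this
    choose b hb using h1
    have h2 : v = ∑ j, e j • fun i => b i j := by
      ext i
      rw [Finset.sum_apply, ← hb i]
      refine Finset.sum_congr rfl fun j _ => ?_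
      rw [Pi.smul_apply, smul_eq_mul, smul_eq_mul, mul_comm]
    rw [h2]
    refine Submodule.sum_mem _ fun j _ => Submodule.smul_mem_smul ?_ trivial
    rw [← he]
    exact Submodule.subset_span ⟨j, rfl⟩

theorem isPrecomplete_pi [IsNoetherianRing L] [IsPrecomplete I L] : IsPrecomplete I (σ → L) := by
  have key : ∀ (m : ℕ) (v : σ → L),
      v ∈ (I ^ m • (⊤ : Submodule L (σ → L))) ↔ ∀ i, v i ∈ I ^ m := fun m v =>
    mem_pow_smul_pi I ((isNoetherianRing_iff_ideal_fg L).1 inferInstance _) v
  refine ⟨fun f hf => ?_⟩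
  have h1 : ∀ i, ∃ l : L, ∀ m, f m i ≡ l [SMOD (I ^ m • ⊤ : Submodule L L)] := by
    intro i
    refine IsPrecomplete.prec ‹_› (f := fun m => f m i) fun {m m'} hm => ?_
    have h2 := hf hm
    rw [SModEq.sub_mem, key] at h2
    rw [SModEq.sub_mem, smul_eq_mul, Ideal.mul_top]
    exact h2 i
  choose l hl using h1
  refine ⟨l, fun m => ?_⟩
  rw [SModEq.sub_mem, key]
  intro i
  have h2 := hl i m
  rw [SModEq.sub_mem, smul_eq_mul, Ideal.mul_top] at h2
  exact h2

theorem isHausdorff_pi [IsNoetherianRing L] [IsHausdorff I L] : IsHausdorff I (σ → L) := by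
  have key : ∀ (m : ℕ) (v : σ → L),
      v ∈ (I ^ m • (⊤ : Submodule L (σ → L))) ↔ ∀ i, v i ∈ I ^ m := fun m v =>
    mem_pow_smul_pi I ((isNoetherianRing_iff_ideal_fg L).1 inferInstance _) v
  refine ⟨fun v hv => ?_⟩
  funext i
  refine IsHausdorff.haus ‹_› (v i) fun m => ?_
  have h2 := hv m
  rw [SModEq.zero, key] at h2
  rw [SModEq.zero, smul_eq_mul, Ideal.mul_top]
  exact h2 i

end pi

section wdiv

variable {Λ : Type*} [CommRing Λ] {n : ℕ}

/-- `F(x_l)`. -/
noncomputable def px (l : Fin n) (F : Polynomial Λ) : MvPolynomial (Fin n) Λ :=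
  Polynomial.aeval (MvPolynomial.X l) F

/-- the power series with coefficients in `I`. -/
def cI (I : Ideal Λ) : Ideal (MvPowerSeries (Fin n) Λ) where
  carrier := {f | ∀ β, MvPowerSeries.coeff β f ∈ I}
  add_mem' := by
    intro f g hf hg β
    rw [map_add]
    exact add_mem (hf β) (hg β)
  zero_mem' := by
    intro β
    rw [map_zero]
    exact zero_mem _
  smul_mem' := by
    classical
    intro c f hf β
    rw [smul_eq_mul, MvPowerSeries.coeff_mul]
    exact Ideal.sum_mem _ fun x _ => Ideal.mul_mem_left _ _ (hf _)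

theorem px_sub_mem (I : Ideal Λ) (l : Fin n) {F : Polynomial Λ} (hF : F.Monic)
    (hFI : ∀ i < F.natDegree, F.coeff i ∈ I) :
    (px l F : MvPowerSeries (Fin n) Λ) - MvPowerSeries.X l ^ F.natDegree ∈ cI I := by
  have h1 : px l F = MvPolynomial.X l ^ F.natDegree +
      ∑ i ∈ Finset.range F.natDegree, MvPolynomial.C (F.coeff i) * MvPolynomial.X l ^ i := by
    conv_lhs => rw [px, hF.as_sum]
    rw [map_add, map_pow, Polynomial.aeval_X, map_sum]
    congr 1
    refine Finset.sum_congr rfl fun i _ => ?_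
    rw [map_mul, map_pow, Polynomial.aeval_X, Polynomial.aeval_C]
    rfl
  rw [h1]
  have h2 : ((MvPolynomial.X l ^ F.natDegree +
      ∑ i ∈ Finset.range F.natDegree, MvPolynomial.C (F.coeff i) * MvPolynomial.X l ^ i :
        MvPolynomial (Fin n) Λ) : MvPowerSeries (Fin n) Λ) = MvPowerSeries.X l ^ F.natDegree +
      ∑ i ∈ Finset.range F.natDegree, MvPowerSeries.C (F.coeff i) * MvPowerSeries.X l ^ i := by
    rw [← MvPolynomial.coeToMvPowerSeries.ringHom_apply, map_add, map_pow, map_sum]
    simp only [map_mul, map_pow, MvPolynomial.coeToMvPowerSeries.ringHom_apply,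
      MvPolynomial.coe_X, MvPolynomial.coe_C]
  rw [h2, add_sub_cancel_left]
  refine Ideal.sum_mem _ fun i hi => Ideal.mul_mem_right _ _ ?_
  intro β
  classical
  rw [MvPowerSeries.coeff_C]
  split_ifs
  · exact hFI i (Finset.mem_range.1 hi)
  · exact zero_mem _

variable [IsNoetherianRing Λ] (I : Ideal Λ) [IsAdicComplete I Λ]

theorem wdiv (F : Fin n → Polynomial Λ) (hF : ∀ l, (F l).Monic)
    (hFI : ∀ l, ∀ i < (F l).natDegree, (F l).coeff i ∈ I) (g : MvPowerSeries (Fin n) Λ) :
    ∃ (P : MvPolynomial (Fin n) Λ) (q : Fin n → MvPowerSeries (Fin n) Λ),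
      g = P + ∑ l, (px l (F l) : MvPowerSeries (Fin n) Λ) * q l := by
  classical
  set N : Fin n → ℕ := fun l => (F l).natDegree with hN
  let Nf : Fin n →₀ ℕ := Finsupp.equivFunOnFinite.symm N
  let B : Finset (Fin n →₀ ℕ) := Finset.Iic Nf
  let σ := ↥B ⊕ (Fin n × (Fin n →₀ ℕ))
  let G : (σ → Λ) → Fin n → MvPowerSeries (Fin n) Λ := fun v l => fun β => v (Sum.inr (l, β))
  let Q : (σ → Λ) → MvPolynomial (Fin n) Λ := fun v =>
    ∑ α : B, MvPolynomial.monomial α.1 (v (Sum.inl α))
  let Ψ : (σ → Λ) →ₗ[Λ] MvPowerSeries (Fin n) Λ :=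
    { toFun := fun v => (Q v : MvPowerSeries (Fin n) Λ) +
        ∑ l, (px l (F l) : MvPowerSeries (Fin n) Λ) * G v l
      map_add' := by
        intro v w
        have h1 : Q (v + w) = Q v + Q w := by
          simp only [Q, Pi.add_apply, map_add, Finset.sum_add_distrib]
        have h2 : ∀ l, G (v + w) l = G v l + G w l := fun l => rfl
        rw [h1, MvPolynomial.coe_add]
        simp only [h2, mul_add, Finset.sum_add_distrib]
        ring
      map_smul' := by
        intro c v
        have h1 : Q (c • v) = c • Q v := by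
          simp only [Q, Pi.smul_apply, map_smul, Finset.smul_sum]
        have h2 : ∀ l, G (c • v) l = c • G v l := fun l => rfl
        rw [h1, MvPolynomial.coe_smul]
        simp only [h2, mul_smul_comm, ← Finset.smul_sum, RingHom.id_apply, smul_add] }
  have hΨ : ∀ v, Ψ v = (Q v : MvPowerSeries (Fin n) Λ) +
    ∑ l, (px l (F l) : MvPowerSeries (Fin n) Λ) * G v l := fun v => rfl
  suffices hs : Function.Surjective Ψ by
    obtain ⟨v, hv⟩ := hs g
    exact ⟨Q v, G v, by rw [← hv, hΨ]⟩
  have i1 : IsPrecomplete I (σ → Λ) := isPrecomplete_pi I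
  have i2 : IsHausdorff I (MvPowerSeries (Fin n) Λ) :=
    (isHausdorff_pi I : IsHausdorff I ((Fin n →₀ ℕ) → Λ))
  apply surjective_of_mkQ_comp_surjective (I := I)
  intro z
  obtain ⟨g, rfl⟩ := Submodule.mkQ_surjective _ z
  let sel : (Fin n →₀ ℕ) → Option (Fin n) := fun β =>
    if h : ∃ l, N l ≤ β l then some h.choose else none
  have sel1 : ∀ β l, sel β = some l → N l ≤ β l := by
    intro β l h
    simp only [sel] at h
    split_ifs at h with h1
    rw [← Option.some_injective _ h]
    exact h1.choose_spec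
  have sel2 : ∀ β, sel β = none → ∀ l, β l < N l := by
    intro β h l
    simp only [sel] at h
    split_ifs at h with h1
    push Not at h1
    exact h1 l
  let v : σ → Λ := Sum.elim (fun α => if sel α.1 = none then MvPowerSeries.coeff α.1 g else 0)
    (fun x => if sel (x.2 + Finsupp.single x.1 (N x.1)) = some x.1 then
      MvPowerSeries.coeff (x.2 + Finsupp.single x.1 (N x.1)) g else 0)
  refine ⟨v, ?_⟩
  rw [LinearMap.comp_apply, ← sub_eq_zero, ← map_sub, Submodule.mkQ_apply,
    Submodule.Quotient.mk_eq_zero]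
  -- the exact splitting
  have hsplit : g = (Q v : MvPowerSeries (Fin n) Λ) +
      ∑ l, MvPowerSeries.X l ^ N l * G v l := by
    ext β
    rw [map_add, map_sum, MvPolynomial.coeff_coe]
    have h1 : MvPolynomial.coeff β (Q v) =
        if sel β = none then MvPowerSeries.coeff β g else 0 := by
      simp only [Q, MvPolynomial.coeff_sum, MvPolynomial.coeff_monomial]
      by_cases hβ : β ∈ B
      · rw [Finset.sum_eq_single (⟨β, hβ⟩ : B)]
        · rw [if_pos rfl]
          rfl
        · intro α _ hα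
          rw [if_neg]
          intro h
          exact hα (Subtype.ext h)
        · intro h
          exact absurd (Finset.mem_univ _) h
      · rw [Finset.sum_eq_zero, if_neg]
        · intro h
          apply hβ
          simp only [B, Finset.mem_Iic]
          intro l
          exact (sel2 β h l).le
        · intro α _
          rw [if_neg]
          rintro rfl
          exact hβ α.2
    have h2 : ∀ l, MvPowerSeries.coeff β (MvPowerSeries.X l ^ N l * G v l) =
        if sel β = some l then MvPowerSeries.coeff β g else 0 := by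
      intro l
      rw [MvPowerSeries.X_pow_eq, MvPowerSeries.coeff_monomial_mul]
      by_cases h : Finsupp.single l (N l) ≤ β
      · rw [if_pos h, one_mul]
        have h3 : MvPowerSeries.coeff (β - Finsupp.single l (N l)) (G v l) =
            if sel (β - Finsupp.single l (N l) + Finsupp.single l (N l)) = some l then
              MvPowerSeries.coeff (β - Finsupp.single l (N l) + Finsupp.single l (N l)) g
            else 0 := rfl
        rw [h3, tsub_add_cancel_of_le h]
      · rw [if_neg h, if_neg]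
        intro h4
        exact h (Finsupp.single_le_iff.2 (sel1 β l h4))
    rw [h1, Finset.sum_congr rfl fun l _ => h2 l]
    cases hs : sel β with
    | none => simp
    | some l => simp
  have hmem : Ψ v - g ∈ cI (n := n) I := by
    have h1 : Ψ v - g = ∑ l, ((px l (F l) : MvPowerSeries (Fin n) Λ) -
        MvPowerSeries.X l ^ N l) * G v l := by
      rw [hΨ]
      conv_lhs => rw [hsplit]
      simp only [sub_mul, Finset.sum_sub_distrib]
      ring
    rw [h1]
    exact Ideal.sum_mem _ fun l _ => Ideal.mul_mem_right _ _ (px_sub_mem I l (hF l) (hFI l))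
  have h3 := (mem_pow_smul_pi I (m := 1) (σ := Fin n →₀ ℕ)
    ((isNoetherianRing_iff_ideal_fg Λ).1 inferInstance _) (Ψ v - g)).2
    (by rw [pow_one]; exact hmem)
  rw [pow_one] at h3
  exact h3

end wdiv

end Vale.Agent.P177.Lf
end

section

/-!
P177, LIFT (L4): the kernel of `Λ[[x]] → R̄` is generated by polynomials, `R̄` finite over `Λ`.
-/

namespace Vale.Agent.P177.Lf

open Polynomial IsLocalRing

theorem exists_monic_lower {Λ : Type*} [CommRing Λ] (I : Ideal Λ) {Rb : Type*} [CommRing Rb]
    [Algebra Λ Rb] [Module.Finite Λ Rb] (x : Rb) {N : ℕ}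
    (hx : x ^ N ∈ I.map (algebraMap Λ Rb)) :
    ∃ F : Λ[X], F.Monic ∧ (∀ i < F.natDegree, F.coeff i ∈ I) ∧ aeval x F = 0 := by
  have hx' : x ^ (N + 1) ∈ I.map (algebraMap Λ Rb) := by
    rw [pow_succ]
    exact Ideal.mul_mem_right _ _ hx
  have hr : LinearMap.range (Algebra.lmul Λ Rb (x ^ (N + 1))) ≤
      I • (⊤ : Submodule Λ Rb) := by
    rintro _ ⟨y, rfl⟩
    rw [Ideal.smul_top_eq_map, Submodule.restrictScalars_mem]
    change x ^ (N + 1) * y ∈ _
    exact Ideal.mul_mem_right _ _ hx'
  obtain ⟨P, h1, -, h2, h3⟩ :=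
    LinearMap.exists_monic_and_natDegree_eq_and_coeff_mem_pow_and_aeval_eq_zero Λ
      (Algebra.lmul Λ Rb (x ^ (N + 1))) I hr
  refine ⟨expand Λ (N + 1) P, h1.expand (Nat.succ_pos N), ?_, ?_⟩
  · intro i hi
    rw [natDegree_expand] at hi
    rw [coeff_expand (Nat.succ_pos N)]
    split_ifs with h4
    · have h5 : i / (N + 1) < P.natDegree := Nat.div_lt_of_lt_mul (by rwa [mul_comm])
      have h6 := h2 (i / (N + 1))
      exact Ideal.pow_le_self (by omega) h6
    · exact zero_mem _
  · rw [expand_aeval]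
    have h4 := congrArg (fun f : Module.End Λ Rb => f 1) h3
    rw [aeval_algHom_apply] at h4
    simpa using h4

/-- (L4) for an arbitrary noetherian `I`-adically complete ring `Λ`. -/
theorem phi_rel' {Λ : Type*} [CommRing Λ] [IsNoetherianRing Λ] (I : Ideal Λ) [IsAdicComplete I Λ]
    {Rb : Type*} [CommRing Rb] [Algebra Λ Rb] [Module.Finite Λ Rb] {n : ℕ} (xb : Fin n → Rb)
    (hx : ∀ l, ∃ N : ℕ, xb l ^ N ∈ I.map (algebraMap Λ Rb))
    (q : MvPowerSeries (Fin n) Λ →+* Rb)
    (hq : ∀ f : MvPolynomial (Fin n) Λ, q f = MvPolynomial.aeval xb f)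
    {A : Type*} [CommRing A] (φ : MvPowerSeries (Fin n) Λ →+* A) (K : Ideal A) (h : A)
    (hK : ∀ f : MvPolynomial (Fin n) Λ, MvPolynomial.aeval xb f = 0 → h * φ f ∈ K) :
    ∀ g, q g = 0 → h * φ g ∈ K := by
  intro g hg
  have h1 : ∀ l, ∃ F : Λ[X], F.Monic ∧ (∀ i < F.natDegree, F.coeff i ∈ I) ∧
      aeval (xb l) F = 0 := fun l => by
    obtain ⟨N, hN⟩ := hx l
    exact exists_monic_lower I (xb l) hN
  choose F hF hFI hFx using h1
  obtain ⟨P, r, rfl⟩ := wdiv I F hF hFI g
  have hp : ∀ l, MvPolynomial.aeval xb (px l (F l)) = 0 := by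
    intro l
    rw [px, ← Polynomial.aeval_algHom_apply, MvPolynomial.aeval_X]
    exact hFx l
  have hP : MvPolynomial.aeval xb P = 0 := by
    rw [map_add, hq, map_sum] at hg
    rw [Finset.sum_eq_zero, add_zero] at hg
    · exact hg
    · intro l _
      rw [map_mul, hq, hp, zero_mul]
  rw [map_add, mul_add, map_sum, Finset.mul_sum]
  refine add_mem (hK P hP) (Ideal.sum_mem _ fun l _ => ?_)
  rw [map_mul, ← mul_assoc]
  exact Ideal.mul_mem_right _ _ (hK _ (hp l))

end Vale.Agent.P177.Lf
end
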