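import Mathlib
import Vale.Agent.P177.Bd4.B1
import Vale.Agent.P177.Bd4.B2
import Vale.Agent.P177.Bd4.B3
attribute [-instance] SemiRingCat.instSemiringObjForgetRingHomCarrier DenselyNormedField.toNontriviallyNormedField RCLike.toDenselyNormedField DenselyNormedField.toNormedField NontriviallyNormedField.toNormedField NormedField.toNormedDivisionRing littleWedderburn NormedDivisionRing.toDivisionRing NormedField.toField KleeneAlgebra.toIdemSemiring CommSemiRingCat.FilteredColimits.colimitCommSemiring DivisionRing.toDivisionSemiring AlgebraicGeometry.Scheme.instPreorderCarrierCarrierCommRingCat BooleanRing.toRing LeftPreLieAlgebra.toModule LieAdmissibleAlgebra.toModule NormedSpace.toModule RightPreLieAlgebra.toModule CommBialgCat.instCommRingObjForgetBialgHomCarrier Pi.nonUnitalNonAssocSemiring AddCommMonCat.FilteredColimits.colimitAddCommMonoid CommCStarAlgebra.toNormedCommRing NormedField.toNormedCommRing CommCStarAlgebra.toCStarAlgebra CStarAlgebra.toNormedRing NormedCommRing.toNormedRing NormedDivisionRing.toNormedRing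 CategoryTheory.CommGrpObj.mk CategoryTheory.CommGrpObj.toGrpObj CategoryTheory.Preadditive.instGrpObj CategoryTheory.instBraidedCategoryType CategoryTheory.Abelian.toPreadditive SSet.stdSimplex.instFunLikeObjOppositeSimplexCategoryMkOpFinHAddNatOfNat CategoryTheory.BimonObj.toMonObj CategoryTheory.CommRingObj.toRingObj CategoryTheory.GrpObj.toMonObj CategoryTheory.HopfObj.toBimonObj CategoryTheory.RingObj.toMonObj LeftPreLieRing.instLieAdmissibleRing RightPreLieRing.instLieAdmissibleRing NormedCommRing.toSeminormedCommRing MonTypeEquivalenceMon.monMonoid CommCStarAlgebra.toNonUnitalCommCStarAlgebra Pi.nonAssocSemiring CStarAlgebra.toNonUnitalCStarAlgebra NonUnitalCommCStarAlgebra.toNonUnitalCStarAlgebra NormedRing.toSeminormedRing SeminormedCommRing.toSeminormedRing NonUnitalCommCStarAlgebra.toNonUnitalNormedCommRing NormedCommRing.toNonUnitalNormedCommRing NonUnitalCStarAlgebra.toNonUnitalNormedRing NonUnitalNormedCommRing.toNonUnitalNormedRing NormedRing.toNonUnitalNormedRing LinearOrderedAddCommGroupWithTop.instLinearOrderedAddCommMonoidWithTop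 Field.toEuclideanDomain BooleanRing.toCommRing EuclideanDomain.toCommRing NormedCommRing.toCommRing SeminormedCommRing.toCommRing instCoeT NormedRing.toRing SeminormedRing.toRing LinearOrderedAddCommGroupWithTop.toAddCommMonoid LeftPreLieRing.toNonUnitalNonAssocRing LieAdmissibleRing.toNonUnitalNonAssocRing RightPreLieRing.toNonUnitalNonAssocRing ModuleCat.isModule CommRing.toAddCommGroupWithOne NonAssocRing.toAddCommGroupWithOne RingCat.FilteredColimits.colimitRing SemiNormedGrp.str NonUnitalNormedRing.toNormedAddCommGroup NonUnitalNormedCommRing.toNonUnitalSeminormedCommRing SeminormedCommRing.toNonUnitalSeminormedCommRing PerfectClosure.instDivisionRing PerfectClosure.instField instNonUnitalCStarAlgebraForall MonCat.monoidObj NonUnitalNormedRing.toNonUnitalSeminormedRing NonUnitalSeminormedCommRing.toNonUnitalSeminormedRing SeminormedRing.toNonUnitalSeminormedRing CommSemiring.toNonAssocCommSemiring NonAssocCommRing.toNonAssocCommSemiring NonAssocCommSemiring.toNonAssocSemiring NonAssocRing.toNonAssocSemiring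 instCoeTOfCoeDep AddCommGroupWithOne.toAddCommMonoidWithOne Complex.instRCLike BoxIntegral.Box.instMembershipForallReal NonUnitalNormedCommRing.toNonUnitalCommRing NonUnitalSeminormedCommRing.toNonUnitalCommRing LieAdmissibleRing.instLieRing ContDiffMapSupportedInClass.toDFunLike RKHS.instFunLike TestFunctionClass.toDFunLike NonAssocCommRing.toNonUnitalNonAssocCommRing CategoryTheory.Mat_.fintype Real.instRCLike NonUnitalCommRing.toNonUnitalRing NonUnitalNormedRing.toNonUnitalRing NonUnitalRing.toNonUnitalNonAssocRing NonUnitalSeminormedRing.toNonUnitalRing Ring.toNonUnitalRing instNonUnitalAlgHomClassOfNonUnitalAlgEquivClass AlgHom.instNonUnitalAlgHomClassOfAlgHomClass NonAssocCommSemiring.toNonUnitalNonAssocCommSemiring NonUnitalNonAssocCommSemiring.toNonUnitalNonAssocSemiring NonUnitalRing.toNonUnitalSemiring NonUnitalSemiring.toNonUnitalNonAssocSemiring Pi.instZero Pi.mulZeroOneClass AddCommGroupWithOne.toAddGroupWithOne AddCommMonoidWithOne.toAddCommMonoid TopologicalSpace.Compacts.instSetLike BialgEquivClass.toBialgHomClass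 Std.DTreeMap.Raw.instSingletonSigma LieRing.toAddCommGroup LinearOrderedCommGroupWithZero.toLinearOrderedCommMonoidWithZero NormedCommGroup.toNormedGroup NormedCommGroup.toSeminormedCommGroup NormedGroup.toSeminormedGroup SeminormedCommGroup.toSeminormedGroup instCoeTC instCommGroupOfIsSimpleGroupOfIsNilpotent CommGroup.toGroup CommGrpTypeEquivalenceCommGrp.commGrpCommGroup GrpTypeEquivalenceGrp.grpGroup NormedCommGroup.toCommGroup NormedGroup.toGroup SeminormedCommGroup.toCommGroup SeminormedGroup.toGroup instCoeTCOfCoe AlgEquivClass.toAlgHomClass BialgHomClass.toAlgHomClass GradedMonoid.GradeZero.smul CompleteAtomicBooleanAlgebra.toCompleteBooleanAlgebra CommMonCat.str Pi.nonUnitalSemiring AddOpposite.instAddZero LinearOrderedAddCommGroupWithTop.toSubNegMonoid ProfiniteAddGrp.addGroup CompleteAtomicBooleanAlgebra.toCompletelyDistribLattice AbsoluteValue.mulHomClass OrderAddMonoidHom.instAddMonoidHomClass PartOrdEmb.str CompleteLinearOrder.toConditionallyCompleteLinearOrderBot TopRep.hV1 TwoSidedIdeal.instIsTwoSidedCoeOrderHomIdealAsIdeal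 Pi.addZeroClass CompleteBooleanAlgebra.toCompleteLattice ConditionallyCompleteLinearOrderBot.toConditionallyCompleteLinearOrder CompleteLinearOrder.toLinearOrder ConditionallyCompleteLinearOrder.toLinearOrder LinearOrderedAddCommGroupWithTop.toLinearOrder LinearOrderedCommMonoidWithZero.toLinearOrder instCoeHTC instCoeHTCT LieAlgebra.toModule MulSemiringAction.toDistribMulAction CommSemiring.toBialgebra CommSemiring.toHopfAlgebra HopfAlgebra.toHopfAlgebraStruct HopfAlgebraStruct.toBialgebra Bialgebra.toAlgebra NormedAlgebra.toAlgebra NonUnitalSeminormedRing.toSeminormedAddCommGroup NormedAddCommGroup.toSeminormedAddCommGroup ValuationClass.toMonoidWithZeroHomClass CompleteBooleanAlgebra.toCompleteDistribLattice CompletelyDistribLattice.toCompleteDistribLattice RightPreLieAlgebra.instLieAdmissibleAlgebra CommMonTypeEquivalenceCommMon.commMonCommMonoid CompleteBooleanAlgebra.toBooleanAlgebra CompleteDistribLattice.toCoframe CompleteDistribLattice.toFrame Monoid.End.instMonoidHomClass CentroidHomClass.toAddMonoidHomClass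 MulSemiringActionSemiHomClass.toDistribMulActionSemiHomClass NonUnitalAlgSemiHomClass.toDistribMulActionSemiHomClass CategoryTheory.Limits.Concrete.instUniqueToTypeTerminal BooleanAlgebra.toBiheytingAlgebra CompleteDistribLattice.toBiheytingAlgebra CompleteLinearOrder.toBiheytingAlgebra CompletelyDistribLattice.toBiheytingAlgebra CompleteLinearOrder.toCompleteLattice Order.Coframe.toCompleteLattice Order.Frame.toCompleteLattice AdjoinRoot.instField Turing.FinTM2.decidableEqK CategoryTheory.CartesianMonoidalCategory.toSymmetricCategory CategoryTheory.CopyDiscardCategory.toSymmetricCategory CategoryTheory.MarkovCategory.toCopyDiscardCategory CategoryTheory.PositiveCategory.toMarkovCategory CategoryTheory.SymmetricCategory.toBraidedCategory instSMulZeroClass BiheytingAlgebra.toCoheytingAlgebra BiheytingAlgebra.toHeytingAlgebra BooleanAlgebra.toGeneralizedBooleanAlgebra Order.Coframe.toCoheytingAlgebra Order.Frame.toHeytingAlgebra LinearOrderedCommGroupWithZero.toCommGroupWithZero Semifield.toCommGroupWithZero CoheytingAlgebra.toGeneralizedCoheytingAlgebra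 GeneralizedBooleanAlgebra.toGeneralizedCoheytingAlgebra HeytingAlgebra.toGeneralizedHeytingAlgebra AlgHom.instContinuousLinearMapClassOfAlgHomClass AlgHomClass.linearMapClass BialgHomClass.toCoalgHomClass CoalgEquivClass.toCoalgHomClass CoalgHomClass.toSemilinearMapClass ContinuousSemilinearEquivClass.continuousSemilinearMapClass ContinuousSemilinearMapClass.toSemilinearMapClass NonUnitalAlgHomClass.instLinearMapClass NonUnitalAlgHomClass.instSemilinearMapClassOfNonUnitalAlgSemiHomClassToMonoidHomRingHom PositiveLinearMap.instContinuousLinearMapClassComplexOfLinearMapClassOfOrderHomClass RingHomClass.toLinearMapClassNNRat RingHomClass.toLinearMapClassRat SemilinearIsometryClass.toContinuousSemilinearMapClass SemilinearIsometryClass.toSemilinearMapClass instDistribSMul OrderDual.instDivisionSemiring Quaternion.instDivisionRing AbsoluteValue.zeroHomClass instConditionallyCompletePartialOrderSup CompleteLattice.toCompleteSemilatticeInf CompleteLattice.toCompleteSemilatticeSup ConditionallyCompleteLattice.toConditionallyCompletePartialOrder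 ConditionallyCompleteLinearOrder.toConditionallyCompleteLattice ConditionallyCompletePartialOrder.toConditionallyCompletePartialOrderInf ConditionallyCompletePartialOrder.toConditionallyCompletePartialOrderSup BooleanAlgebra.toDistribLattice ChainCompletePartialOrder.instOfCompleteLattice ChainCompletePartialOrder.instOmegaCompletePartialOrder ChainCompletePartialOrder.toPartialOrder CompleteLattice.toLattice CompleteLattice.toPartialOrder' CompletePartialOrder.toOmegaCompletePartialOrder CompleteSemilatticeInf.toPartialOrder CompleteSemilatticeSup.toPartialOrder ConditionallyCompletePartialOrderInf.toPartialOrder ConditionallyCompletePartialOrderSup.toPartialOrder GeneralizedBooleanAlgebra.toDistribLattice GeneralizedCoheytingAlgebra.toDistribLattice GeneralizedCoheytingAlgebra.toLattice GeneralizedHeytingAlgebra.toDistribLattice GeneralizedHeytingAlgebra.toLattice OmegaCompletePartialOrder.toPartialOrder Order.Coframe.toDistribLattice Order.Frame.toDistribLattice OrderRingHom.instRingHomClass Pi.subtractionMonoid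 BialgHomClass.toMonoidHomClass MulCharClass.toMonoidHomClass MulDistribMulActionSemiHomClass.toMonoidHomClass NonUnitalAlgHomClass.toNonUnitalRingHomClass NonUnitalAlgSemiHomClass.toMulHomClass instSubsingleton IsEmpty.instSubsingleton Unique.instSubsingleton Group.IsPerfect.subsingleton_of_isMulCommutative MulOpposite.instMulOne Pi.instTopForall SemilatSupCat.isSemilatticeSup Pi.mulOneClass Pi.instMaxForall_mathlib Pi.normedRing Pi.instOne Pi.mulZeroClass CommGroupWithZero.toCommMonoidWithZero LinearOrderedCommMonoidWithZero.toCommMonoidWithZero Pi.instBotForall CommGroupWithZero.toGroupWithZero Pi.addMonoidWithOne Pi.normedAddCommGroup AddHom.addHomClass Action.instMulAction Torsor.toMulAction Action.FintypeCat.instMulActionObjFiniteOf GradedMonoid.GradeZero.mulAction coePNatNat Nat.Primes.coeNat Nat.Primes.coePNat instCharZeroOfIsSemireal instIsSemirealOfIsStrictOrderedRingOfExistsAddOfLE FloorSemiring.instCharZero IsRealClosed.toIsSemireal IsStrictOrderedRing.toCharZero NumberField.to_charZero RCLike.charZero_rclike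 PadicComplex.normedField ContinuousAddMonoidHom.instCoeOutOfAddMonoidHomClassOfContinuousMapClass ContinuousMonoidHom.instCoeOutOfMonoidHomClassOfContinuousMapClass HomeomorphClass.instCoeOutHomeomorph IsometryClass.instCoeOutIsometryEquiv PositiveLinearMap.instInnerProductSpaceComplexPreGNS RCLike.toInnerProductSpaceReal Pi.commMagma instFiniteCarrierToTopAndTotallyDisconnectedSpaceSecondCountableTopologyOfObj NormedAddCommGroup.toNormedAddGroup instFiniteProp FinEnum.decEq FunLike.toDecidableEq LinearOrder.toDecidableEq RCLike.toDecidableEq FirstOrder.Language.instDecidableEqFunctions FirstOrder.Language.instDecidableEqRelations NormedAddGroup.toSeminormedAddGroup SeminormedAddCommGroup.toSeminormedAddGroup RootedTree.orderBot MulSemiringActionSemiHomClass.toRingHomClass AddQuantale.instAddLeftMono Invertible.toNeZero NeZero.of_gt' Nat.AtLeastTwo.toNeZero BialgEquivClass.toCoalgEquivClass decidableEq_of_subsingleton OneHom.oneHomClass Nat.instAtLeastTwoHAddOfNat MonoidWithZero.toSemigroupWithZero SemigroupWithZero.toMulZeroClass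 instRingHomSurjectiveForallEvalRingHom Pi.monoidWithZero MulEquivClass.toMonoidWithZeroHomClass MulRingSeminormClass.toMonoidWithZeroHomClass NormMulClass.toNoZeroDivisors boolToProp instIsDedekindDomainOfIsDomainOfIsDedekindRing IsDedekindDomainDvr.isDedekindDomain SemilinearIsometryEquivClass.toSemilinearIsometryClass OrderDual.instPow_1 Nat.instNontrivial Nat.Prime.one_lt' AlgebraicGeometry.instOrderTopCarrierCarrierCommRingCatOfIsIntegral NonUnitalNormedRing.toMetricSpace NormedAddCommGroup.toMetricSpace NormedAddGroup.toMetricSpace NormedCommGroup.toMetricSpace NormedDivisionRing.toMetricSpace NormedField.toMetricSpace NormedGroup.toMetricSpace NormedRing.toMetricSpace TopologicalSpace.UpgradedIsCompletelyMetrizableSpace.toMetricSpace AddCommGroupWithOne.toAddCommGroup NormedAddCommGroup.toAddCommGroup SeminormedAddCommGroup.toAddCommGroup IsFormallyReal.instIsReduced Pi.instCanonicallyOrderedAddForall instCoeOutOfCoeFun Quantale.instMulLeftMono Std.Time.Duration.instHMulInt_1 Semigrp.str EMetricSpace.toPseudoEMetricSpace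 IsValuativeTopology.instValuedValueGroupWithZeroOfIsUniformAddGroup MetricSpace.toEMetricSpace MetricSpace.toPseudoMetricSpace NonUnitalSeminormedRing.toPseudoMetricSpace PseudoEMetricSpace.toUniformSpace PseudoMetricSpace.toPseudoEMetricSpace PseudoMetricSpace.toUniformSpace SeminormedAddCommGroup.toPseudoMetricSpace SeminormedAddGroup.toPseudoMetricSpace SeminormedCommGroup.toPseudoMetricSpace SeminormedGroup.toPseudoMetricSpace SeminormedRing.toPseudoMetricSpace UniformSpace.toTopologicalSpace UpgradedStandardBorel.toTopologicalSpace Valued.toUniformSpace WithIdeal.instTopologicalSpace WithIdeal.instUniformSpace TopologicalSpace.UpgradedIsCompletelyPseudoMetrizableSpace.toPseudoMetricSpace DivisionRing.isDomain EuclideanDomain.instIsDomain Field.isDomain IsDedekindDomain.toIsDomain IsStrictOrderedRing.isDomain NormedAddGroup.toAddGroup SeminormedAddGroup.toAddGroup LinOrd.str instAlgEquivClassOfNonUnitalAlgEquivClass BialgEquivClass.toAlgEquivClass ContinuousAlgEquivClass.toAlgEquivClass SubringClass.toNegMemClass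 Std.Time.WallTime.instHSubDuration_1 CommRing.toGrindCommRing Field.toGrindField instMonadLiftT instMonadLiftTOfMonadLift AlgebraicGeometry.IsReduced.component_reduced Module.toMulActionWithZero MonoidWithZero.toMulActionWithZero AddQuantale.instAddRightMono Quantale.instMulRightMono Pi.commMonoidWithZero Pi.nonUnitalNonAssocRing instIsDomain CategoryTheory.instFinCategoryOfFintypeOfIsThin FinEnum.instFintype SetLike.instFintype Unique.fintype CategoryTheory.FinCategory.fintypeObj OrderDual.instRightDistribClass Pi.smulZeroClass' Fin.completeLinearOrder Pi.addCommMagma instOfNatAtLeastTwo SaturatedAddSubmonoid.instAddSubmonoidClass IsFormallyReal.instOfIsStrictOrderedRing WithTop.instIsBotZeroClass GrpCat.FilteredColimits.colimitInv SubfieldClass.toNormedField CommGroup.toDivisionCommMonoid CommGroupWithZero.toDivisionCommMonoid DivisionCommMonoid.toDivisionMonoid Group.toDivisionMonoid GroupWithZero.toDivisionMonoid instInhabitedOfMonad instNonemptyOfInhabited instNonemptyOfMonad AddCancelCommMonoid.toAddCancelMonoid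 AddCommGroup.toAddCancelCommMonoid Field.instIsLocalRing IsDiscreteValuationRing.toIsLocalRing IsOrderedRing.toIsStrictOrderedRing Nontrivial.to_nonempty Torsor.nonempty Unique.instInhabited ValuationRing.isLocalRing CategoryTheory.IsConnected.is_nonempty Vector.instHMul LeftPreLieAlgebra.instLieAdmissibleAlgebra LieAdmissibleAlgebra.instLieAlgebra LieAlgebra.ofAssociativeAlgebra MulActionWithZero.toMulAction MulDistribMulAction.toMulAction MulSemiringAction.toMulDistribMulAction SubfieldClass.toSubringClass Std.LinearOrderPackage.toLinearPreorderPackage Std.LinearPreorderPackage.toPreorderPackage StarSubalgebra.commCStarAlgebra StarSubalgebra.cstarAlgebra SubalgebraClass.normedRing SubringClass.toNormedCommRing SubringClass.toNormedRing DivisionRing.toDivInvMonoid ENormedCommMonoid.toESeminormedCommMonoid GroupWithZero.toDivInvMonoid NormedCommGroup.toENormedCommMonoid instInfiniteOfUncountable instNontrivialOfCharZero CategoryTheory.isConnected_of_nonempty_and_subsingleton CharZero.infinite Denumerable.instInfinite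 DivisionRing.toNontrivial EuclideanDomain.toNontrivial Group.instTorsor GroupWithZero.toNontrivial Infinite.instNontrivial IsAlgClosed.instInfinite IsDomain.toNontrivial IsSimpleAddGroup.toNontrivial IsSimpleGroup.toNontrivial IsSimpleOrder.toNontrivial IsSimpleRing.instNontrivial IsStrictOrderedRing.toNontrivial LinearOrderedAddCommGroupWithTop.toNontrivial NoMaxOrder.infinite NoMinOrder.infinite NontriviallyNormedField.infinite NormedAddTorsor.toAddTorsor Preorder.smallCategory SeminormedAddCommGroup.toNormedAddTorsor CategoryTheory.Groupoid.toCategory CategoryTheory.IsSifted.instIsConnected CategoryTheory.StrictBicategory.category FirstOrder.Language.instInfiniteOfModelDloOrderOfNonempty GradedMonoid.instNatPowOfNat SimpleGraph.TripartiteFromTriangles.graph.instDecidableRelAdj Fin.instBiheytingAlgebra instUniqueUnitsOfSubsingleton CanonicallyOrderedCommMonoid.toUniqueUnits Units.instGroup Group.IsPerfect.instOfSubsingleton Ordinal.instNeZeroOne Ideal.Quotient.normedCommRing -- iprune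

set_option linter.all false

section

/-!
Additive lengths on the modules over the Witt vectors of a product of rings.
-/

namespace Vale.Agent.P177.SL

open Vale.Agent.P202.Mix Function TensorProduct Filter
open scoped ENNReal Topology

universe u

/-- projections to direct factors are flat. -/
theorem flat_of_idem {R R' : Type u} [CommRing R] [CommRing R'] [Algebra R R']
    (hs : Surjective (algebraMap R R')) (ε : R) (h1 : algebraMap R R' ε = 1)
    (h0 : ∀ x, algebraMap R R' x = 0 → ε * x = 0) : Module.Flat R R' := by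
  choose g hg using hs
  let i : R' →ₗ[R] R :=
    { toFun := fun x => ε * g x
      map_add' := fun x y => by
        rw [← mul_add, ← sub_eq_zero, ← mul_sub]
        apply h0
        rw [map_sub, map_add, hg, hg, hg, sub_self]
      map_smul' := fun a x => by
        rw [RingHom.id_apply, smul_eq_mul, ← mul_assoc, mul_comm a ε, mul_assoc, ← sub_eq_zero,
          ← mul_sub]
        apply h0
        rw [map_sub, map_mul, hg, hg, Algebra.smul_def, sub_self] }
  refine Module.Flat.of_retract i (Algebra.linearMap R R') ?_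
  ext x
  change algebraMap R R' (ε * g x) = x
  rw [map_mul, h1, one_mul, hg]

section

variable (p : ℕ) [Fact p.Prime] {ι : Type u} (C : ι → Type u) [∀ e, CommRing (C e)]

/-- the projection of the Witt vectors of a product. -/
noncomputable def prW (e : ι) : WittVector p (∀ e, C e) →+* WittVector p (C e) :=
  WittVector.map (Pi.evalRingHom C e)

theorem prW_coeff (e : ι) (x : WittVector p (∀ e, C e)) (n : ℕ) :
    (prW p C e x).coeff n = x.coeff n e := by
  rw [prW, WittVector.map_coeff]
  rfl

theorem prW_ext {x y : WittVector p (∀ e, C e)} (h : ∀ e, prW p C e x = prW p C e y) : x = y := by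
  ext n e
  rw [← prW_coeff, ← prW_coeff, h]

theorem prW_surjective (e : ι) : Surjective (prW p C e) := by
  classical
  intro y
  refine ⟨WittVector.mk p fun n => Pi.single e (y.coeff n), ?_⟩
  ext n
  rw [prW_coeff]
  simp

theorem prW_teichmuller (e : ι) (c : ∀ e, C e) :
    prW p C e (WittVector.teichmuller p c) = WittVector.teichmuller p (c e) := by
  rw [prW, WittVector.map_teichmuller]
  rfl

theorem flat_prW (e : ι) : letI := (prW p C e).toAlgebra
    Module.Flat (WittVector p (∀ e, C e)) (WittVector p (C e)) := by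
  classical
  let _ := (prW p C e).toAlgebra
  refine flat_of_idem (prW_surjective p C e)
    (WittVector.teichmuller p (Pi.single e 1 : ∀ e, C e)) ?_ ?_
  · change prW p C e _ = 1
    rw [prW_teichmuller, Pi.single_eq_same, map_one]
  · intro x hx
    change prW p C e x = 0 at hx
    apply prW_ext
    intro f
    rw [map_mul, prW_teichmuller, map_zero]
    by_cases hf : f = e
    · subst hf
      rw [hx, mul_zero]
    · rw [Pi.single_eq_of_ne hf, WittVector.teichmuller_zero, zero_mul]

/-- the length of the component `e`. -/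
noncomputable def compLen (e : ι) (L : AddLen (WittVector p (C e))) :
    AddLen (WittVector p (∀ e, C e)) :=
  letI := (prW p C e).toAlgebra
  haveI := flat_prW p C e
  bcLen (WittVector p (∀ e, C e)) L

/-- the limit length on the modules over the Witt vectors of the product. -/
noncomputable def massU (U : Ultrafilter ι) (L : ∀ e, AddLen (WittVector p (C e))) :
    AddLen (WittVector p (∀ e, C e)) :=
  limLen U fun e => compLen p C e (L e)

/-- the mass: the limit length with the torsion of `[η]` killed. -/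
noncomputable def mass (U : Ultrafilter ι) (L : ∀ e, AddLen (WittVector p (C e)))
    (η : ∀ e, C e) : AddLen (WittVector p (∀ e, C e)) :=
  etaLen (massU p C U L) (WittVector.teichmuller p η)

end

end Vale.Agent.P177.SL
end

section

/-!
P202, mixed characteristic: additive length functions (`AddLen`) from the normalized length.
-/

namespace Vale.Agent.P202.Mix

open Submodule
open scoped ENNReal

universe u v w

/-- A module killed by an ideal `J` of finite colength is locally finite. -/
theorem Tower.lf_of_smul_eq_zero {R0 : Type*} [CommRing R0] (J : Ideal R0)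
    (hJ : Module.length R0 (R0 ⧸ J) ≠ ⊤) {N : Type*} [AddCommGroup N] [Module R0 N]
    (h : ∀ a ∈ J, ∀ x : N, a • x = 0) : Tower.LF (R0 := R0) N := by
  rintro X ⟨s, rfl⟩
  -- a surjection `(R0/J)^s → X`
  let f : (s → R0 ⧸ J) →ₗ[R0] N := ∑ i : s, (J.liftQ (LinearMap.toSpanSingleton R0 N (i : N))
    (fun a ha => by
      rw [LinearMap.mem_ker, LinearMap.toSpanSingleton_apply]
      exact h a ha _)) ∘ₗ LinearMap.proj i
  have hf : ∀ z, f z = ∑ i : s, (J.liftQ (LinearMap.toSpanSingleton R0 N (i : N))
    (fun a ha => by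
      rw [LinearMap.mem_ker, LinearMap.toSpanSingleton_apply]
      exact h a ha _)) (z i) := by
    intro z
    simp [f]
  have hle : span R0 (s : Set N) ≤ LinearMap.range f := by
    classical
    rw [span_le]
    intro x hx
    refine ⟨Pi.single ⟨x, hx⟩ (Ideal.Quotient.mk J 1), ?_⟩
    rw [hf, Finset.sum_eq_single (⟨x, hx⟩ : s)]
    · rw [Pi.single_eq_same]
      exact one_smul R0 x
    · intro b _ hb
      rw [Pi.single_eq_of_ne hb, map_zero]
    · intro h'
      exact absurd (Finset.mem_univ _) h'
  refine ne_top_of_le_ne_top ?_ (len_mono hle)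
  refine ne_top_of_le_ne_top ?_ (Module.length_le_of_surjective f.rangeRestrict
    f.surjective_rangeRestrict)
  rw [Module.length_pi_of_fintype, Finset.sum_const, Finset.card_univ, nsmul_eq_mul]
  obtain ⟨l, hl⟩ := ENat.ne_top_iff_exists.mp hJ
  rw [← hl]
  exact_mod_cast ENat.natCast_ne_top _

section lenR

variable {R0 : Type v} {Ri : Type w} [CommRing R0] [CommRing Ri] [Algebra R0 Ri] {ι : Type*}
  [Preorder ι] (T : Tower R0 Ri ι)

/-- the normalized length of a module over an `Ri`-algebra `R`. -/
noncomputable def Tower.lenR (R : Type*) [CommRing R] [Algebra Ri R] (M : Type*) [AddCommGroup M]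
    [Module R M] : ℝ≥0∞ :=
  letI : Module Ri M := Module.compHom M (algebraMap Ri R)
  letI : Module R0 M := Module.compHom M ((algebraMap Ri R).comp (algebraMap R0 Ri))
  haveI : IsScalarTower R0 Ri M := ⟨fun a b x => by
    change (algebraMap Ri R (a • b)) • x = (algebraMap Ri R (algebraMap R0 Ri a)) •
      ((algebraMap Ri R b) • x)
    rw [smul_smul, ← map_mul, Algebra.smul_def]⟩
  T.lam M

/-- if the modules are already given. -/
theorem Tower.lenR_eq (R : Type*) [CommRing R] [Algebra Ri R] (M : Type*) [AddCommGroup M]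
    [Module R M] [Module Ri M] [Module R0 M] [IsScalarTower Ri R M] [IsScalarTower R0 Ri M] :
    T.lenR R M = T.lam M := by
  unfold Tower.lenR
  have h1 : Module.compHom M (algebraMap Ri R) = ‹Module Ri M› := by
    refine Module.ext' _ _ fun a x => ?_
    change (algebraMap Ri R a) • x = a • x
    rw [algebraMap_smul]
  have h2 : Module.compHom M ((algebraMap Ri R).comp (algebraMap R0 Ri)) = ‹Module R0 M› := by
    refine Module.ext' _ _ fun a x => ?_
    change (algebraMap Ri R (algebraMap R0 Ri a)) • x = a • x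
    rw [algebraMap_smul, algebraMap_smul]
  subst h1 h2
  rfl

theorem Tower.lenR_subsingleton (R : Type*) [CommRing R] [Algebra Ri R] (M : Type*)
    [AddCommGroup M] [Module R M] [Nonempty ι] [Subsingleton M] : T.lenR R M = 0 := by
  unfold Tower.lenR
  refine le_antisymm ?_ bot_le
  refine @Tower.lam_le R0 Ri _ _ _ ι _ T M _ (_) (_) (_) 0 fun X _ => ?_
  refine (@Tower.lamX_le_nlen R0 Ri _ _ _ ι _ T M _ (_) (_) (_) (Classical.arbitrary ι) X).trans ?_
  rw [Tower.nlen, Tower.len, Module.length_eq_zero]
  simp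

end lenR

section comap

/-- restriction of an additive length along a ring homomorphism: the length of
`R'`-modules after restriction of scalars along `φ : R → R'`. -/
noncomputable def AddLen.restrict {R R' : Type u} [CommRing R] [CommRing R'] (L : AddLen R)
    (φ : R →+* R') : AddLen R' where
  len M _ _ := letI := Module.compHom M φ; L.len M
  zero := by
    have : Module.compHom PUnit.{u+1} φ = (inferInstance : Module R PUnit.{u+1}) :=
      Module.ext' _ _ fun a x => rfl
    rw [this]
    exact L.zero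
  add {M N K} _ _ _ _ _ _ f g hf hg hfg := by
    let _ := Module.compHom M φ
    let _ := Module.compHom N φ
    let _ := Module.compHom K φ
    let f' : M →ₗ[R] N := { f with map_smul' := fun a x => map_smul f (φ a) x }
    let g' : N →ₗ[R] K := { g with map_smul' := fun a x => map_smul g (φ a) x }
    exact L.add f' g' hf hg hfg

end comap

end Vale.Agent.P202.Mix
end

section

/-!
P202-MIX: the normalized length as a total additive length function (`⊤` on modules which are not
locally finite).
-/

namespace Vale.Agent.P202.Mix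

open Submodule
open scoped ENNReal

universe u v w

/-- `M` is locally finite over `R0`, after restriction of scalars. -/
def LFr (R0 : Type v) (Ri : Type w) [CommRing R0] [CommRing Ri] [Algebra R0 Ri] (R : Type*)
    [CommRing R] [Algebra Ri R] (M : Type*) [AddCommGroup M] [Module R M] : Prop :=
  letI : Module R0 M := Module.compHom M ((algebraMap Ri R).comp (algebraMap R0 Ri))
  Tower.LF (R0 := R0) M

section

variable {R0 : Type v} [CommRing R0]

lemma lf_of_injective {M N : Type*} [AddCommGroup M] [Module R0 M] [AddCommGroup N]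
    [Module R0 N] (f : M →ₗ[R0] N) (hf : Function.Injective f) (h : Tower.LF (R0 := R0) N) :
    Tower.LF (R0 := R0) M := by
  intro X hX
  have h1 := h (X.map f) (hX.map f)
  rwa [LinearEquiv.length_eq (Submodule.equivMapOfInjective f hf X)]

lemma lf_of_surjective {M N : Type*} [AddCommGroup M] [Module R0 M] [AddCommGroup N]
    [Module R0 N] (f : M →ₗ[R0] N) (hf : Function.Surjective f) (h : Tower.LF (R0 := R0) M) :
    Tower.LF (R0 := R0) N := by
  classical
  rintro X ⟨s, rfl⟩
  have hc : ∀ x : N, ∃ y : M, f y = x := hf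
  choose g hg using hc
  have h1 : (span R0 (g '' (s : Set N))).FG := ⟨s.image g, by rw [Finset.coe_image]⟩
  have h2 : (span R0 (g '' (s : Set N))).map f = span R0 (s : Set N) := by
    rw [Submodule.map_span, Set.image_image]
    simp [hg]
  rw [← h2]
  exact ne_top_of_le_ne_top (h _ h1) (len_map_le f _)

lemma lf_of_exact [IsNoetherianRing R0] {M N K : Type*} [AddCommGroup M] [Module R0 M]
    [AddCommGroup N] [Module R0 N] [AddCommGroup K] [Module R0 K] (f : M →ₗ[R0] N)
    (g : N →ₗ[R0] K) (hfg : Function.Exact f g)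
    (hM : Tower.LF (R0 := R0) M) (hK : Tower.LF (R0 := R0) K) : Tower.LF (R0 := R0) N := by
  intro X hX
  have : IsNoetherian R0 X := isNoetherian_of_fg_of_noetherian _ hX
  have h1 : Module.length R0 (X.map g) ≠ ⊤ := hK _ (hX.map g)
  -- the kernel part
  let Y : Submodule R0 X := LinearMap.ker (g ∘ₗ X.subtype)
  have h2 : Module.length R0 X = Module.length R0 Y + Module.length R0 (X ⧸ Y) :=
    Module.length_eq_add_of_exact Y.subtype Y.mkQ Y.subtype_injective Y.mkQ_surjective
      (LinearMap.exact_subtype_mkQ Y)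
  have h3 : Module.length R0 (X ⧸ Y) = Module.length R0 (X.map g) := by
    refine LinearEquiv.length_eq ?_
    refine ((g ∘ₗ X.subtype).quotKerEquivRange).trans (LinearEquiv.ofEq _ _ ?_)
    rw [LinearMap.range_comp, Submodule.range_subtype]
  have hYfg : (Y.map X.subtype).FG := (IsNoetherian.noetherian Y).map _
  have h4 : Module.length R0 Y ≠ ⊤ := by
    have e1 : Module.length R0 Y = Module.length R0 (Y.map X.subtype) :=
      LinearEquiv.length_eq (Submodule.equivMapOfInjective _ X.subtype_injective Y)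
    rw [e1]
    have hle : Y.map X.subtype ≤ LinearMap.range f := by
      rintro _ ⟨y, hy, rfl⟩
      exact (hfg _).mp hy
    obtain ⟨s, hs⟩ := hYfg
    classical
    have hsub : ∀ x ∈ s, ∃ m, f m = x := fun x hx => by
      have : x ∈ Y.map X.subtype := by rw [← hs]; exact subset_span hx
      exact hle this
    choose! g' hg' using hsub
    have hfin : (span R0 (g' '' (s : Set N))).FG := ⟨s.image g', by rw [Finset.coe_image]⟩
    have h6 : (span R0 (g' '' (s : Set N))).map f = Y.map X.subtype := by
      rw [Submodule.map_span, Set.image_image, ← hs]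
      congr 1
      ext x
      constructor
      · rintro ⟨a, ha, rfl⟩
        change f (g' a) ∈ _
        rw [hg' a ha]
        exact ha
      · intro hx
        exact ⟨x, hx, hg' x hx⟩
    rw [← h6]
    exact ne_top_of_le_ne_top (hM _ hfin) (len_map_le f _)
  rw [h2, h3]
  exact WithTop.add_ne_top.mpr ⟨h4, h1⟩

end

section

variable {R0 : Type v} {Ri : Type w} [CommRing R0] [IsNoetherianRing R0] [CommRing Ri]
  [Algebra R0 Ri] {ι : Type*} [Preorder ι] (T : Tower R0 Ri ι) (R : Type*) [CommRing R]
  [Algebra Ri R]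

theorem lfr_add {M N K : Type*} [AddCommGroup M] [Module R M] [AddCommGroup N] [Module R N]
    [AddCommGroup K] [Module R K] (f : M →ₗ[R] N) (g : N →ₗ[R] K)
    (hf : Function.Injective f) (hg : Function.Surjective g) (hfg : Function.Exact f g) :
    LFr R0 Ri R N ↔ LFr R0 Ri R M ∧ LFr R0 Ri R K := by
  let φ := (algebraMap Ri R).comp (algebraMap R0 Ri)
  let _ : Module R0 M := Module.compHom M φ
  let _ : Module R0 N := Module.compHom N φ
  let _ : Module R0 K := Module.compHom K φ
  let f' : M →ₗ[R0] N := { f with map_smul' := fun a x => map_smul f (φ a) x }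
  let g' : N →ₗ[R0] K := { g with map_smul' := fun a x => map_smul g (φ a) x }
  constructor
  · intro h
    exact ⟨lf_of_injective f' hf h, lf_of_surjective g' hg h⟩
  · rintro ⟨h1, h2⟩
    exact lf_of_exact f' g' hfg h1 h2

omit [IsNoetherianRing R0] in
/-- additivity on locally finite modules. -/
theorem Tower.lenR_add' [IsDirectedOrder ι]
    {M N K : Type*} [AddCommGroup M] [Module R M] [AddCommGroup N] [Module R N]
    [AddCommGroup K] [Module R K] (f : M →ₗ[R] N) (g : N →ₗ[R] K)
    (hf : Function.Injective f) (hg : Function.Surjective g) (hfg : Function.Exact f g)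
    (h : LFr R0 Ri R N) :
    T.lenR R N = T.lenR R M + T.lenR R K := by
  let _ : Module Ri M := Module.compHom M (algebraMap Ri R)
  let _ : Module R0 M := Module.compHom M ((algebraMap Ri R).comp (algebraMap R0 Ri))
  let _ : Module Ri N := Module.compHom N (algebraMap Ri R)
  let _ : Module R0 N := Module.compHom N ((algebraMap Ri R).comp (algebraMap R0 Ri))
  let _ : Module Ri K := Module.compHom K (algebraMap Ri R)
  let _ : Module R0 K := Module.compHom K ((algebraMap Ri R).comp (algebraMap R0 Ri))
  have sM : IsScalarTower Ri R M := ⟨fun a b x => by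
    change (a • b) • x = (algebraMap Ri R a) • (b • x)
    rw [smul_smul, Algebra.smul_def]⟩
  have sN : IsScalarTower Ri R N := ⟨fun a b x => by
    change (a • b) • x = (algebraMap Ri R a) • (b • x)
    rw [smul_smul, Algebra.smul_def]⟩
  have sK : IsScalarTower Ri R K := ⟨fun a b x => by
    change (a • b) • x = (algebraMap Ri R a) • (b • x)
    rw [smul_smul, Algebra.smul_def]⟩
  have tM : IsScalarTower R0 Ri M := ⟨fun a b x => by
    change (algebraMap Ri R (a • b)) • x = (algebraMap Ri R (algebraMap R0 Ri a)) •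
      ((algebraMap Ri R b) • x)
    rw [smul_smul, ← map_mul, Algebra.smul_def]⟩
  have tN : IsScalarTower R0 Ri N := ⟨fun a b x => by
    change (algebraMap Ri R (a • b)) • x = (algebraMap Ri R (algebraMap R0 Ri a)) •
      ((algebraMap Ri R b) • x)
    rw [smul_smul, ← map_mul, Algebra.smul_def]⟩
  have tK : IsScalarTower R0 Ri K := ⟨fun a b x => by
    change (algebraMap Ri R (a • b)) • x = (algebraMap Ri R (algebraMap R0 Ri a)) •
      ((algebraMap Ri R b) • x)
    rw [smul_smul, ← map_mul, Algebra.smul_def]⟩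
  rw [T.lenR_eq R M, T.lenR_eq R N, T.lenR_eq R K]
  exact T.lam_eq_add h (f := f.restrictScalars Ri) (g := g.restrictScalars Ri) hf hg hfg

end

section

variable {R0 : Type v} {Ri : Type w} [CommRing R0] [IsNoetherianRing R0] [CommRing Ri]
  [Algebra R0 Ri] {ι : Type*} [Preorder ι] (T : Tower R0 Ri ι)

open Classical in
/-- the total additive length. -/
noncomputable def Tower.totLen [IsDirectedOrder ι] [Nonempty ι] (R : Type u) [CommRing R]
    [Algebra Ri R] : AddLen R where
  len M _ _ := if LFr R0 Ri R M then T.lenR R M else ⊤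
  zero := by
    have h : LFr R0 Ri R PUnit.{u+1} := by
      let _ : Module R0 PUnit.{u+1} :=
        Module.compHom PUnit.{u+1} ((algebraMap Ri R).comp (algebraMap R0 Ri))
      intro X _
      rw [Module.length_eq_zero]
      simp
    rw [if_pos h]
    exact T.lenR_subsingleton R PUnit
  add {M N K} _ _ _ _ _ _ f g hf hg hfg := by
    by_cases h : LFr R0 Ri R N
    · have h' := (lfr_add R f g hf hg hfg).mp h
      rw [if_pos h, if_pos h'.1, if_pos h'.2]
      exact T.lenR_add' R f g hf hg hfg h
    · have h' : ¬ (LFr R0 Ri R M ∧ LFr R0 Ri R K) := fun h' =>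
        h ((lfr_add R f g hf hg hfg).mpr h')
      rw [if_neg h]
      by_cases h1 : LFr R0 Ri R M
      · have h2 : ¬ LFr R0 Ri R K := fun h2 => h' ⟨h1, h2⟩
        rw [if_neg h2, add_top]
      · rw [if_neg h1, top_add]

theorem Tower.totLen_eq [IsDirectedOrder ι] [Nonempty ι] (R : Type u) [CommRing R]
    [Algebra Ri R] (M : Type u) [AddCommGroup M] [Module R M] (h : LFr R0 Ri R M) :
    (T.totLen R).len M = T.lenR R M := if_pos h

omit [IsNoetherianRing R0] in
/-- modules killed by an ideal of finite colength are locally finite. -/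
theorem lfr_of_smul_eq_zero (R : Type u) [CommRing R] [Algebra Ri R] (J : Ideal R0)
    (hJ : Module.length R0 (R0 ⧸ J) ≠ ⊤) (M : Type u) [AddCommGroup M] [Module R M]
    (h : ∀ a ∈ J, ∀ x : M, algebraMap Ri R (algebraMap R0 Ri a) • x = 0) :
    LFr R0 Ri R M := by
  let _ : Module R0 M := Module.compHom M ((algebraMap Ri R).comp (algebraMap R0 Ri))
  exact Tower.lf_of_smul_eq_zero J hJ h

end

end Vale.Agent.P202.Mix
end

section

/-!
P202 MIX, M1 (T1, T2): the ring `B = W(C)/(p - [t])`: `[t] = p`, `B/p = C/t`, `B` is `p`-torsion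
free, root closedness.
-/

namespace Vale.Agent.P202.Mix

open Polynomial

universe u

section M1
variable (p : ℕ) [Fact p.Prime] (C : Type u) [CommRing C] [CharP C p] [PerfectRing C p] (t : C)

omit [CharP C p] [PerfectRing C p] in
theorem toB_surjective : Function.Surjective (toB p C t) := Ideal.Quotient.mk_surjective

omit [CharP C p] [PerfectRing C p] in
theorem toB_eq_zero_iff {x : WittVector p C} : toB p C t x = 0 ↔
    ∃ y, x = ((p : WittVector p C) - WittVector.teichmuller p t) * y := by
  have h : toB p C t x = 0 ↔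
      x ∈ Ideal.span {(p : WittVector p C) - WittVector.teichmuller p t} :=
    Ideal.Quotient.eq_zero_iff_mem
  rw [h, Ideal.mem_span_singleton']
  exact ⟨fun ⟨y, hy⟩ => ⟨y, by rw [← hy, mul_comm]⟩, fun ⟨y, hy⟩ => ⟨y, by rw [hy, mul_comm]⟩⟩

omit [CharP C p] [PerfectRing C p] in
/-- `[t] = p`. -/
theorem te_t : te p C t t = (p : Bt p C t) := by
  have h : toB p C t ((p : WittVector p C) - WittVector.teichmuller p t) = 0 :=
    (toB_eq_zero_iff p C t).2 ⟨1, (mul_one _).symm⟩
  rw [map_sub, map_natCast, sub_eq_zero] at h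
  exact h.symm

omit [CharP C p] [PerfectRing C p] in
theorem te_mul (a b : C) : te p C t (a * b) = te p C t a * te p C t b := by
  rw [te, te, te, map_mul, map_mul]

omit [CharP C p] [PerfectRing C p] in
theorem te_zero : te p C t 0 = 0 := by
  rw [te, WittVector.teichmuller_zero, map_zero]

omit [CharP C p] [PerfectRing C p] in
theorem te_pow (a : C) (n : ℕ) : te p C t (a ^ n) = te p C t a ^ n := by
  rw [te, te, map_pow, map_pow]

/-- The projection `B → C/t`, `toB x ↦ x.coeff 0`. -/
theorem exists_proj : ∃ π : Bt p C t →+* C ⧸ Ideal.span {t},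
    (∀ x : WittVector p C, π (toB p C t x) = Ideal.Quotient.mk _ (x.coeff 0)) ∧
    Function.Surjective π ∧ RingHom.ker π = Ideal.span {(p : Bt p C t)} := by
  let φ : WittVector p C →+* C ⧸ Ideal.span {t} :=
    (Ideal.Quotient.mk (Ideal.span {t})).comp WittVector.constantCoeff
  have hφ : ∀ x, φ x = Ideal.Quotient.mk _ (x.coeff 0) := fun x => rfl
  have hφ0 : ∀ x ∈ Ideal.span {(p : WittVector p C) - WittVector.teichmuller p t}, φ x = 0 := by
    intro x hx
    rw [Ideal.mem_span_singleton'] at hx
    obtain ⟨y, rfl⟩ := hx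
    have h1 : φ ((p : WittVector p C) - WittVector.teichmuller p t) = 0 := by
      have h2 : φ (WittVector.teichmuller p t) = 0 := by
        rw [hφ, WittVector.teichmuller_coeff_zero]
        exact Ideal.Quotient.eq_zero_iff_mem.2 (Ideal.mem_span_singleton_self t)
      have h3 : φ (p : WittVector p C) = 0 := by
        rw [hφ, WittVector.coeff_p_zero, map_zero]
      rw [map_sub, h2, h3, sub_zero]
    rw [map_mul, h1, mul_zero]
  let π : Bt p C t →+* C ⧸ Ideal.span {t} := Ideal.Quotient.lift _ φ hφ0
  have hπ : ∀ x : WittVector p C, π (toB p C t x) = Ideal.Quotient.mk _ (x.coeff 0) := fun x => by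
    change Ideal.Quotient.lift _ φ hφ0 (Ideal.Quotient.mk _ x) = _
    rw [Ideal.Quotient.lift_mk]
    rfl
  refine ⟨π, hπ, ?_, ?_⟩
  · intro y
    obtain ⟨c, rfl⟩ := Ideal.Quotient.mk_surjective y
    exact ⟨toB p C t (WittVector.teichmuller p c), by
      rw [hπ, WittVector.teichmuller_coeff_zero]⟩
  · ext b
    rw [RingHom.mem_ker]
    constructor
    · intro h
      obtain ⟨x, rfl⟩ := toB_surjective p C t b
      rw [hπ, Ideal.Quotient.eq_zero_iff_mem, Ideal.mem_span_singleton'] at h
      obtain ⟨c, hc⟩ := h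
      have h1 : (x - WittVector.teichmuller p c * WittVector.teichmuller p t).coeff 0 = 0 := by
        have h2 : WittVector.constantCoeff
            (x - WittVector.teichmuller p c * WittVector.teichmuller p t) = 0 := by
          rw [map_sub, map_mul]
          change x.coeff 0 - (WittVector.teichmuller p c).coeff 0 *
            (WittVector.teichmuller p t).coeff 0 = 0
          rw [WittVector.teichmuller_coeff_zero, WittVector.teichmuller_coeff_zero, hc, sub_self]
        exact h2
      rw [← WittVector.mem_span_p_iff_coeff_zero_eq_zero, Ideal.mem_span_singleton'] at h1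
      obtain ⟨y, hy⟩ := h1
      have h3 : x = y * (p : WittVector p C) +
          WittVector.teichmuller p c * WittVector.teichmuller p t := by rw [hy]; ring
      rw [Ideal.mem_span_singleton']
      refine ⟨toB p C t y + te p C t c, ?_⟩
      rw [h3, map_add, map_mul, map_mul, map_natCast, add_mul]
      congr 1
      change te p C t c * (p : Bt p C t) = te p C t c * te p C t t
      rw [te_t]
    · intro h
      rw [Ideal.mem_span_singleton'] at h
      obtain ⟨y, rfl⟩ := h
      have h1 : π (p : Bt p C t) = 0 := by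
        rw [← map_natCast (toB p C t), hπ, WittVector.coeff_p_zero, map_zero]
      rw [map_mul, h1, mul_zero]

/-- Every element of `B` is a Teichmueller representative modulo `p`. -/
theorem exists_te_sub_mem (b : Bt p C t) :
    ∃ c : C, b - te p C t c ∈ Ideal.span {(p : Bt p C t)} := by
  obtain ⟨π, hπ, -, hk⟩ := exists_proj p C t
  obtain ⟨x, rfl⟩ := toB_surjective p C t b
  refine ⟨x.coeff 0, ?_⟩
  rw [← hk, RingHom.mem_ker, map_sub, hπ, te, hπ, WittVector.teichmuller_coeff_zero, sub_self]

variable (ht : t ∈ nonZeroDivisors C)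
include ht

/-- `B` has no `p`-torsion. -/
theorem p_mul_eq_zero (b : Bt p C t) (h : (p : Bt p C t) * b = 0) : b = 0 := by
  obtain ⟨x, rfl⟩ := toB_surjective p C t b
  rw [← map_natCast (toB p C t), ← map_mul, toB_eq_zero_iff] at h
  obtain ⟨y, hy⟩ := h
  have h1 : y.coeff 0 = 0 := by
    have h2 : WittVector.constantCoeff ((p : WittVector p C) * x) =
        WittVector.constantCoeff (((p : WittVector p C) - WittVector.teichmuller p t) * y) := by
      rw [hy]
    rw [map_mul, map_mul, map_sub] at h2
    change (p : WittVector p C).coeff 0 * x.coeff 0 = ((p : WittVector p C).coeff 0 -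
      (WittVector.teichmuller p t).coeff 0) * y.coeff 0 at h2
    rw [WittVector.coeff_p_zero, WittVector.teichmuller_coeff_zero, zero_mul, zero_sub, neg_mul,
      eq_comm, neg_eq_zero] at h2
    exact (mul_left_mem_nonZeroDivisors_eq_zero_iff ht).1 h2
  rw [← WittVector.mem_span_p_iff_coeff_zero_eq_zero, Ideal.mem_span_singleton'] at h1
  obtain ⟨z, rfl⟩ := h1
  have h3 : (x - ((p : WittVector p C) - WittVector.teichmuller p t) * z) * p = 0 := by
    have h4 : (x - ((p : WittVector p C) - WittVector.teichmuller p t) * z) * p =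
        p * x - ((p : WittVector p C) - WittVector.teichmuller p t) * (z * p) := by ring
    rw [h4, hy, sub_self]
  have h5 := WittVector.eq_zero_of_p_mul_eq_zero _ h3
  rw [toB_eq_zero_iff]
  exact ⟨z, sub_eq_zero.1 h5⟩

theorem p_pow_mul_eq_zero (j : ℕ) (b : Bt p C t) (h : (p : Bt p C t) ^ j * b = 0) : b = 0 := by
  induction j with
  | zero => rwa [pow_zero, one_mul] at h
  | succ j ih =>
    refine ih (p_mul_eq_zero p C t ht _ ?_)
    rw [← h]
    ring

omit ht in
theorem mem_span_of_te_mem (a : C) (h : te p C t a ∈ Ideal.span {(p : Bt p C t)}) :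
    a ∈ Ideal.span {t} := by
  obtain ⟨π, hπ, -, hk⟩ := exists_proj p C t
  rw [← hk, RingHom.mem_ker, te, hπ, WittVector.teichmuller_coeff_zero,
    Ideal.Quotient.eq_zero_iff_mem] at h
  exact h

/-- `[a] ∈ p^j B` implies `a ∈ t^j C`. -/
theorem mem_of_te_mem (a : C) (j : ℕ) (h : te p C t a ∈ Ideal.span {(p : Bt p C t) ^ j}) :
    a ∈ Ideal.span {t ^ j} := by
  induction j with
  | zero => rw [pow_zero, Ideal.span_singleton_one]; trivial
  | succ j ih =>
    rw [Ideal.mem_span_singleton'] at h
    obtain ⟨b, hb⟩ := h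
    have h1 := ih (by
      rw [Ideal.mem_span_singleton']
      exact ⟨b * p, by rw [← hb]; ring⟩)
    rw [Ideal.mem_span_singleton'] at h1
    obtain ⟨c, rfl⟩ := h1
    rw [te_mul, te_pow, te_t] at hb
    have h2 : te p C t c - b * p = 0 := by
      apply p_pow_mul_eq_zero p C t ht j
      linear_combination -hb
    have h3 := mem_span_of_te_mem p C t c (by
      rw [Ideal.mem_span_singleton']
      exact ⟨b, (sub_eq_zero.1 h2).symm⟩)
    rw [Ideal.mem_span_singleton'] at h3 ⊢
    obtain ⟨d, rfl⟩ := h3
    exact ⟨d, by ring⟩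

omit ht in
theorem rt_pow_self (j : ℕ) : rt p j t ^ p ^ j = t := by
  rw [rt, ← iterateFrobenius_def, ← coe_iterateFrobeniusEquiv]
  exact RingEquiv.apply_symm_apply _ _

omit ht in
theorem te_rt_pow_self (j : ℕ) : te p C t (rt p j t) ^ p ^ j = (p : Bt p C t) := by
  rw [← te_pow, rt_pow_self, te_t]

/-- Root closedness (one step). -/
theorem root_closed_aux (j : ℕ) (hj : 1 ≤ j) (m : ℕ) (b : Bt p C t)
    (h : b ^ p ∈ Ideal.span {te p C t (rt p j t) ^ (p * m)}) :
    b ∈ Ideal.span {te p C t (rt p j t) ^ m} := by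
  have hp0 : 0 < p := (Fact.out : p.Prime).pos
  have hpj : p ≤ p ^ j := Nat.le_self_pow (by omega) p
  have hjs : p ^ j = p + (p ^ j - p) := by omega
  have hj1 : p ^ j = 1 + (p ^ j - 1) := by omega
  set s := rt p j t with hs
  set σ := te p C t s with hσ
  have hσp : σ ^ p ^ j = (p : Bt p C t) := te_rt_pow_self p C t j
  have hσ0 : ∀ n x, σ ^ n * x = 0 → x = 0 := by
    intro n x hx
    apply p_pow_mul_eq_zero p C t ht n
    have h1 : (σ ^ p ^ j) ^ n = (σ ^ n) ^ (p ^ j - 1) * σ ^ n := by
      rw [← pow_succ, ← pow_mul, ← pow_mul, mul_comm]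
      congr 2
      omega
    rw [← hσp, h1, mul_assoc, hx, mul_zero]
  induction m generalizing b with
  | zero => rw [pow_zero, Ideal.span_singleton_one]; trivial
  | succ m ih =>
    rw [Ideal.mem_span_singleton'] at h
    obtain ⟨y, hy⟩ := h
    obtain ⟨c, hc⟩ := exists_te_sub_mem p C t b
    obtain ⟨π, hπ, -, hk⟩ := exists_proj p C t
    rw [← hk, RingHom.mem_ker, map_sub, sub_eq_zero] at hc
    have hπc : π b = Ideal.Quotient.mk _ c := by
      rw [hc, te, hπ, WittVector.teichmuller_coeff_zero]
    have hπs : π σ = Ideal.Quotient.mk _ s := by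
      rw [hσ, te, hπ, WittVector.teichmuller_coeff_zero]
    obtain ⟨z, hz⟩ := Ideal.Quotient.mk_surjective (π y)
    have h1 : Ideal.Quotient.mk (Ideal.span {t}) (c ^ p - z * s ^ (p * (m + 1))) = 0 := by
      rw [map_sub, map_pow, map_mul, map_pow, ← hπc, hz, ← hπs, ← map_pow, ← map_pow, ← map_mul,
        hy, sub_self]
    rw [Ideal.Quotient.eq_zero_iff_mem, Ideal.mem_span_singleton'] at h1
    obtain ⟨w, hw⟩ := h1
    have hst : s ^ p ^ j = t := rt_pow_self p C t j
    -- `c ^ p` is divisible by `s ^ p`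
    have h2 : c ^ p = s ^ p * (w * s ^ (p ^ j - p) + z * s ^ (p * m)) := by
      have h3 : s ^ p ^ j = s ^ p * s ^ (p ^ j - p) := by rw [← pow_add, ← hjs]
      have h4 : s ^ (p * (m + 1)) = s ^ p * s ^ (p * m) := by
        rw [← pow_add]; congr 1; ring
      have h5 : c ^ p = w * t + z * s ^ (p * (m + 1)) := by rw [hw]; ring
      rw [h5, ← hst, h3, h4]
      ring
    obtain ⟨d, hd⟩ : ∃ d : C, d ^ p = w * s ^ (p ^ j - p) + z * s ^ (p * m) := by
      refine ⟨(frobeniusEquiv C p).symm (w * s ^ (p ^ j - p) + z * s ^ (p * m)), ?_⟩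
      rw [← frobenius_def, ← frobeniusEquiv_apply, RingEquiv.apply_symm_apply]
    have h6 : c = s * d := by
      apply (frobeniusEquiv C p).injective
      rw [frobeniusEquiv_apply, frobeniusEquiv_apply, frobenius_def, frobenius_def, h2, mul_pow, hd]
    obtain ⟨b', hb'⟩ : ∃ b', b = σ * b' := by
      have h7 : b - te p C t c ∈ RingHom.ker π := by
        rw [RingHom.mem_ker, map_sub, hc, sub_self]
      rw [hk, Ideal.mem_span_singleton'] at h7
      obtain ⟨x, hx⟩ := h7
      refine ⟨te p C t d + x * σ ^ (p ^ j - 1), ?_⟩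
      have h8 : (p : Bt p C t) = σ * σ ^ (p ^ j - 1) := by
        rw [← hσp, ← pow_succ']; congr 1
        omega
      have h9 : b = te p C t c + x * (p : Bt p C t) := by rw [hx]; ring
      rw [h9, h6, te_mul, h8]
      ring
    have h10 : b' ^ p - y * σ ^ (p * m) = 0 := by
      apply hσ0 p
      have h11 : σ ^ (p * (m + 1)) = σ ^ p * σ ^ (p * m) := by
        rw [← pow_add]; congr 1; ring
      rw [hb', mul_pow, h11] at hy
      linear_combination -hy
    have h12 := ih b' (by
      rw [Ideal.mem_span_singleton']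
      exact ⟨y, (sub_eq_zero.1 h10).symm⟩)
    rw [Ideal.mem_span_singleton'] at h12 ⊢
    obtain ⟨x, hx⟩ := h12
    exact ⟨x, by rw [hb', ← hx]; ring⟩

/-- (T2): `b^(p^e) ∈ p^(p^e N) B` implies `b ∈ p^N B`. -/
theorem root_closed (e N : ℕ) (b : Bt p C t)
    (h : b ^ (p ^ e) ∈ Ideal.span {(p : Bt p C t) ^ (p ^ e * N)}) :
    b ∈ Ideal.span {(p : Bt p C t) ^ N} := by
  have hσ : te p C t (rt p 1 t) ^ p = (p : Bt p C t) := by
    have h1 := te_rt_pow_self p C t 1
    rwa [pow_one] at h1
  induction e generalizing b with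
  | zero => simpa using h
  | succ e ih =>
    apply ih
    have h2 : b ^ p ^ (e + 1) = (b ^ p ^ e) ^ p := by rw [← pow_mul, pow_succ]
    rw [h2, ← hσ, ← pow_mul] at h
    have h3 : p * (p ^ (e + 1) * N) = p * (p * (p ^ e * N)) := by ring
    rw [h3] at h
    have h4 := root_closed_aux p C t ht 1 le_rfl _ _ h
    rwa [pow_mul, hσ] at h4

end M1

end Vale.Agent.P202.Mix
end

section

/-!
P202 MIX, task M12, part A: monomials in the roots modulo the variables (helper677).
-/

namespace Vale.Agent.P202.Mix.UL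

open TensorProduct IsLocalRing

universe u

section rt

variable {p : ℕ} [Fact p.Prime] {C : Type u} [CommRing C] [CharP C p] [PerfectRing C p]

theorem rt_inj {e : ℕ} {a b : C} (h : a ^ p ^ e = b ^ p ^ e) : a = b :=
  (iterateFrobeniusEquiv C p e).injective (by
    rw [iterateFrobeniusEquiv_def, iterateFrobeniusEquiv_def]
    exact h)

theorem rt_unique {e : ℕ} {a b : C} (h : a ^ p ^ e = b) : a = rt p e b :=
  rt_inj (e := e) (by rw [h, rt_pow_self])

theorem rt_zero_exp (c : C) : rt p 0 c = c := (rt_unique (by simp)).symm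

theorem rt_succ_pow (e : ℕ) (c : C) : rt p (e + 1) c ^ p = rt p e c :=
  rt_unique (by rw [← pow_mul, ← pow_succ', rt_pow_self])

theorem rt_map {D : Type u} [CommRing D] [CharP D p] [PerfectRing D p] (f : C →+* D) (e : ℕ)
    (c : C) : f (rt p e c) = rt p e (f c) := rt_unique (by rw [← map_pow, rt_pow_self])

end rt

section ps

variable {k : Type u} [Field k] {r : ℕ}

theorem exists_box (r q : ℕ) : ∃ B : Finset (Fin (r + 1) →₀ ℕ), ∀ m, m ∈ B ↔ ∀ l, m l < q := by
  classical
  refine ⟨(Fintype.piFinset fun _ : Fin (r + 1) => Finset.range q).map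
    Finsupp.equivFunOnFinite.symm.toEmbedding, fun m => ?_⟩
  rw [Finset.mem_map]
  constructor
  · rintro ⟨g, hg, rfl⟩ l
    have := Fintype.mem_piFinset.mp hg l
    simpa using this
  · intro h
    refine ⟨m, Fintype.mem_piFinset.mpr fun l => Finset.mem_range.mpr (h l), ?_⟩
    ext l
    simp

theorem mem_span_of_coeff (q : ℕ) (h : R0 k r)
    (H : ∀ m : Fin (r + 1) →₀ ℕ, (∀ l, m l < q) → MvPowerSeries.coeff m h = 0) :
    h ∈ Ideal.span (Set.range fun l => (MvPowerSeries.X l : R0 k r) ^ q) := by
  classical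
  have key : ∀ s : Finset (Fin (r + 1)), ∀ h : R0 k r,
      (∀ m : Fin (r + 1) →₀ ℕ, (∀ l ∈ s, m l < q) → MvPowerSeries.coeff m h = 0) →
      h ∈ Ideal.span (Set.range fun l => (MvPowerSeries.X l : R0 k r) ^ q) := by
    intro s
    induction s using Finset.induction_on with
    | empty =>
      intro h H
      have : h = 0 := by
        ext m
        rw [H m (by simp), map_zero]
      rw [this]
      exact zero_mem _
    | insert l s hl ih =>
      intro h H
      let h1 : R0 k r := fun m => if ∀ j ∈ s, m j < q then MvPowerSeries.coeff m h else 0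
      have c1 : ∀ m, MvPowerSeries.coeff m h1 =
          if ∀ j ∈ s, m j < q then MvPowerSeries.coeff m h else 0 := fun m => rfl
      have e1 : h = (h - h1) + h1 := by ring
      rw [e1]
      refine add_mem (ih _ fun m hm => ?_) ?_
      · rw [map_sub, c1, if_pos hm, sub_self]
      · have hd : (MvPowerSeries.X l : R0 k r) ^ q ∣ h1 := by
          rw [MvPowerSeries.X_pow_dvd_iff]
          intro m hm
          rw [c1]
          split_ifs with hs
          · refine H m fun j hj => ?_
            rcases Finset.mem_insert.mp hj with rfl | hj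
            · exact hm
            · exact hs j hj
          · rfl
        exact Ideal.mem_of_dvd _ hd (Ideal.subset_span ⟨l, rfl⟩)
  exact key Finset.univ h fun m hm => H m fun l => hm l (Finset.mem_univ l)

theorem coeff_of_mem_span (q : ℕ) (h : R0 k r)
    (H : h ∈ Ideal.span (Set.range fun l => (MvPowerSeries.X l : R0 k r) ^ q))
    (m : Fin (r + 1) →₀ ℕ) (hm : ∀ l, m l < q) : MvPowerSeries.coeff m h = 0 := by
  rw [Ideal.mem_span_range_iff_exists_fun] at H
  obtain ⟨c, rfl⟩ := H
  rw [map_sum]
  refine Finset.sum_eq_zero fun l _ => ?_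
  exact (MvPowerSeries.X_pow_dvd_iff.mp (Dvd.intro_left (c l) rfl)) m (hm l)

theorem monomial_eq (m : Fin (r + 1) →₀ ℕ) (a : k) :
    (MvPowerSeries.monomial m a : R0 k r) =
      MvPowerSeries.C a * ∏ l, MvPowerSeries.X l ^ m l := by
  rw [← MvPolynomial.coe_monomial, MvPolynomial.monomial_eq, MvPolynomial.coe_mul,
    MvPolynomial.coe_C, Finsupp.prod_fintype _ _ (fun i => pow_zero _)]
  congr 1
  have h := map_prod (MvPolynomial.coeToMvPowerSeries.ringHom (σ := Fin (r + 1)) (R := k))
    (fun i => (MvPolynomial.X i : MvPolynomial (Fin (r + 1)) k) ^ m i) Finset.univ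
  rw [MvPolynomial.coeToMvPowerSeries.ringHom_apply] at h
  rw [h]
  refine Finset.prod_congr rfl fun l _ => ?_
  rw [map_pow, MvPolynomial.coeToMvPowerSeries.ringHom_apply, MvPolynomial.coe_X]

theorem ps_decomp (q : ℕ) (B : Finset (Fin (r + 1) →₀ ℕ)) (hB : ∀ m, m ∈ B ↔ ∀ l, m l < q)
    (h : R0 k r) : h - ∑ m ∈ B, MvPowerSeries.monomial m (MvPowerSeries.coeff m h) ∈
      Ideal.span (Set.range fun l => (MvPowerSeries.X l : R0 k r) ^ q) := by
  classical
  refine mem_span_of_coeff q _ fun m hm => ?_
  rw [map_sub, map_sum, Finset.sum_eq_single m]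
  · rw [MvPowerSeries.coeff_monomial_same, sub_self]
  · intro n _ hn
    exact MvPowerSeries.coeff_monomial_ne hn.symm _
  · intro h'
    exact absurd ((hB m).mpr hm) h'

end ps

section pc

variable {p : ℕ} [Fact p.Prime] {k : Type u} [Field k] [CharP k p] {r : ℕ}

theorem of_inj : Function.Injective (PerfectClosure.of (R0 k r) p) := by
  intro x y h
  rw [PerfectClosure.of_apply, PerfectClosure.of_apply, PerfectClosure.eq_iff] at h
  simpa using h

theorem exists_pow_of (y : Rp p k r) :
    ∃ (n : ℕ) (x : R0 k r), y ^ p ^ n = PerfectClosure.of (R0 k r) p x := by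
  refine PerfectClosure.induction_on y fun y => ?_
  obtain ⟨n, z⟩ := y
  refine ⟨n, z, ?_⟩
  rw [← PerfectClosure.iterate_frobenius_mk (K := R0 k r) (p := p) n z, ← coe_iterateFrobenius,
    iterateFrobenius_def]

theorem exists_pow_of_fin {l : ℕ} (x : Fin l → Rp p k r) :
    ∃ (e : ℕ) (z : Fin l → R0 k r), ∀ i, x i ^ p ^ e = PerfectClosure.of (R0 k r) p (z i) := by
  choose e z hz using fun i => exists_pow_of (x i)
  refine ⟨∑ i, e i, fun i => z i ^ p ^ (∑ j, e j - e i), fun i => ?_⟩
  have h1 : e i ≤ ∑ j, e j := Finset.single_le_sum (fun _ _ => Nat.zero_le _) (Finset.mem_univ i)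
  have h2 : ∑ j, e j = e i + (∑ j, e j - e i) := by omega
  rw [map_pow, ← hz i, ← pow_mul, ← pow_add, ← h2]

theorem pow_mem_span {R : Type*} [CommRing R] [CharP R p] {J : Type*} [Fintype J] (v : J → R)
    (z : R) (h : z ∈ Ideal.span (Set.range v)) (n : ℕ) :
    z ^ p ^ n ∈ Ideal.span (Set.range fun j => v j ^ p ^ n) := by
  rw [Ideal.mem_span_range_iff_exists_fun] at h ⊢
  obtain ⟨c, rfl⟩ := h
  refine ⟨fun j => c j ^ p ^ n, ?_⟩
  rw [sum_pow_char_pow]
  exact Finset.sum_congr rfl fun j _ => (mul_pow _ _ _).symm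

theorem coeff_eq_zero_of_of_mem (Q : ℕ) (P : R0 k r)
    (h : PerfectClosure.of (R0 k r) p P ∈ Ideal.span (Set.range fun l => xp p k r l ^ Q))
    (m : Fin (r + 1) →₀ ℕ) (hm : ∀ l, m l < Q) : MvPowerSeries.coeff m P = 0 := by
  classical
  have hp0 : 0 < p := (Fact.out : p.Prime).pos
  rw [Ideal.mem_span_range_iff_exists_fun] at h
  obtain ⟨y, hy⟩ := h
  obtain ⟨n, y', hy'⟩ := exists_pow_of_fin y
  have h1 : P ^ p ^ n = ∑ l, y' l * (MvPowerSeries.X l) ^ (Q * p ^ n) := by
    apply of_inj (p := p)
    rw [map_pow, ← hy, sum_pow_char_pow, map_sum]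
    refine Finset.sum_congr rfl fun l _ => ?_
    rw [mul_pow, hy', map_mul, map_pow, ← pow_mul]
    rfl
  obtain ⟨B, hB⟩ := exists_box r Q
  have h2 := ps_decomp Q B hB P
  have e3 : (∑ m ∈ B, MvPowerSeries.monomial (p ^ n • m) (MvPowerSeries.coeff m P ^ p ^ n) :
      R0 k r) = (∑ m ∈ B, MvPowerSeries.monomial m (MvPowerSeries.coeff m P)) ^ p ^ n := by
    rw [sum_pow_char_pow]
    refine Finset.sum_congr rfl fun m _ => ?_
    rw [MvPowerSeries.monomial_pow]
  have h3 : (∑ m ∈ B, MvPowerSeries.monomial (p ^ n • m) (MvPowerSeries.coeff m P ^ p ^ n) :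
      R0 k r) ∈ Ideal.span (Set.range fun l => (MvPowerSeries.X l : R0 k r) ^ (Q * p ^ n)) := by
    have e4 : (∑ m ∈ B, MvPowerSeries.monomial m (MvPowerSeries.coeff m P) : R0 k r) ^ p ^ n =
        P ^ p ^ n -
          (P - ∑ m ∈ B, MvPowerSeries.monomial m (MvPowerSeries.coeff m P)) ^ p ^ n := by
      rw [← sub_pow_char_pow, sub_sub_cancel]
    rw [e3, e4]
    refine sub_mem ?_ ?_
    · rw [h1]
      exact sum_mem fun l _ => Ideal.mul_mem_left _ _ (Ideal.subset_span ⟨l, rfl⟩)
    · have := pow_mem_span (p := p) _ _ h2 n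
      simpa only [← pow_mul] using this
  have h4 := coeff_of_mem_span _ _ h3 (p ^ n • m) (fun l => by
    rw [Finsupp.smul_apply, smul_eq_mul, mul_comm]
    exact Nat.mul_lt_mul_of_pos_right (hm l) (pow_pos hp0 n))
  rw [map_sum, Finset.sum_eq_single m, MvPowerSeries.coeff_monomial_same] at h4
  · exact pow_eq_zero_iff (pow_pos hp0 n).ne' |>.mp h4
  · intro m' _ hne
    refine MvPowerSeries.coeff_monomial_ne (fun he => hne ?_) _
    ext l
    have := DFunLike.congr_fun he l
    rw [Finsupp.smul_apply, Finsupp.smul_apply, smul_eq_mul, smul_eq_mul] at this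
    exact (Nat.eq_of_mul_eq_mul_left (pow_pos hp0 n) this).symm
  · intro h'
    exact absurd ((hB m).mpr hm) h'

end pc

section li

variable (p : ℕ) [Fact p.Prime] (k : Type u) [Field k] [CharP k p] (r : ℕ)
variable (C : Type u) [CommRing C] [Algebra (Rp p k r) C]

/-- the variables in `C`. -/
noncomputable def vC (l : Fin (r + 1)) : C := algebraMap (Rp p k r) C (xp p k r l)

/-- the ideal generated by the variables. -/
noncomputable def vI : Ideal C := Ideal.span (Set.range (vC p k r C))

/-- the constants. -/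
noncomputable def kR : k →+* Rp p k r := (PerfectClosure.of (R0 k r) p).comp MvPowerSeries.C

/-- the constants in `C`. -/
noncomputable def kC : k →+* C := (algebraMap (Rp p k r) C).comp (kR p k r)

variable {p k r}

theorem mem_of_map_mem {r0 : ℕ} (d : PExt.{u} p k r r0) (z : Rp p k r)
    (h : algebraMap (Rp p k r) d.C z ∈ vI p k r d.C) :
    z ∈ Ideal.span (Set.range (xp p k r)) := by
  have h1 := d.flat
  have h2 := d.integral
  have h3 : FaithfulSMul (Rp p k r) d.C := (faithfulSMul_iff_algebraMap_injective _ _).mpr d.inj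
  have hs : Function.Surjective (PrimeSpectrum.comap (algebraMap (Rp p k r) d.C)) :=
    Algebra.IsIntegral.comap_surjective _ _
  have h4 : Module.FaithfullyFlat (Rp p k r) d.C := Module.FaithfullyFlat.of_comap_surjective hs
  have h5 : (Ideal.span (Set.range (xp p k r))).map (algebraMap _ d.C) = vI p k r d.C := by
    rw [Ideal.map_span, ← Set.range_comp]
    rfl
  rw [← h5, ← Ideal.mem_comap, Ideal.comap_map_eq_self_of_faithfullyFlat] at h
  exact h

theorem li_k_aux {r0 : ℕ} (d : PExt.{u} p k r r0) (e : ℕ)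
    (f : Bx (Fin (r + 1)) (p ^ e) →₀ k)
    (h : (f.sum fun α y => kC p k r d.C y * ∏ l, rt p e (vC p k r d.C l) ^ α.1 l) ∈
      vI p k r d.C) : f = 0 := by
  classical
  have hp0 : 0 < p := (Fact.out : p.Prime).pos
  let z : Rp p k r := f.sum fun α y => kR p k r y * ∏ l, rt p e (xp p k r l) ^ α.1 l
  have hz1 : algebraMap (Rp p k r) d.C z =
      f.sum fun α y => kC p k r d.C y * ∏ l, rt p e (vC p k r d.C l) ^ α.1 l := by
    rw [map_finsuppSum]
    refine Finsupp.sum_congr fun α _ => ?_
    rw [map_mul, map_prod]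
    refine congrArg₂ _ rfl (Finset.prod_congr rfl fun l _ => ?_)
    rw [map_pow, rt_map]
    rfl
  rw [← hz1] at h
  have hz2 := pow_mem_span (p := p) _ _ (mem_of_map_mem d z h) e
  have hz3 : z ^ p ^ e = PerfectClosure.of (R0 k r) p
      (f.sum fun α y => MvPowerSeries.monomial α.1 (y ^ p ^ e)) := by
    have hz0 : z = ∑ α ∈ f.support, kR p k r (f α) * ∏ l, rt p e (xp p k r l) ^ α.1 l := rfl
    rw [hz0, map_finsuppSum, Finsupp.sum, sum_pow_char_pow]
    refine Finset.sum_congr rfl fun α _ => ?_
    rw [mul_pow, ← Finset.prod_pow, monomial_eq, map_mul, map_prod]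
    refine congrArg₂ _ ?_ (Finset.prod_congr rfl fun l _ => ?_)
    · rw [← map_pow]
      rfl
    · rw [← pow_mul, mul_comm, pow_mul, rt_pow_self, map_pow]
      rfl
  rw [hz3] at hz2
  ext α
  have h6 := coeff_eq_zero_of_of_mem (p ^ e) _ hz2 α.1 α.2
  rw [Finsupp.sum, map_sum, Finset.sum_eq_single α, MvPowerSeries.coeff_monomial_same] at h6
  · exact pow_eq_zero_iff (pow_pos hp0 e).ne' |>.mp h6
  · intro β _ hne
    exact MvPowerSeries.coeff_monomial_ne (fun he => hne (Subtype.ext he.symm)) _
  · intro hα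
    rw [Finsupp.notMem_support_iff.mp hα, zero_pow (pow_pos hp0 e).ne', map_zero, map_zero]

/-- the homomorphism `k → C/(x)`. -/
noncomputable def kCb (p : ℕ) [Fact p.Prime] (k : Type u) [Field k] [CharP k p] (r : ℕ)
    (C : Type u) [CommRing C] [Algebra (Rp p k r) C] : k →+* C ⧸ vI p k r C :=
  (Ideal.Quotient.mk (vI p k r C)).comp (kC p k r C)

theorem li_k {r0 : ℕ} (d : PExt.{u} p k r r0) (e : ℕ) :
    letI := (kCb p k r d.C).toAlgebra
    LinearIndependent k fun α : Bx (Fin (r + 1)) (p ^ e) =>
      (Ideal.Quotient.mk (vI p k r d.C) (∏ l, rt p e (vC p k r d.C l) ^ α.1 l)) := by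
  let _ := (kCb p k r d.C).toAlgebra
  rw [linearIndependent_iff]
  intro f hf
  refine li_k_aux d e f ?_
  rw [← Ideal.Quotient.eq_zero_iff_mem, ← hf, Finsupp.linearCombination_apply, map_finsuppSum]
  refine Finsupp.sum_congr fun α _ => ?_
  rw [map_mul, Algebra.smul_def]
  rfl

end li

section lik0

variable {p : ℕ} [Fact p.Prime] {k : Type u} [Field k] [CharP k p] {r : ℕ}
variable {Λ : Type u} [CommRing Λ] [IsLocalRing Λ] {u : Fin r → Λ}
  {ψ : Λ →+* WittVector p (Rp p k r)}
  {red : Λ →+* R0 k r ⧸ Ideal.span {(MvPowerSeries.X 0 : R0 k r)}}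
  {ι : Type u} {b : ι → Λ} {β : ι → k} {res : ResidueField Λ →+* k}

end lik0

end Vale.Agent.P202.Mix.UL
end

section

/-!
Definitions for the approximation theorem: power series over a field `K` of characteristic zero
whose coefficients lie in a finitely generated subring of `K`.
-/

namespace Vale.Agent.P202.CZ

open MvPowerSeries

/-- The ideal generated by the variables. -/
noncomputable def mm (σ : Type*) (K : Type*) [Field K] : Ideal (MvPowerSeries σ K) :=
  Ideal.span (Set.range X)

section Coord

variable {K : Type*} [Field K]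

end Coord

end Vale.Agent.P202.CZ
end

section

/-!
Powers of the ideal generated by the variables.
-/

namespace Vale.Agent.P202.CZ

open MvPowerSeries

variable {σ R : Type*} [CommRing R]

lemma exists_le_degree_eq {c : ℕ} (β : σ →₀ ℕ) (h : c ≤ β.degree) :
    ∃ α ≤ β, α.degree = c := by
  classical
  induction c with
  | zero => exact ⟨0, zero_le, by simp⟩
  | succ c ih =>
    obtain ⟨α, hα, hc⟩ := ih (by omega)
    have hne : α ≠ β := by
      rintro rfl
      omega
    obtain ⟨i, hi⟩ : ∃ i, α i < β i := by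
      by_contra h'
      push Not at h'
      exact hne (le_antisymm hα h')
    refine ⟨α + Finsupp.single i 1, ?_, ?_⟩
    · intro j
      by_cases hj : j = i
      · subst hj
        simp only [Finsupp.coe_add, Pi.add_apply, Finsupp.single_eq_same]
        omega
      · simp only [Finsupp.coe_add, Pi.add_apply, Finsupp.single_apply, if_neg (Ne.symm hj),
          add_zero]
        exact hα j
    · rw [map_add, hc, Finsupp.degree_single]

lemma coeff_eq_zero_of_mem_pow {f : MvPowerSeries σ R} {c : ℕ}
    (hf : f ∈ (Ideal.span (Set.range X) : Ideal (MvPowerSeries σ R)) ^ c) (d : σ →₀ ℕ)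
    (hd : d.degree < c) : coeff d f = 0 := by
  classical
  induction c generalizing f d with
  | zero => omega
  | succ c ih =>
    rw [pow_succ] at hf
    refine Submodule.mul_induction_on hf ?_ ?_
    · intro a ha b hb
      rw [coeff_mul]
      refine Finset.sum_eq_zero ?_
      rintro ⟨p, q⟩ hpq
      rw [Finset.HasAntidiagonal.mem_antidiagonal] at hpq
      by_cases hp : p.degree < c
      · rw [ih ha p hp, zero_mul]
      · have hq : q = 0 := by
          have : p.degree + q.degree = d.degree := by rw [← map_add, hpq]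
          have hq0 : q.degree = 0 := by omega
          exact (Finsupp.degree_eq_zero_iff q).mp hq0
        subst hq
        have hb0 : coeff (0 : σ →₀ ℕ) b = 0 := by
          refine Submodule.span_induction (p := fun b _ => coeff (0 : σ →₀ ℕ) b = 0)
            ?_ ?_ ?_ ?_ hb
          · rintro _ ⟨i, rfl⟩
            simp
          · simp
          · intro x y _ _ hx hy
            rw [map_add, hx, hy, add_zero]
          · intro a x _ hx
            rw [smul_eq_mul, coeff_zero_eq_constantCoeff_apply, map_mul,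
              ← coeff_zero_eq_constantCoeff_apply x, hx, mul_zero]
        simp only
        rw [hb0, mul_zero]
    · intro x y hx hy
      rw [map_add, hx, hy, add_zero]

lemma mem_pow_of_coeff_eq_zero [Finite σ] {f : MvPowerSeries σ R} {c : ℕ}
    (hf : ∀ d : σ →₀ ℕ, d.degree < c → coeff d f = 0) :
    f ∈ (Ideal.span (Set.range X) : Ideal (MvPowerSeries σ R)) ^ c := by
  classical
  have := Fintype.ofFinite σ
  choose! cf hcf using (fun β (h : c ≤ Finsupp.degree β) => exists_le_degree_eq (σ := σ) β h)
  let S : Finset (σ →₀ ℕ) := Finset.finsuppAntidiag Finset.univ c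
  have hS : ∀ α : σ →₀ ℕ, α ∈ S ↔ α.degree = c := by
    intro α
    simp [S, Finset.mem_finsuppAntidiag, Finsupp.degree_eq_sum]
  let g : (σ →₀ ℕ) → MvPowerSeries σ R := fun α γ =>
    if cf (α + γ) = α then coeff (α + γ) f else 0
  have key : f = ∑ α ∈ S, monomial α (1 : R) * g α := by
    ext β
    rw [map_sum]
    have h1 : ∀ α ∈ S, coeff β (monomial α (1 : R) * g α) =
        if (α ≤ β ∧ cf β = α) then coeff β f else 0 := by
      intro α _
      rw [coeff_monomial_mul, one_mul]
      by_cases hα : α ≤ β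
      · have h2 : coeff (β - α) (g α) = if cf β = α then coeff β f else 0 := by
          change g α (β - α) = _
          simp only [g, add_tsub_cancel_of_le hα]
        simp only [hα, true_and, if_true, h2]
      · simp [hα]
    rw [Finset.sum_congr rfl h1]
    by_cases hβ : c ≤ β.degree
    · obtain ⟨h3, h4⟩ := hcf β hβ
      rw [Finset.sum_eq_single (cf β)]
      · simp [h3]
      · intro α _ hne
        rw [if_neg]
        rintro ⟨_, h⟩
        exact hne h.symm
      · intro h
        exact absurd ((hS _).mpr h4) h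
    · rw [hf β (by omega), Finset.sum_eq_zero]
      intro α _
      split_ifs <;> rfl
  rw [key]
  refine Ideal.sum_mem _ fun α hα => Ideal.mul_mem_right _ _ ?_
  rw [hS] at hα
  have h5 : monomial α (1 : R) = ∏ i, (X i : MvPowerSeries σ R) ^ α i := by
    have := MvPowerSeries.coeff_zero_one (R := R) (σ := σ)
    rw [MvPowerSeries.monomial_one_eq, Finsupp.prod_fintype]
    intro i
    simp
  rw [h5]
  have h6 : ∏ i, (X i : MvPowerSeries σ R) ^ α i ∈
      ∏ i, (Ideal.span (Set.range X) : Ideal (MvPowerSeries σ R)) ^ α i :=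
    Ideal.prod_mem_prod fun i _ => Ideal.pow_mem_pow (Ideal.subset_span (Set.mem_range_self i)) _
  rw [Finset.prod_pow_eq_pow_sum] at h6
  rwa [show ∑ i, α i = c by rw [← hα, Finsupp.degree_eq_sum]] at h6

/-- membership in the powers of the ideal of the variables. -/
theorem mem_pow_iff [Finite σ] {f : MvPowerSeries σ R} {c : ℕ} :
    f ∈ (Ideal.span (Set.range X) : Ideal (MvPowerSeries σ R)) ^ c ↔
      ∀ d : σ →₀ ℕ, d.degree < c → coeff d f = 0 :=
  ⟨fun h d hd => coeff_eq_zero_of_mem_pow h d hd, mem_pow_of_coeff_eq_zero⟩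

theorem mem_span_X_iff [Finite σ] {f : MvPowerSeries σ R} :
    f ∈ (Ideal.span (Set.range X) : Ideal (MvPowerSeries σ R)) ↔ constantCoeff f = 0 := by
  rw [← pow_one (Ideal.span (Set.range X)), mem_pow_iff]
  constructor
  · intro h
    exact h 0 (by simp)
  · intro h d hd
    have : d = 0 := (Finsupp.degree_eq_zero_iff d).mp (by omega)
    subst this
    exact h

section Field

variable {K : Type*} [Field K] [Finite σ]

theorem mem_mm_iff {f : MvPowerSeries σ K} : f ∈ mm σ K ↔ constantCoeff f = 0 := mem_span_X_iff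

theorem maximalIdeal_eq : IsLocalRing.maximalIdeal (MvPowerSeries σ K) = mm σ K := by
  ext f
  rw [mem_mm_iff, IsLocalRing.mem_maximalIdeal, mem_nonunits_iff, isUnit_iff_constantCoeff,
    isUnit_iff_ne_zero, not_not]

end Field

end Vale.Agent.P202.CZ
end

section

/-!
P202-AK-4: flatness over power series rings from a regular sequence; powers of the variables
form a regular sequence; the Frobenius of a power series ring and the Frobenius of the
coefficients are flat.
-/

namespace Vale.Agent.P202.CharP.ArbK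

open IsLocalRing TensorProduct MvPowerSeries

/-- TASK AK-4: flatness over power series rings from a regular sequence. -/
theorem flat_of_regular_powerSeries {K : Type*} [Field K] {v : ℕ} {M : Type*} [CommRing M]
    [IsLocalRing M] [IsNoetherianRing M] [Algebra (MvPowerSeries (Fin v) K) M]
    (hx : ∀ i : Fin v, algebraMap (MvPowerSeries (Fin v) K) M (X i) ∈ maximalIdeal M)
    (hreg : RingTheory.Sequence.IsWeaklyRegular M
      (List.ofFn fun i : Fin v => algebraMap (MvPowerSeries (Fin v) K) M (X i))) :
    Module.Flat (MvPowerSeries (Fin v) K) M := by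
  have hmax : (Ideal.span (Set.range X) : Ideal (MvPowerSeries (Fin v) K)).IsMaximal := by
    have h1 : (Ideal.span (Set.range X) : Ideal (MvPowerSeries (Fin v) K)) =
        maximalIdeal (MvPowerSeries (Fin v) K) := (CZ.maximalIdeal_eq (σ := Fin v) (K := K)).symm
    rw [h1]
    infer_instance
  refine flat_of_maximal_injective (Ideal.span (Set.range X)) ?_ ?_
  · rw [Ideal.map_span, Ideal.span_le]
    rintro _ ⟨_, ⟨l, rfl⟩, rfl⟩
    exact hx l
  · exact lTensor_inj_of_regular (fun l : Fin v => (X l : MvPowerSeries (Fin v) K)) hreg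

/-- the ideal generated by the `q`-th powers of some variables, coefficientwise. -/
lemma mem_span_X_pow_iff {K : Type*} [CommRing K] {v : ℕ} (q : ℕ) (i : ℕ)
    (f : MvPowerSeries (Fin v) K) :
    f ∈ Ideal.span ((fun l : Fin v => (X l : MvPowerSeries (Fin v) K) ^ q) '' {l | (l : ℕ) < i}) ↔
      ∀ d : Fin v →₀ ℕ, (∀ j : Fin v, (j : ℕ) < i → d j < q) → coeff d f = 0 := by
  classical
  constructor
  · intro hf
    refine Submodule.span_induction (p := fun f _ => ∀ d : Fin v →₀ ℕ,
      (∀ j : Fin v, (j : ℕ) < i → d j < q) → coeff d f = 0) ?_ ?_ ?_ ?_ hf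
    · rintro _ ⟨l, hl, rfl⟩ d hd
      simp only [Set.mem_ofPred_eq] at hl
      rw [coeff_X_pow, if_neg]
      intro h
      have := hd l hl
      rw [h] at this
      simp at this
    · intro d _
      exact map_zero _
    · intro x y _ _ hx hy d hd
      rw [map_add, hx d hd, hy d hd, add_zero]
    · intro a x _ hx d hd
      rw [smul_eq_mul, coeff_mul]
      refine Finset.sum_eq_zero ?_
      rintro ⟨a1, a2⟩ ha
      rw [Finset.HasAntidiagonal.mem_antidiagonal] at ha
      have h2 : coeff a2 x = 0 := by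
        apply hx
        intro j hj
        have h3 := hd j hj
        have h4 : a1 j + a2 j = d j := by rw [← ha]; rfl
        simp only at *
        omega
      simp only
      rw [h2, mul_zero]
  · intro hf
    by_cases hv : ∃ l : Fin v, True
    swap
    · have hd0 : ∀ d : Fin v →₀ ℕ, ∀ j : Fin v, (j : ℕ) < i → d j < q := by
        intro d j
        exact absurd ⟨j, trivial⟩ hv
      have : f = 0 := by
        ext d
        rw [hf d (hd0 d), map_zero]
      rw [this]
      exact zero_mem _
    obtain ⟨l0, -⟩ := hv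
    -- choice of an index
    have hex : ∀ d : Fin v →₀ ℕ, ∃ j : Fin v,
        (∃ j' : Fin v, (j' : ℕ) < i ∧ q ≤ d j') → ((j : ℕ) < i ∧ q ≤ d j) := by
      intro d
      by_cases h : ∃ j' : Fin v, (j' : ℕ) < i ∧ q ≤ d j'
      · obtain ⟨j', hj'⟩ := h
        exact ⟨j', fun _ => hj'⟩
      · exact ⟨l0, fun h' => absurd h' h⟩
    choose cf hcf using hex
    let g : Fin v → MvPowerSeries (Fin v) K := fun j γ =>
      if cf (γ + Finsupp.single j q) = j then coeff (γ + Finsupp.single j q) f else 0
    have key : f = ∑ j ∈ Finset.univ.filter (fun j : Fin v => (j : ℕ) < i),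
        (X j : MvPowerSeries (Fin v) K) ^ q * g j := by
      ext β
      rw [map_sum]
      have h1 : ∀ j ∈ Finset.univ.filter (fun j : Fin v => (j : ℕ) < i),
          coeff β ((X j : MvPowerSeries (Fin v) K) ^ q * g j) =
          if (q ≤ β j ∧ cf β = j) then coeff β f else 0 := by
        intro j _
        rw [X_pow_eq, coeff_monomial_mul, one_mul]
        by_cases hj : q ≤ β j
        · have hle : Finsupp.single j q ≤ β := by
            rw [Finsupp.single_le_iff]
            exact hj
          have h2 : coeff (β - Finsupp.single j q) (g j) =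
              if cf β = j then coeff β f else 0 := by
            change g j (β - Finsupp.single j q) = _
            simp only [g, tsub_add_cancel_of_le hle]
          simp only [hle, hj, true_and, if_true, h2]
        · have hle : ¬ Finsupp.single j q ≤ β := by
            rw [Finsupp.single_le_iff]
            exact hj
          simp only [hle, hj, false_and, if_false]
      rw [Finset.sum_congr rfl h1]
      by_cases hβ : ∃ j' : Fin v, (j' : ℕ) < i ∧ q ≤ β j'
      · obtain ⟨h3, h4⟩ := hcf β hβ
        rw [Finset.sum_eq_single (cf β)]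
        · simp [h4]
        · intro j _ hne
          rw [if_neg]
          rintro ⟨_, h⟩
          exact hne h.symm
        · intro h
          exact absurd (by simpa using h3) h
      · have h5 : coeff β f = 0 := by
          apply hf
          intro j hj
          by_contra h6
          exact hβ ⟨j, hj, not_lt.mp h6⟩
        rw [h5, Finset.sum_eq_zero]
        intro j _
        split_ifs <;> rfl
    rw [key]
    refine Ideal.sum_mem _ fun j hj => Ideal.mul_mem_right _ _ ?_
    rw [Finset.mem_filter] at hj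
    exact Ideal.subset_span ⟨j, hj.2, rfl⟩

/-- TASK AK-4: powers of the variables form a regular sequence. -/
theorem isWeaklyRegular_X_pow (K : Type*) [Field K] (v : ℕ) (q : ℕ) (hq : 1 ≤ q) :
    RingTheory.Sequence.IsWeaklyRegular (MvPowerSeries (Fin v) K)
      (List.ofFn fun i : Fin v => (X i : MvPowerSeries (Fin v) K) ^ q) := by
  classical
  refine ⟨fun i hi => ?_⟩
  have hiv : i < v := by simpa using hi
  have hid : (Ideal.ofList ((List.ofFn fun i : Fin v =>
      (X i : MvPowerSeries (Fin v) K) ^ q).take i)) =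
      Ideal.span ((fun l : Fin v => (X l : MvPowerSeries (Fin v) K) ^ q) ''
        {l | (l : ℕ) < i}) := by
    rw [Ideal.ofList]
    congr 1
    ext a
    simp only [Set.mem_ofPred_eq, Set.mem_image]
    rw [List.mem_take_iff_getElem]
    constructor
    · rintro ⟨j, hj, rfl⟩
      simp only [List.length_ofFn, lt_inf_iff] at hj
      exact ⟨⟨j, by omega⟩, by simpa using hj.1, by simp⟩
    · rintro ⟨j, hj, rfl⟩
      exact ⟨j, by simp; omega, by simp⟩
  rw [hid, isSMulRegular_on_quot_iff_lsmul_comap_le]
  intro f hf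
  rw [Submodule.mem_comap] at hf
  simp only [List.getElem_ofFn, LinearMap.lsmul_apply, smul_eq_mul, Ideal.mul_top] at hf ⊢
  rw [mem_span_X_pow_iff] at hf ⊢
  intro d hd
  have h1 := hf (d + Finsupp.single ⟨i, hiv⟩ q) (by
    intro j hj
    have hne : (⟨i, hiv⟩ : Fin v) ≠ j := by
      rintro rfl
      exact lt_irrefl _ hj
    rw [Finsupp.add_apply, Finsupp.single_eq_of_ne hne.symm, add_zero]
    exact hd j hj)
  rw [X_pow_eq, coeff_monomial_mul] at h1
  have hle : Finsupp.single (⟨i, hiv⟩ : Fin v) q ≤ d + Finsupp.single ⟨i, hiv⟩ q :=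
    le_add_self
  rw [if_pos hle, add_tsub_cancel_right, one_mul] at h1
  exact h1

/-- TASK AK-4: the Frobenius of a power series ring is flat. -/
theorem flat_Fr_powerSeries (p : ℕ) [Fact p.Prime] (K : Type*) [Field K] [CharP K p]
    (v e : ℕ) [CharP (MvPowerSeries (Fin v) K) p] :
    Module.Flat (MvPowerSeries (Fin v) K) (Fr p (MvPowerSeries (Fin v) K) e) := by
  have hp : p ^ e ≠ 0 := pow_ne_zero _ (Fact.out : p.Prime).ne_zero
  refine flat_of_regular_powerSeries ?_ ?_
  · intro i
    change (X i : MvPowerSeries (Fin v) K) ^ p ^ e ∈ maximalIdeal (MvPowerSeries (Fin v) K)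
    refine Ideal.pow_mem_of_mem _ ?_ _ (Nat.pos_of_ne_zero hp)
    rw [CZ.maximalIdeal_eq, CZ.mm]
    exact Ideal.subset_span ⟨i, rfl⟩
  · exact isWeaklyRegular_X_pow K v (p ^ e) (Nat.one_le_iff_ne_zero.mpr hp)

end Vale.Agent.P202.CharP.ArbK
end

section

/-!
P202 MIX, M4b: the perfection of `k[[x_0, .., x_r]]` is flat over it.
-/

namespace Vale.Agent.P202.Mix

open Vale.Agent.P202.CharP

universe u

/-- every element of the perfect closure has a power in the ring -/
lemma fp_exists_pow {R : Type u} [CommRing R] (p : ℕ) [Fact p.Prime] [CharP R p]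
    (x : PerfectClosure R p) : ∃ (e : ℕ) (z : R), x ^ p ^ e = PerfectClosure.of R p z := by
  refine PerfectClosure.induction_on x fun y => ?_
  obtain ⟨n, z⟩ := y
  refine ⟨n, z, ?_⟩
  rw [← PerfectClosure.iterate_frobenius_mk (K := R) (p := p) n z, ← coe_iterateFrobenius,
    iterateFrobenius_def]

/-- common exponent -/
lemma fp_exists_pow_fin {R : Type u} [CommRing R] (p : ℕ) [Fact p.Prime] [CharP R p] {l : ℕ}
    (x : Fin l → PerfectClosure R p) :
    ∃ (e : ℕ) (z : Fin l → R), ∀ i, x i ^ p ^ e = PerfectClosure.of R p (z i) := by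
  choose e z hz using fun i => fp_exists_pow p (x i)
  refine ⟨∑ i, e i, fun i => z i ^ p ^ (∑ j, e j - e i), fun i => ?_⟩
  have h1 : e i ≤ ∑ j, e j := Finset.single_le_sum (fun _ _ => Nat.zero_le _) (Finset.mem_univ i)
  have h2 : ∑ j, e j = e i + (∑ j, e j - e i) := by omega
  rw [map_pow, ← hz i, ← pow_mul, ← pow_add, ← h2]

/-- TASK M4b: the perfection of `k[[x_0, .., x_r]]` is flat over it (colimit of Frobenius powers,
`CharP.ArbK.flat_Fr_powerSeries`). -/
theorem flat_perfectClosure (p : ℕ) [Fact p.Prime] (k : Type u) [Field k] [CharP k p] (r : ℕ) :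
    letI := (PerfectClosure.of (R0 k r) p).toAlgebra
    Module.Flat (R0 k r) (Rp p k r) := by
  letI := (PerfectClosure.of (R0 k r) p).toAlgebra
  rw [Module.Flat.iff_forall_isTrivialRelation]
  intro l f x h
  obtain ⟨e, z, hz⟩ := fp_exists_pow_fin p x
  have hof : Function.Injective (PerfectClosure.of (R0 k r) p) := by
    intro a b hab
    have := (PerfectClosure.eq_iff (R0 k r) p (0, a) (0, b)).1 hab
    simpa using this
  have hsmul : ∀ (a : R0 k r) (y : Rp p k r), a • y = PerfectClosure.of (R0 k r) p a * y :=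
    fun a y => rfl
  have h0 : ∑ i, f i ^ p ^ e * z i = 0 := by
    apply hof
    rw [map_sum, map_zero]
    have h1 := congrArg (iterateFrobenius (Rp p k r) p e) h
    rw [map_sum, map_zero] at h1
    rw [← h1]
    refine Finset.sum_congr rfl fun i _ => ?_
    rw [hsmul, iterateFrobenius_def, mul_pow, hz, map_mul, map_pow]
  have hflat := ArbK.flat_Fr_powerSeries p k (r + 1) e
  rw [Module.Flat.iff_forall_isTrivialRelation] at hflat
  have h2 : ∑ i, f i • toFr p (R0 k r) e (z i) = 0 := by
    have h3 : ∀ i, f i • toFr p (R0 k r) e (z i) = toFr p (R0 k r) e (f i ^ p ^ e * z i) := by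
      intro i
      rw [Algebra.smul_def, algebraMap_Fr, map_mul]
    simp only [h3]
    rw [← map_sum, h0, map_zero]
  obtain ⟨n, a, y, hy, ha⟩ := hflat h2
  refine ⟨n, a, fun j => rt p e (PerfectClosure.of (R0 k r) p ((toFr p (R0 k r) e).symm (y j))),
    fun i => ?_, ha⟩
  apply (iterateFrobeniusEquiv (Rp p k r) p e).injective
  rw [map_sum]
  have h4 : iterateFrobeniusEquiv (Rp p k r) p e (x i) = PerfectClosure.of (R0 k r) p (z i) := by
    rw [iterateFrobeniusEquiv_apply, iterateFrobenius_def, hz]
  rw [h4]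
  have h5 : z i = ∑ j, a i j ^ p ^ e * (toFr p (R0 k r) e).symm (y j) := by
    apply (toFr p (R0 k r) e).injective
    have h6 : toFr p (R0 k r) e (z i) = ∑ j, a i j • y j := hy i
    rw [h6, map_sum]
    refine Finset.sum_congr rfl fun j _ => ?_
    rw [Algebra.smul_def, algebraMap_Fr, map_mul, RingEquiv.apply_symm_apply]
  rw [h5, map_sum]
  refine Finset.sum_congr rfl fun j _ => ?_
  rw [hsmul, map_mul, map_mul, map_pow]
  unfold rt
  rw [RingEquiv.apply_symm_apply, iterateFrobeniusEquiv_apply, iterateFrobenius_def]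

end Vale.Agent.P202.Mix
end

section

/-!
Basic length identities for quotients of a commutative ring.
-/

namespace Vale.Agent.P202

open _root_.Ideal

variable {A : Type*} [CommRing A]

/-- `col I x = (I : x)`. -/
def col (I : Ideal A) (x : A) : Ideal A := Submodule.comap (LinearMap.toSpanSingleton A A x) I

@[simp] lemma mem_col {I : Ideal A} {x a : A} : a ∈ col I x ↔ a * x ∈ I := by
  simp [col, LinearMap.toSpanSingleton_apply]

lemma le_col (I : Ideal A) (x : A) : I ≤ col I x := fun a ha => by
  rw [mem_col]; exact Ideal.mul_mem_right _ _ ha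

lemma col_eq_top_iff {I : Ideal A} {x : A} : col I x = ⊤ ↔ x ∈ I := by
  rw [Ideal.eq_top_iff_one, mem_col, one_mul]

/-- length of a cyclic module `A/I`. -/
noncomputable def ell (I : Ideal A) : ℕ∞ := Module.length A (A ⧸ I)

lemma ell_eq_zero_iff {I : Ideal A} : ell I = 0 ↔ I = ⊤ := by
  rw [ell, Module.length_eq_zero_iff, Ideal.Quotient.subsingleton_iff]

lemma one_le_ell {I : Ideal A} (h : I ≠ ⊤) : 1 ≤ ell I :=
  Order.one_le_iff_ne_zero.mpr fun h' => h (ell_eq_zero_iff.mp h')

/-- `ℓ(A/I) = ℓ(A/(I:x)) + ℓ(A/(I + xA))`. -/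
lemma ell_eq_add (I : Ideal A) (x : A) : ell I = ell (col I x) + ell (I ⊔ Ideal.span {x}) := by
  let f : (A ⧸ col I x) →ₗ[A] (A ⧸ I) :=
    Submodule.mapQ (col I x) I (LinearMap.toSpanSingleton A A x)
      (fun a ha => by simpa [LinearMap.toSpanSingleton_apply] using ha)
  let g : (A ⧸ I) →ₗ[A] (A ⧸ (I ⊔ Ideal.span {x})) := Submodule.factor le_sup_left
  refine Module.length_eq_add_of_exact f g ?_ (Submodule.factor_surjective _) ?_
  · rw [injective_iff_map_eq_zero]
    intro z
    obtain ⟨z, rfl⟩ := Submodule.Quotient.mk_surjective _ z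
    intro hz
    have hz' : (Submodule.Quotient.mk (z • x) : A ⧸ I) = 0 := hz
    rw [Submodule.Quotient.mk_eq_zero] at hz' ⊢
    simpa using hz'
  · rw [LinearMap.exact_iff]
    ext z
    obtain ⟨z, rfl⟩ := Submodule.Quotient.mk_surjective _ z
    constructor
    · intro hz
      have hz' : z ∈ I ⊔ Ideal.span {x} := by
        have : Submodule.Quotient.mk z = (0 : A ⧸ (I ⊔ Ideal.span {x})) := hz
        exact (Submodule.Quotient.mk_eq_zero _).mp this
      obtain ⟨a, ha, b, hb, rfl⟩ := Submodule.mem_sup.mp hz'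
      obtain ⟨c, rfl⟩ := Ideal.mem_span_singleton'.mp hb
      refine ⟨Submodule.Quotient.mk c, ?_⟩
      change Submodule.Quotient.mk (c • x) = _
      rw [Submodule.Quotient.eq]
      simpa using ha
    · rintro ⟨c, hc⟩
      obtain ⟨c, rfl⟩ := Submodule.Quotient.mk_surjective _ c
      rw [← hc]
      change Submodule.Quotient.mk (c • x) = (0 : A ⧸ (I ⊔ Ideal.span {x}))
      rw [Submodule.Quotient.mk_eq_zero]
      exact Ideal.mem_sup_right (Ideal.mul_mem_left _ _ (Ideal.mem_span_singleton_self x))

end Vale.Agent.P202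
end

section

/-!
P202 MIX, TASK M15b (helper828): `len_small`, the smallness of `E/(n_S, [γ^(1/q)]^c)`.
-/

namespace Vale.Agent.P202.Mix

open TensorProduct IsLocalRing
open scoped ENNReal

universe u

section Len

variable {R : Type u} [CommRing R] (L : AddLen R)

theorem ls_le_of_surjective {M N : Type u} [AddCommGroup M] [Module R M] [AddCommGroup N]
    [Module R N] (f : M →ₗ[R] N) (hf : Function.Surjective f) : L.len N ≤ L.len M := by
  rw [L.add (LinearMap.ker f).subtype f (Submodule.injective_subtype _) hf (by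
    rw [LinearMap.exact_iff, Submodule.range_subtype])]
  exact le_add_self

theorem ls_mono {I J : Ideal R} (h : I ≤ J) : L.len (R ⧸ J) ≤ L.len (R ⧸ I) :=
  ls_le_of_surjective L (Submodule.factor h) (Submodule.factor_surjective h)

theorem ls_top {J : Ideal R} (h : J = ⊤) : L.len (R ⧸ J) = 0 := by
  have : Subsingleton (R ⧸ J) := Ideal.Quotient.subsingleton_iff.mpr h
  exact len_subsingleton_aux L

/-- `L(R/I) = L(R/(I:z)) + L(R/(I + z))`. -/
theorem ls_eq_add (I : Ideal R) (x : R) :
    L.len (R ⧸ I) = L.len (R ⧸ col I x) + L.len (R ⧸ (I ⊔ Ideal.span {x})) := by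
  let f : (R ⧸ col I x) →ₗ[R] (R ⧸ I) :=
    Submodule.mapQ (col I x) I (LinearMap.toSpanSingleton R R x)
      (fun a ha => by simpa [LinearMap.toSpanSingleton_apply] using ha)
  let g : (R ⧸ I) →ₗ[R] (R ⧸ (I ⊔ Ideal.span {x})) := Submodule.factor le_sup_left
  refine L.add f g ?_ (Submodule.factor_surjective _) ?_
  · rw [injective_iff_map_eq_zero]
    intro z
    obtain ⟨z, rfl⟩ := Submodule.Quotient.mk_surjective _ z
    intro hz
    have hz' : (Submodule.Quotient.mk (z • x) : R ⧸ I) = 0 := hz
    rw [Submodule.Quotient.mk_eq_zero] at hz' ⊢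
    simpa using hz'
  · rw [LinearMap.exact_iff]
    ext z
    obtain ⟨z, rfl⟩ := Submodule.Quotient.mk_surjective _ z
    constructor
    · intro hz
      have hz' : z ∈ I ⊔ Ideal.span {x} := by
        have : Submodule.Quotient.mk z = (0 : R ⧸ (I ⊔ Ideal.span {x})) := hz
        exact (Submodule.Quotient.mk_eq_zero _).mp this
      obtain ⟨a, ha, b, hb, rfl⟩ := Submodule.mem_sup.mp hz'
      obtain ⟨c, rfl⟩ := Ideal.mem_span_singleton'.mp hb
      refine ⟨Submodule.Quotient.mk c, ?_⟩
      change Submodule.Quotient.mk (c • x) = _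
      rw [Submodule.Quotient.eq]
      simpa using ha
    · rintro ⟨c, hc⟩
      obtain ⟨c, rfl⟩ := Submodule.Quotient.mk_surjective _ c
      rw [← hc]
      change Submodule.Quotient.mk (c • x) = (0 : R ⧸ (I ⊔ Ideal.span {x}))
      rw [Submodule.Quotient.mk_eq_zero]
      exact Ideal.mem_sup_right (Ideal.mul_mem_left _ _ (Ideal.mem_span_singleton_self x))

theorem ls_mul_le (J : Ideal R) (y z : R) : L.len (R ⧸ (J ⊔ Ideal.span {y * z})) ≤
    L.len (R ⧸ (J ⊔ Ideal.span {y})) + L.len (R ⧸ (J ⊔ Ideal.span {z})) := by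
  rw [ls_eq_add L (J ⊔ Ideal.span {y * z}) y, add_comm]
  refine add_le_add (ls_mono L ?_) (ls_mono L ?_)
  · exact sup_le_sup_right le_sup_left _
  · refine sup_le (le_sup_left.trans (le_col _ _)) ?_
    rw [Ideal.span_singleton_le_iff_mem, mem_col, mul_comm]
    exact Ideal.mem_sup_right (Ideal.mem_span_singleton_self _)

theorem ls_pow_le (J : Ideal R) (z : R) (n : ℕ) : L.len (R ⧸ (J ⊔ Ideal.span {z ^ n})) ≤
    n * L.len (R ⧸ (J ⊔ Ideal.span {z})) := by
  induction n with
  | zero =>
    rw [ls_top L (by rw [pow_zero, Ideal.span_singleton_one, sup_top_eq])]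
    exact zero_le
  | succ n ih =>
    rw [pow_succ]
    refine (ls_mul_le L J (z ^ n) z).trans ?_
    rw [Nat.cast_succ, add_mul, one_mul]
    exact add_le_add_left ih _

theorem ls_pow_ge (J : Ideal R) (z : R) (n : ℕ)
    (h : ∀ i < n, ∀ y, z ^ i * y ∈ J ⊔ Ideal.span {z ^ (i + 1)} → y ∈ J ⊔ Ideal.span {z}) :
    n * L.len (R ⧸ (J ⊔ Ideal.span {z})) ≤ L.len (R ⧸ (J ⊔ Ideal.span {z ^ n})) := by
  induction n with
  | zero => rw [Nat.cast_zero, zero_mul]; exact zero_le
  | succ n ih =>
    rw [ls_eq_add L (J ⊔ Ideal.span {z ^ (n + 1)}) (z ^ n), Nat.cast_succ, add_mul, one_mul,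
      add_comm]
    refine add_le_add (ls_mono L ?_) ((ih fun i hi => h i (by omega)).trans (ls_mono L ?_))
    · intro y hy
      rw [mem_col, mul_comm] at hy
      exact h n (by omega) y hy
    · refine sup_le (sup_le le_sup_left ?_) le_sup_right
      rw [Ideal.span_singleton_le_iff_mem, pow_succ]
      exact Ideal.mem_sup_right (Ideal.mul_mem_right _ _ (Ideal.mem_span_singleton_self _))

/-- devissage for ideals. -/
theorem ls_dev {R0 : Type*} [CommRing R0] [IsLocalRing R0] (φ : R0 →+* R) (n : ℕ) :
    ∀ (𝔟 : Ideal R0) (s : ℕ), maximalIdeal R0 ^ s ≤ 𝔟 → ell 𝔟 ≤ n →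
      L.len (R ⧸ 𝔟.map φ) ≤ n * L.len (R ⧸ (maximalIdeal R0).map φ) := by
  induction n with
  | zero =>
    intro 𝔟 s _ h
    have h1 : 𝔟 = ⊤ := ell_eq_zero_iff.1 (le_antisymm (by simpa using h) zero_le)
    rw [ls_top L (by rw [h1, Ideal.map_top])]
    exact zero_le
  | succ n ih =>
    intro 𝔟 s hs h
    by_cases hb : 𝔟 = ⊤
    · rw [ls_top L (by rw [hb, Ideal.map_top])]
      exact zero_le
    · classical
      have hex : ∃ t, maximalIdeal R0 ^ t ≤ 𝔟 := ⟨s, hs⟩
      have ht := Nat.find_spec hex
      have ht0 : Nat.find hex ≠ 0 := by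
        intro h0
        rw [h0, pow_zero, Ideal.one_eq_top, top_le_iff] at ht
        exact hb ht
      obtain ⟨t, htt⟩ := Nat.exists_eq_succ_of_ne_zero ht0
      have hlt : ¬ maximalIdeal R0 ^ t ≤ 𝔟 := Nat.find_min hex (by lia)
      obtain ⟨x, hx, hxI⟩ := Set.not_subset.mp hlt
      have hmx : maximalIdeal R0 ≤ col 𝔟 x := by
        intro m hm
        rw [mem_col]
        apply ht
        rw [htt, Nat.succ_eq_add_one, pow_succ']
        exact Ideal.mul_mem_mul hm hx
      have h1 := ell_eq_add 𝔟 x
      have h2 : 1 ≤ ell (col 𝔟 x) := one_le_ell (fun h' => hxI (col_eq_top_iff.1 h'))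
      have h3 : ell (𝔟 ⊔ Ideal.span {x}) ≤ n := by
        have h4 : 1 + ell (𝔟 ⊔ Ideal.span {x}) ≤ 1 + (n : ℕ∞) := by
          refine (add_le_add_left h2 _).trans ?_
          rw [← h1, add_comm]
          exact_mod_cast h
        exact (ENat.add_le_add_iff_left (by simp)).1 h4
      have h5 := ih (𝔟 ⊔ Ideal.span {x}) s (hs.trans le_sup_left) h3
      rw [ls_eq_add L (𝔟.map φ) (φ x), Nat.cast_succ, add_mul, one_mul, add_comm]
      refine add_le_add ?_ (ls_mono L ?_)
      · refine le_trans (le_of_eq ?_) h5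
        rw [Ideal.map_sup, Ideal.map_span, Set.image_singleton]
      · rw [Ideal.map_le_iff_le_comap]
        intro m hm
        rw [Ideal.mem_comap, mem_col, ← map_mul]
        exact Ideal.mem_map_of_mem φ (mem_col.1 (hmx hm))

end Len

section Mono

open MvPowerSeries

variable {K : Type*} [Field K] {v : ℕ}

/-- the ideal generated by powers of the variables. -/
noncomputable def lsM (K : Type*) [Field K] {v : ℕ} (a : Fin v → ℕ) : Ideal (MvPowerSeries (Fin v) K) :=
  Ideal.span (Set.range fun l : Fin v => (X l : MvPowerSeries (Fin v) K) ^ a l)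

lemma X_pow_mem_lsM (a : Fin v → ℕ) (l : Fin v) {n : ℕ} (h : a l ≤ n) :
    (X l : MvPowerSeries (Fin v) K) ^ n ∈ lsM K a :=
  Ideal.pow_mem_of_pow_mem _ (Ideal.subset_span ⟨l, rfl⟩) h

lemma mem_lsM_iff (a : Fin v → ℕ) (f : MvPowerSeries (Fin v) K) :
    f ∈ lsM K a ↔ ∀ d : Fin v →₀ ℕ, (∀ j : Fin v, d j < a j) → coeff d f = 0 := by
  classical
  constructor
  · intro hf
    refine Submodule.span_induction (p := fun f _ => ∀ d : Fin v →₀ ℕ,
      (∀ j : Fin v, d j < a j) → coeff d f = 0) ?_ ?_ ?_ ?_ hf
    · rintro _ ⟨l, rfl⟩ d hd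
      simp only
      rw [coeff_X_pow, if_neg]
      intro h
      have := hd l
      rw [h] at this
      simp at this
    · intro d _
      exact map_zero _
    · intro x y _ _ hx hy d hd
      rw [map_add, hx d hd, hy d hd, add_zero]
    · intro b x _ hx d hd
      rw [smul_eq_mul, coeff_mul]
      refine Finset.sum_eq_zero ?_
      rintro ⟨a1, a2⟩ ha
      rw [Finset.HasAntidiagonal.mem_antidiagonal] at ha
      have h2 : coeff a2 x = 0 := by
        apply hx
        intro j
        have h3 := hd j
        have h4 : a1 j + a2 j = d j := by rw [← ha]; rfl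
        omega
      simp only
      rw [h2, mul_zero]
  · intro hf
    by_cases hv : ∃ l : Fin v, True
    swap
    · have : f = 0 := by
        ext d
        rw [hf d (fun j => absurd ⟨j, trivial⟩ hv), map_zero]
      rw [this]
      exact zero_mem _
    obtain ⟨l0, -⟩ := hv
    -- choice of an index
    have hex : ∀ d : Fin v →₀ ℕ, ∃ j : Fin v, (∃ j' : Fin v, a j' ≤ d j') → a j ≤ d j := by
      intro d
      by_cases h : ∃ j' : Fin v, a j' ≤ d j'
      · obtain ⟨j', hj'⟩ := h
        exact ⟨j', fun _ => hj'⟩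
      · exact ⟨l0, fun h' => absurd h' h⟩
    choose cf hcf using hex
    let g : Fin v → MvPowerSeries (Fin v) K := fun j γ =>
      if cf (γ + Finsupp.single j (a j)) = j then coeff (γ + Finsupp.single j (a j)) f else 0
    have key : f = ∑ j, (X j : MvPowerSeries (Fin v) K) ^ a j * g j := by
      ext β
      rw [map_sum]
      have h1 : ∀ j ∈ Finset.univ,
          coeff β ((X j : MvPowerSeries (Fin v) K) ^ a j * g j) =
          if (a j ≤ β j ∧ cf β = j) then coeff β f else 0 := by
        intro j _
        rw [X_pow_eq, coeff_monomial_mul, one_mul]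
        by_cases hj : a j ≤ β j
        · have hle : Finsupp.single j (a j) ≤ β := by
            rw [Finsupp.single_le_iff]
            exact hj
          have h2 : coeff (β - Finsupp.single j (a j)) (g j) =
              if cf β = j then coeff β f else 0 := by
            change g j (β - Finsupp.single j (a j)) = _
            simp only [g, tsub_add_cancel_of_le hle]
          simp only [hle, hj, true_and, if_true, h2]
        · have hle : ¬ Finsupp.single j (a j) ≤ β := by
            rw [Finsupp.single_le_iff]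
            exact hj
          simp only [hle, hj, false_and, if_false]
      rw [Finset.sum_congr rfl h1]
      by_cases hβ : ∃ j' : Fin v, a j' ≤ β j'
      · have h4 := hcf β hβ
        rw [Finset.sum_eq_single (cf β)]
        · simp [h4]
        · intro j _ hne
          rw [if_neg]
          rintro ⟨_, h⟩
          exact hne h.symm
        · intro h
          exact absurd (Finset.mem_univ _) h
      · have h5 : coeff β f = 0 := by
          apply hf
          intro j
          by_contra h6
          exact hβ ⟨j, not_lt.mp h6⟩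
        rw [h5, Finset.sum_eq_zero]
        intro j _
        split_ifs <;> rfl
    rw [key]
    exact Ideal.sum_mem _ fun j _ => Ideal.mul_mem_right _ _ (Ideal.subset_span ⟨j, rfl⟩)

/-- colon ideals of monomial ideals. -/
lemma lsM_colon (a : Fin v → ℕ) (l : Fin v) (i : ℕ) (y : MvPowerSeries (Fin v) K)
    (h : X l ^ i * y ∈ lsM K (Function.update a l (i + 1))) :
    y ∈ lsM K (Function.update a l 1) := by
  classical
  rw [mem_lsM_iff] at h ⊢
  intro d hd
  have h1 := h (Finsupp.single l i + d) (by
    intro j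
    have h2 := hd j
    rw [Finsupp.add_apply]
    by_cases hj : j = l
    · subst hj
      rw [Function.update_self] at h2 ⊢
      rw [Finsupp.single_eq_same]
      omega
    · rw [Function.update_of_ne hj] at h2 ⊢
      rw [Finsupp.single_eq_of_ne hj, zero_add]
      exact h2)
  rwa [X_pow_eq, coeff_add_monomial_mul, one_mul] at h1

end Mono

section Flat

theorem ls_rel {E E' : Type*} [CommRing E] [CommRing E'] [Algebra E E'] [Module.Flat E E']
    {J : Type} [Fintype J] (F : J → E) (X : J → E') (h : ∑ i, F i • X i = 0) :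
    ∃ (m : ℕ) (A : J → Fin m → E) (y : Fin m → E'),
      (∀ i, X i = ∑ j, A i j • y j) ∧ ∀ j, ∑ i, F i * A i j = 0 := by
  have key := Module.Flat.isTrivialRelation_of_sum_smul_eq_zero (R := E) (M := E') (f := F)
    (x := X)
  exact key h

/-- colon ideals and flat base change. -/
theorem ls_colon_flat {E E' : Type*} [CommRing E] [CommRing E'] [Algebra E E'] [Module.Flat E E']
    (K K' : Ideal E) (a : E) (H : ∀ x, a * x ∈ K → x ∈ K') (x : E')
    (hx : algebraMap E E' a * x ∈ K.map (algebraMap E E')) :
    x ∈ K'.map (algebraMap E E') := by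
  rw [Ideal.map, Ideal.span, Submodule.mem_span_set'] at hx
  obtain ⟨n, f, g, hx⟩ := hx
  choose κ hκ hκ' using fun i => (g i).2
  have h0 : ∑ i : Option (Fin n), (Option.elim i a fun i => -κ i : E) •
      (Option.elim i x f : E') = 0 := by
    rw [Fintype.sum_option]
    simp only [Option.elim_none, Option.elim_some, Algebra.smul_def, map_neg]
    rw [← hx, ← Finset.sum_add_distrib]
    refine Finset.sum_eq_zero fun i _ => ?_
    rw [hκ', smul_eq_mul]
    ring
  obtain ⟨m, A, y, h1, h2⟩ := ls_rel
    (fun i : Option (Fin n) => (Option.elim i a fun i => -κ i : E))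
    (fun i : Option (Fin n) => (Option.elim i x f : E')) h0
  have h3 : x = ∑ j, A none j • y j := h1 none
  rw [h3]
  refine Ideal.sum_mem _ fun j _ => ?_
  rw [Algebra.smul_def]
  refine Ideal.mul_mem_right _ _ (Ideal.mem_map_of_mem _ (H _ ?_))
  have h4 := h2 j
  rw [Fintype.sum_option] at h4
  simp only [Option.elim_none, Option.elim_some] at h4
  rw [add_eq_zero_iff_eq_neg] at h4
  rw [h4]
  refine neg_mem (Ideal.sum_mem _ fun i _ => ?_)
  exact Ideal.mul_mem_right _ _ (neg_mem (hκ i))

end Flat

section Vec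

variable {Λ A S B : Type u} [CommRing Λ] [IsLocalRing Λ] [CommRing A] [CommRing S] [CommRing B]
  [Algebra Λ A] [Algebra A S] [Algebra Λ B]

end Vec


section Chain

variable {W : Type u} [CommRing W] (L : AddLen W)

theorem ls_chain {k : Type*} [Field k] {v : ℕ} (φ : MvPowerSeries (Fin v) k →+* W) (q : ℕ)
    (hq : 1 ≤ q) (h0 : ∀ l, φ (MvPowerSeries.X l) ^ q = 0)
    (hT : ∀ (K K' : Ideal (MvPowerSeries (Fin v) k)) (f : MvPowerSeries (Fin v) k),
      (∀ j, (MvPowerSeries.X j : MvPowerSeries (Fin v) k) ^ q ∈ K) →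
      (∀ y, f * y ∈ K → y ∈ K') → ∀ w, φ f * w ∈ K.map φ → w ∈ K'.map φ) (j : ℕ) (hj : j ≤ v) :
    (q : ℝ≥0∞) ^ j * L.len (W ⧸ (lsM k (fun l : Fin v => if (l : ℕ) < j then 1 else q)).map φ) ≤
      L.len (W ⧸ (⊥ : Ideal W)) := by
  classical
  induction j with
  | zero =>
    rw [pow_zero, one_mul]
    have h1 : (lsM k (fun l : Fin v => if (l : ℕ) < 0 then 1 else q)).map φ = ⊥ := by
      rw [eq_bot_iff, lsM, Ideal.map_span, Ideal.span_le]
      rintro _ ⟨_, ⟨l, rfl⟩, rfl⟩
      simp only [Nat.not_lt_zero, if_false, map_pow, h0]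
      exact zero_mem _
    rw [h1]
  | succ j ih =>
    have ih' := ih (by omega)
    set a : Fin v → ℕ := fun l : Fin v => if (l : ℕ) < j then 1 else q with ha
    obtain ⟨l, hl⟩ : ∃ l : Fin v, (l : ℕ) = j := ⟨⟨j, by omega⟩, rfl⟩
    have hal : a l = q := by rw [ha]; simp [hl]
    have ha' : (fun l : Fin v => if (l : ℕ) < j + 1 then 1 else q) = Function.update a l 1 := by
      funext l'
      by_cases hll : l' = l
      · subst hll
        rw [Function.update_self, if_pos (by omega)]
      · rw [Function.update_of_ne hll, ha]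
        have : (l' : ℕ) ≠ j := fun h => hll (Fin.ext (by omega))
        simp only
        by_cases h2 : (l' : ℕ) < j
        · rw [if_pos h2, if_pos (by omega)]
        · rw [if_neg h2, if_neg (by omega)]
    rw [ha']
    have hle : ∀ i, i + 1 ≤ q → lsM k a ≤ lsM k (Function.update a l (i + 1)) := by
      intro i hi
      rw [lsM, Ideal.span_le]
      rintro _ ⟨l', rfl⟩
      refine X_pow_mem_lsM _ _ ?_
      by_cases hll : l' = l
      · subst hll
        rw [Function.update_self, hal]
        exact hi
      · rw [Function.update_of_ne hll]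
    have h1 := ls_pow_ge L ((lsM k a).map φ) (φ (MvPowerSeries.X l)) q (by
      intro i hi y hy
      have h2 : (lsM k a).map φ ⊔ Ideal.span {φ (MvPowerSeries.X l) ^ (i + 1)} ≤
          (lsM k (Function.update a l (i + 1))).map φ := by
        refine sup_le (Ideal.map_mono (hle i hi)) ?_
        rw [Ideal.span_singleton_le_iff_mem, ← map_pow]
        refine Ideal.mem_map_of_mem _ (X_pow_mem_lsM _ _ ?_)
        rw [Function.update_self]
      have h3 := hT (lsM k (Function.update a l (i + 1))) (lsM k (Function.update a l 1))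
        (MvPowerSeries.X l ^ i) (by
          intro j'
          refine X_pow_mem_lsM _ _ ?_
          by_cases hll : j' = l
          · subst hll
            rw [Function.update_self]
            exact hi
          · rw [Function.update_of_ne hll, ha]
            simp only
            split_ifs <;> omega) (fun y hy => lsM_colon a l i y hy) y (by
          rw [map_pow]
          exact h2 hy)
      refine (?_ : (lsM k (Function.update a l 1)).map φ ≤ _) h3
      rw [lsM, Ideal.map_span, Ideal.span_le]
      rintro _ ⟨_, ⟨l', rfl⟩, rfl⟩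
      by_cases hll : l' = l
      · subst hll
        simp only [Function.update_self, pow_one]
        exact Ideal.mem_sup_right (Ideal.mem_span_singleton_self _)
      · simp only [Function.update_of_ne hll]
        exact Ideal.mem_sup_left (Ideal.mem_map_of_mem _ (X_pow_mem_lsM _ _ le_rfl)))
    have h4 : L.len (W ⧸ (lsM k (Function.update a l 1)).map φ) ≤
        L.len (W ⧸ ((lsM k a).map φ ⊔ Ideal.span {φ (MvPowerSeries.X l)})) := by
      refine ls_mono L (sup_le ?_ ?_)
      · exact Ideal.map_mono (hle 0 hq)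
      · rw [Ideal.span_singleton_le_iff_mem]
        refine Ideal.mem_map_of_mem _ ?_
        have := X_pow_mem_lsM (K := k) (Function.update a l 1) l (n := 1)
          (by rw [Function.update_self])
        rwa [pow_one] at this
    have h5 : L.len (W ⧸ ((lsM k a).map φ ⊔ Ideal.span {φ (MvPowerSeries.X l) ^ q})) ≤
        L.len (W ⧸ (lsM k a).map φ) := ls_mono L le_sup_left
    calc (q : ℝ≥0∞) ^ (j + 1) * L.len (W ⧸ (lsM k (Function.update a l 1)).map φ)
        = (q : ℝ≥0∞) ^ j * (q * L.len (W ⧸ (lsM k (Function.update a l 1)).map φ)) := by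
          rw [pow_succ, mul_assoc]
      _ ≤ (q : ℝ≥0∞) ^ j * L.len (W ⧸ (lsM k a).map φ) := by
          gcongr
          exact (mul_le_mul_right h4 _).trans (h1.trans h5)
      _ ≤ _ := ih'

theorem ls_main {k : Type u} [Field k] {r : ℕ} (φ : R0 k r →+* W) (q : ℕ)
    (hq : 1 ≤ q) (h0 : ∀ l, φ (MvPowerSeries.X l) ^ q = 0)
    (hT : ∀ (K K' : Ideal (R0 k r)) (f : R0 k r),
      (∀ j, (MvPowerSeries.X j : R0 k r) ^ q ∈ K) →
      (∀ y, f * y ∈ K → y ∈ K') → ∀ w, φ f * w ∈ K.map φ → w ∈ K'.map φ)
    (hL : L.len (W ⧸ (⊥ : Ideal W)) ≤ 1) (g : R0 k r) (Cg : ℕ)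
    (hCg : ∀ q c : ℕ, 1 ≤ q → 1 ≤ c →
      (q : ℝ≥0∞) * ENat.toENNReal (Module.length (R0 k r) (R0 k r ⧸ Ideal.span
        ({(MvPowerSeries.X 0 : R0 k r), g ^ c} ∪
          Set.range fun i : Fin r => (MvPowerSeries.X i.succ : R0 k r) ^ q))) ≤
        (c * Cg * q ^ r : ℕ)) (p c a : ℕ) (hp : 1 ≤ p) (hc : 1 ≤ c) (γ γ' x : W)
    (hγ' : γ' ^ p = φ g ^ p + φ (MvPowerSeries.X 0) * x)
    (hγ : γ = φ (MvPowerSeries.X 0) ^ a * γ') :
    L.len (W ⧸ Ideal.span {γ ^ c}) ≤ (p * c * (a + Cg) : ℕ) / (q : ℝ≥0∞) := by
  set z := φ (MvPowerSeries.X 0) with hz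
  have hpc : 1 ≤ p * c := Nat.mul_pos hp hc
  -- the first variable
  have hF : (q : ℝ≥0∞) * L.len (W ⧸ Ideal.span {z}) ≤ 1 := by
    have h1 := ls_chain L φ q hq h0 hT 1 (by omega)
    rw [pow_one] at h1
    refine le_trans (mul_le_mul_right (ls_mono L ?_) _) (h1.trans hL)
    rw [lsM, Ideal.map_span, Ideal.span_le]
    rintro _ ⟨_, ⟨l, rfl⟩, rfl⟩
    by_cases hl : (l : ℕ) < 1
    · have hl0 : l = 0 := Fin.ext (by simpa using hl)
      subst hl0
      simp only [hl, if_true, pow_one]
      exact Ideal.mem_span_singleton_self _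
    · simp only [hl, if_false, map_pow, h0]
      exact zero_mem _
  -- all variables
  set M := L.len (W ⧸ (maximalIdeal (R0 k r)).map φ) with hM
  have hmax : maximalIdeal (R0 k r) =
      Ideal.span (Set.range fun l : Fin (r + 1) => (MvPowerSeries.X l : R0 k r)) :=
    CZ.maximalIdeal_eq
  have hB : (q : ℝ≥0∞) ^ (r + 1) * M ≤ 1 := by
    have h1 := ls_chain L φ q hq h0 hT (r + 1) le_rfl
    refine le_trans (mul_le_mul_right (ls_mono L (Ideal.map_mono ?_)) _) (h1.trans hL)
    rw [lsM, Ideal.span_le]
    rintro _ ⟨l, rfl⟩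
    simp only [l.2, if_true, pow_one]
    rw [hmax]
    exact Ideal.subset_span ⟨l, rfl⟩
  -- the quotient by `X_0, g^(p c)`
  set 𝔟 : Ideal (R0 k r) := Ideal.span ({(MvPowerSeries.X 0 : R0 k r), g ^ (p * c)} ∪
          Set.range fun i : Fin r => (MvPowerSeries.X i.succ : R0 k r) ^ q) with hb
  have hCb := hCg q (p * c) hq hpc
  rw [← hb] at hCb
  have hXb : ∀ l : Fin (r + 1), (MvPowerSeries.X l : R0 k r) ^ q ∈ 𝔟 := by
    intro l
    have hX0 : (MvPowerSeries.X 0 : R0 k r) ∈ 𝔟 := Ideal.subset_span (Or.inl (Or.inl rfl))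
    induction l using Fin.cases with
    | zero => exact Ideal.pow_mem_of_mem _ hX0 _ hq
    | succ i => exact Ideal.subset_span (Or.inr ⟨i, rfl⟩)
  obtain ⟨n, hn⟩ : ∃ n : ℕ, ell 𝔟 = n := by
    have h1 : ell 𝔟 ≠ ⊤ := by
      intro h2
      have h3 : Module.length (R0 k r) (R0 k r ⧸ 𝔟) = ⊤ := h2
      rw [h3, ENat.toENNReal_top, ENNReal.mul_top (by simp; omega)] at hCb
      exact (ENNReal.natCast_ne_top _) (top_le_iff.1 hCb)
    obtain ⟨n, hn⟩ := ENat.ne_top_iff_exists.1 h1
    exact ⟨n, hn.symm⟩
  have hnn : (q : ℝ≥0∞) * n ≤ (p * c * Cg * q ^ r : ℕ) := by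
    have h3 : Module.length (R0 k r) (R0 k r ⧸ 𝔟) = n := hn
    rw [h3] at hCb
    simpa using hCb
  obtain ⟨s, hs⟩ : ∃ s, maximalIdeal (R0 k r) ^ s ≤ 𝔟 := by
    refine Ideal.exists_pow_le_of_le_radical_of_fg ?_ ?_
    · rw [hmax, Ideal.span_le]
      rintro _ ⟨l, rfl⟩
      exact ⟨q, hXb l⟩
    · rw [hmax]
      exact Submodule.fg_span (Set.finite_range _)
  have hC : L.len (W ⧸ 𝔟.map φ) ≤ n * M := ls_dev L φ n 𝔟 s hs hn.le
  -- `γ'`
  set J : Ideal W := Ideal.span {γ' ^ (p * c)} with hJ
  have hE : L.len (W ⧸ J) ≤ q * L.len (W ⧸ 𝔟.map φ) := by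
    have h1 := ls_pow_le L J z q
    have e0 : Ideal.span {(0 : W)} = ⊥ := Ideal.span_singleton_eq_bot.2 rfl
    rw [hz, h0, ← hz, e0, sup_bot_eq] at h1
    refine h1.trans (mul_le_mul_right (ls_mono L ?_) _)
    have hz' : z ∈ J ⊔ Ideal.span {z} := Ideal.mem_sup_right (Ideal.mem_span_singleton_self _)
    rw [hb, Ideal.map_span, Ideal.span_le]
    rintro _ ⟨_, (⟨rfl | rfl⟩ | ⟨l, rfl⟩), rfl⟩
    · exact hz'
    · have h2 : γ' ^ p - φ g ^ p ∣ (γ' ^ p) ^ c - (φ g ^ p) ^ c := sub_dvd_pow_sub_pow _ _ _
      obtain ⟨y, hy⟩ := h2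
      have h3 : φ (g ^ (p * c)) = γ' ^ (p * c) - z * (x * y) := by
        rw [map_pow, pow_mul, pow_mul]
        have h4 : γ' ^ p - φ g ^ p = z * x := by rw [hγ']; ring
        rw [h4] at hy
        linear_combination -hy
      change φ (g ^ (p * c)) ∈ J ⊔ Ideal.span {z}
      rw [h3]
      exact Ideal.sub_mem _ (Ideal.mem_sup_left (Ideal.mem_span_singleton_self _))
        (Ideal.mul_mem_right _ _ hz')
    · simp only [map_pow, h0]
      exact zero_mem _
  have hE' : (q : ℝ≥0∞) * L.len (W ⧸ J) ≤ (p * c * Cg : ℕ) := by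
    calc (q : ℝ≥0∞) * L.len (W ⧸ J) ≤ q * (q * (n * M)) := by
          gcongr
          exact hE.trans (mul_le_mul_right hC _)
      _ = q * ((q * n) * M) := by ring
      _ ≤ q * ((p * c * Cg * q ^ r : ℕ) * M) := by gcongr
      _ = (p * c * Cg : ℕ) * (q ^ (r + 1) * M) := by push_cast; ring
      _ ≤ (p * c * Cg : ℕ) * 1 := by gcongr
      _ = _ := mul_one _
  have hF' : (q : ℝ≥0∞) * L.len (W ⧸ Ideal.span {z ^ (a * (p * c))}) ≤ (a * (p * c) : ℕ) := by
    have h1 := ls_pow_le L ⊥ z (a * (p * c))
    rw [bot_sup_eq, bot_sup_eq] at h1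
    calc (q : ℝ≥0∞) * L.len (W ⧸ Ideal.span {z ^ (a * (p * c))})
        ≤ q * ((a * (p * c) : ℕ) * L.len (W ⧸ Ideal.span {z})) := by gcongr
      _ = (a * (p * c) : ℕ) * (q * L.len (W ⧸ Ideal.span {z})) := by ring
      _ ≤ (a * (p * c) : ℕ) * 1 := by gcongr
      _ = _ := mul_one _
  have hG : L.len (W ⧸ Ideal.span {γ ^ c}) ≤
      L.len (W ⧸ Ideal.span {z ^ (a * (p * c))}) + L.len (W ⧸ J) := by
    have h1 := ls_mul_le L ⊥ (z ^ (a * (p * c))) (γ' ^ (p * c))
    rw [bot_sup_eq, bot_sup_eq, bot_sup_eq] at h1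
    refine le_trans (ls_mono L ?_) h1
    rw [Ideal.span_singleton_le_iff_mem, Ideal.mem_span_singleton]
    have h2 : z ^ (a * (p * c)) * γ' ^ (p * c) = γ ^ (p * c) := by
      rw [hγ, mul_pow, pow_mul]
    rw [h2]
    exact pow_dvd_pow _ (Nat.le_mul_of_pos_left _ hp)
  rw [ENNReal.le_div_iff_mul_le (Or.inl (by simp; omega)) (Or.inl (ENNReal.natCast_ne_top _)),
    mul_comm]
  calc (q : ℝ≥0∞) * L.len (W ⧸ Ideal.span {γ ^ c})
      ≤ q * (L.len (W ⧸ Ideal.span {z ^ (a * (p * c))}) + L.len (W ⧸ J)) := by gcongr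
    _ = q * L.len (W ⧸ Ideal.span {z ^ (a * (p * c))}) + q * L.len (W ⧸ J) := mul_add _ _ _
    _ ≤ (a * (p * c) : ℕ) + (p * c * Cg : ℕ) := add_le_add hF' hE'
    _ = _ := by push_cast; ring

end Chain


section Res

/-- restriction of an additive length. -/
noncomputable def lsRes {R R' : Type u} [CommRing R] [CommRing R'] (L : AddLen R)
    (φ : R →+* R') : AddLen R' where
  len M _ _ := letI := Module.compHom M φ; L.len M
  zero := by
    have : Module.compHom PUnit.{u+1} φ = (inferInstance : Module R PUnit.{u+1}) :=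
      Module.ext' _ _ fun a x => rfl
    rw [this]
    exact L.zero
  add {M N K} _ _ _ _ _ _ f g hf hg hfg := by
    let _ := Module.compHom M φ
    let _ := Module.compHom N φ
    let _ := Module.compHom K φ
    let f' : M →ₗ[R] N := { f with map_smul' := fun a x => map_smul f (φ a) x }
    let g' : N →ₗ[R] K := { g with map_smul' := fun a x => map_smul g (φ a) x }
    exact L.add f' g' hf hg hfg

theorem lsRes_len {R R' : Type u} [CommRing R] [CommRing R'] (L : AddLen R)
    (φ : R →+* R') (hφ : Function.Surjective φ) (J : Ideal R') :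
    (lsRes L φ).len (R' ⧸ J) = L.len (R ⧸ J.comap φ) := by
  let _ : Module R (R' ⧸ J) := Module.compHom (R' ⧸ J) φ
  let f : R →ₗ[R] (R' ⧸ J) :=
    { toFun := fun x => Ideal.Quotient.mk J (φ x)
      map_add' := fun x y => by rw [map_add, map_add]
      map_smul' := fun a x => by
        rw [smul_eq_mul, map_mul, map_mul]
        rfl }
  have hf : Function.Surjective f := Ideal.Quotient.mk_surjective.comp hφ
  have hk : LinearMap.ker f = J.comap φ := by
    ext x
    rw [LinearMap.mem_ker, Ideal.mem_comap]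
    exact Ideal.Quotient.eq_zero_iff_mem
  change L.len (R' ⧸ J) = _
  rw [← len_congr L (f.quotKerEquivOfSurjective hf)]
  exact len_congr L (Submodule.quotEquivOfEq _ _ hk)

end Res

section Omega

variable {p : ℕ} [Fact p.Prime] {k : Type u} [Field k] [CharP k p] {r : ℕ}
variable {Λ : Type u} [CommRing Λ] [IsLocalRing Λ] {u : Fin r → Λ}
  {ψ : Λ →+* WittVector p (Rp p k r)}
  {red : Λ →+* R0 k r ⧸ Ideal.span {(MvPowerSeries.X 0 : R0 k r)}}
variable {A S : Type u} [CommRing A] [CommRing S] [IsLocalRing A] [IsLocalRing S]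
  [Algebra Λ A] [Algebra A S] [IsLocalHom (algebraMap Λ A)] [IsLocalHom (algebraMap A S)]

end Omega


section Final

/-- the `p^e`-th root as a ring homomorphism. -/
noncomputable def lsRt (p : ℕ) [Fact p.Prime] {C : Type u} [CommRing C] [CharP C p]
    [PerfectRing C p] (e : ℕ) : C →+* C :=
  ((iterateFrobeniusEquiv C p e).symm : C →+* C)

theorem lsRt_pow (p : ℕ) [Fact p.Prime] {C : Type u} [CommRing C] [CharP C p]
    [PerfectRing C p] (e : ℕ) (c : C) : lsRt p e c ^ p ^ e = c := rt_pow_self p C c e

variable {p : ℕ} [Fact p.Prime] {k : Type u} [Field k] [CharP k p] {r : ℕ}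

/-- the twisted structure map `R0 → C`, `f ↦ f^(1/p^e)`, and colon ideals. -/
theorem ls_colon_C {r0 : ℕ} (d : PExt.{u} p k r r0) (e : ℕ) (K K' : Ideal (R0 k r)) (f : R0 k r)
    (h : ∀ y, f * y ∈ K → y ∈ K') (y : d.C)
    (hy : ((lsRt p e).comp ((algebraMap (Rp p k r) d.C).comp (PerfectClosure.of (R0 k r) p))) f *
      y ∈ K.map
        ((lsRt p e).comp ((algebraMap (Rp p k r) d.C).comp (PerfectClosure.of (R0 k r) p)))) :
    y ∈ K'.map
      ((lsRt p e).comp ((algebraMap (Rp p k r) d.C).comp (PerfectClosure.of (R0 k r) p))) := by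
  let _ : Algebra (R0 k r) (Rp p k r) := (PerfectClosure.of (R0 k r) p).toAlgebra
  let _ : Algebra (R0 k r) d.C :=
    ((algebraMap (Rp p k r) d.C).comp (PerfectClosure.of (R0 k r) p)).toAlgebra
  have _ : IsScalarTower (R0 k r) (Rp p k r) d.C := IsScalarTower.of_algebraMap_eq fun x => rfl
  have _ : Module.Flat (R0 k r) (Rp p k r) := flat_perfectClosure p k r
  have _ : Module.Flat (Rp p k r) d.C := d.flat
  have _ : Module.Flat (R0 k r) d.C := Module.Flat.trans (R0 k r) (Rp p k r) d.C
  set φ0 : R0 k r →+* d.C := (algebraMap (Rp p k r) d.C).comp (PerfectClosure.of (R0 k r) p)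
    with hφ0
  have hal : algebraMap (R0 k r) d.C = φ0 := rfl
  set F : d.C →+* d.C := (iterateFrobeniusEquiv d.C p e : d.C →+* d.C) with hF
  have hFr : F.comp (lsRt p e) = RingHom.id d.C := by
    ext c
    change iterateFrobeniusEquiv d.C p e ((iterateFrobeniusEquiv d.C p e).symm c) = c
    exact RingEquiv.apply_symm_apply _ _
  have hrF : (lsRt p e).comp F = RingHom.id d.C := by
    ext c
    change (iterateFrobeniusEquiv d.C p e).symm (iterateFrobeniusEquiv d.C p e c) = c
    exact RingEquiv.symm_apply_apply _ _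
  have h1 := Ideal.mem_map_of_mem F hy
  rw [Ideal.map_map, ← RingHom.comp_assoc, hFr, RingHom.id_comp, map_mul] at h1
  have h2 : F (((lsRt p e).comp φ0) f) = φ0 f := RingHom.congr_fun hFr (φ0 f)
  rw [h2, ← hal] at h1
  have h3 := ls_colon_flat K K' f h (F y) h1
  have h4 := Ideal.mem_map_of_mem (lsRt p e) h3
  rw [Ideal.map_map, hal] at h4
  have h5 : lsRt p e (F y) = y := RingHom.congr_fun hrF y
  rwa [h5] at h4

variable {Λ : Type u} [CommRing Λ] [IsLocalRing Λ] {u : Fin r → Λ}
  {ψ : Λ →+* WittVector p (Rp p k r)}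
  {red : Λ →+* R0 k r ⧸ Ideal.span {(MvPowerSeries.X 0 : R0 k r)}}
  {ι : Type u} {b : ι → Λ} {β : ι → k} {res : ResidueField Λ →+* k}
variable {A S : Type u} [CommRing A] [CommRing S] [IsLocalRing A] [IsLocalRing S]
  [IsNoetherianRing A] [IsNoetherianRing S]
  [Algebra Λ A] [Algebra A S] [IsLocalHom (algebraMap Λ A)] [IsLocalHom (algebraMap A S)]

end Final

end Vale.Agent.P202.Mix
end

section

/-!
The homomorphism `W(k)[[x_0, .., x_r]] → W(k[[x_0, .., x_r]])`, `x_i ↦ [x_i]`.
-/

namespace Vale.Agent.P177.Pos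

open MvPowerSeries
open Vale.Agent.P202.CZ
open Vale.Agent.P202.Mix

universe u

section Chi
variable (p : ℕ) [Fact p.Prime] (k : Type u) [Field k] (r : ℕ)

/-- the maximal ideal of `k[[t, u_1, .., u_r]]`. -/
noncomputable abbrev chm : Ideal (R0 k r) := Ideal.span (Set.range X)

/-- the truncations of `k[[t, u_1, .., u_r]]`. -/
abbrev chQ (n : ℕ) : Type u := R0 k r ⧸ (chm k r) ^ n

end Chi

section Chi
variable (p : ℕ) [Fact p.Prime] (k : Type u) [Field k] (r : ℕ)

end Chi

end Vale.Agent.P177.Pos
end

section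

/-!
# The perfect closure of a free algebra over a perfect ring (P202, mixed characteristic, T4)
-/

namespace P202.Mix

universe u

variable {p : ℕ} [hp : Fact (Nat.Prime p)]

section

variable {C K : Type*} [CommRing C] [CommRing K] [Algebra C K] [CharP K p]

/-- The map `x ↦ x ^ (1 / p ^ n)` from `K` to its perfect closure. -/
noncomputable def rt (n : ℕ) : K →+* PerfectClosure K p :=
  ((iterateFrobeniusEquiv (PerfectClosure K p) p n).symm : PerfectClosure K p →+*
    PerfectClosure K p).comp (PerfectClosure.of K p)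

theorem rt_pow (n : ℕ) (x : K) : rt (p := p) n x ^ p ^ n = PerfectClosure.of K p x := by
  have : iterateFrobeniusEquiv (PerfectClosure K p) p n (rt n x) = PerfectClosure.of K p x := by
    simp [rt]
  rwa [iterateFrobeniusEquiv_def] at this

theorem eq_rt_of_pow {n : ℕ} {x : K} {y : PerfectClosure K p}
    (h : y ^ p ^ n = PerfectClosure.of K p x) : y = rt n x := by
  apply (iterateFrobeniusEquiv (PerfectClosure K p) p n).injective
  have h1 : iterateFrobeniusEquiv (PerfectClosure K p) p n y = y ^ p ^ n :=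
    iterateFrobeniusEquiv_def _ _ _ _
  have h2 : iterateFrobeniusEquiv (PerfectClosure K p) p n (rt n x) = rt n x ^ p ^ n :=
    iterateFrobeniusEquiv_def _ _ _ _
  rw [h1, h2, h, rt_pow]

theorem exists_rt (y : PerfectClosure K p) : ∃ (n : ℕ) (x : K), y = rt n x := by
  obtain ⟨⟨n, x⟩, rfl⟩ := PerfectClosure.mk_surjective K p y
  refine ⟨n, x, eq_rt_of_pow ?_⟩
  have := PerfectClosure.iterate_frobenius_mk K p n x
  rw [iterate_frobenius] at this
  exact this

theorem rt_add (n k : ℕ) (x : K) : rt (p := p) n x = rt (n + k) (x ^ p ^ k) := by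
  refine eq_rt_of_pow ?_
  rw [pow_add, pow_mul, rt_pow, map_pow]

theorem rt_zero (x : K) : rt (p := p) 0 x = PerfectClosure.of K p x := by
  have := rt_pow (p := p) 0 x
  simpa using this

theorem rt_alg (n : ℕ) (c : C) :
    rt (p := p) n (algebraMap C K (c ^ p ^ n)) = PerfectClosure.of K p (algebraMap C K c) := by
  symm
  refine eq_rt_of_pow ?_
  rw [map_pow, map_pow]

theorem rt_eq_zero {n : ℕ} {x : K} (h : rt (p := p) n x = 0) : ∃ k : ℕ, x ^ p ^ k = 0 := by
  have h1 : PerfectClosure.of K p x = 0 := by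
    rw [← rt_pow n x, h, zero_pow (pow_ne_zero _ hp.out.ne_zero)]
  rw [PerfectClosure.of_apply, ← PerfectClosure.mk_zero K p] at h1
  obtain ⟨k, hk⟩ := (PerfectClosure.mk_eq_iff K p _ _).1 h1
  refine ⟨k, ?_⟩
  simpa [iterate_frobenius] using hk

theorem exists_rt_family {ι : Type*} (s : Finset ι) (y : ι → PerfectClosure K p) :
    ∃ (n : ℕ) (x : ι → K), ∀ i ∈ s, y i = rt n (x i) := by
  classical
  choose m z hz using fun i => exists_rt (y i)
  refine ⟨s.sup m, fun i => z i ^ p ^ (s.sup m - m i), fun i hi => ?_⟩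
  have hle : m i ≤ s.sup m := Finset.le_sup hi
  rw [hz i]
  conv_lhs => rw [rt_add (m i) (s.sup m - m i) (z i)]
  rw [Nat.add_sub_cancel' hle]

section

variable [CharP C p] [PerfectRing C p]

theorem exists_pow (c : C) (n : ℕ) : ∃ d : C, d ^ p ^ n = c := by
  refine ⟨(iterateFrobeniusEquiv C p n).symm c, ?_⟩
  have := (iterateFrobeniusEquiv C p n).apply_symm_apply c
  rwa [iterateFrobeniusEquiv_def] at this

theorem eq_zero_of_pow {x : C} (n : ℕ) (h : x ^ p ^ n = 0) : x = 0 := by
  apply (iterateFrobeniusEquiv C p n).injective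
  rw [iterateFrobeniusEquiv_def, h, map_zero]

variable {N : ℕ} (b : Module.Basis (Fin N) C K)

include b

/-- Expansion in the basis, inside the perfect closure. -/
theorem rt_expand (n : ℕ) (x : K) : ∃ d : Fin N → C, (∀ i, d i ^ p ^ n = b.repr x i) ∧
    rt (p := p) n x = ∑ i, PerfectClosure.of K p (algebraMap C K (d i)) * rt n (b i) := by
  choose d hd using fun i => exists_pow (p := p) (b.repr x i) n
  refine ⟨d, hd, ?_⟩
  conv_lhs => rw [← b.sum_repr x]
  rw [map_sum]
  refine Finset.sum_congr rfl fun i _ => ?_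
  rw [← hd i, Algebra.smul_def, map_mul, rt_alg]

/-- The algebra structure of the perfect closure of `K` over `C`. -/
theorem flat_perfectClosure :
    letI := ((PerfectClosure.of K p).comp (algebraMap C K)).toAlgebra
    Module.Flat C (PerfectClosure K p) := by
  letI := ((PerfectClosure.of K p).comp (algebraMap C K)).toAlgebra
  have hsm : ∀ (c : C) (y : PerfectClosure K p),
      c • y = PerfectClosure.of K p (algebraMap C K c) * y := fun c y => Algebra.smul_def c y
  refine Module.Flat.of_forall_isTrivialRelation fun {l} {f} {y} h => ?_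
  obtain ⟨n, x, hx⟩ := exists_rt_family (p := p) Finset.univ y
  have hx' : ∀ i, y i = rt n (x i) := fun i => hx i (Finset.mem_univ i)
  have h1 : rt (p := p) n (∑ i, algebraMap C K (f i ^ p ^ n) * x i) = 0 := by
    rw [map_sum, ← h]
    refine Finset.sum_congr rfl fun i _ => ?_
    rw [map_mul, rt_alg, hsm, hx' i]
  obtain ⟨k, hk⟩ := rt_eq_zero h1
  -- go up to level `n + k`
  have h2 : ∑ i, algebraMap C K (f i ^ p ^ (n + k)) * x i ^ p ^ k = 0 := by
    rw [sum_pow_char_pow] at hk
    rw [← hk]
    refine Finset.sum_congr rfl fun i _ => ?_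
    rw [mul_pow, ← map_pow, ← pow_mul, pow_add]
  choose d hd hd' using fun i => rt_expand (p := p) b (n + k) (x i ^ p ^ k)
  refine ⟨N, fun i j => d i j, fun j => rt (n + k) (b j), fun i => ?_, fun j => ?_⟩
  · rw [hx' i, rt_add n k, hd' i]
    exact Finset.sum_congr rfl fun j _ => (hsm _ _).symm
  · have h3 : b.repr (∑ i, algebraMap C K (f i ^ p ^ (n + k)) * x i ^ p ^ k) j = 0 := by
      rw [h2]; simp
    have h4 : ∑ i, (f i * d i j) ^ p ^ (n + k) = 0 := by
      rw [← h3, map_sum, Finsupp.coe_finsetSum, Finset.sum_apply]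
      refine Finset.sum_congr rfl fun i _ => ?_
      rw [← Algebra.smul_def, map_smul, Finsupp.smul_apply, smul_eq_mul, ← hd i j, mul_pow]
    rw [← sum_pow_char_pow] at h4
    exact eq_zero_of_pow (p := p) (n + k) h4

/-- Finite subsets of the perfect closure lie in submodules generated by `N` elements. -/
theorem exists_span_perfectClosure (s : Finset (PerfectClosure K p)) :
    letI := ((PerfectClosure.of K p).comp (algebraMap C K)).toAlgebra
    ∃ g : Fin N → PerfectClosure K p, (s : Set (PerfectClosure K p)) ⊆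
      Submodule.span C (Set.range g) := by
  let _ := ((PerfectClosure.of K p).comp (algebraMap C K)).toAlgebra
  have hsm : ∀ (c : C) (y : PerfectClosure K p),
      c • y = PerfectClosure.of K p (algebraMap C K c) * y := fun c y => Algebra.smul_def c y
  obtain ⟨n, x, hx⟩ := exists_rt_family (p := p) s id
  refine ⟨fun i => rt n (b i), fun y hy => ?_⟩
  obtain ⟨d, -, hd⟩ := rt_expand (p := p) b n (x y)
  have : y = rt n (x y) := hx y hy
  rw [this, hd]
  refine Submodule.sum_mem _ fun i _ => ?_
  rw [← hsm]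
  exact Submodule.smul_mem _ _ (Submodule.subset_span ⟨i, rfl⟩)

theorem injective_perfectClosure (hN : 0 < N) :
    Function.Injective ((PerfectClosure.of K p).comp (algebraMap C K)) := by
  rw [injective_iff_map_eq_zero]
  intro c hc
  rw [RingHom.comp_apply, ← rt_zero] at hc
  obtain ⟨k, hk⟩ := rt_eq_zero hc
  rw [← map_pow] at hk
  have h1 : (c ^ p ^ k) • b ⟨0, hN⟩ = 0 := by rw [Algebra.smul_def, hk, zero_mul]
  have h2 : b.repr ((c ^ p ^ k) • b ⟨0, hN⟩) ⟨0, hN⟩ = 0 := by rw [h1]; simp
  rw [map_smul] at h2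
  simp at h2
  exact eq_zero_of_pow (p := p) k h2

end

section

theorem isIntegral_perfectClosure [Module.Finite C K] (y : PerfectClosure K p) :
    ((PerfectClosure.of K p).comp (algebraMap C K)).IsIntegralElem y := by
  obtain ⟨n, x, rfl⟩ := exists_rt y
  obtain ⟨q, hq, hq0⟩ := Algebra.IsIntegral.isIntegral (R := C) x
  let _ := ((PerfectClosure.of K p).comp (algebraMap C K)).toAlgebra
  have h2 : IsIntegral C (PerfectClosure.of K p x) := by
    refine ⟨q, hq, ?_⟩
    have h3 := congrArg (PerfectClosure.of K p) hq0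
    rw [Polynomial.hom_eval₂, map_zero] at h3
    exact h3
  have h4 : IsIntegral C (rt (p := p) n x ^ p ^ n) := by rw [rt_pow]; exact h2
  exact IsIntegral.of_pow (pow_pos hp.out.pos n) h4

end

end

end P202.Mix
end

section

/-!
# T4: adjoining a Teichmüller root (P202, mixed characteristic)

For a perfect ring `C` of characteristic `p`, a nonzerodivisor `t` in the Jacobson radical and a
monic polynomial `G` over `W(C)` of positive degree there is a perfect `C`-algebra `C'`, flat and
integral over `C`, with an element `c` such that `G([c]) ∈ (p - [t]) W(C') + p ^ (I + 1) W(C')`.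
-/

namespace P202.Mix

open WittVector Polynomial

universe u

variable {p : ℕ} [hp : Fact (Nat.Prime p)]


theorem exists_adjoin {C : Type u} [CommRing C] [CharP C p] [PerfectRing C p] [Nontrivial C]
    (t : C) (ht : t ∈ nonZeroDivisors C) (htJ : t ∈ (⊥ : Ideal C).jacobson) (I : ℕ)
    (G : Polynomial (WittVector p C)) (hG : G.Monic) (hG0 : 0 < G.natDegree) :
    ∃ (C' : Type u) (_ : CommRing C') (_ : CharP C' p) (_ : PerfectRing C' p)
      (_ : Nontrivial C') (_ : Algebra C C') (c : C'),
      Module.Flat C C' ∧ Algebra.IsIntegral C C' ∧ Function.Injective (algebraMap C C') ∧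
      algebraMap C C' t ∈ nonZeroDivisors C' ∧
      algebraMap C C' t ∈ (⊥ : Ideal C').jacobson ∧
      (∀ s : Finset C', ∃ g : Fin (G.natDegree * p ^ I) → C',
        (s : Set C') ⊆ Submodule.span C (Set.range g)) ∧
      ∃ v w : WittVector p C', (G.map (WittVector.map (algebraMap C C'))).eval (teichmuller p c) =
        (p - teichmuller p (algebraMap C C' t)) * v + (p : WittVector p C') ^ (I + 1) * w := by
  classical
  -- the monic polynomial
  set N := G.natDegree * p ^ I with hN
  obtain ⟨γ, hγ⟩ := isUnit_kap_coeff (p := p) t htJ I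
  have hcoeff : (HH t I G).coeff N = γ := by rw [hγ]; exact HH_coeff t I G hG
  set H1 : C[X] := Polynomial.C ((γ⁻¹ : Cˣ) : C) * HH t I G with hH1
  have hH1coeff : H1.coeff N = 1 := by
    rw [hH1, Polynomial.coeff_C_mul, hcoeff]; simp
  have hH1deg : H1.natDegree ≤ N :=
    (Polynomial.natDegree_C_mul_le _ _).trans (HH_natDegree_le t I G)
  have hH1mon : H1.Monic := Polynomial.monic_of_natDegree_le_of_coeff_eq_one N hH1deg hH1coeff
  have hH1N : H1.natDegree = N := by
    refine le_antisymm hH1deg ?_
    refine Polynomial.le_natDegree_of_ne_zero ?_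
    rw [hH1coeff]; exact one_ne_zero
  have hNpos : 0 < N := Nat.mul_pos hG0 (pow_pos hp.out.pos _)
  -- the free algebra `K`
  let K := AdjoinRoot H1
  have hKfin : Module.Finite C K := hH1mon.finite_adjoinRoot
  let b : Module.Basis (Fin N) C K :=
    (AdjoinRoot.powerBasis' hH1mon).basis.reindex (finCongr (by
      rw [AdjoinRoot.powerBasis'_dim, hH1N]))
  have hKnt : Nontrivial K := by
    have h1 : b ⟨0, hNpos⟩ ≠ 0 := b.ne_zero _
    exact nontrivial_of_ne _ _ h1
  have hKch : CharP K p := by
    rw [CharP.charP_iff_prime_eq_zero hp.out]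
    have : ((p : ℕ) : K) = algebraMap C K ((p : ℕ) : C) := (map_natCast _ p).symm
    rw [this, CharP.cast_eq_zero, map_zero]
  have hroot : Polynomial.eval₂ (algebraMap C K) (AdjoinRoot.root H1) (HH t I G) = 0 := by
    have h0 : ∀ P Q : C[X], P = Polynomial.C ((γ⁻¹ : Cˣ) : C) * Q →
        Polynomial.eval₂ (algebraMap C K) (AdjoinRoot.root H1) P =
          algebraMap C K ((γ⁻¹ : Cˣ) : C) *
            Polynomial.eval₂ (algebraMap C K) (AdjoinRoot.root H1) Q := by
      rintro P Q rfl
      rw [Polynomial.eval₂_mul, Polynomial.eval₂_C]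
    have h1 : algebraMap C K ((γ⁻¹ : Cˣ) : C) *
        Polynomial.eval₂ (algebraMap C K) (AdjoinRoot.root H1) (HH t I G) = 0 := by
      rw [← h0 H1 _ hH1]
      exact AdjoinRoot.eval₂_root H1
    have h2 : algebraMap C K γ * algebraMap C K ((γ⁻¹ : Cˣ) : C) = 1 := by
      rw [← map_mul]; simp
    calc Polynomial.eval₂ (algebraMap C K) (AdjoinRoot.root H1) (HH t I G)
        = (algebraMap C K γ * algebraMap C K ((γ⁻¹ : Cˣ) : C)) *
          Polynomial.eval₂ (algebraMap C K) (AdjoinRoot.root H1) (HH t I G) := by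
            rw [h2, one_mul]
      _ = algebraMap C K γ * (algebraMap C K ((γ⁻¹ : Cˣ) : C) *
          Polynomial.eval₂ (algebraMap C K) (AdjoinRoot.root H1) (HH t I G)) := by ring
      _ = 0 := by rw [h1, mul_zero]
  -- the perfect closure
  let f : C →+* PerfectClosure K p := (PerfectClosure.of K p).comp (algebraMap C K)
  let alg : Algebra C (PerfectClosure K p) := f.toAlgebra
  have hflat : Module.Flat C (PerfectClosure K p) := flat_perfectClosure b
  have hint : Algebra.IsIntegral C (PerfectClosure K p) := ⟨fun y => isIntegral_perfectClosure y⟩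
  have hinj : Function.Injective (algebraMap C (PerfectClosure K p)) :=
    injective_perfectClosure b hNpos
  have hnt : Nontrivial (PerfectClosure K p) := hinj.nontrivial
  have hnzd : algebraMap C (PerfectClosure K p) t ∈ nonZeroDivisors (PerfectClosure K p) := by
    have h1 : IsSMulRegular C t := by
      intro x y hxy
      have : t * (x - y) = 0 := by
        rw [mul_sub, sub_eq_zero]; exact hxy
      exact sub_eq_zero.1 ((mul_left_mem_nonZeroDivisors_eq_zero_iff ht).1 this)
    have h2 := h1.of_flat (S := PerfectClosure K p)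
    rw [mem_nonZeroDivisors_iff_right]
    intro x hx
    have h3 : algebraMap C (PerfectClosure K p) t • x =
        algebraMap C (PerfectClosure K p) t • (0 : PerfectClosure K p) := by
      simp only [smul_eq_mul, mul_zero]; rw [mul_comm]; exact hx
    exact h2 h3
  refine ⟨PerfectClosure K p, inferInstance, inferInstance, inferInstance, hnt, alg,
    PerfectClosure.of K p (AdjoinRoot.root H1), hflat, hint, hinj, hnzd, ?_,
    fun s => exists_span_perfectClosure b s, ?_⟩
  · -- Jacobson radical
    rw [Ideal.jacobson, Ideal.mem_sInf]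
    rintro M ⟨-, hM⟩
    have h1 : (M.comap (algebraMap C (PerfectClosure K p))).IsMaximal :=
      Ideal.isMaximal_comap_of_isIntegral_of_isMaximal M
    have h2 : t ∈ M.comap (algebraMap C (PerfectClosure K p)) := by
      rw [Ideal.jacobson, Ideal.mem_sInf] at htJ
      exact htJ ⟨bot_le, h1⟩
    exact h2
  · apply key _ hnzd
    have h1 : Polynomial.eval₂ f (PerfectClosure.of K p (AdjoinRoot.root H1)) (HH t I G) = 0 := by
      have := congrArg (PerfectClosure.of K p) hroot
      rwa [Polynomial.hom_eval₂, map_zero] at this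
    rw [eval₂_HH] at h1
    rw [Polynomial.eval_map]
    exact h1

end P202.Mix
end

section

/-!
# T5: iterated extensions (P202, mixed characteristic)
-/

namespace P202.Mix

open WittVector Polynomial

universe u

variable {p : ℕ} [hp : Fact (Nat.Prime p)]


/-- A flat, integral, injective extension in which every finite subset lies in an `r`-generated
submodule. -/
structure GoodExt (C C' : Type u) [CommRing C] [CommRing C'] [Algebra C C'] (r : ℕ) : Prop where
  flat : Module.Flat C C'
  integral : Algebra.IsIntegral C C'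
  inj : Function.Injective (algebraMap C C')
  gen : ∀ s : Finset C', ∃ g : Fin r → C', (s : Set C') ⊆ Submodule.span C (Set.range g)

theorem GoodExt.refl (C : Type u) [CommRing C] : GoodExt C C 1 where
  flat := inferInstance
  integral := inferInstance
  inj := fun _ _ h => h
  gen := fun s => ⟨fun _ => 1, fun x _ => by
    have : x = x • (1 : C) := by simp
    rw [this]
    exact Submodule.smul_mem _ _ (Submodule.subset_span ⟨0, rfl⟩)⟩

theorem GoodExt.trans {C C' C'' : Type u} [CommRing C] [CommRing C'] [CommRing C'']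
    [Algebra C C'] [Algebra C' C''] [Algebra C C''] [IsScalarTower C C' C''] {r r' : ℕ}
    (h : GoodExt C C' r) (h' : GoodExt C' C'' r') : GoodExt C C'' (r * r') where
  flat := by
    have := h.flat
    have := h'.flat
    exact Module.Flat.trans C C' C''
  integral := by
    have := h.integral
    have := h'.integral
    exact Algebra.IsIntegral.trans C'
  inj := by
    rw [IsScalarTower.algebraMap_eq C C' C'']
    exact h'.inj.comp h.inj
  gen := by
    classical
    intro s
    obtain ⟨g', hg'⟩ := h'.gen s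
    have h1 : ∀ x ∈ s, ∃ c : Fin r' → C', ∑ i, c i • g' i = x := by
      intro x hx
      exact (Submodule.mem_span_range_iff_exists_fun C').1 (hg' hx)
    choose! c hc using h1
    obtain ⟨g, hg⟩ := h.gen (s.biUnion fun x => Finset.univ.image fun i => c x i)
    refine ⟨fun k => g (finProdFinEquiv.symm k).1 • g' (finProdFinEquiv.symm k).2, ?_⟩
    intro x hx
    have hx' : x ∈ s := hx
    rw [← hc x hx']
    refine Submodule.sum_mem _ fun i _ => ?_
    have h2 : c x i ∈ Submodule.span C (Set.range g) := by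
      apply hg
      rw [Finset.mem_coe, Finset.mem_biUnion]
      exact ⟨x, hx', Finset.mem_image.2 ⟨i, Finset.mem_univ i, rfl⟩⟩
    obtain ⟨d, hd⟩ := (Submodule.mem_span_range_iff_exists_fun C).1 h2
    rw [← hd, Finset.sum_smul]
    refine Submodule.sum_mem _ fun j _ => ?_
    rw [smul_assoc]
    refine Submodule.smul_mem _ _ (Submodule.subset_span ⟨finProdFinEquiv (j, i), ?_⟩)
    simp

/-- The ideal `(p - [t], p ^ (I + 1))` of `W(C)`. -/
noncomputable def JJ (p : ℕ) [Fact p.Prime] {C : Type u} [CommRing C] (t : C) (I : ℕ) : Ideal (WittVector p C) :=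
  Ideal.span {(p : WittVector p C) - teichmuller p t, (p : WittVector p C) ^ (I + 1)}

theorem map_JJ_le {C C' : Type u} [CommRing C] [CommRing C'] (f : C →+* C') (t : C) (I : ℕ) :
    (JJ p t I).map (WittVector.map f) ≤ JJ p (f t) I := by
  rw [JJ, Ideal.map_span, Ideal.span_le]
  rintro _ ⟨x, hx, rfl⟩
  rcases hx with rfl | hx
  · rw [map_sub, map_natCast, map_teichmuller]
    exact Ideal.subset_span (Or.inl rfl)
  · rw [Set.mem_singleton_iff] at hx
    subst hx
    rw [map_pow, map_natCast]
    exact Ideal.subset_span (Or.inr rfl)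

theorem map_mem_JJ {C C' : Type u} [CommRing C] [CommRing C'] (f : C →+* C') (t : C) (I : ℕ)
    {x : WittVector p C} (hx : x ∈ JJ p t I) : WittVector.map f x ∈ JJ p (f t) I :=
  map_JJ_le f t I (Ideal.mem_map_of_mem _ hx)

/-- `T4` in terms of `GoodExt` and `JJ`. -/
theorem exists_adjoin' {C : Type u} [CommRing C] [CharP C p] [PerfectRing C p] [Nontrivial C]
    (t : C) (ht : t ∈ nonZeroDivisors C) (htJ : t ∈ (⊥ : Ideal C).jacobson) (I : ℕ)
    (G : Polynomial (WittVector p C)) (hG : G.Monic) (hG0 : 0 < G.natDegree) :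
    ∃ (C' : Type u) (_ : CommRing C') (_ : CharP C' p) (_ : PerfectRing C' p)
      (_ : Nontrivial C') (_ : Algebra C C') (c : C'),
      GoodExt C C' (G.natDegree * p ^ I) ∧
      algebraMap C C' t ∈ nonZeroDivisors C' ∧
      algebraMap C C' t ∈ (⊥ : Ideal C').jacobson ∧
      (G.map (WittVector.map (algebraMap C C'))).eval (teichmuller p c) ∈
        JJ p (algebraMap C C' t) I := by
  obtain ⟨C', i1, i2, i3, i4, i5, c, h1, h2, h3, h4, h5, h6, v, w, h7⟩ :=
    exists_adjoin t ht htJ I G hG hG0
  refine ⟨C', i1, i2, i3, i4, i5, c, ⟨h1, h2, h3, h6⟩, h4, h5, ?_⟩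
  rw [h7]
  exact Ideal.add_mem _ (Ideal.mul_mem_right _ _ (Ideal.subset_span (Or.inl rfl)))
    (Ideal.mul_mem_right _ _ (Ideal.subset_span (Or.inr rfl)))

/-- Splitting of a monic polynomial modulo `JJ` by Teichmüller elements. -/
theorem exists_split (I : ℕ) (D : ℕ) : ∃ r : ℕ, ∀ {C : Type u} [CommRing C] [CharP C p]
    [PerfectRing C p] [Nontrivial C] (t : C) (_ : t ∈ nonZeroDivisors C)
    (_ : t ∈ (⊥ : Ideal C).jacobson) (G : Polynomial (WittVector p C)) (_ : G.Monic)
    (_ : G.natDegree = D),
    ∃ (C' : Type u) (_ : CommRing C') (_ : CharP C' p) (_ : PerfectRing C' p)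
      (_ : Nontrivial C') (_ : Algebra C C') (c : Fin D → C'),
      GoodExt C C' r ∧
      algebraMap C C' t ∈ nonZeroDivisors C' ∧
      algebraMap C C' t ∈ (⊥ : Ideal C').jacobson ∧
      G.map (WittVector.map (algebraMap C C')) - ∏ i, (X - Polynomial.C (teichmuller p (c i))) ∈
        (JJ p (algebraMap C C' t) I).map (Polynomial.C) := by
  induction D with
  | zero =>
    refine ⟨1, ?_⟩
    intro C _ _ _ _ t ht htJ G hG hD
    refine ⟨C, inferInstance, inferInstance, inferInstance, inferInstance, inferInstance,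
      Fin.elim0, GoodExt.refl C, ht, htJ, ?_⟩
    have : G = 1 := hG.natDegree_eq_zero.1 hD
    rw [this]
    simp
  | succ D ih =>
    obtain ⟨r, ih⟩ := ih
    refine ⟨((D + 1) * p ^ I) * r, ?_⟩
    intro C _ _ _ _ t ht htJ G hG hD
    obtain ⟨C', i1, i2, i3, i4, i5, c0, h1, h2, h3, h4⟩ :=
      exists_adjoin' t ht htJ I G hG (by omega)
    have hnt : Nontrivial (WittVector p C') := inferInstance
    set G' := G.map (WittVector.map (algebraMap C C')) with hG'
    have hG'm : G'.Monic := hG.map _
    have hG'd : G'.natDegree = D + 1 := by rw [hG', hG.natDegree_map, hD]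
    set G1 := G' /ₘ (X - Polynomial.C (teichmuller p c0)) with hG1
    have hG1e : G' = (X - Polynomial.C (teichmuller p c0)) * G1 +
        Polynomial.C (G'.eval (teichmuller p c0)) := by
      have := Polynomial.modByMonic_add_div G' (X - Polynomial.C (teichmuller p c0))
      rw [Polynomial.modByMonic_X_sub_C_eq_C_eval] at this
      conv_lhs => rw [← this]
      ring
    have hG1d : G1.natDegree = D := by
      rw [hG1, Polynomial.natDegree_divByMonic _ (monic_X_sub_C _), hG'd, natDegree_X_sub_C]
      rfl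
    have hG1m : G1.Monic := by
      rw [Polynomial.Monic, hG1, Polynomial.leadingCoeff_divByMonic_of_monic (monic_X_sub_C _)]
      · exact hG'm
      · rw [degree_X_sub_C, Polynomial.degree_eq_natDegree hG'm.ne_zero, hG'd]
        exact_mod_cast Nat.succ_le_succ (Nat.zero_le D)
    obtain ⟨C'', j1, j2, j3, j4, j5, c, k1, k2, k3, k4⟩ := ih (algebraMap C C' t) h2 h3 G1 hG1m hG1d
    let alg : Algebra C C'' := ((algebraMap C' C'').comp (algebraMap C C')).toAlgebra
    have tow : IsScalarTower C C' C'' := IsScalarTower.of_algebraMap_eq fun _ => rfl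
    have halg : ∀ x, algebraMap C C'' x = algebraMap C' C'' (algebraMap C C' x) := fun _ => rfl
    refine ⟨C'', j1, j2, j3, j4, alg, Fin.cons (algebraMap C' C'' c0) c, ?_, k2, k3, ?_⟩
    · have h5 : GoodExt C C' ((D + 1) * p ^ I) := by rw [← hD]; exact h1
      exact h5.trans k1
    · have h5 : G.map (WittVector.map (algebraMap C C'')) =
          G'.map (WittVector.map (algebraMap C' C'')) := by
        rw [hG', Polynomial.map_map]
        congr 1
      rw [h5, Fin.prod_univ_succ, Fin.cons_zero]
      simp only [Fin.cons_succ]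
      rw [hG1e]
      simp only [Polynomial.map_add, Polynomial.map_mul, Polynomial.map_sub, Polynomial.map_X,
        Polynomial.map_C, map_teichmuller]
      have h6 : (X - Polynomial.C (teichmuller p (algebraMap C' C'' c0))) *
          G1.map (WittVector.map (algebraMap C' C'')) +
          Polynomial.C (WittVector.map (algebraMap C' C'') (G'.eval (teichmuller p c0))) -
          (X - Polynomial.C (teichmuller p (algebraMap C' C'' c0))) *
            ∏ i, (X - Polynomial.C (teichmuller p (c i))) =
          (X - Polynomial.C (teichmuller p (algebraMap C' C'' c0))) *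
            (G1.map (WittVector.map (algebraMap C' C'')) -
              ∏ i, (X - Polynomial.C (teichmuller p (c i)))) +
          Polynomial.C (WittVector.map (algebraMap C' C'') (G'.eval (teichmuller p c0))) := by
        ring
      rw [h6]
      refine Ideal.add_mem _ (Ideal.mul_mem_left _ _ k4) ?_
      exact Ideal.mem_map_of_mem _ (map_mem_JJ (algebraMap C' C'') _ I h4)

/-- Teichmüller representatives modulo `JJ` of finitely many elements. -/
theorem exists_teich (I : ℕ) (m : ℕ) : ∃ r : ℕ, ∀ {C : Type u} [CommRing C] [CharP C p]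
    [PerfectRing C p] [Nontrivial C] (t : C) (_ : t ∈ nonZeroDivisors C)
    (_ : t ∈ (⊥ : Ideal C).jacobson) (f : Fin m → WittVector p C),
    ∃ (C' : Type u) (_ : CommRing C') (_ : CharP C' p) (_ : PerfectRing C' p)
      (_ : Nontrivial C') (_ : Algebra C C') (δ : Fin m → C'),
      GoodExt C C' r ∧
      algebraMap C C' t ∈ nonZeroDivisors C' ∧
      algebraMap C C' t ∈ (⊥ : Ideal C').jacobson ∧
      ∀ i, teichmuller p (δ i) - WittVector.map (algebraMap C C') (f i) ∈
        JJ p (algebraMap C C' t) I := by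
  induction m with
  | zero =>
    refine ⟨1, ?_⟩
    intro C _ _ _ _ t ht htJ f
    exact ⟨C, inferInstance, inferInstance, inferInstance, inferInstance, inferInstance,
      Fin.elim0, GoodExt.refl C, ht, htJ, fun i => i.elim0⟩
  | succ m ih =>
    obtain ⟨r, ih⟩ := ih
    refine ⟨(1 * p ^ I) * r, ?_⟩
    intro C _ _ _ _ t ht htJ f
    have hnt0 : Nontrivial (WittVector p C) := inferInstance
    obtain ⟨C', i1, i2, i3, i4, i5, c0, h1, h2, h3, h4⟩ :=
      exists_adjoin' t ht htJ I (X - Polynomial.C (f 0)) (monic_X_sub_C _)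
        (by rw [natDegree_X_sub_C]; exact one_pos)
    obtain ⟨C'', j1, j2, j3, j4, j5, c, k1, k2, k3, k4⟩ := ih (algebraMap C C' t) h2 h3
      (fun i => WittVector.map (algebraMap C C') (f i.succ))
    let alg : Algebra C C'' := ((algebraMap C' C'').comp (algebraMap C C')).toAlgebra
    have tow : IsScalarTower C C' C'' := IsScalarTower.of_algebraMap_eq fun _ => rfl
    have hmap : ∀ x : WittVector p C, WittVector.map (algebraMap C C'') x =
        WittVector.map (algebraMap C' C'') (WittVector.map (algebraMap C C') x) := by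
      intro x
      rw [← RingHom.comp_apply, map_map_comp]
      rfl
    refine ⟨C'', j1, j2, j3, j4, alg, Fin.cons (algebraMap C' C'' c0) c, ?_, k2, k3, ?_⟩
    · rw [natDegree_X_sub_C] at h1
      exact h1.trans k1
    · intro i
      refine Fin.cases ?_ (fun i => ?_) i
      · rw [Fin.cons_zero, hmap, ← map_teichmuller, ← map_sub]
        rw [Polynomial.eval_map, Polynomial.eval₂_sub, Polynomial.eval₂_X,
          Polynomial.eval₂_C] at h4
        exact map_mem_JJ (algebraMap C' C'') (algebraMap C C' t) I h4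
      · rw [Fin.cons_succ, hmap]
        exact k4 i

/-- Splitting of finitely many monic polynomials of degree `D`. -/
theorem exists_split_family (I D : ℕ) (s : ℕ) : ∃ r : ℕ, ∀ {C : Type u} [CommRing C] [CharP C p]
    [PerfectRing C p] [Nontrivial C] (t : C) (_ : t ∈ nonZeroDivisors C)
    (_ : t ∈ (⊥ : Ideal C).jacobson) (G : Fin s → Polynomial (WittVector p C))
    (_ : ∀ j, (G j).Monic) (_ : ∀ j, (G j).natDegree = D),
    ∃ (C' : Type u) (_ : CommRing C') (_ : CharP C' p) (_ : PerfectRing C' p)
      (_ : Nontrivial C') (_ : Algebra C C') (c : Fin s → Fin D → C'),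
      GoodExt C C' r ∧
      algebraMap C C' t ∈ nonZeroDivisors C' ∧
      algebraMap C C' t ∈ (⊥ : Ideal C').jacobson ∧
      ∀ j, (G j).map (WittVector.map (algebraMap C C')) -
        ∏ i, (X - Polynomial.C (teichmuller p (c j i))) ∈
        (JJ p (algebraMap C C' t) I).map (Polynomial.C) := by
  induction s with
  | zero =>
    refine ⟨1, ?_⟩
    intro C _ _ _ _ t ht htJ G _ _
    exact ⟨C, inferInstance, inferInstance, inferInstance, inferInstance, inferInstance,
      Fin.elim0, GoodExt.refl C, ht, htJ, fun i => i.elim0⟩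
  | succ s ih =>
    obtain ⟨r, ih⟩ := ih
    obtain ⟨r0, h0⟩ := exists_split.{u} (p := p) I D
    refine ⟨r0 * r, ?_⟩
    intro C _ _ _ _ t ht htJ G hG hGD
    have hnt0 : Nontrivial (WittVector p C) := inferInstance
    obtain ⟨C', i1, i2, i3, i4, i5, c0, h1, h2, h3, h4⟩ := h0 t ht htJ (G 0) (hG 0) (hGD 0)
    have hnt1 : Nontrivial (WittVector p C') := inferInstance
    obtain ⟨C'', j1, j2, j3, j4, j5, c, k1, k2, k3, k4⟩ := ih (algebraMap C C' t) h2 h3
      (fun j => (G j.succ).map (WittVector.map (algebraMap C C'))) (fun j => (hG _).map _)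
      (fun j => by rw [(hG _).natDegree_map, hGD])
    let alg : Algebra C C'' := ((algebraMap C' C'').comp (algebraMap C C')).toAlgebra
    have tow : IsScalarTower C C' C'' := IsScalarTower.of_algebraMap_eq fun _ => rfl
    have hmap : ∀ P : Polynomial (WittVector p C), P.map (WittVector.map (algebraMap C C'')) =
        (P.map (WittVector.map (algebraMap C C'))).map (WittVector.map (algebraMap C' C'')) := by
      intro P
      rw [Polynomial.map_map, map_map_comp]
      rfl
    refine ⟨C'', j1, j2, j3, j4, alg, Fin.cons (fun i => algebraMap C' C'' (c0 i)) c,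
      h1.trans k1, k2, k3, ?_⟩
    intro j
    refine Fin.cases ?_ (fun j => ?_) j
    · rw [Fin.cons_zero, hmap]
      have h5 : (∏ i, (X - Polynomial.C (teichmuller p (algebraMap C' C'' (c0 i)))) :
          Polynomial (WittVector p C'')) = (∏ i, (X - Polynomial.C (teichmuller p (c0 i)))).map
          (WittVector.map (algebraMap C' C'')) := by
        rw [Polynomial.map_prod]
        refine Finset.prod_congr rfl fun i _ => ?_
        rw [Polynomial.map_sub, Polynomial.map_X, Polynomial.map_C, map_teichmuller]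
      rw [h5, ← Polynomial.map_sub]
      have h6 := Ideal.mem_map_of_mem (Polynomial.mapRingHom
        (WittVector.map (p := p) (algebraMap C' C''))) h4
      rw [Ideal.map_map, Polynomial.mapRingHom_comp_C, ← Ideal.map_map] at h6
      exact Ideal.map_mono (map_JJ_le (algebraMap C' C'') (algebraMap C C' t) I) h6
    · rw [Fin.cons_succ, hmap]
      exact k4 j

end P202.Mix
end

section

/-!
P202 MIX, M5: existence of the covers `CData`.
-/

namespace Vale.Agent.P202.Mix

open Polynomial

universe u

section M5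
variable (p : ℕ) [Fact p.Prime] (k : Type u) [Field k] [CharP k p] (r : ℕ)

theorem nontrivial_Rp : Nontrivial (Rp p k r) := by
  have h : PerfectClosure.of (R0 k r) p 1 ≠ 0 := by
    intro h0
    rw [← _root_.P202.Mix.rt_zero] at h0
    obtain ⟨n, hn⟩ := _root_.P202.Mix.rt_eq_zero h0
    rw [one_pow] at hn
    exact one_ne_zero hn
  exact nontrivial_of_ne _ _ h

theorem xp_mem_nonZeroDivisors (i : Fin (r + 1)) : xp p k r i ∈ nonZeroDivisors (Rp p k r) := by
  rw [mem_nonZeroDivisors_iff_right]
  intro y hy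
  obtain ⟨n, x, rfl⟩ := _root_.P202.Mix.exists_rt y
  have h1 : xp p k r i = _root_.P202.Mix.rt n ((MvPowerSeries.X i : R0 k r) ^ p ^ n) := by
    have := _root_.P202.Mix.rt_add (p := p) 0 n (MvPowerSeries.X i : R0 k r)
    rw [zero_add] at this
    rw [← this, _root_.P202.Mix.rt_zero]
    rfl
  rw [h1, ← map_mul] at hy
  obtain ⟨m, hm⟩ := _root_.P202.Mix.rt_eq_zero hy
  have h2 := pow_eq_zero_iff (pow_ne_zero m (Fact.out : p.Prime).ne_zero) |>.1 hm
  rcases mul_eq_zero.1 h2 with h3 | h3
  · rw [h3, map_zero]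
  · exfalso
    have h4 := pow_eq_zero_iff (pow_ne_zero n (Fact.out : p.Prime).ne_zero) |>.1 h3
    have h5 := congrArg (MvPowerSeries.coeff (Finsupp.single i 1)) h4
    rw [MvPowerSeries.coeff_X, if_pos rfl, map_zero] at h5
    exact one_ne_zero h5

theorem xp_mem_jacobson (i : Fin (r + 1)) : xp p k r i ∈ (⊥ : Ideal (Rp p k r)).jacobson := by
  rw [Ideal.mem_jacobson_bot]
  intro y
  obtain ⟨n, x, rfl⟩ := _root_.P202.Mix.exists_rt y
  have hp0 : p ^ n ≠ 0 := pow_ne_zero n (Fact.out : p.Prime).ne_zero
  have h1 : (xp p k r i * _root_.P202.Mix.rt n x + 1) ^ p ^ n =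
      PerfectClosure.of (R0 k r) p ((MvPowerSeries.X i : R0 k r) ^ p ^ n * x + 1) := by
    rw [add_pow_char_pow, mul_pow, _root_.P202.Mix.rt_pow, one_pow, map_add, map_mul, map_pow,
      map_one]
    rfl
  have h2 : IsUnit ((MvPowerSeries.X i : R0 k r) ^ p ^ n * x + 1) := by
    rw [MvPowerSeries.isUnit_iff_constantCoeff, map_add, map_mul, map_pow,
      MvPowerSeries.constantCoeff_X, zero_pow hp0, zero_mul, zero_add, map_one]
    exact isUnit_one
  have h3 : IsUnit ((xp p k r i * _root_.P202.Mix.rt n x + 1) ^ p ^ n) := by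
    rw [h1]; exact h2.map _
  exact (isUnit_pow_iff hp0).1 h3

variable {p k r} in
theorem toB_mem {C : Type u} [CommRing C] (t : C) (I : ℕ) {x : WittVector p C}
    (hx : x ∈ _root_.P202.Mix.JJ p t I) :
    toB p C t x ∈ Ideal.span {(p : Bt p C t) ^ (I + 1)} := by
  have h1 : (_root_.P202.Mix.JJ p t I).map (toB p C t) ≤ Ideal.span {(p : Bt p C t) ^ (I + 1)} := by
    rw [_root_.P202.Mix.JJ, Ideal.map_span, Ideal.span_le]
    rintro _ ⟨y, hy, rfl⟩
    rcases hy with rfl | hy
    · have : toB p C t ((p : WittVector p C) - WittVector.teichmuller p t) = 0 :=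
        Ideal.Quotient.eq_zero_iff_mem.2 (Ideal.mem_span_singleton_self _)
      rw [this]
      exact Submodule.zero_mem _
    · rw [Set.mem_singleton_iff] at hy
      subst hy
      rw [map_pow, map_natCast]
      exact Ideal.mem_span_singleton_self _
  exact h1 (Ideal.mem_map_of_mem _ hx)

end M5

end Vale.Agent.P202.Mix
end

section

/-!
P202, mixed characteristic, M9a, M4c-1, M4c-2: colon ideals and flat base change; `t` is a
nonzerodivisor and the variables form a regular sequence on the covers.
-/

namespace Vale.Agent.P202.Mix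

universe u

variable {p : ℕ} [Fact p.Prime] {k : Type u} [Field k] [CharP k p] {r : ℕ}

/-- M9a: colon ideals and flat base change. -/
theorem colon_flat {E E' : Type u} [CommRing E] [CommRing E'] [Algebra E E'] [Module.Flat E E']
    (K K' : Ideal E) (a h : E) (H : ∀ x, a * x ∈ K → h * x ∈ K') (x : E')
    (hx : algebraMap E E' a * x ∈ K.map (algebraMap E E')) :
    algebraMap E E' h * x ∈ K'.map (algebraMap E E') := by
  rw [Ideal.map, Ideal.span, Submodule.mem_span_set'] at hx
  obtain ⟨n, f, g, hfg⟩ := hx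
  choose y hyK hy using fun i => (g i).2
  -- the relation `a x - ∑ y_i f_i = 0`
  have hrel : ∑ i : Option (Fin n), (Option.elim i a fun i => -y i) •
      (Option.elim i x f : E') = 0 := by
    rw [Fintype.sum_option]
    simp only [Option.elim_none, Option.elim_some, Algebra.smul_def, map_neg]
    rw [← hfg, ← Finset.sum_add_distrib]
    refine Finset.sum_eq_zero fun i _ => ?_
    rw [← hy i, smul_eq_mul]
    ring
  have key := Module.Flat.isTrivialRelation_of_sum_smul_eq_zero
    (R := E) (M := E') (ι := Option (Fin n)) (f := fun i => Option.elim i a fun i => -y i)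
    (x := fun i => Option.elim i x f)
  obtain ⟨m, b, z, hz, hb⟩ := key hrel
  have hx0 : x = ∑ j, b none j • z j := hz none
  rw [hx0, Finset.mul_sum]
  refine Ideal.sum_mem _ fun j _ => ?_
  rw [Algebra.smul_def, ← mul_assoc, ← map_mul]
  refine Ideal.mul_mem_right _ _ (Ideal.mem_map_of_mem _ (H _ ?_))
  have h1 := hb j
  rw [Fintype.sum_option] at h1
  simp only [Option.elim_none, Option.elim_some] at h1
  rw [eq_neg_of_add_eq_zero_left h1]
  refine neg_mem (Ideal.sum_mem _ fun i _ => ?_)
  exact Ideal.mul_mem_right _ _ (neg_mem (hyK i))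

section VarReg

/-- `t` is a nonzerodivisor on the covers. -/
theorem tC_mem_nonZeroDivisors {r0 : ℕ} (d : PExt.{u} p k r r0) :
    tC p k r d.C ∈ nonZeroDivisors d.C := by
  rw [mem_nonZeroDivisors_iff_right]
  intro y hy
  have := d.flat
  have h1 := colon_flat (E := Rp p k r) (E' := d.C) ⊥ ⊥ (xp p k r 0) 1 (fun x hx => by
    rw [Ideal.mem_bot] at hx ⊢
    rw [one_mul]
    exact (mem_nonZeroDivisors_iff_right.1 (xp_mem_nonZeroDivisors p k r 0)) x
      (by rw [mul_comm]; exact hx)) y (by
      rw [Ideal.map_bot, Ideal.mem_bot, mul_comm]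
      exact hy)
  rwa [Ideal.map_bot, Ideal.mem_bot, map_one, one_mul] at h1

/-- the variables form a regular sequence on `k[[x]]`. -/
theorem reg_R0 (i : Fin (r + 1)) (f : R0 k r)
    (h : (MvPowerSeries.X i : R0 k r) * f ∈
      Ideal.span ((fun l => (MvPowerSeries.X l : R0 k r)) '' {l | l < i})) :
    f ∈ Ideal.span ((fun l => (MvPowerSeries.X l : R0 k r)) '' {l | l < i}) := by
  classical
  have hid : Ideal.span ((fun l => (MvPowerSeries.X l : R0 k r)) '' {l | l < i}) =
      Ideal.span ((fun l : Fin (r + 1) => (MvPowerSeries.X l : R0 k r) ^ 1) ''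
        {l | (l : ℕ) < i}) := by
    simp only [pow_one, Fin.val_fin_lt]
  rw [hid, CharP.ArbK.mem_span_X_pow_iff] at h ⊢
  intro d hd
  have h1 := h (d + Finsupp.single i 1) (by
    intro j hj
    have hne : i ≠ j := by
      rintro rfl
      exact lt_irrefl _ hj
    rw [Finsupp.add_apply, Finsupp.single_eq_of_ne hne.symm, add_zero]
    exact hd j hj)
  rw [← pow_one (MvPowerSeries.X i : R0 k r), MvPowerSeries.X_pow_eq,
    MvPowerSeries.coeff_monomial_mul] at h1
  have hle : Finsupp.single i 1 ≤ d + Finsupp.single i 1 := le_add_self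
  rw [if_pos hle, add_tsub_cancel_right, one_mul] at h1
  exact h1

/-- the variables form a regular sequence on the covers. -/
theorem variables_regular {r0 : ℕ} (d : PExt.{u} p k r r0) (i : Fin (r + 1)) (y : d.C)
    (h : algebraMap (Rp p k r) d.C (xp p k r i) * y ∈
      Ideal.span ((fun l => algebraMap (Rp p k r) d.C (xp p k r l)) '' {l | l < i})) :
    y ∈ Ideal.span ((fun l => algebraMap (Rp p k r) d.C (xp p k r l)) '' {l | l < i}) := by
  have hRp : ∀ z : Rp p k r, xp p k r i * z ∈ Ideal.span (xp p k r '' {l | l < i}) →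
      1 * z ∈ Ideal.span (xp p k r '' {l | l < i}) := by
    let := (PerfectClosure.of (R0 k r) p).toAlgebra
    have := flat_perfectClosure p k r
    intro z hz
    have hm : (Ideal.span ((fun l => (MvPowerSeries.X l : R0 k r)) '' {l | l < i})).map
        (algebraMap (R0 k r) (Rp p k r)) = Ideal.span (xp p k r '' {l | l < i}) := by
      rw [Ideal.map_span, Set.image_image]
      rfl
    have h1 := colon_flat (E := R0 k r) (E' := Rp p k r)
      (Ideal.span ((fun l => (MvPowerSeries.X l : R0 k r)) '' {l | l < i}))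
      (Ideal.span ((fun l => (MvPowerSeries.X l : R0 k r)) '' {l | l < i}))
      (MvPowerSeries.X i) 1 (fun x hx => by
        rw [one_mul]
        exact reg_R0 i x hx) z (by
        rw [hm]
        exact hz)
    rwa [map_one, hm] at h1
  have := d.flat
  have hm : (Ideal.span (xp p k r '' {l | l < i})).map (algebraMap (Rp p k r) d.C) =
      Ideal.span ((fun l => algebraMap (Rp p k r) d.C (xp p k r l)) '' {l | l < i}) := by
    rw [Ideal.map_span, Set.image_image]
  have h1 := colon_flat (E := Rp p k r) (E' := d.C) _ _ (xp p k r i) 1 hRp y (by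
    rw [hm]
    exact h)
  rwa [map_one, one_mul, hm] at h1

end VarReg

end Vale.Agent.P202.Mix
end

section

/-!
P202, mixed characteristic: the norm package (M10).
-/

namespace Vale.Agent.P202.Mix

open Polynomial TensorProduct

universe u

section Core

variable {Λ A B T : Type*} [CommRing Λ] [CommRing A] [CommRing B] [CommRing T] [Algebra Λ A]
  [Algebra Λ B] (iA : A →+* T) (iB : B →+* T) {s D : ℕ} (a : Fin s → A) (F : Fin s → Λ[X])
  (t : Fin s → Fin D → B)

variable {iA iB a F t}

end Core

section

variable {p : ℕ} [Fact p.Prime] {k : Type u} [Field k] [CharP k p] {r : ℕ}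
variable {Λ : Type u} [CommRing Λ] {ψ : Λ →+* WittVector p (Rp p k r)}

variable {A : Type u} [CommRing A] [Algebra Λ A] {s D : ℕ} {a : Fin s → A}
  {F : Fin s → Λ[X]} {E : MvPolynomial (Fin s) Λ} {g : Λ} {I r0 : ℕ}

end

end Vale.Agent.P202.Mix
end

section

/-!
P202, mixed characteristic, M9: colon ideals and flat base change, regularity of `p, u_1, .., u_r`
on `B/p^N`, the homomorphisms `φ_π : A ⊗ B/p^N → (B/p^N)/Ann([δ_π^(1/q)])`.
-/

namespace Vale.Agent.P202.Mix

open Polynomial TensorProduct

universe u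

variable {p : ℕ} [Fact p.Prime] {k : Type u} [Field k] [CharP k p] {r : ℕ}
variable {Λ : Type u} [CommRing Λ] {u : Fin r → Λ} {ψ : Λ →+* WittVector p (Rp p k r)}
  {red : Λ →+* R0 k r ⧸ Ideal.span {(MvPowerSeries.X 0 : R0 k r)}}

section Lift

variable (C : Type u) [CommRing C] [Algebra (Rp p k r) C] (N : ℕ)

theorem mkN_surjective : Function.Surjective (mkN ψ C N) := Ideal.Quotient.mk_surjective

theorem mkN_eq_zero_iff {x : Bt p C (tC p k r C)} :
    mkN ψ C N x = 0 ↔ x ∈ Ideal.span {(p : Bt p C (tC p k r C)) ^ N} :=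
  Ideal.Quotient.eq_zero_iff_mem

end Lift

/-- M9b: regularity of `p` on `B/p^N`. -/
theorem BN_p {r0 : ℕ} (d : PExt.{u} p k r r0) (N : ℕ) (b : BN ψ d.C N)
    (h : (p : BN ψ d.C N) * b = 0) :
    b ∈ Ideal.span {(p : BN ψ d.C N) ^ (N - 1)} := by
  obtain ⟨β, rfl⟩ := mkN_surjective d.C N b
  rcases Nat.eq_zero_or_pos N with hN | hN
  · subst hN
    simp
  have h1 : mkN ψ d.C N ((p : Bt p d.C (tC p k r d.C)) * β) = 0 := by
    rw [map_mul, map_natCast]
    exact h
  rw [mkN_eq_zero_iff, Ideal.mem_span_singleton'] at h1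
  obtain ⟨γ, hγ⟩ := h1
  have h2 : (p : Bt p d.C (tC p k r d.C)) * (β - (p : Bt p d.C (tC p k r d.C)) ^ (N - 1) * γ) = 0 := by
    obtain ⟨M, rfl⟩ : ∃ M, N = M + 1 := ⟨N - 1, by omega⟩
    rw [mul_sub, ← hγ, Nat.add_sub_cancel, pow_succ]
    ring
  have h3 := p_mul_eq_zero p d.C _ (tC_mem_nonZeroDivisors d) _ h2
  rw [sub_eq_zero] at h3
  rw [h3, Ideal.mem_span_singleton', map_mul, map_pow, map_natCast]
  exact ⟨mkN ψ d.C N γ, mul_comm _ _⟩

/-- `Λ → B` maps `u_i` to `[u_i]` -/
theorem laB_u (hb : IsBase p k r Λ u ψ red) (C : Type u) [CommRing C] [Algebra (Rp p k r) C]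
    (i : Fin r) : laB ψ C (u i) = te p C (tC p k r C) (algebraMap (Rp p k r) C (xp p k r i.succ)) := by
  unfold laB te
  rw [RingHom.comp_apply, RingHom.comp_apply, hb.psi_u, WittVector.map_teichmuller]

variable {A : Type u} [CommRing A] [Algebra Λ A] {s D : ℕ} {a : Fin s → A}
  {F : Fin s → Λ[X]} {E : MvPolynomial (Fin s) Λ} {g : Λ} {I r0 : ℕ}

/-- the evaluation at the Teichmueller representatives of the roots kills `(F_j(T_j))` modulo
`p^(I+1)` -/
theorem eval_mem_of_mem (d : CData.{u} ψ (D := D) F E g I r0) (π : Fin s → Fin D)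
    {f : MvPolynomial (Fin s) Λ}
    (hf : f ∈ Ideal.span (Set.range fun j => Polynomial.toMvPolynomial j (F j))) :
    MvPolynomial.eval₂ (laB ψ d.C) (fun j => te p d.C (tC p k r d.C) (d.c j (π j))) f ∈
      Ideal.span {(p : Bt p d.C (tC p k r d.C)) ^ (I + 1)} := by
  set ev : MvPolynomial (Fin s) Λ →+* Bt p d.C (tC p k r d.C) :=
    MvPolynomial.eval₂Hom (laB ψ d.C) (fun j => te p d.C (tC p k r d.C) (d.c j (π j))) with hev
  change ev f ∈ _
  have hle : Ideal.span (Set.range fun j => Polynomial.toMvPolynomial j (F j)) ≤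
      (Ideal.span {(p : Bt p d.C (tC p k r d.C)) ^ (I + 1)}).comap ev := by
    rw [Ideal.span_le]
    rintro _ ⟨j, rfl⟩
    rw [SetLike.mem_coe, Ideal.mem_comap]
    simp only
    have h1 : ev (Polynomial.toMvPolynomial j (F j)) =
        eval₂ (laB ψ d.C) (te p d.C (tC p k r d.C) (d.c j (π j))) (F j) := by
      rw [Polynomial.toMvPolynomial, hev]
      change (MvPolynomial.eval₂Hom _ _) (aeval (MvPolynomial.X j) (F j)) = _
      rw [aeval_def, hom_eval₂, MvPolynomial.coe_eval₂Hom, MvPolynomial.eval₂_X]
      congr 1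
      ext l
      change MvPolynomial.eval₂ _ _ (MvPolynomial.C l) = _
      rw [MvPolynomial.eval₂_C]
    set t0 := te p d.C (tC p k r d.C) (d.c j (π j)) with ht0
    have h2 : eval₂ (laB ψ d.C) t0 (F j) = eval t0 ((F j).map (laB ψ d.C) -
        ∏ i, (X - C (te p d.C (tC p k r d.C) (d.c j i)))) := by
      rw [eval_sub, eval_map, eval_prod, Finset.prod_eq_zero (Finset.mem_univ (π j)), sub_zero]
      rw [eval_sub, eval_X, eval_C, ← ht0, sub_self]
    rw [h1, h2, eval_eq_sum]
    exact Ideal.sum_mem _ fun n _ => Ideal.mul_mem_right _ _ (d.split j n)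
  exact hle hf

end Vale.Agent.P202.Mix
end

section

/-!
P202 MIX, task M3: the homomorphism `W(k)[[u_1, .., u_r]] → W(k[[t, u_1, .., u_r]])`.
-/

namespace Vale.Agent.P202.Mix

open MvPowerSeries
open Vale.Agent.P202.CZ

universe u

section M3
variable (p : ℕ) [Fact p.Prime] (k : Type u) [Field k] (r : ℕ)

/-- the maximal ideal of `k[[t, u_1, .., u_r]]`. -/
noncomputable abbrev p0m : Ideal (R0 k r) := Ideal.span (Set.range X)

/-- the truncations of `k[[t, u_1, .., u_r]]`. -/
abbrev p0Q (n : ℕ) : Type u := R0 k r ⧸ (p0m k r) ^ n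

/-- constants. -/
noncomputable def p0tau (n : ℕ) : WittVector p k →+* WittVector p (p0Q k r n) :=
  WittVector.map ((Ideal.Quotient.mk ((p0m k r) ^ n)).comp C)

/-- variables. -/
noncomputable def p0x (n : ℕ) (i : Fin r) : WittVector p (p0Q k r n) :=
  WittVector.teichmuller p (Ideal.Quotient.mk ((p0m k r) ^ n) (X i.succ))

theorem p0_prod (n : ℕ) (d : Fin r →₀ ℕ) (hd : n ≤ d.degree) :
    ∏ i, p0x p k r n i ^ d i = 0 := by
  have h1 : ∏ i, p0x p k r n i ^ d i = WittVector.teichmuller p
      (Ideal.Quotient.mk ((p0m k r) ^ n) (∏ i, (X i.succ : R0 k r) ^ d i)) := by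
    simp only [map_prod, map_pow, p0x]
  rw [h1]
  have h2 : (∏ i, (X i.succ : R0 k r) ^ d i) ∈ (p0m k r) ^ n := by
    have h3 : (∏ i, (X i.succ : R0 k r) ^ d i) ∈ ∏ i : Fin r, (p0m k r) ^ d i :=
      Ideal.prod_mem_prod fun i _ => Ideal.pow_mem_pow
        (Ideal.subset_span (Set.mem_range_self i.succ)) _
    rw [Finset.prod_pow_eq_pow_sum, ← Finsupp.degree_eq_sum] at h3
    exact Ideal.pow_le_pow_right hd h3
  rw [Ideal.Quotient.eq_zero_iff_mem.2 h2, WittVector.teichmuller_zero]

theorem p0_eval_zero (n : ℕ) {q : MvPolynomial (Fin r) (WittVector p k)}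
    (hq : q ∈ MvPolynomial.idealOfVars (Fin r) (WittVector p k) ^ n) :
    MvPolynomial.eval₂Hom (p0tau p k r n) (p0x p k r n) q = 0 := by
  rw [MvPolynomial.mem_pow_idealOfVars_iff] at hq
  rw [MvPolynomial.coe_eval₂Hom, MvPolynomial.eval₂_eq']
  refine Finset.sum_eq_zero fun d hd => ?_
  rw [p0_prod p k r n d (hq d hd), mul_zero]

/-- the truncated homomorphisms. -/
noncomputable def p0phi (n : ℕ) : La p k r →+* WittVector p (p0Q k r n) :=
  (Ideal.Quotient.lift (MvPolynomial.idealOfVars (Fin r) (WittVector p k) ^ n)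
    (MvPolynomial.eval₂Hom (p0tau p k r n) (p0x p k r n))
    (fun _ hq => p0_eval_zero p k r n hq)).comp
      (truncTotalAlgHom (Fin r) (WittVector p k) n).toRingHom

theorem p0phi_apply (n : ℕ) (f : La p k r) :
    p0phi p k r n f =
      MvPolynomial.eval₂Hom (p0tau p k r n) (p0x p k r n) (f.truncTotal n) := rfl

theorem p0phi_coe (n : ℕ) (q : MvPolynomial (Fin r) (WittVector p k)) :
    p0phi p k r n (q : La p k r) =
      MvPolynomial.eval₂Hom (p0tau p k r n) (p0x p k r n) q := by
  have h := (truncTotalAlgHom (Fin r) (WittVector p k) n).commutes q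
  have h2 : p0phi p k r n (q : La p k r) =
      (Ideal.Quotient.lift (MvPolynomial.idealOfVars (Fin r) (WittVector p k) ^ n)
    (MvPolynomial.eval₂Hom (p0tau p k r n) (p0x p k r n))
    (fun _ hq => p0_eval_zero p k r n hq))
      (truncTotalAlgHom (Fin r) (WittVector p k) n (algebraMap (MvPolynomial (Fin r)
        (WittVector p k)) (MvPowerSeries (Fin r) (WittVector p k)) q)) := rfl
  rw [h2, h]
  rfl

theorem p0phi_map {m n : ℕ} (hle : m ≤ n) (f : La p k r) :
    WittVector.map (Ideal.Quotient.factorPow (p0m k r) hle) (p0phi p k r n f) =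
      p0phi p k r m f := by
  have h1 : (WittVector.map (Ideal.Quotient.factorPow (p0m k r) hle)).comp
      (MvPolynomial.eval₂Hom (p0tau p k r n) (p0x p k r n)) =
      MvPolynomial.eval₂Hom (p0tau p k r m) (p0x p k r m) := by
    refine MvPolynomial.ringHom_ext (fun a => ?_) (fun i => ?_)
    · rw [RingHom.comp_apply, MvPolynomial.eval₂Hom_C, MvPolynomial.eval₂Hom_C]
      ext j
      simp only [p0tau, WittVector.map_coeff, RingHom.comp_apply]
      rfl
    · rw [RingHom.comp_apply, MvPolynomial.eval₂Hom_X', MvPolynomial.eval₂Hom_X', p0x, p0x,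
        WittVector.map_teichmuller]
      rfl
  rw [p0phi_apply, ← RingHom.comp_apply, h1, p0phi_apply, ← sub_eq_zero, ← map_sub]
  exact p0_eval_zero p k r m (truncTotal_sub_truncTotal_mem_pow_idealOfVars hle (le_refl _) _)

theorem p0_ext {f g : R0 k r}
    (h : ∀ n, Ideal.Quotient.mk ((p0m k r) ^ n) f = Ideal.Quotient.mk ((p0m k r) ^ n) g) :
    f = g := by
  ext d
  have h1 := h (d.degree + 1)
  rw [Ideal.Quotient.eq, mem_pow_iff] at h1
  have h2 := h1 d (Nat.lt_succ_self _)
  rwa [map_sub, sub_eq_zero] at h2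

theorem p0_extW {f g : WittVector p (R0 k r)}
    (h : ∀ n, WittVector.map (Ideal.Quotient.mk ((p0m k r) ^ n)) f =
      WittVector.map (Ideal.Quotient.mk ((p0m k r) ^ n)) g) : f = g := by
  ext1 i
  refine p0_ext k r fun n => ?_
  have h1 := congrArg (fun w => WittVector.coeff w i) (h n)
  simpa only [WittVector.map_coeff] using h1

theorem p0_exists (f : La p k r) (i : ℕ) : ∃ L : R0 k r, ∀ n,
    Ideal.Quotient.mk ((p0m k r) ^ n) L = (p0phi p k r n f).coeff i := by
  have h1 : ∀ n, ∃ a : R0 k r,
      Ideal.Quotient.mk ((p0m k r) ^ n) a = (p0phi p k r n f).coeff i :=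
    fun n => Ideal.Quotient.mk_surjective _
  choose a ha using h1
  obtain ⟨L, hL⟩ : ∃ L : R0 k r, ∀ d, coeff d L = coeff d (a (d.degree + 1)) :=
    ⟨fun d => coeff d (a (d.degree + 1)), fun d => rfl⟩
  refine ⟨L, fun n => ?_⟩
  rw [← ha n, Ideal.Quotient.eq, mem_pow_iff]
  intro d hd
  rw [map_sub, hL]
  have h2 : a n - a (d.degree + 1) ∈ (p0m k r) ^ (d.degree + 1) := by
    rw [← Ideal.Quotient.eq, ha (d.degree + 1), ← p0phi_map p k r hd f, WittVector.map_coeff,
      ← ha n]
    rfl
  rw [mem_pow_iff] at h2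
  have h3 := h2 d (Nat.lt_succ_self _)
  rw [map_sub, sub_eq_zero] at h3
  rw [h3]
  exact sub_self _

/-- the homomorphism. -/
theorem p0_hom : ∃ ψ : La p k r →+* WittVector p (R0 k r), ∀ n f,
    WittVector.map (Ideal.Quotient.mk ((p0m k r) ^ n)) (ψ f) = p0phi p k r n f := by
  choose L hL using p0_exists p k r
  have key : ∀ n f, WittVector.map (Ideal.Quotient.mk ((p0m k r) ^ n))
      (WittVector.mk p (L f)) = p0phi p k r n f := by
    intro n f
    ext i
    rw [WittVector.map_coeff]
    exact hL f i n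
  refine ⟨{ toFun := fun f => WittVector.mk p (L f), map_one' := ?_, map_mul' := ?_,
            map_zero' := ?_, map_add' := ?_ }, key⟩
  · exact p0_extW p k r fun n => by rw [key, map_one, map_one]
  · exact fun f g => p0_extW p k r fun n => by rw [key, map_mul, map_mul, key, key]
  · exact p0_extW p k r fun n => by rw [key, map_zero, map_zero]
  · exact fun f g => p0_extW p k r fun n => by rw [key, map_add, map_add, key, key]

theorem p0_coeff_zero {ψ : La p k r →+* WittVector p (R0 k r)}
    (hψ : ∀ n f, WittVector.map (Ideal.Quotient.mk ((p0m k r) ^ n)) (ψ f) = p0phi p k r n f)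
    (f : La p k r) (n : ℕ) :
    Ideal.Quotient.mk ((p0m k r) ^ n) ((ψ f).coeff 0) = Ideal.Quotient.mk ((p0m k r) ^ n)
      ((MvPolynomial.rename Fin.succ (MvPolynomial.map (WittVector.constantCoeff (p := p))
        (f.truncTotal n)) : MvPolynomial (Fin (r + 1)) k) : R0 k r) := by
  have h1 : ((WittVector.constantCoeff (p := p)).comp
      (MvPolynomial.eval₂Hom (p0tau p k r n) (p0x p k r n))) =
      (Ideal.Quotient.mk ((p0m k r) ^ n)).comp ((MvPolynomial.coeToMvPowerSeries.ringHom).comp
        ((MvPolynomial.rename (R := k) (Fin.succ (n := r))).toRingHom.comp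
          (MvPolynomial.map (WittVector.constantCoeff (p := p))))) := by
    refine MvPolynomial.ringHom_ext (fun a => ?_) (fun i => ?_)
    · simp only [RingHom.comp_apply, MvPolynomial.eval₂Hom_C, MvPolynomial.map_C, p0tau,
        WittVector.constantCoeff_apply, WittVector.map_coeff, AlgHom.toRingHom_eq_coe,
        RingHom.coe_coe, MvPolynomial.rename_C, MvPolynomial.coeToMvPowerSeries.ringHom_apply,
        MvPolynomial.coe_C]
    · simp only [RingHom.comp_apply, MvPolynomial.eval₂Hom_X', MvPolynomial.map_X, p0x,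
        WittVector.constantCoeff_apply, WittVector.teichmuller_coeff_zero,
        AlgHom.toRingHom_eq_coe,
        RingHom.coe_coe, MvPolynomial.rename_X, MvPolynomial.coeToMvPowerSeries.ringHom_apply,
        MvPolynomial.coe_X]
  have h2 := congrArg (fun w => WittVector.coeff w 0) (hψ n f)
  simp only [WittVector.map_coeff] at h2
  rw [h2, p0phi_apply]
  exact congr($h1 (f.truncTotal n))

theorem p0_degree (β : Fin r →₀ ℕ) : (β.mapDomain Fin.succ).degree = β.degree := by
  rw [Finsupp.degree_eq_sum, Finsupp.degree_eq_sum, Fin.sum_univ_succ,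
    Finsupp.mapDomain_of_notMem_range _ _ (by
      rintro ⟨i, hi⟩
      exact Fin.succ_ne_zero i hi), zero_add]
  exact Finset.sum_congr rfl fun i _ => Finsupp.mapDomain_apply (Fin.succ_injective r) _ _

theorem p0_coeff {ψ : La p k r →+* WittVector p (R0 k r)}
    (hψ : ∀ n f, WittVector.map (Ideal.Quotient.mk ((p0m k r) ^ n)) (ψ f) = p0phi p k r n f)
    (f : La p k r) (β : Fin r →₀ ℕ) :
    coeff (β.mapDomain Fin.succ) ((ψ f).coeff 0) = (coeff β f).coeff 0 := by
  have h1 := p0_coeff_zero p k r hψ f (β.degree + 1)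
  rw [Ideal.Quotient.eq, mem_pow_iff] at h1
  have h2 := h1 (β.mapDomain Fin.succ) (by rw [p0_degree]; exact Nat.lt_succ_self _)
  rw [map_sub, sub_eq_zero, MvPolynomial.coeff_coe,
    MvPolynomial.coeff_rename_mapDomain _ (Fin.succ_injective r), MvPolynomial.coeff_map,
    coeff_truncTotal _ (Nat.lt_succ_self _)] at h2
  exact h2

theorem p0_mapDomain (α : Fin (r + 1) →₀ ℕ) (h : α 0 = 0) :
    ∃ β : Fin r →₀ ℕ, β.mapDomain Fin.succ = α := by
  refine ⟨Finsupp.tail α, ?_⟩
  ext i
  refine Fin.cases ?_ (fun i => ?_) i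
  · rw [Finsupp.mapDomain_of_notMem_range _ _ (by
      rintro ⟨i, hi⟩
      exact Fin.succ_ne_zero i hi), h]
  · rw [Finsupp.mapDomain_apply (Fin.succ_injective r), Finsupp.tail_apply]

end M3

section M3
variable (p : ℕ) [Fact p.Prime] (k : Type u) [Field k] [CharP k p] [PerfectRing k p] (r : ℕ)

/-- TASK M3: the homomorphism `W(k)[[u_1, .., u_r]] → W(k[[t, u_1, .., u_r]])`, `u_i ↦ [u_i]`. -/
theorem exists_psi0 : ∃ ψ : La p k r →+* WittVector p (R0 k r),
    (∀ i, ψ (MvPowerSeries.X i) = WittVector.teichmuller p (MvPowerSeries.X i.succ)) ∧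
    (∀ a, ψ (MvPowerSeries.C a) = WittVector.map MvPowerSeries.C a) ∧
    (∀ f, (ψ f).coeff 0 ∈ Ideal.span {(MvPowerSeries.X 0 : R0 k r)} →
      f ∈ Ideal.span {(p : La p k r)}) ∧
    ∀ g : R0 k r, ∃ f : La p k r, g - (ψ f).coeff 0 ∈ Ideal.span {(MvPowerSeries.X 0 : R0 k r)} := by
  obtain ⟨ψ, hψ⟩ := p0_hom p k r
  refine ⟨ψ, fun i => ?_, fun a => ?_, fun f hf => ?_, fun g => ?_⟩
  · refine p0_extW p k r fun n => ?_
    have h1 : (X i : La p k r) = ((MvPolynomial.X i : MvPolynomial (Fin r) (WittVector p k)) :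
        La p k r) := (MvPolynomial.coe_X i).symm
    rw [hψ, h1, p0phi_coe, MvPolynomial.eval₂Hom_X', WittVector.map_teichmuller]
    rfl
  · refine p0_extW p k r fun n => ?_
    have h1 : (C a : La p k r) = ((MvPolynomial.C a : MvPolynomial (Fin r) (WittVector p k)) :
        La p k r) := (MvPolynomial.coe_C a).symm
    rw [hψ, h1, p0phi_coe, MvPolynomial.eval₂Hom_C]
    ext j
    simp only [p0tau, WittVector.map_coeff, RingHom.comp_apply]
  · rw [Ideal.mem_span_singleton, X_dvd_iff] at hf
    have h1 : ∀ β, ∃ c : WittVector p k, coeff β f = p * c := by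
      intro β
      have h2 := hf (β.mapDomain Fin.succ) (Finsupp.mapDomain_of_notMem_range _ _ (by
        rintro ⟨i, hi⟩
        exact Fin.succ_ne_zero i hi))
      rw [p0_coeff p k r hψ, ← WittVector.mem_span_p_iff_coeff_zero_eq_zero,
        Ideal.mem_span_singleton] at h2
      exact h2
    choose c hc using h1
    obtain ⟨c', hc'⟩ : ∃ c' : La p k r, ∀ β, coeff β c' = c β := ⟨fun β => c β, fun β => rfl⟩
    rw [Ideal.mem_span_singleton]
    refine ⟨c', ?_⟩
    ext1 β
    have h3 : (p : La p k r) = C (p : WittVector p k) := (map_natCast C p).symm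
    rw [hc, h3, coeff_C_mul, hc']
  · obtain ⟨f, hf⟩ : ∃ f : La p k r, ∀ β, coeff β f =
        WittVector.teichmuller p (coeff (β.mapDomain Fin.succ) g) := ⟨fun β => _, fun β => rfl⟩
    refine ⟨f, ?_⟩
    rw [Ideal.mem_span_singleton, X_dvd_iff]
    intro α hα
    obtain ⟨β, rfl⟩ := p0_mapDomain r α hα
    rw [map_sub, p0_coeff p k r hψ, hf, WittVector.teichmuller_coeff_zero, sub_self]

end M3

end Vale.Agent.P202.Mix
end

section

/-!
P202 MIX, task M3b: the base `Λ = Cr[[u]]`, `Cr` a Cohen ring with a homomorphism to `W(k)`.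
-/

namespace Vale.Agent.P202.Mix

open IsLocalRing
open scoped Pointwise

universe u

section Reg

variable (k : Type u) [Field k] (r : ℕ)

/-- the variables `u_1, .., u_r` form a regular sequence in `k[[t, u]]/t`. -/
theorem ibc_regular : RingTheory.Sequence.IsWeaklyRegular
    (R0 k r ⧸ Ideal.span {(MvPowerSeries.X 0 : R0 k r)})
    (List.ofFn fun i : Fin r =>
      Ideal.Quotient.mk (Ideal.span {(MvPowerSeries.X 0 : R0 k r)}) (MvPowerSeries.X i.succ)) := by
  have h := CharP.ArbK.isWeaklyRegular_X_pow k (r + 1) 1 le_rfl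
  simp only [pow_one] at h
  rw [List.ofFn_succ, RingTheory.Sequence.isWeaklyRegular_cons_iff] at h
  have e0 : (MvPowerSeries.X 0 : R0 k r) • (⊤ : Submodule (R0 k r) (R0 k r)) =
      Ideal.span {(MvPowerSeries.X 0 : R0 k r)} := by
    rw [← Submodule.ideal_span_singleton_smul, smul_eq_mul, Ideal.mul_top]
  have h2 := (LinearEquiv.isWeaklyRegular_congr (Submodule.quotEquivOfEq _ _ e0) _).1 h.2
  have h3 := (RingTheory.Sequence.isWeaklyRegular_map_algebraMap_iff
    (R0 k r ⧸ Ideal.span {(MvPowerSeries.X 0 : R0 k r)})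
    (R0 k r ⧸ Ideal.span {(MvPowerSeries.X 0 : R0 k r)}) _).2 h2
  rw [List.map_ofFn] at h3
  exact h3

theorem ibc_max : maximalIdeal (R0 k r) = Ideal.span (Set.range MvPowerSeries.X) :=
  CZ.maximalIdeal_eq

theorem ibc_X_mem (i : Fin (r + 1)) : (MvPowerSeries.X i : R0 k r) ∈ maximalIdeal (R0 k r) := by
  rw [ibc_max]
  exact Ideal.subset_span ⟨i, rfl⟩

theorem ibc_local : IsLocalRing (R0 k r ⧸ Ideal.span {(MvPowerSeries.X 0 : R0 k r)}) := by
  have hne : Ideal.span {(MvPowerSeries.X 0 : R0 k r)} ≠ ⊤ := by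
    intro h
    have h1 : Ideal.span {(MvPowerSeries.X 0 : R0 k r)} ≤ maximalIdeal (R0 k r) := by
      rw [Ideal.span_singleton_le_iff_mem]
      exact ibc_X_mem k r 0
    rw [h, top_le_iff] at h1
    exact (maximalIdeal.isMaximal (R0 k r)).ne_top h1
  have : Nontrivial (R0 k r ⧸ Ideal.span {(MvPowerSeries.X 0 : R0 k r)}) :=
    Ideal.Quotient.nontrivial_iff.2 hne
  exact IsLocalRing.of_surjective' (Ideal.Quotient.mk _) Ideal.Quotient.mk_surjective

end Reg

/-- reduction of the coefficients modulo the maximal ideal `(p)`: kernel. -/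
theorem ibc_ker (p : ℕ) (r : ℕ) {Cr : Type u} [CommRing Cr] [IsLocalRing Cr]
    (hCr : maximalIdeal Cr = Ideal.span {(p : Cr)}) :
    RingHom.ker (MvPowerSeries.map (σ := Fin r) (residue Cr)) =
      Ideal.span {(p : MvPowerSeries (Fin r) Cr)} := by
  ext f
  rw [RingHom.mem_ker, Ideal.mem_span_singleton]
  constructor
  · intro hf
    have h1 : ∀ β, ∃ c : Cr, MvPowerSeries.coeff β f = p * c := by
      intro β
      have h2 := congrArg (MvPowerSeries.coeff β) hf
      rw [MvPowerSeries.coeff_map, map_zero, residue_eq_zero_iff, hCr,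
        Ideal.mem_span_singleton] at h2
      exact h2
    choose c hc using h1
    obtain ⟨c', hc'⟩ : ∃ c' : MvPowerSeries (Fin r) Cr, ∀ β, MvPowerSeries.coeff β c' = c β :=
      ⟨fun β => c β, fun β => rfl⟩
    refine ⟨c', ?_⟩
    ext β
    have h3 : (p : MvPowerSeries (Fin r) Cr) = MvPowerSeries.C (p : Cr) := (map_natCast _ _).symm
    rw [h3, MvPowerSeries.coeff_C_mul, hc', hc]
  · rintro ⟨g, rfl⟩
    have h4 : residue Cr (p : Cr) = 0 := by
      rw [residue_eq_zero_iff, hCr]
      exact Ideal.subset_span rfl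
    rw [map_mul, map_natCast, ← map_natCast (MvPowerSeries.C (σ := Fin r) (R := ResidueField Cr)),
      ← map_natCast (residue Cr), h4, map_zero, zero_mul]

/-- a homomorphism `Cr[[u]]/p → k[[t, u]]/t` with `u_i ↦ u_i` is flat. -/
theorem ibc_flat (p : ℕ) (k : Type u) [Field k] (r : ℕ) {Cr : Type u} [CommRing Cr]
    [IsLocalRing Cr] (hCr : maximalIdeal Cr = Ideal.span {(p : Cr)})
    (F : (MvPowerSeries (Fin r) Cr ⧸ Ideal.span {(p : MvPowerSeries (Fin r) Cr)}) →+*
      R0 k r ⧸ Ideal.span {(MvPowerSeries.X 0 : R0 k r)})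
    (hF : ∀ i : Fin r, F (Ideal.Quotient.mk _ (MvPowerSeries.X i)) =
      Ideal.Quotient.mk _ (MvPowerSeries.X i.succ)) : F.Flat := by
  have hloc := ibc_local k r
  have hsurj : Function.Surjective (MvPowerSeries.map (σ := Fin r) (residue Cr)) := by
    intro f
    choose g hg using fun β => residue_surjective (R := Cr) (MvPowerSeries.coeff β f)
    obtain ⟨g', hg'⟩ : ∃ g' : MvPowerSeries (Fin r) Cr, ∀ β, MvPowerSeries.coeff β g' = g β :=
      ⟨fun β => g β, fun β => rfl⟩
    refine ⟨g', ?_⟩
    ext β
    rw [MvPowerSeries.coeff_map, hg']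
    exact hg β
  let q : (MvPowerSeries (Fin r) Cr ⧸ Ideal.span {(p : MvPowerSeries (Fin r) Cr)}) ≃+*
      MvPowerSeries (Fin r) (ResidueField Cr) :=
    (Ideal.quotEquivOfEq (ibc_ker p r hCr).symm).trans
      (RingHom.quotientKerEquivOfSurjective hsurj)
  have hq : ∀ f, q (Ideal.Quotient.mk _ f) = MvPowerSeries.map (residue Cr) f := fun f => rfl
  let G : MvPowerSeries (Fin r) (ResidueField Cr) →+*
      R0 k r ⧸ Ideal.span {(MvPowerSeries.X 0 : R0 k r)} := F.comp q.symm.toRingHom
  have hG : ∀ i, G (MvPowerSeries.X i) = Ideal.Quotient.mk _ (MvPowerSeries.X i.succ) := by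
    intro i
    have h1 : q.symm (MvPowerSeries.X i) = Ideal.Quotient.mk _ (MvPowerSeries.X i) := by
      rw [RingEquiv.symm_apply_eq, hq, MvPowerSeries.map_X]
    change F (q.symm (MvPowerSeries.X i)) = _
    rw [h1, hF]
  have hGf : G.Flat := by
    algebraize [G]
    have hX : ∀ i : Fin r, algebraMap (MvPowerSeries (Fin r) (ResidueField Cr))
        (R0 k r ⧸ Ideal.span {(MvPowerSeries.X 0 : R0 k r)}) (MvPowerSeries.X i) =
        Ideal.Quotient.mk _ (MvPowerSeries.X i.succ) := hG
    refine CharP.ArbK.flat_of_regular_powerSeries (fun i => ?_) ?_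
    · rw [hX, mem_maximalIdeal, mem_nonunits_iff]
      intro hu
      have h2 : IsUnit (MvPowerSeries.X i.succ : R0 k r) := by
        have : IsLocalHom (Ideal.Quotient.mk (Ideal.span {(MvPowerSeries.X 0 : R0 k r)})) :=
          IsLocalHom.of_surjective _ Ideal.Quotient.mk_surjective
        exact isUnit_of_map_unit _ _ hu
      exact (mem_nonunits_iff.1 ((mem_maximalIdeal _).1 (ibc_X_mem k r i.succ))) h2
    · simp only [hX]
      exact ibc_regular k r
  have hFG : F = G.comp (q : _ →+* MvPowerSeries (Fin r) (ResidueField Cr)) := by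
    ext x
    change F _ = F (q.symm (q _))
    rw [RingEquiv.symm_apply_apply]
  rw [hFG]
  exact RingHom.Flat.comp (RingHom.Flat.of_bijective q.bijective) hGf

end Vale.Agent.P202.Mix
end

section

/-!
# Perfect ideals and their Witt vectors (P177)

`C` perfect of characteristic `p`.  An ideal `J` is *perfect* if it is closed under the
weighted geometric means `a ^ (i/p) * b ^ ((p-i)/p)`.  Then
`WJ J = {∑ pⁿ [xₙ] : xₙ ∈ J}` is an ideal of `W(C)` with `W(J) ∩ p W(C) = p W(J)` and
`W(J) / p = J`.
-/

namespace Vale.Agent.P177.WJ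

set_option linter.unusedSectionVars false
set_option linter.dupNamespace false

open WittVector

variable {p : ℕ} [hp : Fact (Nat.Prime p)] {C : Type*} [CommRing C] [CharP C p] [PerfectRing C p]


/-- The `n`-fold Frobenius root. -/
noncomputable def rt (p : ℕ) [Fact (Nat.Prime p)] {C : Type*} [CommRing C] [CharP C p]
    [PerfectRing C p] (n : ℕ) (x : C) : C := ((_root_.frobeniusEquiv C p).symm ^ n) x

/-- Perfect ideals: closed under `a ^ (i/p) * b ^ ((p-i)/p)`. -/
def IsPerf (p : ℕ) [Fact (Nat.Prime p)] {C : Type*} [CommRing C] [CharP C p]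
    [PerfectRing C p] (J : Ideal C) : Prop :=
  ∀ a ∈ J, ∀ b ∈ J, ∀ i ≤ p, rt p 1 (a ^ i * b ^ (p - i)) ∈ J

end Vale.Agent.P177.WJ
end
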