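import Mathlib
import Vale.Agent.P177.Bd4.B2
import Vale.Agent.P177.Bd4.B3
attribute [-instance] DenselyNormedField.toNontriviallyNormedField RCLike.toDenselyNormedField DenselyNormedField.toNormedField NontriviallyNormedField.toNormedField NormedField.toNormedDivisionRing littleWedderburn NormedDivisionRing.toDivisionRing NormedField.toField KleeneAlgebra.toIdemSemiring DivisionRing.toDivisionSemiring SemiRingCat.instSemiringObjForgetRingHomCarrier BooleanRing.toRing CommCStarAlgebra.toNormedCommRing NormedField.toNormedCommRing CommCStarAlgebra.toCStarAlgebra CStarAlgebra.toNormedRing NormedCommRing.toNormedRing NormedDivisionRing.toNormedRing LeftPreLieRing.instLieAdmissibleRing RightPreLieRing.instLieAdmissibleRing NormedCommRing.toSeminormedCommRing NormedRing.toSeminormedRing SeminormedCommRing.toSeminormedRing Field.toEuclideanDomain BooleanRing.toCommRing EuclideanDomain.toCommRing NormedCommRing.toCommRing SeminormedCommRing.toCommRing NormedRing.toRing SeminormedRing.toRing CommCStarAlgebra.toNonUnitalCommCStarAlgebra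 CStarAlgebra.toNonUnitalCStarAlgebra NonUnitalCommCStarAlgebra.toNonUnitalCStarAlgebra NonUnitalCommCStarAlgebra.toNonUnitalNormedCommRing NormedCommRing.toNonUnitalNormedCommRing NonUnitalCStarAlgebra.toNonUnitalNormedRing NonUnitalNormedCommRing.toNonUnitalNormedRing NormedRing.toNonUnitalNormedRing Ring.toNonAssocRing NonAssocCommRing.toNonAssocCommSemiring CommSemiring.toNonAssocCommSemiring NonAssocCommSemiring.toNonAssocSemiring LinearOrderedAddCommGroupWithTop.instLinearOrderedAddCommMonoidWithTop NonUnitalNormedCommRing.toNonUnitalSeminormedCommRing SeminormedCommRing.toNonUnitalSeminormedCommRing NonUnitalNormedRing.toNonUnitalSeminormedRing NonUnitalSeminormedCommRing.toNonUnitalSeminormedRing SeminormedRing.toNonUnitalSeminormedRing CommRing.toAddCommGroupWithOne NonAssocRing.toAddCommGroupWithOne NonUnitalNormedCommRing.toNonUnitalCommRing NonUnitalSeminormedCommRing.toNonUnitalCommRing NonUnitalNormedRing.toNonUnitalRing NonUnitalSeminormedRing.toNonUnitalRing Ring.toNonUnitalRing LinearOrderedAddCommGroupWithTop.toAddCommMonoid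 LeftPreLieRing.toNonUnitalNonAssocRing LieAdmissibleRing.toNonUnitalNonAssocRing RightPreLieRing.toNonUnitalNonAssocRing AddCommGroupWithOne.toAddCommMonoidWithOne NonAssocCommRing.toNonUnitalNonAssocCommRing NonAssocRing.toNonUnitalNonAssocRing NonUnitalRing.toNonUnitalNonAssocRing NonUnitalRing.toNonUnitalSemiring Semiring.toNonUnitalSemiring NonAssocCommSemiring.toNonUnitalNonAssocCommSemiring NonUnitalCommSemiring.toNonUnitalNonAssocCommSemiring NonUnitalNonAssocCommSemiring.toNonUnitalNonAssocSemiring NonUnitalSemiring.toNonUnitalNonAssocSemiring CommSemiRingCat.FilteredColimits.colimitCommSemiring AddCommMonoidWithOne.toAddCommMonoid NonUnitalNonAssocSemiring.toAddCommMonoid AddCommMonCat.FilteredColimits.colimitAddCommMonoid LieAdmissibleRing.instLieRing instCoeT CategoryTheory.CommGrpObj.mk CategoryTheory.CommGrpObj.toGrpObj CategoryTheory.Preadditive.instGrpObj CategoryTheory.instBraidedCategoryType CategoryTheory.Abelian.toPreadditive Pi.nonUnitalNonAssocSemiring instCoeTOfCoeDep TopologicalSpace.Compacts.instSetLike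 AlgebraicGeometry.Scheme.instPreorderCarrierCarrierCommRingCat CategoryTheory.BimonObj.toMonObj CategoryTheory.CommRingObj.toRingObj CategoryTheory.GrpObj.toMonObj CategoryTheory.HopfObj.toBimonObj CategoryTheory.RingObj.toMonObj Pi.nonAssocSemiring MonTypeEquivalenceMon.monMonoid NonUnitalNormedRing.toNormedAddCommGroup LieRing.toAddCommGroup MulSemiringAction.toDistribMulAction ContDiffMapSupportedInClass.toDFunLike RKHS.instFunLike TestFunctionClass.toDFunLike Complex.instRCLike Real.instRCLike NormedCommGroup.toNormedGroup NormedCommGroup.toSeminormedCommGroup NormedGroup.toSeminormedGroup SeminormedCommGroup.toSeminormedGroup SSet.stdSimplex.instFunLikeObjOppositeSimplexCategoryMkOpFinHAddNatOfNat instCoeTC CommGroup.toGroup GrpTypeEquivalenceGrp.grpGroup NormedGroup.toGroup SeminormedGroup.toGroup AddCommGroupWithOne.toAddGroupWithOne instCommGroupOfIsSimpleGroupOfIsNilpotent CommGrpTypeEquivalenceCommGrp.commGrpCommGroup NormedCommGroup.toCommGroup SeminormedCommGroup.toCommGroup instCoeTCOfCoe LieAdmissibleAlgebra.toModule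 LinearOrderedCommGroupWithZero.toLinearOrderedCommMonoidWithZero LinearOrderedAddCommGroupWithTop.toSubNegMonoid instCoeHTC instCoeHTCT MonCat.monoidObj BoxIntegral.Box.instMembershipForallReal LeftPreLieAlgebra.toModule LieAlgebra.toModule NormedSpace.toModule RightPreLieAlgebra.toModule RingCat.FilteredColimits.colimitRing ContinuousAddMonoidHom.instCoeOutOfAddMonoidHomClassOfContinuousMapClass ContinuousMonoidHom.instCoeOutOfMonoidHomClassOfContinuousMapClass HomeomorphClass.instCoeOutHomeomorph IsometryClass.instCoeOutIsometryEquiv boolToProp instDistribSMul LinearOrderedCommGroupWithZero.toCommGroupWithZero CommGroupWithZero.toGroupWithZero instSMulZeroClass Bialgebra.toAlgebra CommSemiring.toBialgebra CommSemiring.toHopfAlgebra HopfAlgebra.toHopfAlgebraStruct HopfAlgebraStruct.toBialgebra NormedAlgebra.toAlgebra TensorProduct.instModuleFstSnd LinearOrderedCommMonoidWithZero.toCommMonoidWithZero CommSemiring.toCommMonoidWithZero Algebra.TensorProduct.instCommRing AddOpposite.instAddZero CompleteAtomicBooleanAlgebra.toCompletelyDistribLattice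 SemiNormedGrp.str Algebra.TensorProduct.instCommSemiring Std.Time.WallTime.instHAddOffset_1 AddMonCat.addMonoidObj MonoidWithZero.toSemigroupWithZero NonUnitalNonAssocSemiring.toMulZeroClass SemigroupWithZero.toMulZeroClass Pi.instTopForall Algebra.TensorProduct.instRing instNonUnitalCStarAlgebraForall CompleteLinearOrder.toConditionallyCompleteLinearOrderBot Pi.addMonoidWithOne ConditionallyCompleteLinearOrderBot.toConditionallyCompleteLinearOrder CompleteLinearOrder.toLinearOrder ConditionallyCompleteLinearOrder.toLinearOrder LinearOrderedAddCommGroupWithTop.toLinearOrder LinearOrderedCommMonoidWithZero.toLinearOrder RightPreLieAlgebra.instLieAdmissibleAlgebra CompleteBooleanAlgebra.toCompleteDistribLattice CompletelyDistribLattice.toCompleteDistribLattice TopRep.hV1 CompleteDistribLattice.toCoframe CompleteDistribLattice.toFrame Action.instMulAction Torsor.toMulAction Action.FintypeCat.instMulActionObjFiniteOf GradedMonoid.GradeZero.mulAction CategoryTheory.Limits.Concrete.instUniqueToTypeTerminal CompleteLinearOrder.toCompleteLattice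 Order.Coframe.toCompleteLattice Order.Frame.toCompleteLattice CompleteBooleanAlgebra.toBooleanAlgebra Algebra.TensorProduct.instNonAssocRing NonUnitalSeminormedRing.toSeminormedAddCommGroup NormedAddCommGroup.toSeminormedAddCommGroup BooleanAlgebra.toBiheytingAlgebra CompleteDistribLattice.toBiheytingAlgebra CompleteLinearOrder.toBiheytingAlgebra CompletelyDistribLattice.toBiheytingAlgebra Algebra.TensorProduct.instNonUnitalRing LinearOrderedCommMonoidWithZero.toIsBotZeroClass Pi.addZeroClass ChainCompletePartialOrder.instOfCompleteLattice ChainCompletePartialOrder.instOmegaCompletePartialOrder ChainCompletePartialOrder.toPartialOrder CompletePartialOrder.toOmegaCompletePartialOrder OmegaCompletePartialOrder.toPartialOrder Invertible.toNeZero NeZero.of_gt' Nat.AtLeastTwo.toNeZero Algebra.TensorProduct.instNonAssocSemiring PartOrdEmb.str CategoryTheory.Mat_.fintype BiheytingAlgebra.toCoheytingAlgebra BiheytingAlgebra.toHeytingAlgebra BooleanAlgebra.toGeneralizedBooleanAlgebra Order.Coframe.toCoheytingAlgebra Order.Frame.toHeytingAlgebra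 Algebra.TensorProduct.instNonUnitalSemiring instIsDedekindDomainOfIsDomainOfIsDedekindRing IsDedekindDomainDvr.isDedekindDomain IsPrincipalIdealRing.isDedekindDomain CoheytingAlgebra.toGeneralizedCoheytingAlgebra GeneralizedBooleanAlgebra.toGeneralizedCoheytingAlgebra HeytingAlgebra.toGeneralizedHeytingAlgebra instSubsingleton Group.IsPerfect.subsingleton_of_isMulCommutative DivisionRing.isDomain EuclideanDomain.instIsDomain Field.isDomain IsDedekindDomain.toIsDomain IsStrictOrderedRing.isDomain Nat.instAtLeastTwoHAddOfNat IsEmpty.instSubsingleton TwoSidedIdeal.instIsTwoSidedCoeOrderHomIdealAsIdeal instConditionallyCompletePartialOrderSup CompleteLattice.toCompleteSemilatticeInf CompleteLattice.toCompleteSemilatticeSup ConditionallyCompletePartialOrder.toConditionallyCompletePartialOrderInf LeftPreLieAlgebra.toIsScalarTower LieAdmissibleAlgebra.toIsScalarTower LieRinehartAlgebra.toIsScalarTower RightPreLieAlgebra.toIsScalarTower Pi.distribMulAction' BooleanAlgebra.toDistribLattice CompleteLattice.toLattice CompleteLattice.toPartialOrder'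 CompleteSemilatticeInf.toPartialOrder CompleteSemilatticeSup.toPartialOrder ConditionallyCompletePartialOrderInf.toPartialOrder GeneralizedBooleanAlgebra.toDistribLattice GeneralizedCoheytingAlgebra.toDistribLattice GeneralizedCoheytingAlgebra.toLattice GeneralizedHeytingAlgebra.toDistribLattice GeneralizedHeytingAlgebra.toLattice LinearOrder.toLattice Order.Coframe.toDistribLattice Order.Frame.toDistribLattice NormedAddCommGroup.toNormedAddGroup instNonUnitalAlgHomClassOfNonUnitalAlgEquivClass AlgHom.instNonUnitalAlgHomClassOfAlgHomClass Algebra.TensorProduct.instNonUnitalNonAssocRing Nat.instNontrivial Nat.instOne Nat.Prime.one_lt' CentroidHomClass.toAddMonoidHomClass MulSemiringActionSemiHomClass.toDistribMulActionSemiHomClass NonUnitalAlgSemiHomClass.toDistribMulActionSemiHomClass ValuationClass.toMonoidWithZeroHomClass Pi.nonUnitalSemiring AbsoluteValue.zeroHomClass AddHom.addHomClass Field.instIsLocalRing ValuationRing.isLocalRing NormedAddGroup.toSeminormedAddGroup SeminormedAddCommGroup.toSeminormedAddGroup Std.DTreeMap.Raw.instSingletonSigma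 Algebra.TensorProduct.instNonUnitalNonAssocSemiring MulEquivClass.toMonoidWithZeroHomClass MulRingSeminormClass.toMonoidWithZeroHomClass instRingHomSurjectiveForallEvalRingHom instMulActionSemiHomClassMulActionHom StarSubalgebra.commCStarAlgebra SubfieldClass.toNormedField SubringClass.toNormedCommRing Fin.completeLinearOrder CommMonCat.str ProfiniteAddGrp.addGroup SubfieldClass.toDivisionRing SubfieldClass.toField SubringClass.toCommRing SubringClass.toSeminormedCommRing SetLike.GradeZero.instCommRing SemilatSupCat.isSemilatticeSup CommMonTypeEquivalenceCommMon.commMonCommMonoid NonUnitalNormedRing.toMetricSpace NormedAddCommGroup.toMetricSpace NormedAddGroup.toMetricSpace NormedCommGroup.toMetricSpace NormedDivisionRing.toMetricSpace NormedField.toMetricSpace NormedGroup.toMetricSpace NormedRing.toMetricSpace TopologicalSpace.UpgradedIsCompletelyMetrizableSpace.toMetricSpace IsRegularRing.toIsNoetherian FiniteDimensional.finiteDimensional_quotient RootedTree.orderBot TensorProduct.instNormedAddCommGroup EMetricSpace.toPseudoEMetricSpace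 IsValuativeTopology.instValuedValueGroupWithZeroOfIsUniformAddGroup MetricSpace.toEMetricSpace MetricSpace.toPseudoMetricSpace NonUnitalSeminormedRing.toPseudoMetricSpace PseudoEMetricSpace.toUniformSpace PseudoMetricSpace.toPseudoEMetricSpace PseudoMetricSpace.toUniformSpace SeminormedAddCommGroup.toPseudoMetricSpace SeminormedAddGroup.toPseudoMetricSpace SeminormedCommGroup.toPseudoMetricSpace SeminormedGroup.toPseudoMetricSpace SeminormedRing.toPseudoMetricSpace UniformSpace.toTopologicalSpace UpgradedStandardBorel.toTopologicalSpace Valued.toUniformSpace WithIdeal.instTopologicalSpace WithIdeal.instUniformSpace TopologicalSpace.UpgradedIsCompletelyPseudoMetrizableSpace.toPseudoMetricSpace OrderRingHom.instRingHomClass SubfieldClass.toSubringClass NumberField.instFiniteDimensional Preorder.smallCategory CategoryTheory.Groupoid.toCategory CategoryTheory.StrictBicategory.category instNontrivialOfCharZero DivisionRing.toNontrivial EuclideanDomain.toNontrivial IsSimpleOrder.toNontrivial LinearOrderedAddCommGroupWithTop.toNontrivial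 CategoryTheory.instFinCategoryOfFintypeOfIsThin FinEnum.instFintype SetLike.instFintype Unique.fintype CategoryTheory.FinCategory.fintypeObj AddCommGroupWithOne.toAddCommGroup NormedAddCommGroup.toAddCommGroup SeminormedAddCommGroup.toAddCommGroup instIsRegularRingOfIsDedekindDomain Quaternion.instDivisionRing Turing.FinTM2.decidableEqK StarSubalgebra.cstarAlgebra SubalgebraClass.normedRing SubringClass.toNormedRing smoothSheafCommRing.instLocalRing_stalk Pi.distribSMul' SubalgebraClass.seminormedRing SubringClass.toRing SubringClass.toSeminormedRing SetLike.GradeZero.instRing Pi.instBotForall OrderDual.instDivisionSemiring Fin.instBiheytingAlgebra instInfiniteOfUncountable CharZero.infinite Denumerable.instInfinite GroupWithZero.toNontrivial Infinite.instNontrivial IsAlgClosed.instInfinite IsOrderedRing.toIsStrictOrderedRing IsSimpleAddGroup.toNontrivial IsSimpleGroup.toNontrivial IsSimpleRing.instNontrivial IsStrictOrderedRing.toNontrivial NoMaxOrder.infinite NoMinOrder.infinite NontriviallyNormedField.infinite FirstOrder.Language.instInfiniteOfModelDloOrderOfNonempty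 CategoryTheory.instCategoryObj LinearMap.instLoewnerPartialOrder Semigrp.str AddQuantale.instAddLeftMono Pi.normedRing SubsemiringClass.toCommSemiring SetLike.GradeZero.instCommSemiring AlgHom.instContinuousLinearMapClassOfAlgHomClass AlgHomClass.linearMapClass BialgHomClass.toCoalgHomClass CoalgEquivClass.toCoalgHomClass CoalgHomClass.toSemilinearMapClass ContinuousSemilinearEquivClass.continuousSemilinearMapClass ContinuousSemilinearMapClass.toSemilinearMapClass NonUnitalAlgHomClass.instLinearMapClass NonUnitalAlgHomClass.instSemilinearMapClassOfNonUnitalAlgSemiHomClassToMonoidHomRingHom PositiveLinearMap.instContinuousLinearMapClassComplexOfLinearMapClassOfOrderHomClass RingHomClass.toLinearMapClassNNRat RingHomClass.toLinearMapClassRat SemilinearIsometryClass.toContinuousSemilinearMapClass SemilinearIsometryClass.toSemilinearMapClass Pi.smulZeroClass' of_isDiscreteValuationRing ValuationRing.of_field TensorProduct.CompatibleSMul.int BialgEquivClass.toCoalgEquivClass instIsSimpleModule FirstOrder.Language.instDecidableEqFunctions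 FirstOrder.Language.instDecidableEqRelations LinearOrderedAddCommGroupWithTop.toIsOrderedAddMonoid NormedAddGroup.toAddGroup SeminormedAddGroup.toAddGroup Pi.instOne Ideal.Quotient.normedCommRing SubsemiringClass.toSemiring SetLike.GradeZero.instSemiring SimpleGraph.TripartiteFromTriangles.graph.instDecidableRelAdj instCharZeroOfIsSemireal instIsSemirealOfIsStrictOrderedRingOfExistsAddOfLE FloorSemiring.instCharZero IsRealClosed.toIsSemireal IsStrictOrderedRing.toCharZero NumberField.to_charZero RCLike.charZero_rclike Module.FaithfullyFlat.of_isIntegral_of_isDomain LinearOrderedAddCommGroupWithTop.toSubtractionMonoid Std.LinearOrderPackage.toLinearPreorderPackage Std.LinearPreorderPackage.toPreorderPackage Ideal.Quotient.semiNormedCommRing ValuationRing.instOfIsLocalRingOfIsBezout ValuationRing.toPreValuationRing WithTop.linearOrderedAddCommMonoidWithTop Pi.mulOneClass Pi.mulZeroOneClass WittVector.inv_pair₁ AlgebraicGeometry.Scheme.component_nontrivial ENormedAddCommMonoid.toESeminormedAddCommMonoid NormedAddCommGroup.toENormedAddCommMonoid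 Fin.instCoheytingAlgebra Fin.instHeytingAlgebra RingHomInvPair.triples₂ instSMulCommClassOfIsScalarTower LeftPreLieAlgebra.toSMulCommClass LieAdmissibleAlgebra.toSMulCommClass RightPreLieAlgebra.toSMulCommClass BialgEquivClass.toBialgHomClass Module.FaithfullyFlat.self Module.FaithfullyFlat.toFlat Module.Flat.instOfIsDedekindDomainOfIsTorsionFree instFiniteProp instIsNoetherianRingOfIsArtinianRing IsDedekindDomainDvr.toIsNoetherian IsDedekindRing.toIsNoetherian IsSimpleModule.instIsNoetherian Ring.HasFiniteQuotients.instIsNoetherianRing OrderAddMonoidHom.instAddMonoidHomClass PadicComplex.normedField TensorProduct.isScalarTower TensorProduct.isScalarTower_right Algebra.TensorProduct.right_isScalarTower RingConeClass.toSubsemiringClass SubringClass.toSubsemiringClass Module.toMulActionWithZero MonoidWithZero.toMulActionWithZero Pi.normedAddCommGroup decidableEq_of_subsingleton FinEnum.decEq FunLike.toDecidableEq RCLike.toDecidableEq instNonemptyOfMonad String.Slice.Pos.instLinearOrderPackage ENormedCommMonoid.toESeminormedCommMonoid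 NormedCommGroup.toENormedCommMonoid OrderDual.instPow_1 RCLike.innerProductSpace ValuationRing.instLinearOrderIdealOfDecidableLE instInhabitedOfMonad Nontrivial.to_nonempty Torsor.nonempty CategoryTheory.IsConnected.is_nonempty Algebra.IsFiniteSplit.instOfIsSepClosedOfEssFiniteTypeOfFormallyEtale SubringClass.toNonAssocCommRing SubringClass.toNonAssocRing MulOpposite.instMulOne Finite.of_subsingleton SetLike.instFinite AddCancelCommMonoid.toAddCancelMonoid AddCancelCommMonoid.toAddCommMonoid AddCancelMonoid.toAddLeftCancelMonoid AddCancelMonoid.toAddRightCancelMonoid AddGroup.toAddCancelMonoid AddLeftCancelMonoid.toAddMonoid AddRightCancelMonoid.toAddMonoid ENormedAddCommMonoid.toENormedAddMonoid ENormedAddMonoid.toESeminormedAddMonoid ESeminormedAddCommMonoid.toAddCommMonoid ESeminormedAddCommMonoid.toESeminormedAddMonoid ESeminormedAddMonoid.toAddMonoid NormedAddGroup.toENormedAddMonoid SubtractionCommMonoid.toAddCommMonoid instOfNatAtLeastTwo bot_nonempty infSet_to_nonempty supSet_to_nonempty top_nonempty ConnectedSpace.toNonempty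 IrreducibleSpace.toNonempty One.instNonempty Zero.instNonempty Pi.commMagma FiniteDimensional.finiteDimensional_submodule IdemSemiring.toCanonicallyOrderedAdd exists_prop_decidable Array.instDecidableExistsAndMemOfDecidablePred Finset.decidableDExistsFinset Finset.decidableExistsAndFinset Finset.decidableExistsAndFinsetCoe Fintype.decidableExistsFintype List.decidableBEx Multiset.decidableDexistsMultiset Option.decidableExistsMem Vector.instDecidableExistsAndMemOfDecidablePred Std.Sat.CNF.instDecidableExistsVarMemOfDecidableEq forall_prop_decidable Array.instDecidableForallForallMemOfDecidablePred Finset.decidableDforallFinset Fintype.decidableForallFintype Multiset.decidableDforallMultiset Option.decidableForallMem Vector.instDecidableForallForallMemOfDecidablePred OneHom.oneHomClass AlgHom.instRingHomCompTripleComp instIsSemisimpleModuleOfIsSimpleModule instIsSemisimpleRingOfSubsingleton IsSemisimpleRing.isSemisimpleModule IsSimpleRing.instIsSemisimpleRing Pi.addCommMagma instFiniteOfFinitePresentation instFinitePresentation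 instIsEmptySubtype instSubsingletonSubtype_mathlib Algebra.instFiniteOfIsQuadraticExtension FiniteDimensional.finiteDimensional_self IsAzumaya.toFinite SubgroupClass.normedCommGroup SubgroupClass.normedGroup SubgroupClass.seminormedCommGroup SubgroupClass.seminormedGroup SubgroupClass.toCommGroup SubgroupClass.toGroup Algebra.IsFiniteSplit.instFinitePresentation Module.Finite.self Module.FinitePresentation.of_subsingleton RingHom.Finite.instFinite Submodule.instIdemCommSemiring isSimpleModule_of_simple CancelCommMonoid.toCancelMonoid CancelCommMonoid.toCommMonoid CancelCommMonoid.toLeftCancelMonoid CancelMonoid.toLeftCancelMonoid CancelMonoid.toRightCancelMonoid CommGroup.toCancelCommMonoid CommGroup.toCommMonoid CommGroup.toDivisionCommMonoid CommRing.toGrindCommRing CommSemiring.toGrindCommSemiring DivInvMonoid.toMonoid DivInvOneMonoid.toDivInvMonoid DivisionCommMonoid.toCommMonoid DivisionMonoid.toDivInvMonoid DivisionRing.toDivInvMonoid ENormedCommMonoid.toENormedMonoid ENormedMonoid.toESeminormedMonoid ESeminormedCommMonoid.toCommMonoid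 ESeminormedCommMonoid.toESeminormedMonoid ESeminormedMonoid.toMonoid Field.toGrindField Group.toCancelMonoid Group.toDivInvMonoid Group.toDivisionMonoid GroupWithZero.toDivisionMonoid LeftCancelMonoid.toMonoid MonoidWithZero.toMonoid NormedGroup.toENormedMonoid RightCancelMonoid.toMonoid Ring.toGrindRing Semiring.toGrindSemiring GradedMonoid.GradeZero.commMonoid GradedMonoid.GradeZero.monoid SemilinearIsometryEquivClass.toSemilinearIsometryClass LeftPreLieAlgebra.instLieAdmissibleAlgebra LieAdmissibleAlgebra.instLieAlgebra LieAlgebra.ofAssociativeAlgebra MulActionWithZero.toMulAction MulActionWithZero.toSMulWithZero MulDistribMulAction.toMulAction MulSemiringAction.toMulDistribMulAction MulZeroClass.toSMulWithZero SMulWithZero.toSMulZeroClass CommRing.Pic.instFreeOfSubsingleton CategoryTheory.isConnected_of_nonempty_and_subsingleton Group.instTorsor NormedAddTorsor.toAddTorsor SeminormedAddCommGroup.toNormedAddTorsor CategoryTheory.IsSifted.instIsConnected CategoryTheory.IsSifted.isSifted_of_hasBinaryCoproducts_and_nonempty --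 iprune

set_option linter.all false

section

/-!
Positivity of the recursive Euler characteristic.
-/

namespace Vale.Agent.P177

open CategoryTheory TensorProduct Function IsLocalRing RingTheory.Sequence Pointwise

universe u

section dim

variable {B : Type u} [CommRing B]

theorem le_supportDim_of_exact {X' X X'' : Type u} [AddCommGroup X'] [Module B X']
    [AddCommGroup X] [Module B X] [AddCommGroup X''] [Module B X'']
    (f : X' →ₗ[B] X) (g : X →ₗ[B] X'') (hf : Injective f) (hg : Surjective g) (h : Exact f g)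
    (n : ℕ) (hn : (n : WithBot ℕ∞) ≤ Module.supportDim B X) :
    (n : WithBot ℕ∞) ≤ Module.supportDim B X' ∨ (n : WithBot ℕ∞) ≤ Module.supportDim B X'' := by
  unfold Module.supportDim at hn ⊢
  obtain ⟨l, hl⟩ := Order.le_krullDim_iff.1 hn
  have h0 : ∀ x : PrimeSpectrum B, x ∈ Module.support B X →
      x ∈ Module.support B X' ∨ x ∈ Module.support B X'' := by
    intro x hx
    rw [Module.support_of_exact h hf hg] at hx
    exact hx
  rcases h0 _ l.head.2 with h1 | h1
  · left
    rw [Order.le_krullDim_iff]
    let L : LTSeries (Module.support B X') :=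
      { length := l.length
        toFun := fun i => ⟨(l i).1, Module.mem_support_mono
          (show (l.head).1 ≤ (l i).1 from l.head_le i) h1⟩
        step := fun i => l.step i }
    exact ⟨L, hl⟩
  · right
    rw [Order.le_krullDim_iff]
    let L : LTSeries (Module.support B X'') :=
      { length := l.length
        toFun := fun i => ⟨(l i).1, Module.mem_support_mono
          (show (l.head).1 ≤ (l i).1 from l.head_le i) h1⟩
        step := fun i => l.step i }
    exact ⟨L, hl⟩

/-- The `z`-power torsion. -/
theorem exists_torsion_pow [IsNoetherianRing B] (X : Type u) [AddCommGroup X] [Module B X]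
    [Module.Finite B X] (z : B) :
    ∃ (n : ℕ) (Γ : Submodule B X), z ^ n ∈ Module.annihilator B Γ ∧ IsSMulRegular (X ⧸ Γ) z := by
  let f : ℕ →o Submodule B X :=
    { toFun := fun n => Submodule.torsionBy B X (z ^ n)
      monotone' := by
        intro a b hab x hx
        rw [Submodule.mem_torsionBy_iff] at hx ⊢
        obtain ⟨c, rfl⟩ := Nat.exists_eq_add_of_le hab
        rw [pow_add, mul_comm, mul_smul, hx, smul_zero] }
  obtain ⟨n, hn⟩ := monotone_stabilizes_iff_noetherian.2 (inferInstance : IsNoetherian B X) f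
  refine ⟨n, f n, ?_, ?_⟩
  · rw [Module.mem_annihilator]
    rintro ⟨x, hx⟩
    apply Subtype.ext
    exact hx
  · rw [isSMulRegular_iff_right_eq_zero_of_smul]
    intro x hx
    obtain ⟨x, rfl⟩ := Submodule.mkQ_surjective _ x
    rw [← map_smul, Submodule.mkQ_apply, Submodule.Quotient.mk_eq_zero] at hx
    rw [Submodule.mkQ_apply, Submodule.Quotient.mk_eq_zero, hn (n + 1) (Nat.le_succ n)]
    have hx' : z ^ n • (z • x) = 0 := hx
    change z ^ (n + 1) • x = 0
    rw [pow_succ, mul_smul, hx']

end dim

section

variable {B : Type u} [CommRing B] [IsLocalRing B] [IsNoetherianRing B]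

theorem eul_nonneg_pos (zs : List B) (hzs : ∀ z ∈ zs, z ∈ maximalIdeal B) (X : Type u)
    [AddCommGroup X] [Module B X] [Module.Finite B X] (hX : FL zs X) :
    0 ≤ eul zs X ∧ ((zs.length : WithBot ℕ∞) ≤ Module.supportDim B X → 0 < eul zs X) := by
  induction zs generalizing X with
  | nil =>
    unfold eul
    refine ⟨Nat.cast_nonneg _, ?_⟩
    intro h
    have hnt : Nontrivial X := by
      rw [← Module.supportDim_ne_bot_iff_nontrivial B X]
      intro hb
      rw [hb] at h
      simp at h
    have h1 := hX.length_ne_top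
    have h2 : Module.length B X ≠ 0 := by
      rw [← pos_iff_ne_zero, Module.length_pos_iff]
      exact hnt
    have h3 : (Module.length B X).toNat ≠ 0 := by
      rw [ne_eq, ENat.toNat_eq_zero]
      exact fun h => h.elim h2 h1
    exact_mod_cast Nat.pos_of_ne_zero h3
  | cons z zs ih =>
    obtain ⟨n, Γ, hΓ, hreg⟩ := exists_torsion_pow X z
    have hzs' : ∀ y ∈ zs, y ∈ maximalIdeal B := fun y hy => hzs y (List.mem_cons_of_mem _ hy)
    have hex : Exact Γ.subtype Γ.mkQ := by
      intro x
      simp
    have hadd := eul_add (z :: zs) Γ.subtype Γ.mkQ (Submodule.injective_subtype _)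
      (Submodule.mkQ_surjective _) hex hX
    have hFLΓ : FL (z :: zs) Γ := hX.of_injective Γ.subtype (Submodule.injective_subtype _)
    have hFLΓ' : FL zs Γ := hFLΓ.of_pow n hΓ
    have hFLQ : FL (z :: zs) (X ⧸ Γ) := hX.of_surjective Γ.mkQ (Submodule.mkQ_surjective _)
    rw [eul_cons_eq_zero z zs Γ hFLΓ', zero_add] at hadd
    have htors : Subsingleton (Submodule.torsionBy B (X ⧸ Γ) z) := by
      refine subsingleton_of_forall_eq 0 ?_
      rintro ⟨x, hx⟩
      apply Subtype.ext
      rw [isSMulRegular_iff_right_eq_zero_of_smul] at hreg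
      exact hreg x hx
    have h2 : eul (z :: zs) (X ⧸ Γ) = eul zs (QuotSMulTop z (X ⧸ Γ)) := by
      change eul zs (QuotSMulTop z (X ⧸ Γ)) - eul zs (Submodule.torsionBy B (X ⧸ Γ) z) = _
      rw [eul_subsingleton zs (Submodule.torsionBy B (X ⧸ Γ) z), sub_zero]
    rw [hadd, h2]
    obtain ⟨i1, i2⟩ := ih hzs' (QuotSMulTop z (X ⧸ Γ)) hFLQ.quot
    refine ⟨i1, ?_⟩
    intro hd
    apply i2
    have h3 := Module.supportDim_quotSMulTop_succ_eq_supportDim hreg (hzs z List.mem_cons_self)
    rcases le_supportDim_of_exact Γ.subtype Γ.mkQ (Submodule.injective_subtype _)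
      (Submodule.mkQ_surjective _) hex _ hd with h4 | h4
    · exfalso
      have h5 := h4.trans (supportDim_le_length zs hzs' Γ hFLΓ')
      rw [List.length_cons] at h5
      have h6 : zs.length + 1 ≤ zs.length := by exact_mod_cast h5
      omega
    · rw [← h3, List.length_cons] at h4
      push_cast at h4
      generalize Module.supportDim B (QuotSMulTop z (X ⧸ Γ)) = a at h4 ⊢
      induction a using WithBot.recBotCoe with
      | bot => 
        exfalso
        simp at h4
      | coe a => 
        have h7 : ((zs.length : ℕ∞) + 1) ≤ a + 1 := by exact_mod_cast h4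
        have h8 : (zs.length : ℕ∞) ≤ a := (ENat.add_le_add_iff_right (by simp)).1 h7
        exact_mod_cast h8

end

end Vale.Agent.P177
end

section

/-!
Depth over a regular local ring in terms of Tor with the residue field.
-/

namespace Vale.Agent.P177

open CategoryTheory TensorProduct Function IsLocalRing RingTheory.Sequence Pointwise

universe u

section basic

variable {T : Type u} [CommRing T] [IsLocalRing T]

theorem smul_tor_residue (z : T) (hz : z ∈ maximalIdeal T) (j : ℕ) (X : Type u) [AddCommGroup X]
    [Module T X] (x : TorM T j X (T ⧸ maximalIdeal T)) : z • x = 0 := by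
  apply tor_smul_eq_zero_right z _ j X x
  intro m
  obtain ⟨m, rfl⟩ := Ideal.Quotient.mk_surjective m
  change Ideal.Quotient.mk _ (z * m) = 0
  rw [Ideal.Quotient.eq_zero_iff_mem]
  exact Ideal.mul_mem_right _ _ hz

/-- Nonvanishing of Tor with the residue field moves up by one after cutting. -/
theorem nontrivial_tor_residue_quot (z : T) (hz : z ∈ maximalIdeal T) (X : Type u)
    [AddCommGroup X] [Module T X] (hreg : IsSMulRegular X z) (j : ℕ)
    (h : Nontrivial (TorM T j X (T ⧸ maximalIdeal T))) :
    Nontrivial (TorM T (j + 1) (QuotSMulTop z X) (T ⧸ maximalIdeal T)) := by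
  obtain ⟨f, g, hf, hi, hs, hex⟩ := quot_ses X z hreg
  obtain ⟨δ, -, h2, -⟩ := exists_torDelta f g hi hs hex (T ⧸ maximalIdeal T)
  by_contra hn
  rw [not_nontrivial_iff_subsingleton] at hn
  apply not_subsingleton_iff_nontrivial.2 h
  refine subsingleton_of_forall_eq 0 fun x => ?_
  have h3 : torMap j f (T ⧸ maximalIdeal T) x = 0 := by
    rw [torMap_smul_id j z f hf, smul_tor_residue z hz j X x]
  obtain ⟨y, rfl⟩ := (h2 j x).1 h3
  rw [Subsingleton.elim y 0, map_zero]

theorem nontrivial_tor_residue_list (zs : List T) (hzs : ∀ z ∈ zs, z ∈ maximalIdeal T)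
    (X : Type u) [AddCommGroup X] [Module T X] (hreg : IsWeaklyRegular X zs) (j : ℕ)
    (h : Nontrivial (TorM T j X (T ⧸ maximalIdeal T))) :
    Nontrivial (TorM T (j + zs.length) (X ⧸ (Ideal.ofList zs • ⊤ : Submodule T X))
      (T ⧸ maximalIdeal T)) := by
  induction zs generalizing X j with
  | nil =>
    have e : (X ⧸ (Ideal.ofList ([] : List T) • ⊤ : Submodule T X)) ≃ₗ[T] X :=
      Submodule.quotEquivOfEqBot _ (by simp)
    exact (torCongrLeft j e _).toEquiv.nontrivial
  | cons z zs ih =>
    rw [isWeaklyRegular_cons_iff] at hreg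
    have h1 := nontrivial_tor_residue_quot z (hzs z List.mem_cons_self) X hreg.1 j h
    have h2 := ih (fun y hy => hzs y (List.mem_cons_of_mem _ hy)) (QuotSMulTop z X) hreg.2
      (j + 1) h1
    have h3 := (torCongrLeft (j + 1 + zs.length)
      (Submodule.quotOfListConsSMulTopEquivQuotSMulTopInner X z zs)
      (T ⧸ maximalIdeal T)).toEquiv.nontrivial
    have h4 : j + (z :: zs).length = j + 1 + zs.length := by
      rw [List.length_cons]; ring
    rw [h4]
    exact h3

/-- Existence of a regular element in the absence of socle elements. -/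
theorem exists_regular_of_no_socle [IsNoetherianRing T] (X : Type u) [AddCommGroup X] [Module T X]
    [Module.Finite T X] (h : ∀ x : X, (∀ a ∈ maximalIdeal T, a • x = 0) → x = 0) :
    ∃ z ∈ maximalIdeal T, IsSMulRegular X z := by
  have hfin : (associatedPrimes T X).Finite := associatedPrimes.finite T X
  by_contra hcon
  push Not at hcon
  have hsub : (maximalIdeal T : Set T) ⊆ ⋃ I ∈ associatedPrimes T X, (I : Set T) := by
    intro z hz
    rw [biUnion_associatedPrimes_eq_compl_regular]
    exact hcon z hz
  obtain ⟨P, hP, hle⟩ := (Ideal.subset_union_prime_finite hfin (f := id) ⊥ ⊥ (by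
    intro I hI _ _
    exact hI.isPrime)).1 hsub
  have hPm : P = maximalIdeal T := le_antisymm (le_maximalIdeal hP.isPrime.ne_top) hle
  obtain ⟨hPp, x, hx⟩ := isAssociatedPrime_iff.1 hP
  have hx0 : x = 0 := by
    apply h x
    intro a ha
    rw [← hPm, hx, Submodule.mem_colon_singleton] at ha
    exact ha
  apply hPp.ne_top
  rw [Ideal.eq_top_iff_one, hx, Submodule.mem_colon_singleton, hx0, smul_zero]
  exact Submodule.zero_mem _

end basic

section regular

variable {T : Type u} [CommRing T] [IsRegularLocalRing T] {t : ℕ}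

/-- The residue field has nonzero Tor with itself in degree `dim T`. -/
theorem nontrivial_tor_residue_residue (ht : ringKrullDim T = t) :
    Nontrivial (TorM T t (T ⧸ maximalIdeal T) (T ⧸ maximalIdeal T)) := by
  obtain ⟨rs, hrs, hlen⟩ := exists_list_maximalIdeal T
  have hreg := isRegular_of_ofList_eq_maximalIdeal T rs hrs hlen
  have hlen' : rs.length = t := by
    rw [ht] at hlen
    exact_mod_cast hlen
  have hmem : ∀ z ∈ rs, z ∈ maximalIdeal T := by
    intro z hz
    rw [← hrs]
    exact Ideal.subset_span hz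
  have h0 : Nontrivial (TorM T 0 T (T ⧸ maximalIdeal T)) := by
    have : Nontrivial (T ⧸ maximalIdeal T) := inferInstance
    exact (torZero T (T ⧸ maximalIdeal T) ≪≫ₗ TensorProduct.lid T _).toEquiv.nontrivial
  have h1 := nontrivial_tor_residue_list rs hmem T hreg.toIsWeaklyRegular 0 h0
  have e : (T ⧸ (Ideal.ofList rs • ⊤ : Submodule T T)) ≃ₗ[T] (T ⧸ maximalIdeal T) :=
    Submodule.quotEquivOfEq _ _ (by rw [hrs]; simp)
  rw [zero_add, hlen'] at h1
  exact (torCongrLeft t e _).symm.toEquiv.nontrivial

theorem tor_residue_of_no_socle (ht : ringKrullDim T = t) (X : Type u) [AddCommGroup X]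
    [Module T X] [Module.Finite T X] (h : ∀ x : X, (∀ a ∈ maximalIdeal T, a • x = 0) → x = 0) :
    Subsingleton (TorM T t X (T ⧸ maximalIdeal T)) := by
  obtain ⟨z, hz, hreg⟩ := exists_regular_of_no_socle X h
  obtain ⟨f, g, hf, hi, hs, hex⟩ := quot_ses X z hreg
  obtain ⟨δ, -, h2, -⟩ := exists_torDelta f g hi hs hex (T ⧸ maximalIdeal T)
  have hv := regular_tor_vanish T t ht (QuotSMulTop z X) (T ⧸ maximalIdeal T) (t + 1) le_rfl
  refine subsingleton_of_forall_eq 0 fun x => ?_
  have h3 : torMap t f (T ⧸ maximalIdeal T) x = 0 := by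
    rw [torMap_smul_id t z f hf, smul_tor_residue z hz t X x]
  obtain ⟨y, rfl⟩ := (h2 t x).1 h3
  rw [Subsingleton.elim y 0, map_zero]

theorem no_socle_of_tor_residue (ht : ringKrullDim T = t) (X : Type u) [AddCommGroup X]
    [Module T X] [Module.Finite T X] (h : Subsingleton (TorM T t X (T ⧸ maximalIdeal T)))
    (x : X) (hx : ∀ a ∈ maximalIdeal T, a • x = 0) : x = 0 := by
  by_contra hne
  let f : (T ⧸ maximalIdeal T) →ₗ[T] X :=
    (maximalIdeal T).liftQ (LinearMap.toSpanSingleton T X x) (by
      intro a ha
      rw [LinearMap.mem_ker, LinearMap.toSpanSingleton_apply]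
      exact hx a ha)
  have hf : Injective f := by
    rw [← LinearMap.ker_eq_bot, Submodule.ker_liftQ_eq_bot']
    apply le_antisymm
    · intro a ha
      rw [LinearMap.mem_ker, LinearMap.toSpanSingleton_apply]
      exact hx a ha
    · refine le_maximalIdeal ?_
      intro htop
      apply hne
      have h1 : (1 : T) ∈ LinearMap.ker (LinearMap.toSpanSingleton T X x) := by
        rw [htop]; trivial
      rw [LinearMap.mem_ker, LinearMap.toSpanSingleton_apply, one_smul] at h1
      exact h1
  have hex : Exact f (LinearMap.range f).mkQ := by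
    intro y
    simp
  obtain ⟨δ, -, h2, -⟩ := exists_torDelta f (LinearMap.range f).mkQ hf
    (Submodule.mkQ_surjective _) hex (T ⧸ maximalIdeal T)
  have hv := regular_tor_vanish T t ht (X ⧸ LinearMap.range f) (T ⧸ maximalIdeal T) (t + 1) le_rfl
  apply not_subsingleton_iff_nontrivial.2 (nontrivial_tor_residue_residue ht)
  refine subsingleton_of_forall_eq 0 fun y => ?_
  obtain ⟨w, rfl⟩ := (h2 t y).1 (Subsingleton.elim _ _)
  rw [Subsingleton.elim w 0, map_zero]

/-- Extension of a regular sequence when the depth is not exhausted. -/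
theorem exists_regular_ext (ht : ringKrullDim T = t) (X : Type u) [AddCommGroup X] [Module T X]
    [Module.Finite T X] (zs : List T) (hreg : IsWeaklyRegular X zs) (m : ℕ)
    (hpd : ∀ j, m < j → Subsingleton (TorM T j X (T ⧸ maximalIdeal T))) (hlt : m + zs.length < t) :
    ∃ z ∈ maximalIdeal T, IsWeaklyRegular X (zs ++ [z]) := by
  have h1 := tor_subsingleton_list zs X hreg (T ⧸ maximalIdeal T) (m + 1)
    (fun j hj => hpd j (by omega)) t (by omega)
  obtain ⟨z, hz, hzr⟩ := exists_regular_of_no_socle
    (X ⧸ (Ideal.ofList zs • ⊤ : Submodule T X)) (fun x hx => no_socle_of_tor_residue ht _ h1 x hx)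
  refine ⟨z, hz, ?_⟩
  rw [isWeaklyRegular_append_iff]
  refine ⟨hreg, ?_⟩
  rw [isWeaklyRegular_singleton_iff]
  exact hzr

theorem exists_regular_ext_list (ht : ringKrullDim T = t) (X : Type u) [AddCommGroup X]
    [Module T X]
    [Module.Finite T X] (zs : List T) (hreg : IsWeaklyRegular X zs) (m : ℕ)
    (hpd : ∀ j, m < j → Subsingleton (TorM T j X (T ⧸ maximalIdeal T))) (r : ℕ)
    (hlt : m + zs.length + r ≤ t) :
    ∃ ws : List T, ws.length = r ∧ (∀ z ∈ ws, z ∈ maximalIdeal T) ∧
      IsWeaklyRegular X (zs ++ ws) := by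
  induction r with
  | zero => exact ⟨[], rfl, by simp, by simpa using hreg⟩
  | succ r ih =>
    obtain ⟨ws, hws, hmem, hr⟩ := ih (by omega)
    obtain ⟨z, hz, hzr⟩ := exists_regular_ext ht X (zs ++ ws) hr m hpd (by
      rw [List.length_append, hws]; omega)
    refine ⟨ws ++ [z], by simp [hws], ?_, ?_⟩
    · intro y hy
      rw [List.mem_append, List.mem_singleton] at hy
      rcases hy with hy | rfl
      · exact hmem y hy
      · exact hz
    · rw [← List.append_assoc]
      exact hzr

theorem tor_symm_subsingleton {R : Type u} [CommRing R] (n : ℕ) (M N : Type u) [AddCommGroup M]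
    [Module R M] [AddCommGroup N] [Module R N] (h : Subsingleton (TorM R n M N)) :
    Subsingleton (TorM R n N M) := by
  obtain ⟨e⟩ := tor_symm (R := R) n M N
  exact e.symm.toEquiv.subsingleton

/-- Projective dimension is detected by the residue field. -/
theorem tor_subsingleton_of_residue {T : Type u} [CommRing T] [IsLocalRing T]
    [IsNoetherianRing T] (X : Type u) [AddCommGroup X]
    [Module T X] [Module.Finite T X] (m : ℕ)
    (hpd : ∀ j, m ≤ j → Subsingleton (TorM T j X (T ⧸ maximalIdeal T)))
    (Y : Type u) [AddCommGroup Y] [Module T Y] [Module.Finite T Y] :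
    ∀ j, m ≤ j → Subsingleton (TorM T j X Y) := by
  intro j hj
  have h1 := local_crit (S := T) (B := T) m X (by
    intro j hj
    have h2 := tor_symm_subsingleton j _ _ (hpd j hj)
    exact (torCongrLeft j (TensorProduct.lid T _) X).toEquiv.subsingleton) Y j hj
  have h3 : Subsingleton (TorM T j Y X) :=
    (torCongrLeft j (TensorProduct.lid T Y) X).symm.toEquiv.subsingleton
  exact tor_symm_subsingleton j _ _ h3

theorem subsingleton_of_injective_smul {T : Type u} [CommRing T] [IsLocalRing T]
    [IsNoetherianRing T] (H : Type u) [AddCommGroup H] [Module T H] [Module.Finite T H]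
    (hH : FL ([] : List T) H) (z : T) (hz : z ∈ maximalIdeal T)
    (hinj : ∀ x : H, z • x = 0 → x = 0) : Subsingleton H := by
  unfold FL at hH
  rw [Ideal.ofList_nil, sup_bot_eq] at hH
  obtain ⟨n, hn⟩ := hH hz
  have h1 : ∀ (n : ℕ) (x : H), z ^ n • x = 0 → x = 0 := by
    intro n
    induction n with
    | zero => intro x hx; simpa using hx
    | succ n ih =>
      intro x hx
      rw [pow_succ', mul_smul] at hx
      exact ih x (hinj _ hx)
  exact subsingleton_of_forall_eq 0 fun x => h1 n x (Module.mem_annihilator.1 hn x)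

theorem FL2.mono {T : Type u} [CommRing T] [IsLocalRing T] {zs : List T} {X Y X' Y' : Type u}
    [AddCommGroup X] [Module T X] [AddCommGroup Y] [Module T Y] [AddCommGroup X'] [Module T X']
    [AddCommGroup Y'] [Module T Y'] (h : FL2 zs X Y)
    (hX : Module.annihilator T X ≤ Module.annihilator T X')
    (hY : Module.annihilator T Y ≤ Module.annihilator T Y') : FL2 zs X' Y' :=
  h.trans (Ideal.radical_mono (sup_le_sup_right (sup_le_sup hX hY) _))

theorem FL2.symm {T : Type u} [CommRing T] [IsLocalRing T] {zs : List T} {X Y : Type u}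
    [AddCommGroup X] [Module T X] [AddCommGroup Y] [Module T Y] (h : FL2 zs X Y) :
    FL2 zs Y X := by
  unfold FL2 at h ⊢
  rwa [sup_comm (Module.annihilator T Y)]

/-- Descent of vanishing along a regular sequence. -/
theorem tor_subsingleton_descent {T : Type u} [CommRing T] [IsLocalRing T]
    [IsNoetherianRing T] (zs : List T) (hzs : ∀ z ∈ zs, z ∈ maximalIdeal T) (X : Type u)
    [AddCommGroup X] [Module T X] [Module.Finite T X] (hreg : IsWeaklyRegular X zs)
    (Y : Type u) [AddCommGroup Y] [Module T Y] [Module.Finite T Y] (hFL : FL2 ([] : List T) X Y)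
    (m : ℕ) (h : ∀ j, m + zs.length ≤ j →
      Subsingleton (TorM T j (X ⧸ (Ideal.ofList zs • ⊤ : Submodule T X)) Y)) :
    ∀ j, m ≤ j → Subsingleton (TorM T j X Y) := by
  induction zs generalizing X m with
  | nil =>
    intro j hj
    have := h j (by simpa using hj)
    have e : (X ⧸ (Ideal.ofList ([] : List T) • ⊤ : Submodule T X)) ≃ₗ[T] X :=
      Submodule.quotEquivOfEqBot _ (by simp)
    exact (torCongrLeft j e _).symm.toEquiv.subsingleton
  | cons z zs ih =>
    rw [isWeaklyRegular_cons_iff] at hreg
    have hFLq : FL2 ([] : List T) (QuotSMulTop z X) Y := hFL.mono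
      (LinearMap.annihilator_le_of_surjective _ (Submodule.mkQ_surjective _)) le_rfl
    have h1 := ih (fun y hy => hzs y (List.mem_cons_of_mem _ hy)) (QuotSMulTop z X) hreg.2 hFLq
      (m + 1) (by
        intro j hj
        have := h j (by rw [List.length_cons]; omega)
        exact (torCongrLeft j
          (Submodule.quotOfListConsSMulTopEquivQuotSMulTopInner X z zs) Y).symm.toEquiv.subsingleton)
    intro j hj
    obtain ⟨f, g, hf, hi, hs, hex⟩ := quot_ses X z hreg.1
    obtain ⟨δ, -, h2, -⟩ := exists_torDelta f g hi hs hex Y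
    have := tor_finite (R := T) j X Y
    apply subsingleton_of_injective_smul _ (hFL.tor j) z (hzs z List.mem_cons_self)
    intro x hx
    have h3 : torMap j f Y x = 0 := by
      rw [torMap_smul_id j z f hf, hx]
    obtain ⟨y, rfl⟩ := (h2 j x).1 h3
    have := h1 (j + 1) (by omega)
    rw [Subsingleton.elim y 0, map_zero]

/-- **Depth lemma.** If `zs` is regular on `X`, `ws` is regular on `Y` and `X ⊗ Y` has finite
length, then `Tor_j(X,Y) = 0` for `j > dim T - |zs| - |ws|`. -/
theorem tor_subsingleton_of_depth (ht : ringKrullDim T = t) (X Y : Type u) [AddCommGroup X]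
    [Module T X] [Module.Finite T X] [AddCommGroup Y] [Module T Y] [Module.Finite T Y]
    (hFL : FL2 ([] : List T) X Y)
    (zs ws : List T) (hzs : ∀ z ∈ zs, z ∈ maximalIdeal T) (hws : ∀ z ∈ ws, z ∈ maximalIdeal T)
    (hX : IsWeaklyRegular X zs) (hY : IsWeaklyRegular Y ws) (j : ℕ)
    (hj : t < j + zs.length + ws.length) : Subsingleton (TorM T j X Y) := by
  have hFLq : FL2 ([] : List T) (X ⧸ (Ideal.ofList zs • ⊤ : Submodule T X)) Y := hFL.mono
      (LinearMap.annihilator_le_of_surjective _ (Submodule.mkQ_surjective _)) le_rfl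
  refine tor_subsingleton_descent zs hzs X hX Y hFL j ?_ j le_rfl
  intro i hi
  apply tor_symm_subsingleton
  refine tor_subsingleton_descent ws hws Y hY _ hFLq.symm i ?_ i le_rfl
  intro l hl
  exact regular_tor_vanish T t ht _ _ l (by omega)

end regular

end Vale.Agent.P177
end

section

/-!
Dimension theory of regular local rings: heights and dimensions of quotients, complete
intersections inside a prime.
-/

namespace Vale.Agent.P177

open CategoryTheory TensorProduct Function IsLocalRing RingTheory.Sequence Pointwise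

universe u

theorem succ_le_of_lt_withBot {n : ℕ} {x : WithBot ℕ∞} (h : (n : WithBot ℕ∞) < x) :
    ((n + 1 : ℕ) : WithBot ℕ∞) ≤ x := by
  induction x using WithBot.recBotCoe with
  | bot => exact absurd h (by simp)
  | coe x =>
    have h1 : (n : ℕ∞) < x := by exact_mod_cast h
    have h2 : ((n + 1 : ℕ) : ℕ∞) ≤ x := by
      rw [Nat.cast_add, Nat.cast_one]
      exact Order.add_one_le_of_lt h1
    exact_mod_cast h2

section chains

variable {T : Type u} [CommRing T]

theorem support_quotient_prime (P : Ideal T) (Q : PrimeSpectrum T) :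
    Q ∈ Module.support T (T ⧸ P) ↔ P ≤ Q.asIdeal := by
  rw [Module.support_eq_zeroLocus, Ideal.annihilator_quotient]
  rfl

theorem supportDim_quotient_mono {P Q : Ideal T} (h : P ≤ Q) :
    Module.supportDim T (T ⧸ Q) ≤ Module.supportDim T (T ⧸ P) :=
  Module.supportDim_le_of_surjective (Submodule.factor h) (Submodule.factor_surjective h)

theorem supportDim_quotient_strict {P Q : Ideal T} [P.IsPrime] (h : P < Q) (n : ℕ)
    (hn : (n : WithBot ℕ∞) ≤ Module.supportDim T (T ⧸ Q)) :
    ((n + 1 : ℕ) : WithBot ℕ∞) ≤ Module.supportDim T (T ⧸ P) := by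
  unfold Module.supportDim at hn ⊢
  obtain ⟨l, hl⟩ := Order.le_krullDim_iff.1 hn
  rw [Order.le_krullDim_iff]
  have h1 : ∀ i, P < (l i).1.asIdeal := fun i =>
    h.trans_le ((support_quotient_prime Q _).1 (l i).2)
  let l' : LTSeries (Module.support T (T ⧸ P)) :=
    { length := l.length
      toFun := fun i => ⟨(l i).1, (support_quotient_prime P _).2 (h1 i).le⟩
      step := fun i => l.step i }
  exact ⟨l'.cons ⟨⟨P, inferInstance⟩, (support_quotient_prime P _).2 le_rfl⟩ (h1 0),
    (RelSeries.cons_length _ _ _).trans (congrArg (· + 1) hl)⟩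

theorem height_add_le {P : Ideal T} [hP : P.IsPrime] (h n : ℕ) (hh : (h : ℕ∞) ≤ P.height)
    (hn : (n : WithBot ℕ∞) ≤ Module.supportDim T (T ⧸ P)) :
    ((h + n : ℕ) : WithBot ℕ∞) ≤ ringKrullDim T := by
  unfold Module.supportDim at hn
  obtain ⟨l, hl⟩ := Order.le_krullDim_iff.1 hn
  have hh' : (h : ℕ∞) ≤ Order.height (⟨P, hP⟩ : PrimeSpectrum T) := by
    rw [← PrimeSpectrum.height_eq_orderHeight]
    exact hh
  obtain ⟨p, hp1, hp2⟩ := Order.exists_series_of_le_height _ hh'
  let l' : LTSeries (PrimeSpectrum T) := l.map (fun x => x.1) (fun _ _ h => h)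
  have hl' : l'.length = n := hl
  have hhead : (⟨P, hP⟩ : PrimeSpectrum T) ≤ l'.head := by
    change P ≤ (l 0).1.asIdeal
    exact (support_quotient_prime P _).1 (l 0).2
  unfold ringKrullDim
  rw [Order.le_krullDim_iff]
  rcases hhead.eq_or_lt with heq | hlt
  · refine ⟨p.smash l' (hp1.trans heq), ?_⟩
    change p.length + l'.length = h + n
    rw [hp2, hl']
  · let l'' : LTSeries (PrimeSpectrum T) := p.append l' (by rw [hp1]; exact hlt)
    refine ⟨l''.take ⟨h + n, ?_⟩, ?_⟩
    · change h + n < p.length + l'.length + 1 + 1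
      omega
    · rfl

end chains

section ass

variable {T : Type u} [CommRing T] [IsLocalRing T] [IsNoetherianRing T]

/-- The dimension of `T/P` for an associated prime `P` is at least the length of a regular
sequence. -/
theorem length_le_supportDim_of_isAssociatedPrime (zs : List T)
    (hzs : ∀ z ∈ zs, z ∈ maximalIdeal T) (X : Type u)
    [AddCommGroup X] [Module T X] [Module.Finite T X] (hreg : IsWeaklyRegular X zs) (P : Ideal T)
    (hP : IsAssociatedPrime P X) :
    (zs.length : WithBot ℕ∞) ≤ Module.supportDim T (T ⧸ P) := by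
  induction zs generalizing X P with
  | nil =>
    have hPp := hP.isPrime
    have hnt : Nontrivial (T ⧸ P) := Ideal.Quotient.nontrivial_iff.2 hPp.ne_top
    rw [List.length_nil, Nat.cast_zero]
    unfold Module.supportDim
    have := (Module.nonempty_support_of_nontrivial (R := T) (M := T ⧸ P)).to_subtype
    exact Order.krullDim_nonneg
  | cons z zs ih =>
    rw [isWeaklyRegular_cons_iff] at hreg
    have hPp := hP.isPrime
    obtain ⟨-, x, hx⟩ := isAssociatedPrime_iff.1 hP
    have hx0 : x ≠ 0 := by
      rintro rfl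
      apply hPp.ne_top
      rw [Ideal.eq_top_iff_one, hx, Submodule.mem_colon_singleton, smul_zero]
      exact Submodule.zero_mem _
    have hzP : z ∉ P := by
      intro hz
      rw [hx, Submodule.mem_colon_singleton] at hz
      exact hx0 ((isSMulRegular_iff_right_eq_zero_of_smul.1 hreg.1) x hz)
    -- the submodule killed by `P`
    let N : Submodule T X := Submodule.torsionBySet T X P
    have hxN : x ∈ N := by
      rw [Submodule.mem_torsionBySet_iff]
      rintro ⟨a, ha⟩
      have ha' : a ∈ P := ha
      rw [hx, Submodule.mem_colon_singleton] at ha'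
      exact ha'
    have hNnt : Nontrivial N := ⟨⟨⟨x, hxN⟩, 0, fun h => hx0 (congrArg Subtype.val h)⟩⟩
    have hzN : Nontrivial (QuotSMulTop z N) := by
      rw [← not_subsingleton_iff_nontrivial]
      intro hs
      apply not_subsingleton_iff_nontrivial.2 hNnt
      apply subsingleton_of_smul_surjective N z (hzs z List.mem_cons_self)
      intro y
      have h1 : (Submodule.mkQ (z • (⊤ : Submodule T N))) y = 0 := Subsingleton.elim _ _
      rw [Submodule.mkQ_apply, Submodule.Quotient.mk_eq_zero,
        Submodule.mem_smul_pointwise_iff_exists] at h1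
      obtain ⟨y', -, hy'⟩ := h1
      exact ⟨y', hy'.symm⟩
    obtain ⟨P', hP'⟩ := associatedPrimes.nonempty T (QuotSMulTop z N)
    have hinj : Injective (QuotSMulTop.map z N.subtype) := by
      rw [injective_iff_map_eq_zero]
      intro y hy
      obtain ⟨y, rfl⟩ := Submodule.mkQ_surjective _ y
      have h1 : (Submodule.mkQ (z • (⊤ : Submodule T X))) (y : X) = 0 := hy
      rw [Submodule.mkQ_apply, Submodule.Quotient.mk_eq_zero,
        Submodule.mem_smul_pointwise_iff_exists] at h1
      obtain ⟨w, -, hw⟩ := h1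
      have hwN : w ∈ N := by
        rw [Submodule.mem_torsionBySet_iff]
        rintro ⟨a, ha⟩
        change a • w = 0
        apply isSMulRegular_iff_right_eq_zero_of_smul.1 hreg.1
        rw [smul_comm, hw]
        exact (Submodule.mem_torsionBySet_iff _ _).1 y.2 ⟨a, ha⟩
      rw [Submodule.mkQ_apply, Submodule.Quotient.mk_eq_zero,
        Submodule.mem_smul_pointwise_iff_exists]
      exact ⟨⟨w, hwN⟩, trivial, Subtype.ext hw⟩
    have hP'X : IsAssociatedPrime P' (QuotSMulTop z X) := hP'.map_of_injective _ hinj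
    have h2 := ih (fun y hy => hzs y (List.mem_cons_of_mem _ hy)) (QuotSMulTop z X) hreg.2 P' hP'X
    have hann : Module.annihilator T (QuotSMulTop z N) ≤ P' := by
      rw [← Submodule.annihilator_top]
      exact hP'.annihilator_le
    have hle : P ≤ P' := by
      refine le_trans ?_ hann
      intro a ha
      rw [Module.mem_annihilator]
      intro y
      obtain ⟨y, rfl⟩ := Submodule.mkQ_surjective _ y
      rw [← map_smul]
      have h3 : a • y = 0 :=
        Subtype.ext ((Submodule.mem_torsionBySet_iff _ _).1 y.2 ⟨a, ha⟩)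
      rw [h3, map_zero]
    have hzP' : z ∈ P' := hann (QuotSMulTop.mem_annihilator N z)
    have hlt : P < P' := lt_of_le_of_ne hle (fun h => hzP (h ▸ hzP'))
    rw [List.length_cons]
    exact supportDim_quotient_strict hlt _ h2

end ass

section regular

variable {T : Type u} [CommRing T] [IsRegularLocalRing T] {t : ℕ}

theorem tor_self_residue_subsingleton (T : Type u) [CommRing T] [IsLocalRing T] :
    ∀ j, 0 < j → Subsingleton (TorM T j T (T ⧸ maximalIdeal T)) := by
  intro j hj
  obtain ⟨j, rfl⟩ : ∃ k, j = k + 1 := ⟨j - 1, by omega⟩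
  exact tor_subsingleton_of_flat j

/-- Length of a weakly regular sequence in a prime is at most the height. -/
theorem length_le_height {R : Type u} [CommRing R] [IsNoetherianRing R] (P : Ideal R) [P.IsPrime]
    (zs : List R) (hzs : ∀ z ∈ zs, z ∈ P) (hreg : IsWeaklyRegular R zs) :
    (zs.length : ℕ∞) ≤ P.height := by
  have h1 := hreg.isRegular_of_isLocalization_of_mem (Localization.AtPrime P) P hzs
  have h2 := ringKrullDim_add_length_eq_ringKrullDim_of_isRegular _ h1
  rw [IsLocalization.AtPrime.ringKrullDim_eq_height P (Localization.AtPrime P),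
    List.length_map] at h2
  have h3 : 0 ≤ ringKrullDim (Localization.AtPrime P ⧸
      Ideal.ofList (zs.map (algebraMap R (Localization.AtPrime P)))) := by
    have : Nontrivial (Localization.AtPrime P ⧸
      Ideal.ofList (zs.map (algebraMap R (Localization.AtPrime P)))) := by
      rw [Ideal.Quotient.nontrivial_iff]
      intro htop
      apply h1.top_ne_smul
      rw [htop]
      simp
    exact ringKrullDim_nonneg_of_nontrivial
  have h4 : ((zs.length : ℕ∞) : WithBot ℕ∞) ≤ (P.height : WithBot ℕ∞) := by
    rw [← h2]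
    calc ((zs.length : ℕ∞) : WithBot ℕ∞) = 0 + ((zs.length : ℕ∞) : WithBot ℕ∞) := (zero_add _).symm
      _ ≤ _ := by gcongr; rfl
  exact_mod_cast h4

theorem exists_maximal_regular (ht : ringKrullDim T = t) (P : Ideal T) [P.IsPrime] :
    ∃ zs : List T, (∀ z ∈ zs, z ∈ P) ∧ IsWeaklyRegular T zs ∧
      ∀ z ∈ P, ¬ IsSMulRegular (T ⧸ (Ideal.ofList zs • ⊤ : Submodule T T)) z := by
  by_contra hcon
  push Not at hcon
  have h1 : ∀ n : ℕ, ∃ zs : List T, zs.length = n ∧ (∀ z ∈ zs, z ∈ P) ∧ IsWeaklyRegular T zs := by
    intro n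
    induction n with
    | zero => exact ⟨[], rfl, by simp, IsWeaklyRegular.nil _ _⟩
    | succ n ih =>
      obtain ⟨zs, hlen, hmem, hreg⟩ := ih
      obtain ⟨z, hz, hzr⟩ := hcon zs hmem hreg
      refine ⟨zs ++ [z], by simp [hlen], ?_, ?_⟩
      · intro y hy
        rw [List.mem_append, List.mem_singleton] at hy
        rcases hy with hy | rfl
        · exact hmem y hy
        · exact hz
      · rw [isWeaklyRegular_append_iff]
        exact ⟨hreg, (isWeaklyRegular_singleton_iff _ _).2 hzr⟩
  obtain ⟨zs, hlen, hmem, hreg⟩ := h1 (t + 1)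
  have h2 := length_le_height P zs hmem hreg
  have h3 : (P.height : WithBot ℕ∞) ≤ t := ht ▸ Ideal.height_le_ringKrullDim_of_isPrime
  rw [hlen] at h2
  have h4 : ((t + 1 : ℕ) : WithBot ℕ∞) ≤ t := le_trans (by exact_mod_cast h2) h3
  have h5 : t + 1 ≤ t := by exact_mod_cast h4
  omega

/-- The height and coheight of a prime of a regular local ring add up to the dimension, and the
prime is associated to a complete intersection of the same height. -/
theorem exists_ci (ht : ringKrullDim T = t) (P : Ideal T) [hP : P.IsPrime] :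
    ∃ zs : List T, (∀ z ∈ zs, z ∈ P) ∧ IsWeaklyRegular T zs ∧ zs.length ≤ t ∧
      P.height = zs.length ∧ Module.supportDim T (T ⧸ P) = ((t - zs.length : ℕ) : WithBot ℕ∞) ∧
      IsAssociatedPrime P (T ⧸ (Ideal.ofList zs • ⊤ : Submodule T T)) := by
  obtain ⟨zs, hmem, hreg, hmax⟩ := exists_maximal_regular ht P
  have hfin := associatedPrimes.finite T (T ⧸ (Ideal.ofList zs • ⊤ : Submodule T T))
  have hsub : (P : Set T) ⊆ ⋃ I ∈ associatedPrimes T
      (T ⧸ (Ideal.ofList zs • ⊤ : Submodule T T)), (I : Set T) := by
    intro z hz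
    rw [biUnion_associatedPrimes_eq_compl_regular]
    exact hmax z hz
  obtain ⟨P', hP', hle⟩ := (Ideal.subset_union_prime_finite hfin (f := id) ⊥ ⊥ (by
    intro I hI _ _
    exact hI.isPrime)).1 hsub
  change P ≤ P' at hle
  have hP'p := hP'.isPrime
  have hlen := length_le_height P zs hmem hreg
  have hPt : (P.height : WithBot ℕ∞) ≤ t := ht ▸ Ideal.height_le_ringKrullDim_of_isPrime
  have hlt : zs.length ≤ t := by
    have h4 : ((zs.length : ℕ) : WithBot ℕ∞) ≤ t := le_trans (by exact_mod_cast hlen) hPt
    exact_mod_cast h4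
  obtain ⟨ws, hws, hwm, hwr⟩ := exists_regular_ext_list ht T zs hreg 0
    (tor_self_residue_subsingleton T) (t - zs.length) (by omega)
  have hwr' := ((isWeaklyRegular_append_iff _ _ _).1 hwr).2
  have h5 := length_le_supportDim_of_isAssociatedPrime ws hwm _ hwr' P' hP'
  rw [hws] at h5
  have h6 := h5.trans (supportDim_quotient_mono hle)
  -- upper bound for the height
  have hup : P.height ≤ zs.length := by
    by_contra hlt'
    rw [not_le] at hlt'
    have h7 : ((zs.length + 1 : ℕ) : ℕ∞) ≤ P.height := by
      rw [Nat.cast_add, Nat.cast_one]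
      exact Order.add_one_le_of_lt hlt'
    have h8 := height_add_le _ _ h7 h6
    rw [ht] at h8
    have h9 : zs.length + 1 + (t - zs.length) ≤ t := by exact_mod_cast h8
    omega
  have hheight : P.height = zs.length := le_antisymm hup hlen
  have hupd : ∀ n : ℕ, (n : WithBot ℕ∞) ≤ Module.supportDim T (T ⧸ P) → n ≤ t - zs.length := by
    intro n hn
    have h8 := height_add_le _ _ hlen hn
    rw [ht] at h8
    have h9 : zs.length + n ≤ t := by exact_mod_cast h8
    omega
  have hdim : Module.supportDim T (T ⧸ P) = ((t - zs.length : ℕ) : WithBot ℕ∞) := by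
    apply le_antisymm _ h6
    by_contra hlt'
    rw [not_le] at hlt'
    have h7 : ((t - zs.length + 1 : ℕ) : WithBot ℕ∞) ≤ Module.supportDim T (T ⧸ P) :=
      succ_le_of_lt_withBot hlt'
    have := hupd _ h7
    omega
  refine ⟨zs, hmem, hreg, hlt, hheight, hdim, ?_⟩
  rcases hle.eq_or_lt with heq | hlt'
  · rw [heq]; exact hP'
  · exfalso
    have := hupd _ (supportDim_quotient_strict hlt' _ h5)
    omega

end regular

end Vale.Agent.P177
end

section

/-!
Additivity and symmetry of the Euler characteristic of Tor.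
-/

namespace Vale.Agent.P177

open CategoryTheory TensorProduct Function IsLocalRing RingTheory.Sequence Pointwise

universe u

variable {T : Type u} [CommRing T]

theorem eulerTor_congr {X X' Y Y' : Type u} [AddCommGroup X] [Module T X] [AddCommGroup X']
    [Module T X'] [AddCommGroup Y] [Module T Y] [AddCommGroup Y'] [Module T Y']
    (e : X ≃ₗ[T] X') (e' : Y ≃ₗ[T] Y') (n : ℕ) : eulerTor T n X Y = eulerTor T n X' Y' := by
  unfold eulerTor
  refine Finset.sum_congr rfl fun j _ => ?_
  rw [(torCongrLeft j e Y).length_eq, (torCongrRight j X' e').length_eq]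

theorem eulerTor_symm (X Y : Type u) [AddCommGroup X] [Module T X] [AddCommGroup Y] [Module T Y]
    (n : ℕ) : eulerTor T n X Y = eulerTor T n Y X := by
  unfold eulerTor
  refine Finset.sum_congr rfl fun j _ => ?_
  obtain ⟨e⟩ := tor_symm (R := T) j X Y
  rw [e.length_eq]

theorem eulerTor_of_vanish (X Y : Type u) [AddCommGroup X] [Module T X] [AddCommGroup Y]
    [Module T Y] (m n : ℕ) (hmn : m ≤ n) (h : ∀ j, m ≤ j → Subsingleton (TorM T j X Y)) :
    eulerTor T n X Y = eulerTor T m X Y := by
  induction n, hmn using Nat.le_induction with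
  | base => rfl
  | succ n hmn ih =>
    rw [← ih]
    unfold eulerTor
    rw [Finset.sum_range_succ]
    have := h n hmn
    rw [Module.length_eq_zero]
    simp

theorem numeric_add {a b c d f g : ℕ → ℤ} (h1 : ∀ n, a n = d n + f n) (h2 : ∀ n, b n = f n + g n)
    (h30 : c 0 = g 0) (h3 : ∀ n, c (n + 1) = g (n + 1) + d n) (n : ℕ) :
    ∑ j ∈ Finset.range (n + 1), (-1 : ℤ) ^ j * a j + ∑ j ∈ Finset.range (n + 1), (-1 : ℤ) ^ j * c j
      = ∑ j ∈ Finset.range (n + 1), (-1 : ℤ) ^ j * b j + (-1) ^ n * d n := by
  induction n with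
  | zero =>
    simp only [zero_add, Finset.sum_range_one, pow_zero, one_mul]
    rw [h1, h2, h30]; ring
  | succ n ih =>
    rw [Finset.sum_range_succ, Finset.sum_range_succ _ (n + 1), Finset.sum_range_succ _ (n + 1)]
    have e1 := h1 (n + 1)
    have e2 := h2 (n + 1)
    have e3 := h3 n
    rw [e1, e2, e3]
    linear_combination ih

theorem toNat_length_ker_add_range {X Y : Type u} [AddCommGroup X] [Module T X] [AddCommGroup Y]
    [Module T Y] (φ : X →ₗ[T] Y) (h : Module.length T X ≠ ⊤) :
    ((Module.length T X).toNat : ℤ) = ((Module.length T (LinearMap.ker φ)).toNat : ℤ) +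
      ((Module.length T (LinearMap.range φ)).toNat : ℤ) := by
  have h1 := length_ker_add_range φ
  have h2 : Module.length T (LinearMap.ker φ) ≠ ⊤ := fun h' => h (by rw [h1, h', top_add])
  have h3 : Module.length T (LinearMap.range φ) ≠ ⊤ := fun h' => h (by rw [h1, h', add_top])
  rw [h1, ENat.toNat_add h2 h3]
  push_cast
  rfl

/-- Additivity of the Euler characteristic in the first variable. -/
theorem eulerTor_add {X' X X'' : Type u} [AddCommGroup X'] [Module T X'] [AddCommGroup X]
    [Module T X] [AddCommGroup X''] [Module T X''] (f : X' →ₗ[T] X) (g : X →ₗ[T] X'')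
    (hf : Injective f) (hg : Surjective g) (h : Exact f g) (Y : Type u) [AddCommGroup Y]
    [Module T Y] (n : ℕ) (h1 : ∀ j, Module.length T (TorM T j X' Y) ≠ ⊤)
    (h2 : ∀ j, Module.length T (TorM T j X Y) ≠ ⊤)
    (h3 : ∀ j, Module.length T (TorM T j X'' Y) ≠ ⊤)
    (hv : Subsingleton (TorM T (n + 1) X'' Y)) :
    eulerTor T (n + 1) X Y = eulerTor T (n + 1) X' Y + eulerTor T (n + 1) X'' Y := by
  obtain ⟨δ, e1, e2, e3⟩ := exists_torDelta f g hf hg h Y
  have hnum := numeric_add (n := n)
    (a := fun j => ((Module.length T (TorM T j X' Y)).toNat : ℤ))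
    (b := fun j => ((Module.length T (TorM T j X Y)).toNat : ℤ))
    (c := fun j => ((Module.length T (TorM T j X'' Y)).toNat : ℤ))
    (d := fun j => ((Module.length T (LinearMap.range (δ j))).toNat : ℤ))
    (f := fun j => ((Module.length T (LinearMap.range (torMap j f Y))).toNat : ℤ))
    (g := fun j => ((Module.length T (LinearMap.range (torMap j g Y))).toNat : ℤ))
    (by
      intro j
      rw [toNat_length_ker_add_range (torMap j f Y) (h1 j), LinearMap.exact_iff.1 (e2 j)])
    (by
      intro j
      rw [toNat_length_ker_add_range (torMap j g Y) (h2 j), LinearMap.exact_iff.1 (e3 j)])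
    (by
      have : LinearMap.range (torMap 0 g Y) = ⊤ :=
        LinearMap.range_eq_top.2 (torMap_zero_surjective g hg Y)
      change ((Module.length T (TorM T 0 X'' Y)).toNat : ℤ) =
        ((Module.length T (LinearMap.range (torMap 0 g Y))).toNat : ℤ)
      rw [this, Module.length_top])
    (by
      intro j
      rw [toNat_length_ker_add_range (δ j) (h3 (j + 1)), LinearMap.exact_iff.1 (e1 j)])
  have hd : Module.length T (LinearMap.range (δ n)) = 0 := by
    rw [Module.length_eq_zero_iff]
    exact (LinearMap.surjective_rangeRestrict (δ n)).subsingleton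
  simp only [hd, ENat.toNat_zero, Nat.cast_zero, mul_zero, add_zero] at hnum
  exact hnum.symm

end Vale.Agent.P177
end

section

/-!
Statement of the local positivity theorem for a pair of flat local maps of regular local rings.
-/

namespace Vale.Agent.P177

open TensorProduct IsLocalRing

universe u

/-- Finiteness condition for a pair of modules over two rings with maps to `T`. -/
def FP (R₁ R₂ T : Type u) [CommRing R₁] [CommRing R₂] [CommRing T] [IsLocalRing T]
    [Algebra R₁ T] [Algebra R₂ T]
    (E G : Type u) [AddCommGroup E] [Module R₁ E] [AddCommGroup G] [Module R₂ G] : Prop :=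
  maximalIdeal T ≤ ((Module.annihilator R₁ E).map (algebraMap R₁ T) ⊔
    (Module.annihilator R₂ G).map (algebraMap R₂ T)).radical

/-- The local positivity statement, for all triples `R₁ → T ← R₂` with
`dim R₁ + dim R₂ - dim T ≤ a`. -/
def LocPos (a : ℕ) : Prop :=
  ∀ (R₁ R₂ T : Type u) [CommRing R₁] [CommRing R₂] [CommRing T]
    [IsRegularLocalRing R₁] [IsRegularLocalRing R₂] [IsRegularLocalRing T]
    [Algebra R₁ T] [Algebra R₂ T] [Module.Flat R₁ T] [Module.Flat R₂ T]
    [IsLocalHom (algebraMap R₁ T)] [IsLocalHom (algebraMap R₂ T)]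
    (r₁ r₂ t b : ℕ), ringKrullDim R₁ = r₁ → ringKrullDim R₂ = r₂ → ringKrullDim T = t →
    r₁ + r₂ = t + b → b ≤ a →
    ∀ (E G : Type u) [AddCommGroup E] [Module R₁ E] [Module.Finite R₁ E]
    [AddCommGroup G] [Module R₂ G] [Module.Finite R₂ G],
    FP R₁ R₂ T E G →
    (∀ e g : ℕ, (e : WithBot ℕ∞) ≤ Module.supportDim R₁ E →
      (g : WithBot ℕ∞) ≤ Module.supportDim R₂ G → e + g ≤ b) ∧
    0 ≤ eulerTor T (t + 1) (T ⊗[R₁] E) (T ⊗[R₂] G) ∧
    (∀ e g : ℕ, (e : WithBot ℕ∞) ≤ Module.supportDim R₁ E →
      (g : WithBot ℕ∞) ≤ Module.supportDim R₂ G → b ≤ e + g →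
      0 < eulerTor T (t + 1) (T ⊗[R₁] E) (T ⊗[R₂] G))

end Vale.Agent.P177
end

section

/-!
One sided lemmas for a flat local map of regular local rings.
-/

namespace Vale.Agent.P177

open CategoryTheory TensorProduct Function IsLocalRing RingTheory.Sequence Pointwise

universe u

section eulzero

variable {B : Type u} [CommRing B] [IsLocalRing B] [IsNoetherianRing B]

theorem eul_eq_zero_of_dim (zs : List B) (hzs : ∀ z ∈ zs, z ∈ maximalIdeal B) (X : Type u)
    [AddCommGroup X] [Module B X] [Module.Finite B X] (hX : FL zs X)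
    (hd : ¬ ((zs.length : WithBot ℕ∞) ≤ Module.supportDim B X)) : eul zs X = 0 := by
  induction zs generalizing X with
  | nil =>
    unfold eul
    have hs : Subsingleton X := by
      by_contra hns
      rw [not_subsingleton_iff_nontrivial] at hns
      apply hd
      rw [List.length_nil, Nat.cast_zero]
      unfold Module.supportDim
      have := (Module.nonempty_support_of_nontrivial (R := B) (M := X)).to_subtype
      exact Order.krullDim_nonneg
    rw [Module.length_eq_zero]
    rfl
  | cons z zs ih =>
    obtain ⟨n, Γ, hΓ, hreg⟩ := exists_torsion_pow X z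
    have hzs' : ∀ y ∈ zs, y ∈ maximalIdeal B := fun y hy => hzs y (List.mem_cons_of_mem _ hy)
    have hex : Exact Γ.subtype Γ.mkQ := by
      intro x
      simp
    have hadd := eul_add (z :: zs) Γ.subtype Γ.mkQ (Submodule.injective_subtype _)
      (Submodule.mkQ_surjective _) hex hX
    have hFLΓ : FL (z :: zs) Γ := hX.of_injective Γ.subtype (Submodule.injective_subtype _)
    have hFLΓ' : FL zs Γ := hFLΓ.of_pow n hΓ
    have hFLQ : FL (z :: zs) (X ⧸ Γ) := hX.of_surjective Γ.mkQ (Submodule.mkQ_surjective _)
    rw [eul_cons_eq_zero z zs Γ hFLΓ', zero_add] at hadd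
    have htors : Subsingleton (Submodule.torsionBy B (X ⧸ Γ) z) := by
      refine subsingleton_of_forall_eq 0 ?_
      rintro ⟨x, hx⟩
      apply Subtype.ext
      rw [isSMulRegular_iff_right_eq_zero_of_smul] at hreg
      exact hreg x hx
    have h2 : eul (z :: zs) (X ⧸ Γ) = eul zs (QuotSMulTop z (X ⧸ Γ)) := by
      change eul zs (QuotSMulTop z (X ⧸ Γ)) - eul zs (Submodule.torsionBy B (X ⧸ Γ) z) = _
      rw [eul_subsingleton zs (Submodule.torsionBy B (X ⧸ Γ) z), sub_zero]
    rw [hadd, h2]
    apply ih hzs' (QuotSMulTop z (X ⧸ Γ)) hFLQ.quot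
    intro hle
    apply hd
    have h3 := Module.supportDim_quotSMulTop_succ_eq_supportDim hreg (hzs z List.mem_cons_self)
    refine le_trans ?_ (Module.supportDim_le_of_surjective Γ.mkQ (Submodule.mkQ_surjective _))
    rw [← h3, List.length_cons]
    push_cast
    gcongr

end eulzero

section onesided

variable {R T : Type u} [CommRing R] [IsRegularLocalRing R] [CommRing T] [IsRegularLocalRing T]
  [Algebra R T] [Module.Flat R T] [IsLocalHom (algebraMap R T)] {r t : ℕ}

omit [IsRegularLocalRing R] [IsRegularLocalRing T] [Module.Flat R T]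
  [IsLocalHom (algebraMap R T)] in
theorem algebraMap_mem_maximalIdeal [IsLocalRing R] [IsLocalRing T] [IsLocalHom (algebraMap R T)]
    {z : R} (hz : z ∈ maximalIdeal R) : algebraMap R T z ∈ maximalIdeal T := by
  by_contra h
  have h1 : IsUnit (algebraMap R T z) := by
    by_contra h2
    exact h ((IsLocalRing.mem_maximalIdeal _).2 h2)
  exact (IsLocalRing.mem_maximalIdeal _).1 hz (isUnit_of_map_unit (algebraMap R T) z h1)

omit [IsRegularLocalRing R] [IsRegularLocalRing T] [Module.Flat R T]
  [IsLocalHom (algebraMap R T)] in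
theorem map_mem_maximalIdeal [IsLocalRing R] [IsLocalRing T] [IsLocalHom (algebraMap R T)]
    {zs : List R} (hzs : ∀ z ∈ zs, z ∈ maximalIdeal R) :
    ∀ z ∈ zs.map (algebraMap R T), z ∈ maximalIdeal T := by
  intro z hz
  rw [List.mem_map] at hz
  obtain ⟨y, hy, rfl⟩ := hz
  exact algebraMap_mem_maximalIdeal (hzs y hy)

/-- A regular system of parameters. -/
theorem exists_rsp (R : Type u) [CommRing R] [IsRegularLocalRing R] {r : ℕ}
    (hr : ringKrullDim R = r) :
    ∃ rs : List R, Ideal.ofList rs = maximalIdeal R ∧ rs.length = r ∧ IsWeaklyRegular R rs := by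
  obtain ⟨rs, hrs, hlen⟩ := exists_list_maximalIdeal R
  have hreg := isRegular_of_ofList_eq_maximalIdeal R rs hrs hlen
  refine ⟨rs, hrs, ?_, hreg.toIsWeaklyRegular⟩
  rw [hr] at hlen
  exact_mod_cast hlen

theorem length_le_dim (ht : ringKrullDim T = t) (zs : List T)
    (hzs : ∀ z ∈ zs, z ∈ maximalIdeal T) (hreg : IsWeaklyRegular T zs) : zs.length ≤ t := by
  have h1 := length_le_height (maximalIdeal T) zs hzs hreg
  have h2 : ((maximalIdeal T).height : WithBot ℕ∞) ≤ t :=
    ht ▸ Ideal.height_le_ringKrullDim_of_isPrime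
  have h3 : ((zs.length : ℕ) : WithBot ℕ∞) ≤ t := le_trans (by exact_mod_cast h1) h2
  exact_mod_cast h3

theorem dim_le_dim (hr : ringKrullDim R = r) (ht : ringKrullDim T = t) : r ≤ t := by
  obtain ⟨rs, hrs, hlen, hreg⟩ := exists_rsp R hr
  have h1 : IsWeaklyRegular T (rs.map (algebraMap R T)) := hreg.of_flat
  have h2 := length_le_dim ht _ (map_mem_maximalIdeal (fun z hz => by
    rw [← hrs]; exact Ideal.subset_span hz)) h1
  rw [List.length_map] at h2
  omega

theorem supportDim_quot_of_weaklyRegular (ht : ringKrullDim T = t) (zs : List T)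
    (hzs : ∀ z ∈ zs, z ∈ maximalIdeal T) (hreg : IsWeaklyRegular T zs) :
    Module.supportDim T (T ⧸ (Ideal.ofList zs • ⊤ : Submodule T T)) =
      ((t - zs.length : ℕ) : WithBot ℕ∞) := by
  have h1 : IsRegular T zs := by
    refine ⟨hreg, fun htop => ?_⟩
    have h2 : Ideal.ofList zs ≤ maximalIdeal T := Ideal.span_le.2 hzs
    have h3 : (1 : T) ∈ (Ideal.ofList zs • ⊤ : Submodule T T) := htop ▸ trivial
    have h4 : (1 : T) ∈ maximalIdeal T := by
      rw [smul_eq_mul, Ideal.mul_top] at h3
      exact h2 h3
    exact (maximalIdeal.isMaximal T).ne_top (Ideal.eq_top_of_isUnit_mem _ h4 isUnit_one)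
  have h2 := Module.supportDim_add_length_eq_supportDim_of_isRegular zs h1
  rw [Module.supportDim_self_eq_ringKrullDim, ht] at h2
  have h3 := length_le_dim ht zs hzs hreg
  generalize Module.supportDim T (T ⧸ (Ideal.ofList zs • ⊤ : Submodule T T)) = a at h2 ⊢
  induction a using WithBot.recBotCoe with
  | bot => simp at h2
  | coe a =>
    have h4 : a + (zs.length : ℕ∞) = t := by exact_mod_cast h2
    have h5 : a ≠ ⊤ := by
      rintro rfl
      rw [top_add] at h4
      exact absurd h4.symm (ENat.natCast_ne_top t)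
    obtain ⟨a, rfl⟩ := ENat.ne_top_iff_exists.mp h5
    have h6 : a + zs.length = t := by exact_mod_cast h4
    have h7 : a = t - zs.length := by omega
    rw [h7]
    rfl

/-- Upper bound for the dimension of a base change. -/
theorem supportDim_baseChange_le (hr : ringKrullDim R = r) (ht : ringKrullDim T = t)
    (E : Type u) [AddCommGroup E] [Module R E] [hE : Module.Finite R E] (n : ℕ)
    (hn : (n : WithBot ℕ∞) ≤ Module.supportDim T (T ⊗[R] E)) :
    ∃ e : ℕ, (e : WithBot ℕ∞) ≤ Module.supportDim R E ∧ n ≤ e + (t - r) := by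
  have hrt := dim_le_dim (R := R) (T := T) hr ht
  induction hE using IsNoetherianRing.induction_on_isQuotientEquivQuotientPrime R with
  | subsingleton N =>
    have : Subsingleton (T ⊗[R] N) := inferInstance
    rw [Module.supportDim_eq_bot_of_subsingleton] at hn
    simp at hn
  | quotient N P e =>
    have hP := P.2
    obtain ⟨zs, hmem, hreg, hlt, hh, hdim, hass⟩ := exists_ci hr P.1
    refine ⟨r - zs.length, ?_, ?_⟩
    · rw [Module.supportDim_eq_of_equiv e, hdim]
    · have h1 : IsWeaklyRegular T (zs.map (algebraMap R T)) := hreg.of_flat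
      have h2 := supportDim_quot_of_weaklyRegular ht _ (map_mem_maximalIdeal (fun z hz =>
        le_maximalIdeal hP.ne_top (hmem z hz))) h1
      -- surjection from `T/(zs)` to `T ⊗ N`
      let g0 : T →ₗ[T] T ⊗[R] N :=
        (LinearMap.toSpanSingleton T _ ((1 : T) ⊗ₜ[R] e.symm (Ideal.Quotient.mk _ 1)))
      have hg0 : Surjective g0 := by
        intro y
        induction y using TensorProduct.induction_on with
        | zero => exact ⟨0, map_zero _⟩
        | tmul a x =>
          obtain ⟨c, hc⟩ := Ideal.Quotient.mk_surjective (e x)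
          refine ⟨a * algebraMap R T c, ?_⟩
          change (a * algebraMap R T c) • ((1 : T) ⊗ₜ[R] e.symm (Ideal.Quotient.mk _ 1)) = _
          rw [TensorProduct.smul_tmul', smul_eq_mul, mul_one, mul_comm, ← Algebra.smul_def,
            TensorProduct.smul_tmul, ← map_smul]
          congr 1
          rw [LinearEquiv.symm_apply_eq, ← hc, Algebra.smul_def, map_one, mul_one]
          rfl
        | add x y hx hy =>
          obtain ⟨a, rfl⟩ := hx
          obtain ⟨b, rfl⟩ := hy
          exact ⟨a + b, map_add _ _ _⟩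
      have hker : (Ideal.ofList (zs.map (algebraMap R T)) • ⊤ : Submodule T T) ≤
          LinearMap.ker g0 := by
        rw [smul_eq_mul, Ideal.mul_top, Ideal.ofList, Ideal.span_le]
        intro y hy
        have hy' : y ∈ zs.map (algebraMap R T) := hy
        rw [List.mem_map] at hy'
        obtain ⟨c, hc, rfl⟩ := hy'
        change (algebraMap R T c) • ((1 : T) ⊗ₜ[R] e.symm (Ideal.Quotient.mk _ 1)) = 0
        rw [algebraMap_smul, TensorProduct.smul_tmul', TensorProduct.smul_tmul, ← map_smul]
        have : c • (Ideal.Quotient.mk P.1 1) = 0 := by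
          rw [Algebra.smul_def, map_one, mul_one]
          exact Ideal.Quotient.eq_zero_iff_mem.2 (hmem c hc)
        rw [this, map_zero, TensorProduct.tmul_zero]
      have h3 := Module.supportDim_le_of_surjective (Submodule.liftQ _ g0 hker) (by
        intro y
        obtain ⟨a, rfl⟩ := hg0 y
        exact ⟨Submodule.Quotient.mk a, rfl⟩)
      rw [h2, List.length_map] at h3
      have h4 : n ≤ t - zs.length := by exact_mod_cast hn.trans h3
      omega
  | exact N₁ N₂ N₃ f g hf hg h ih1 ih3 =>
    obtain ⟨k1, k2, k3⟩ := baseChange_ses (B := T) f g hf hg h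
    rcases le_supportDim_of_exact _ _ k1 k2 k3 n hn with h1 | h1
    · obtain ⟨e, he, hne⟩ := ih1 h1
      exact ⟨e, he.trans (Module.supportDim_le_of_injective f hf), hne⟩
    · obtain ⟨e, he, hne⟩ := ih3 h1
      exact ⟨e, he.trans (Module.supportDim_le_of_surjective g hg), hne⟩

end onesided

end Vale.Agent.P177
end

section

/-!
Base change along a flat map: vanishing of Tor, quotients by sequences, dimension and depth.
-/

namespace Vale.Agent.P177

open CategoryTheory TensorProduct Function IsLocalRing RingTheory.Sequence Pointwise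

universe u

section general

variable {R : Type u} [CommRing R]

/-- Vanishing of the first Tor against cyclic modules gives flatness. -/
theorem flat_of_tor_one (K : Type u) [AddCommGroup K] [Module R K]
    (h : ∀ I : Ideal R, Subsingleton (TorM R 1 (R ⧸ I) K)) : Module.Flat R K := by
  rw [Module.Flat.iff_rTensor_injective']
  intro I
  have hex : Exact I.subtype I.mkQ := by
    intro x
    rw [Submodule.mkQ_apply, Submodule.Quotient.mk_eq_zero]
    simp
  obtain ⟨δ, -, h3, -⟩ := exists_torDelta I.subtype I.mkQ (Submodule.injective_subtype _)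
    (Submodule.mkQ_surjective _) hex K
  rw [injective_iff_map_eq_zero]
  intro x hx
  have h4 : torMap 0 I.subtype K ((torZero I K).symm x) = 0 := by
    apply (torZero R K).injective
    rw [torZero_naturality, LinearEquiv.apply_symm_apply, map_zero]
    exact hx
  obtain ⟨y, hy⟩ := (h3 0 _).1 h4
  have := h I
  rw [Subsingleton.elim y 0, map_zero] at hy
  rw [← (torZero I K).apply_symm_apply x, ← hy, map_zero]

variable {T : Type u} [CommRing T] [Algebra R T] [Module.Flat R T]

/-- Vanishing of Tor is preserved by flat base change. -/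
theorem tor_vanish_baseChange (m : ℕ) (K : Type u) [AddCommGroup K] [Module R K]
    (hK : ∀ j, m + 1 ≤ j → ∀ I : Ideal R, Subsingleton (TorM R j K (R ⧸ I)))
    (j : ℕ) (hj : m + 1 ≤ j) (X : Type u) [AddCommGroup X] [Module T X] :
    Subsingleton (TorM T j (T ⊗[R] K) X) := by
  induction m generalizing K j with
  | zero =>
    have : Module.Flat R K := flat_of_tor_one K fun I =>
      tor_symm_subsingleton _ _ _ (hK 1 le_rfl I)
    obtain ⟨j, rfl⟩ : ∃ k, j = k + 1 := ⟨j - 1, by omega⟩
    exact tor_subsingleton_of_flat j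
  | succ m ih =>
    obtain ⟨F, K1, _, _, _, _, f, g, hF, hf, hg, hex⟩ := exists_cover R K
    obtain ⟨j, rfl⟩ : ∃ k, j = k + 1 := ⟨j - 1, by omega⟩
    have h1 : ∀ j, m + 1 ≤ j → ∀ I : Ideal R, Subsingleton (TorM R j K1 (R ⧸ I)) := by
      intro j hj I
      obtain ⟨δ, -, h2, -⟩ := exists_torDelta f g hf hg hex (R ⧸ I)
      obtain ⟨i, rfl⟩ : ∃ k, j = k + 1 := ⟨j - 1, by omega⟩
      have h3 : Subsingleton (TorM R (i + 1) F (R ⧸ I)) := tor_subsingleton_of_flat i
      have h4 := hK (i + 1 + 1) (by omega) I
      refine subsingleton_of_forall_eq 0 fun x => ?_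
      obtain ⟨y, rfl⟩ := (h2 (i + 1) x).1 (Subsingleton.elim _ _)
      rw [Subsingleton.elim y 0, map_zero]
    have h2 := ih K1 h1 j (by omega)
    obtain ⟨k1, k2, k3⟩ := baseChange_ses (B := T) f g hf hg hex
    obtain ⟨δ, h4, -, -⟩ := exists_torDelta _ _ k1 k2 k3 X
    have h5 : Subsingleton (TorM T (j + 1) (T ⊗[R] F) X) := tor_subsingleton_of_flat j
    refine subsingleton_of_forall_eq 0 fun x => ?_
    obtain ⟨y, rfl⟩ := (h4 j x).1 (Subsingleton.elim _ _)
    rw [Subsingleton.elim y 0, map_zero]

omit [Module.Flat R T] in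
/-- Base change of a quotient by a sequence. -/
theorem exists_baseChange_quot (zs : List R) (M : Type u) [AddCommGroup M] [Module R M] :
    Nonempty ((T ⊗[R] (M ⧸ (Ideal.ofList zs • ⊤ : Submodule R M))) ≃ₗ[T]
      ((T ⊗[R] M) ⧸ (Ideal.ofList (zs.map (algebraMap R T)) • ⊤ : Submodule T (T ⊗[R] M)))) := by
  set N : Submodule R M := Ideal.ofList zs • ⊤ with hN
  have hex : Exact (N.subtype.baseChange T) (N.mkQ.baseChange T) := by
    rw [LinearMap.baseChange_eq_ltensor, LinearMap.baseChange_eq_ltensor]
    refine lTensor_exact T ?_ (Submodule.mkQ_surjective _)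
    intro x
    simp
  have hsurj : Surjective (N.mkQ.baseChange T) := by
    rw [LinearMap.baseChange_eq_ltensor]
    exact LinearMap.lTensor_surjective T (Submodule.mkQ_surjective _)
  have hker : (Ideal.ofList (zs.map (algebraMap R T)) • ⊤ : Submodule T (T ⊗[R] M)) =
      LinearMap.ker (N.mkQ.baseChange T) := by
    apply le_antisymm
    · rw [Submodule.smul_le]
      intro a ha x _
      have hle : Ideal.ofList (zs.map (algebraMap R T)) ≤
          Module.annihilator T (T ⊗[R] (M ⧸ N)) := by
        rw [Ideal.ofList, Ideal.span_le]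
        intro y hy
        have hy' : y ∈ zs.map (algebraMap R T) := hy
        rw [List.mem_map] at hy'
        obtain ⟨z, hz, rfl⟩ := hy'
        change algebraMap R T z ∈ Module.annihilator T (T ⊗[R] (M ⧸ N))
        rw [Module.mem_annihilator]
        intro w
        induction w using TensorProduct.induction_on with
        | zero => exact smul_zero _
        | tmul t m =>
          obtain ⟨m, rfl⟩ := Submodule.mkQ_surjective N m
          rw [algebraMap_smul, TensorProduct.smul_tmul', TensorProduct.smul_tmul, ← map_smul]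
          have : N.mkQ (z • m) = 0 := by
            rw [Submodule.mkQ_apply, Submodule.Quotient.mk_eq_zero]
            exact Submodule.smul_mem_smul (Ideal.subset_span hz) trivial
          rw [this, TensorProduct.tmul_zero]
        | add x y hx hy => rw [smul_add, hx, hy, add_zero]
      rw [LinearMap.mem_ker, map_smul]
      exact Module.mem_annihilator.1 (hle ha) _
    · rw [LinearMap.exact_iff.1 hex]
      rintro _ ⟨y, rfl⟩
      induction y using TensorProduct.induction_on with
      | zero => rw [map_zero]; exact Submodule.zero_mem _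
      | tmul t n =>
        obtain ⟨n, hn⟩ := n
        change t ⊗ₜ[R] n ∈ _
        rw [hN] at hn
        induction hn using Submodule.smul_induction_on' with
        | smul a ha m _ =>
          have h1 : t ⊗ₜ[R] (a • m) = (algebraMap R T a) • (t ⊗ₜ[R] m) := by
            rw [algebraMap_smul, TensorProduct.tmul_smul]
          rw [h1]
          refine Submodule.smul_mem_smul ?_ trivial
          rw [← Ideal.map_ofList]
          exact Ideal.mem_map_of_mem _ ha
        | add x hx y hy h1 h2 =>
          rw [TensorProduct.tmul_add]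
          exact Submodule.add_mem _ h1 h2
      | add x y hx hy => rw [map_add]; exact Submodule.add_mem _ hx hy
  exact ⟨((Submodule.quotEquivOfEq _ _ hker) ≪≫ₗ
    (N.mkQ.baseChange T).quotKerEquivOfSurjective hsurj).symm⟩

end general

section onesided

variable {R T : Type u} [CommRing R] [IsRegularLocalRing R] [CommRing T] [IsRegularLocalRing T]
  [Algebra R T] [Module.Flat R T] [IsLocalHom (algebraMap R T)] {r t : ℕ}

/-- Dimension of the closed fibre. -/
theorem supportDim_fibre (hr : ringKrullDim R = r) (ht : ringKrullDim T = t) :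
    Module.supportDim T (T ⊗[R] (R ⧸ maximalIdeal R)) = ((t - r : ℕ) : WithBot ℕ∞) := by
  obtain ⟨rs, hrs, hlen, hreg⟩ := exists_rsp R hr
  have h1 : IsWeaklyRegular T (rs.map (algebraMap R T)) := hreg.of_flat
  have h2 := supportDim_quot_of_weaklyRegular ht _ (map_mem_maximalIdeal (fun z hz => by
    rw [← hrs]; exact Ideal.subset_span hz)) h1
  obtain ⟨e⟩ := exists_baseChange_quot (T := T) rs R
  have e1 : (R ⧸ maximalIdeal R) ≃ₗ[R] (R ⧸ (Ideal.ofList rs • ⊤ : Submodule R R)) :=
    Submodule.quotEquivOfEq _ _ (by rw [hrs]; simp)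
  have e2 : (T ⊗[R] R) ≃ₗ[T] T := AlgebraTensorModule.rid R T T
  have e3 : ((T ⊗[R] R) ⧸ (Ideal.ofList (rs.map (algebraMap R T)) • ⊤ :
      Submodule T (T ⊗[R] R))) ≃ₗ[T]
      (T ⧸ (Ideal.ofList (rs.map (algebraMap R T)) • ⊤ : Submodule T T)) :=
    Submodule.Quotient.equiv _ _ e2 (by
      rw [Submodule.map_smul'', Submodule.map_top, LinearEquiv.range])
  rw [Module.supportDim_eq_of_equiv ((AlgebraTensorModule.congr (LinearEquiv.refl T T) e1) ≪≫ₗ
    e ≪≫ₗ e3), h2, List.length_map, hlen]

/-- Lower bound for the dimension of a base change. -/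
theorem le_supportDim_baseChange (hr : ringKrullDim R = r) (ht : ringKrullDim T = t)
    (E : Type u) [AddCommGroup E] [Module R E] [Module.Finite R E] (e : ℕ)
    (he : (e : WithBot ℕ∞) ≤ Module.supportDim R E) :
    ((e + (t - r) : ℕ) : WithBot ℕ∞) ≤ Module.supportDim T (T ⊗[R] E) := by
  have h1 : ∀ (M : Type u) [AddCommGroup M] [Module R M],
      Nonempty (TorM T 0 (T ⊗[R] M) T ≃ₗ[T] (T ⊗[R] M)) := fun M _ _ =>
    ⟨torZero _ _ ≪≫ₗ TensorProduct.rid T _⟩
  have h2 := le_supportDim_tor (S := R) (B := T) T (fun M _ _ _ =>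
    tor_subsingleton_of_projective_right 0) (t - r) (by
      obtain ⟨e1⟩ := h1 (R ⧸ maximalIdeal R)
      rw [Module.supportDim_eq_of_equiv e1, supportDim_fibre hr ht]) e E he
  obtain ⟨e1⟩ := h1 E
  rwa [Module.supportDim_eq_of_equiv e1] at h2

/-- Depth of a base change. -/
theorem exists_regular_baseChange (hr : ringKrullDim R = r) (ht : ringKrullDim T = t)
    (E : Type u) [AddCommGroup E] [Module R E] [Module.Finite R E] (zs : List R)
    (hzs : ∀ z ∈ zs, z ∈ maximalIdeal R) (hreg : IsWeaklyRegular E zs) (hle : zs.length ≤ r) :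
    ∃ ws : List T, ws.length = zs.length + (t - r) ∧ (∀ z ∈ ws, z ∈ maximalIdeal T) ∧
      IsWeaklyRegular (T ⊗[R] E) ws := by
  have hrt := dim_le_dim (R := R) (T := T) hr ht
  have hFL : FL2 ([] : List R) E (R ⧸ maximalIdeal R) := by
    unfold FL2
    rw [Ideal.annihilator_quotient]
    exact (le_sup_of_le_left le_sup_right).trans Ideal.le_radical
  have h1 : ∀ j, r - zs.length + 1 ≤ j → Subsingleton (TorM R j E (R ⧸ maximalIdeal R)) :=
    fun j hj => tor_subsingleton_of_depth hr E (R ⧸ maximalIdeal R) hFL zs [] hzs (by simp)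
      hreg (IsWeaklyRegular.nil _ _) j (by rw [List.length_nil]; omega)
  have h2 := tor_vanish_baseChange (T := T) (r - zs.length) E (fun j hj I =>
    tor_subsingleton_of_residue E (r - zs.length + 1) h1 (R ⧸ I) j hj)
  obtain ⟨ws, hlen, hws, hwreg⟩ := exists_regular_ext_list ht (T ⊗[R] E) []
    (IsWeaklyRegular.nil _ _) (r - zs.length)
    (fun j hj => h2 j (by omega) (T ⧸ maximalIdeal T)) (zs.length + (t - r))
    (by rw [List.length_nil]; omega)
  exact ⟨ws, hlen, hws, by simpa using hwreg⟩

end onesided

end Vale.Agent.P177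
end

section

/-!
Flat local base change of Tor (both variables) and additivity of Euler characteristics.
-/

namespace Vale.Agent.P177

open CategoryTheory TensorProduct Function IsLocalRing RingTheory.Sequence Pointwise

universe u

section bc2

variable {A C : Type u} [CommRing A] [CommRing C] [Algebra A C]
variable {K F N X Y Z : Type u} [AddCommGroup K] [Module A K] [AddCommGroup F] [Module A F]
  [AddCommGroup N] [Module A N]
  [AddCommGroup X] [Module A X] [Module C X] [IsScalarTower A C X]
  [AddCommGroup Y] [Module A Y] [Module C Y] [IsScalarTower A C Y]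
  [AddCommGroup Z] [Module A Z] [Module C Z] [IsScalarTower A C Z]

theorem exists_cancel₂ {φ : K →ₗ[A] X} (hφ : IsBaseChange C φ) {ψ : N →ₗ[A] Y}
    (hψ : IsBaseChange C ψ) :
    ∃ e : X ⊗[C] Y ≃ₗ[C] C ⊗[A] (K ⊗[A] N),
      ∀ c k n, e.symm (c ⊗ₜ[A] (k ⊗ₜ[A] n)) = c • (φ k ⊗ₜ[C] ψ n) := by
  refine ⟨(AlgebraTensorModule.distribBaseChange A C K N ≪≫ₗ
    TensorProduct.congr hφ.equiv hψ.equiv).symm, ?_⟩
  intro c k n
  rw [LinearEquiv.symm_symm, LinearEquiv.trans_apply]
  simp [IsBaseChange.equiv_tmul, TensorProduct.smul_tmul']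

theorem length_ker_baseChange_flat [IsLocalRing A] [IsLocalRing C] [Module.Flat A C]
    (hloc : (maximalIdeal A).map (algebraMap A C) = maximalIdeal C) {P Q : Type u}
    [AddCommGroup P] [Module A P] [AddCommGroup Q] [Module A Q] (f : P →ₗ[A] Q) :
    Module.length C (LinearMap.ker (f.baseChange C)) = Module.length A (LinearMap.ker f) := by
  rw [← length_baseChange' A C hloc (LinearMap.ker f)]
  have hex : Exact (LinearMap.ker f).subtype f := by
    intro x
    simp
  have h1 : Injective ((LinearMap.ker f).subtype.baseChange C) := by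
    rw [LinearMap.baseChange_eq_ltensor]
    exact Module.Flat.lTensor_preserves_injective_linearMap _ (Submodule.injective_subtype _)
  have h2 : Exact ((LinearMap.ker f).subtype.baseChange C) (f.baseChange C) := by
    rw [LinearMap.baseChange_eq_ltensor, LinearMap.baseChange_eq_ltensor]
    exact Module.Flat.lTensor_exact C hex
  have h3 := LinearEquiv.ofInjective _ h1
  rw [LinearMap.exact_iff.1 h2]
  exact h3.symm.length_eq

/-- Both variables base changed along a flat local map with `m_A C = m_C`. -/
theorem length_tor_bc₂ [IsLocalRing A] [IsLocalRing C] [Module.Flat A C]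
    (hloc : (maximalIdeal A).map (algebraMap A C) = maximalIdeal C) (n : ℕ) {K X N Y : Type u}
    [AddCommGroup K] [Module A K] [AddCommGroup N] [Module A N]
    [AddCommGroup X] [Module A X] [Module C X] [IsScalarTower A C X]
    [AddCommGroup Y] [Module A Y] [Module C Y] [IsScalarTower A C Y]
    {φ : K →ₗ[A] X} (hφ : IsBaseChange C φ) {ψ : N →ₗ[A] Y} (hψ : IsBaseChange C ψ) :
    Module.length A (TorM A n K N) = Module.length C (TorM C n X Y) := by
  induction n generalizing K X with
  | zero =>
    obtain ⟨e, -⟩ := exists_cancel₂ hφ hψ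
    rw [(torZero K N).length_eq, (torZero X Y).length_eq, e.length_eq,
      length_baseChange' A C hloc]
  | succ n ih =>
    obtain ⟨F, K1, _, _, _, _, i, g, hF, hi, hg, h⟩ := exists_cover A K
    obtain ⟨Y1, _, _, _, _, ψ1, hψ1⟩ := exists_baseChange (R := A) C F
    obtain ⟨X1, _, _, _, _, φ1, hφ1⟩ := exists_baseChange (R := A) C K1
    let j : X1 →ₗ[C] Y1 := hφ1.lift (ψ1 ∘ₗ i)
    have hj : ∀ k, j (φ1 k) = ψ1 (i k) := fun k => hφ1.lift_eq _ k
    let q : Y1 →ₗ[C] X := hψ1.lift (φ ∘ₗ g)
    have hq : ∀ y, q (ψ1 y) = φ (g y) := fun y => hψ1.lift_eq _ y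
    have hjinj : Injective j := bc_injective hφ1 hψ1 i j hj hi
    have hqs : Surjective q := bc_surjective hψ1 hφ g q hq hg
    have hex : Exact j q := bc_exact hφ1 hψ1 hφ i j hj g q hq hg h
    have hYflat : Module.Flat C Y1 := Module.Flat.isBaseChange A C F Y1 hψ1
    cases n with
    | zero =>
      obtain ⟨e1⟩ := tor_one i g hi hg h N
      obtain ⟨e2⟩ := tor_one j q hjinj hqs hex Y
      rw [e1.length_eq, e2.length_eq, ← length_ker_baseChange_flat (C := C) hloc (i.rTensor N)]
      obtain ⟨eX, heX⟩ := exists_cancel₂ hφ1 hψ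
      obtain ⟨eY, heY⟩ := exists_cancel₂ hψ1 hψ
      have key : ∀ z : C ⊗[A] (K1 ⊗[A] N), j.rTensor Y (eX.symm z) =
          eY.symm ((i.rTensor N).baseChange C z) := by
        intro z
        induction z using TensorProduct.induction_on with
        | zero => simp
        | tmul c w =>
          induction w using TensorProduct.induction_on with
          | zero => simp
          | tmul k n =>
            rw [heX, map_smul, LinearMap.rTensor_tmul, hj, LinearMap.baseChange_tmul,
              LinearMap.rTensor_tmul, heY]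
          | add a b ha hb => rw [TensorProduct.tmul_add, map_add, map_add, ha, hb, map_add, map_add]
        | add a b ha hb => rw [map_add, map_add, ha, hb, map_add, map_add]
      obtain ⟨e3⟩ := ker_equiv eX.symm eY.symm ((i.rTensor N).baseChange C) (j.rTensor Y) key
      exact e3.length_eq
    | succ n =>
      obtain ⟨e1⟩ := tor_shift i g hi hg h N n
      obtain ⟨e2⟩ := tor_shift j q hjinj hqs hex Y n
      rw [e1.length_eq, e2.length_eq]
      exact ih hφ1

end bc2

section additivity

variable {R : Type u} [CommRing R]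

/-- Alternating sums along the long exact sequence. -/
theorem eulerTor_add_aux {M' M M'' : Type u} [AddCommGroup M'] [Module R M']
    [AddCommGroup M] [Module R M] [AddCommGroup M''] [Module R M'']
    (f : M' →ₗ[R] M) (g : M →ₗ[R] M'') (hf : Injective f) (hg : Surjective g) (h : Exact f g)
    (N : Type u) [AddCommGroup N] [Module R N]
    (h1 : ∀ i, Module.length R (TorM R i M' N) ≠ ⊤)
    (h2 : ∀ i, Module.length R (TorM R i M N) ≠ ⊤)
    (n : ℕ)
    (hn : Module.length R (TorM R n M'' N) = 0) :
    eulerTor R n M N = eulerTor R n M' N + eulerTor R n M'' N := by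
  obtain ⟨δ, k1, k2, k3⟩ := exists_torDelta f g hf hg h N
  have l1 : ∀ i, Module.length R (TorM R i M' N) = Module.length R (LinearMap.range (δ i)) +
      Module.length R (LinearMap.range (torMap i f N)) := by
    intro i
    rw [length_ker_add_range (torMap i f N), LinearMap.exact_iff.1 (k2 i)]
  have l2 : ∀ i, Module.length R (TorM R i M N) =
      Module.length R (LinearMap.range (torMap i f N)) +
      Module.length R (LinearMap.range (torMap i g N)) := by
    intro i
    rw [length_ker_add_range (torMap i g N), LinearMap.exact_iff.1 (k3 i)]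
  have l3 : ∀ i, Module.length R (TorM R (i + 1) M'' N) =
      Module.length R (LinearMap.range (torMap (i + 1) g N)) +
      Module.length R (LinearMap.range (δ i)) := by
    intro i
    rw [length_ker_add_range (δ i), LinearMap.exact_iff.1 (k1 i)]
  have l4 : Module.length R (TorM R 0 M'' N) =
      Module.length R (LinearMap.range (torMap 0 g N)) := by
    rw [LinearMap.range_eq_top.2 (torMap_zero_surjective g hg N), Module.length_top]
  have f1 : ∀ i, Module.length R (LinearMap.range (δ i)) ≠ ⊤ := fun i hi =>
    h1 i (by rw [l1, hi, top_add])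
  have f2 : ∀ i, Module.length R (LinearMap.range (torMap i f N)) ≠ ⊤ := fun i hi =>
    h1 i (by rw [l1, hi, add_top])
  have f3 : ∀ i, Module.length R (LinearMap.range (torMap i g N)) ≠ ⊤ := fun i hi =>
    h2 i (by rw [l2, hi, add_top])
  have m1 : ∀ i, ((Module.length R (TorM R i M' N)).toNat : ℤ) =
      (Module.length R (LinearMap.range (δ i))).toNat +
      (Module.length R (LinearMap.range (torMap i f N))).toNat := by
    intro i
    rw [l1, ENat.toNat_add (f1 i) (f2 i)]
    push_cast
    ring
  have m2 : ∀ i, ((Module.length R (TorM R i M N)).toNat : ℤ) =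
      (Module.length R (LinearMap.range (torMap i f N))).toNat +
      (Module.length R (LinearMap.range (torMap i g N))).toNat := by
    intro i
    rw [l2, ENat.toNat_add (f2 i) (f3 i)]
    push_cast
    ring
  have m3 : ∀ i, ((Module.length R (TorM R (i + 1) M'' N)).toNat : ℤ) =
      (Module.length R (LinearMap.range (torMap (i + 1) g N))).toNat +
      (Module.length R (LinearMap.range (δ i))).toNat := by
    intro i
    rw [l3, ENat.toNat_add (f3 _) (f1 _)]
    push_cast
    ring
  have key : ∀ n, eulerTor R (n + 1) M' N + eulerTor R (n + 1) M'' N -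
      eulerTor R (n + 1) M N = (-1) ^ n * (Module.length R (LinearMap.range (δ n))).toNat := by
    intro n
    unfold eulerTor
    induction n with
    | zero =>
      simp only [zero_add, Finset.sum_range_one, pow_zero, one_mul]
      rw [m1, m2, l4]
      ring
    | succ n ih =>
      rw [Finset.sum_range_succ, Finset.sum_range_succ _ (n + 1), Finset.sum_range_succ _ (n + 1)]
      rw [m1, m2, m3, pow_succ]
      linear_combination ih
  cases n with
  | zero => simp [eulerTor]
  | succ n =>
    have h5 : Module.length R (LinearMap.range (δ n)) = 0 := by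
      have := l3 n
      rw [hn] at this
      have h6 : Module.length R (LinearMap.range (δ n)) ≤ 0 := by rw [this]; exact le_add_self
      exact le_antisymm h6 bot_le
    have h7 := key n
    rw [h5] at h7
    simp only [ENat.toNat_zero, Nat.cast_zero, mul_zero] at h7
    linarith

end additivity

section dim

/-- Dimension over a quotient ring. -/
theorem supportDim_eq_of_surjective {R A : Type u} [CommRing R] [CommRing A] [Algebra R A]
    (hs : Surjective (algebraMap R A)) (M : Type u) [AddCommGroup M] [Module R M] [Module A M]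
    [IsScalarTower R A M] [Module.Finite R M] :
    Module.supportDim R M = Module.supportDim A M := by
  have : Module.Finite A M := Module.Finite.of_restrictScalars_finite R A M
  rw [Module.supportDim_eq_ringKrullDim_quotient_annihilator,
    Module.supportDim_eq_ringKrullDim_quotient_annihilator]
  have h1 : (Ideal.Quotient.mk (Module.annihilator A M)).comp (algebraMap R A) =
      (Ideal.Quotient.mk (Module.annihilator A M)).comp (algebraMap R A) := rfl
  let ψ : R →+* A ⧸ Module.annihilator A M :=
    (Ideal.Quotient.mk (Module.annihilator A M)).comp (algebraMap R A)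
  have hψ : Surjective ψ := Ideal.Quotient.mk_surjective.comp hs
  have hker : RingHom.ker ψ = Module.annihilator R M := by
    ext r
    rw [RingHom.mem_ker]
    change Ideal.Quotient.mk _ (algebraMap R A r) = 0 ↔ _
    rw [Ideal.Quotient.eq_zero_iff_mem, Module.mem_annihilator, Module.mem_annihilator]
    simp
  exact ringKrullDim_eq_of_ringEquiv ((Ideal.quotEquivOfEq hker.symm).trans
    (RingHom.quotientKerEquivOfSurjective hψ))

end dim

end Vale.Agent.P177
end

section

/-!
Flat base change isomorphism for Tor in both variables.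
-/

namespace Vale.Agent.P177

open CategoryTheory TensorProduct Function IsLocalRing RingTheory.Sequence Pointwise

universe u

variable {A C : Type u} [CommRing A] [CommRing C] [Algebra A C]

theorem exists_ker_baseChange_equiv [Module.Flat A C] {P Q : Type u}
    [AddCommGroup P] [Module A P] [AddCommGroup Q] [Module A Q] (f : P →ₗ[A] Q) :
    Nonempty (LinearMap.ker (f.baseChange C) ≃ₗ[C] C ⊗[A] (LinearMap.ker f)) := by
  have hex : Exact (LinearMap.ker f).subtype f := by
    intro x
    simp
  have h1 : Injective ((LinearMap.ker f).subtype.baseChange C) := by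
    rw [LinearMap.baseChange_eq_ltensor]
    exact Module.Flat.lTensor_preserves_injective_linearMap _ (Submodule.injective_subtype _)
  have h2 : Exact ((LinearMap.ker f).subtype.baseChange C) (f.baseChange C) := by
    rw [LinearMap.baseChange_eq_ltensor, LinearMap.baseChange_eq_ltensor]
    exact Module.Flat.lTensor_exact C hex
  have h3 := LinearEquiv.ofInjective _ h1
  rw [LinearMap.exact_iff.1 h2]
  exact ⟨h3.symm⟩

/-- Flat base change for Tor, both variables. -/
theorem exists_tor_flat_iso [Module.Flat A C] (n : ℕ) {K X N Y : Type u}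
    [AddCommGroup K] [Module A K] [AddCommGroup N] [Module A N]
    [AddCommGroup X] [Module A X] [Module C X] [IsScalarTower A C X]
    [AddCommGroup Y] [Module A Y] [Module C Y] [IsScalarTower A C Y]
    {φ : K →ₗ[A] X} (hφ : IsBaseChange C φ) {ψ : N →ₗ[A] Y} (hψ : IsBaseChange C ψ) :
    Nonempty (TorM C n X Y ≃ₗ[C] C ⊗[A] (TorM A n K N)) := by
  induction n generalizing K X with
  | zero =>
    obtain ⟨e, -⟩ := exists_cancel₂ hφ hψ
    exact ⟨torZero X Y ≪≫ₗ e ≪≫ₗ (torZero K N).symm.baseChange A C _ _⟩
  | succ n ih =>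
    obtain ⟨F, K1, _, _, _, _, i, g, hF, hi, hg, h⟩ := exists_cover A K
    obtain ⟨Y1, _, _, _, _, ψ1, hψ1⟩ := exists_baseChange (R := A) C F
    obtain ⟨X1, _, _, _, _, φ1, hφ1⟩ := exists_baseChange (R := A) C K1
    let j : X1 →ₗ[C] Y1 := hφ1.lift (ψ1 ∘ₗ i)
    have hj : ∀ k, j (φ1 k) = ψ1 (i k) := fun k => hφ1.lift_eq _ k
    let q : Y1 →ₗ[C] X := hψ1.lift (φ ∘ₗ g)
    have hq : ∀ y, q (ψ1 y) = φ (g y) := fun y => hψ1.lift_eq _ y
    have hjinj : Injective j := bc_injective hφ1 hψ1 i j hj hi
    have hqs : Surjective q := bc_surjective hψ1 hφ g q hq hg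
    have hex : Exact j q := bc_exact hφ1 hψ1 hφ i j hj g q hq hg h
    have hYflat : Module.Flat C Y1 := Module.Flat.isBaseChange A C F Y1 hψ1
    cases n with
    | zero =>
      obtain ⟨e1⟩ := tor_one i g hi hg h N
      obtain ⟨e2⟩ := tor_one j q hjinj hqs hex Y
      obtain ⟨eX, heX⟩ := exists_cancel₂ hφ1 hψ
      obtain ⟨eY, heY⟩ := exists_cancel₂ hψ1 hψ
      have key : ∀ z : C ⊗[A] (K1 ⊗[A] N), j.rTensor Y (eX.symm z) =
          eY.symm ((i.rTensor N).baseChange C z) := by
        intro z
        induction z using TensorProduct.induction_on with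
        | zero => simp
        | tmul c w =>
          induction w using TensorProduct.induction_on with
          | zero => simp
          | tmul k n =>
            rw [heX, map_smul, LinearMap.rTensor_tmul, hj, LinearMap.baseChange_tmul,
              LinearMap.rTensor_tmul, heY]
          | add a b ha hb => rw [TensorProduct.tmul_add, map_add, map_add, ha, hb, map_add, map_add]
        | add a b ha hb => rw [map_add, map_add, ha, hb, map_add, map_add]
      obtain ⟨e3⟩ := ker_equiv eX.symm eY.symm ((i.rTensor N).baseChange C) (j.rTensor Y) key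
      obtain ⟨e4⟩ := exists_ker_baseChange_equiv (C := C) (i.rTensor N)
      exact ⟨e2 ≪≫ₗ e3.symm ≪≫ₗ e4 ≪≫ₗ e1.symm.baseChange A C _ _⟩
    | succ n =>
      obtain ⟨e1⟩ := tor_shift i g hi hg h N n
      obtain ⟨e2⟩ := tor_shift j q hjinj hqs hex Y n
      obtain ⟨e3⟩ := ih hφ1
      exact ⟨e2 ≪≫ₗ e3 ≪≫ₗ e1.symm.baseChange A C _ _⟩

end Vale.Agent.P177
end

section

/-!
Serre's theorem: localizations of regular local rings are regular.
-/

namespace Vale.Agent.P177

open CategoryTheory TensorProduct Function IsLocalRing RingTheory.Sequence Pointwise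

universe u

section crit

variable (S : Type u) [CommRing S] [IsLocalRing S] [IsNoetherianRing S]

/-- vanishing against the residue field -/
theorem tor_vanish_of_residue (n : ℕ) (Z : Type u) [AddCommGroup Z] [Module S Z]
    [Module.Finite S Z]
    (h : ∀ j, n ≤ j → Subsingleton (TorM S j (S ⧸ maximalIdeal S) Z))
    (M : Type u) [AddCommGroup M] [Module S M] [Module.Finite S M] (j : ℕ) (hj : n ≤ j) :
    Subsingleton (TorM S j M Z) := by
  have h3 := local_crit (S := S) (B := S) n Z (fun j hj => by
    have := h j hj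
    exact (torCongrLeft j (TensorProduct.lid S _) Z).toEquiv.subsingleton) M j hj
  exact (torCongrLeft j (TensorProduct.lid S M).symm Z).toEquiv.subsingleton

/-- If `k` embeds in `S` and `Tor_j(k,k)` vanishes for large `j` then `S` is a field. -/
theorem maximalIdeal_eq_bot_of_embedding (n₀ : ℕ)
    (h : ∀ j, n₀ ≤ j → Subsingleton (TorM S j (S ⧸ maximalIdeal S) (S ⧸ maximalIdeal S)))
    (f : (S ⧸ maximalIdeal S) →ₗ[S] S) (hf : Injective f) : maximalIdeal S = ⊥ := by
  classical
  have hex : ∃ n, ∀ j, n ≤ j →
      Subsingleton (TorM S j (S ⧸ maximalIdeal S) (S ⧸ maximalIdeal S)) := ⟨n₀, h⟩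
  obtain ⟨hn, hmin⟩ : (∀ j, Nat.find hex ≤ j →
      Subsingleton (TorM S j (S ⧸ maximalIdeal S) (S ⧸ maximalIdeal S))) ∧
      ∀ m, m < Nat.find hex → ¬ (∀ j, m ≤ j →
        Subsingleton (TorM S j (S ⧸ maximalIdeal S) (S ⧸ maximalIdeal S))) :=
    ⟨Nat.find_spec hex, fun m hm => Nat.find_min hex hm⟩
  generalize Nat.find hex = n at hn hmin
  have hall := tor_vanish_of_residue S n (S ⧸ maximalIdeal S) hn
  rcases n with _ | _ | n
  · exfalso
    have h0 := hn 0 le_rfl
    have h1 := nontrivial_tor_zero (B := S) (S ⧸ maximalIdeal S) (S ⧸ maximalIdeal S)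
    exact not_subsingleton _ h0
  · have h1 := hn 1 le_rfl
    by_contra hne
    have hnt : Nontrivial (maximalIdeal S) := Submodule.nontrivial_iff_ne_bot.2 hne
    have hex2 : Exact (maximalIdeal S).subtype (maximalIdeal S).mkQ :=
      LinearMap.exact_subtype_mkQ _
    obtain ⟨e⟩ := tor_one (maximalIdeal S).subtype (maximalIdeal S).mkQ
      (Submodule.injective_subtype _) (Submodule.mkQ_surjective _) hex2 (S ⧸ maximalIdeal S)
    have h2 : LinearMap.ker ((maximalIdeal S).subtype.rTensor (S ⧸ maximalIdeal S)) = ⊤ := by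
      rw [eq_top_iff]
      intro x _
      rw [LinearMap.mem_ker]
      induction x using TensorProduct.induction_on with
      | zero => simp
      | tmul a b =>
        obtain ⟨b, rfl⟩ := Submodule.mkQ_surjective _ b
        rw [LinearMap.rTensor_tmul]
        have h5 : ((maximalIdeal S).subtype a) ⊗ₜ[S] ((maximalIdeal S).mkQ b) =
            (1 : S) ⊗ₜ[S] ((a : S) • (maximalIdeal S).mkQ b) := by
          rw [← TensorProduct.smul_tmul, smul_eq_mul, mul_one]
          rfl
        rw [h5, ← map_smul, smul_eq_mul]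
        have h6 : (maximalIdeal S).mkQ ((a : S) * b) = 0 := by
          rw [Submodule.mkQ_apply, Submodule.Quotient.mk_eq_zero]
          exact Ideal.mul_mem_right _ _ a.2
        rw [h6, TensorProduct.tmul_zero]
      | add x y hx hy => rw [map_add, hx trivial, hy trivial, add_zero]
    have h3 : Subsingleton (LinearMap.ker
      ((maximalIdeal S).subtype.rTensor (S ⧸ maximalIdeal S))) := e.symm.toEquiv.subsingleton
    have h4 := nontrivial_tor_zero (B := S) (maximalIdeal S) (S ⧸ maximalIdeal S)
    have h5 : Subsingleton (TorM S 0 (maximalIdeal S) (S ⧸ maximalIdeal S)) := by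
      refine ⟨fun x y => ?_⟩
      apply (torZero (maximalIdeal S) (S ⧸ maximalIdeal S)).injective
      have hx : torZero (maximalIdeal S) (S ⧸ maximalIdeal S) x ∈ LinearMap.ker
        ((maximalIdeal S).subtype.rTensor (S ⧸ maximalIdeal S)) := by rw [h2]; trivial
      have hy : torZero (maximalIdeal S) (S ⧸ maximalIdeal S) y ∈ LinearMap.ker
        ((maximalIdeal S).subtype.rTensor (S ⧸ maximalIdeal S)) := by rw [h2]; trivial
      exact congrArg Subtype.val (Subsingleton.elim (⟨_, hx⟩ : LinearMap.ker
        ((maximalIdeal S).subtype.rTensor (S ⧸ maximalIdeal S))) ⟨_, hy⟩)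
    exact not_subsingleton _ h5
  · exfalso
    apply hmin (n + 1) (by omega)
    intro j hj
    rcases Nat.eq_or_lt_of_le hj with rfl | hlt
    · have hex3 : Exact f (LinearMap.range f).mkQ := LinearMap.exact_map_mkQ_range f
      obtain ⟨δ, h1, h2, -⟩ := exists_torDelta f (LinearMap.range f).mkQ hf
        (Submodule.mkQ_surjective _) hex3 (S ⧸ maximalIdeal S)
      have h4 : Subsingleton (TorM S (n + 1 + 1) (S ⧸ LinearMap.range f) (S ⧸ maximalIdeal S)) :=
        hall _ _ le_rfl
      have h5 : Subsingleton (TorM S (n + 1) S (S ⧸ maximalIdeal S)) :=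
        tor_subsingleton_of_flat n
      refine subsingleton_of_forall_eq 0 fun x => ?_
      obtain ⟨y, rfl⟩ := (h2 (n + 1) x).1 (Subsingleton.elim _ _)
      rw [Subsingleton.elim y 0, map_zero]
    · exact hn j (by omega)

/-- Choice of a good element. -/
theorem exists_regular_notMem_sq (hne : maximalIdeal S ≠ ⊥)
    (hass : maximalIdeal S ∉ associatedPrimes S S) :
    ∃ x ∈ maximalIdeal S, x ∉ maximalIdeal S ^ 2 ∧ IsSMulRegular S x := by
  classical
  have hfin := associatedPrimes.finite S S
  by_contra hcon
  push Not at hcon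
  have hsub : (maximalIdeal S : Set S) ⊆
      ⋃ i ∈ (↑(insert (maximalIdeal S ^ 2) hfin.toFinset) : Set (Ideal S)),
        ((id i : Ideal S) : Set S) := by
    intro z hz
    by_cases hz2 : z ∈ maximalIdeal S ^ 2
    · exact Set.mem_biUnion (Finset.mem_coe.mpr (Finset.mem_insert_self _ _)) hz2
    · have h1 := hcon z hz hz2
      have h2 : z ∈ ⋃ p ∈ associatedPrimes S S, (p : Set S) := by
        rw [biUnion_associatedPrimes_eq_compl_nonZeroDivisors]
        intro h3
        apply h1
        intro a b hab
        have h4 : z * (a - b) = 0 := by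
          rw [mul_sub, sub_eq_zero]
          exact hab
        exact sub_eq_zero.1 ((mem_nonZeroDivisors_iff.1 h3).1 _ h4)
      simp only [Set.mem_iUnion] at h2
      obtain ⟨P, hP, hzP⟩ := h2
      exact Set.mem_biUnion (Finset.mem_coe.mpr (Finset.mem_insert_of_mem
        (hfin.mem_toFinset.mpr hP))) hzP
  rw [Ideal.subset_union_prime (f := id) (maximalIdeal S ^ 2) (maximalIdeal S ^ 2)] at hsub
  · obtain ⟨P, hP, hle⟩ := hsub
    rcases Finset.mem_insert.mp hP with rfl | hP
    · apply hne
      apply Submodule.eq_bot_of_le_smul_of_le_jacobson_bot (maximalIdeal S) _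
        ((maximalIdeal S).fg_of_isNoetherianRing)
      · rw [smul_eq_mul, ← pow_two]; exact hle
      · rw [IsLocalRing.jacobson_eq_maximalIdeal _ bot_ne_top]
    · have hP2 := hfin.mem_toFinset.mp hP
      have hPp : P.IsPrime := hP2.1
      have hPeq : P = maximalIdeal S := le_antisymm (le_maximalIdeal hPp.ne_top) hle
      exact hass (hPeq ▸ hP2)
  · intro P hP h1 _
    rcases Finset.mem_insert.mp hP with rfl | hP
    · exact absurd rfl h1
    · exact (hfin.mem_toFinset.mp hP).1

/-- A functional on the maximal ideal. -/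
theorem exists_functional (x : maximalIdeal S) (hx : (x : S) ∉ maximalIdeal S ^ 2) :
    ∃ l : maximalIdeal S →ₗ[S] (S ⧸ maximalIdeal S), l x = Ideal.Quotient.mk _ 1 := by
  have h0 : (maximalIdeal S).toCotangent x ≠ 0 := by
    rw [Ne, Ideal.toCotangent_eq_zero]
    exact hx
  have h1 : ∃ f : Module.Dual (ResidueField S) (CotangentSpace S),
      f ((maximalIdeal S).toCotangent x) ≠ 0 := by
    by_contra hcon
    push Not at hcon
    exact h0 ((Module.forall_dual_apply_eq_zero_iff (ResidueField S) _).1 hcon)
  obtain ⟨f, hf⟩ := h1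
  let g : Module.Dual (ResidueField S) (CotangentSpace S) :=
    (f ((maximalIdeal S).toCotangent x))⁻¹ • f
  have hg : g ((maximalIdeal S).toCotangent x) = 1 := by
    change (f ((maximalIdeal S).toCotangent x))⁻¹ • f ((maximalIdeal S).toCotangent x) = 1
    rw [smul_eq_mul, inv_mul_cancel₀ hf]
  let l : maximalIdeal S →ₗ[S] ResidueField S :=
    (g.restrictScalars S) ∘ₗ (maximalIdeal S).toCotangent
  exact ⟨l, hg⟩

end crit

section step

variable {S A : Type u} [CommRing S] [IsLocalRing S] [IsNoetherianRing S] [CommRing A]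
  [IsLocalRing A] [Algebra S A]

omit [IsNoetherianRing S] in
theorem exists_residue_equiv (hsurj : Surjective (algebraMap S A)) :
    ∃ e : (S ⧸ maximalIdeal S) ≃ₗ[S] (A ⧸ maximalIdeal A),
      e (Submodule.Quotient.mk 1) = Submodule.Quotient.mk 1 := by
  let q : S →ₗ[S] (A ⧸ maximalIdeal A) :=
    ((maximalIdeal A).mkQ.restrictScalars S) ∘ₗ (Algebra.linearMap S A)
  have hq : Surjective q := (Submodule.mkQ_surjective _).comp hsurj
  have hker : LinearMap.ker q = maximalIdeal S := by
    have h1 : LinearMap.ker q = (maximalIdeal A).comap (algebraMap S A) := by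
      ext s
      rw [LinearMap.mem_ker, Ideal.mem_comap]
      change (maximalIdeal A).mkQ _ = 0 ↔ _
      rw [Submodule.mkQ_apply, Submodule.Quotient.mk_eq_zero]
      rfl
    rw [h1]
    have : IsLocalHom (algebraMap S A) := IsLocalHom.of_surjective _ hsurj
    exact ((IsLocalRing.local_hom_TFAE (algebraMap S A)).out 0 4).1 this
  refine ⟨Submodule.quotEquivOfEq _ _ hker.symm ≪≫ₗ q.quotKerEquivOfSurjective hq, ?_⟩
  change q 1 = _
  change (maximalIdeal A).mkQ (algebraMap S A 1) = _
  rw [map_one]
  rfl

/-- Tor over `S/x` of the residue field vanishes if it does over `S`. -/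
theorem tor_residue_quotient (x : S) (hx : x ∈ maximalIdeal S) (hx2 : x ∉ maximalIdeal S ^ 2)
    (H : IsHypersurface S A x) (n₀ : ℕ)
    (h : ∀ j, n₀ ≤ j → Subsingleton (TorM S j (S ⧸ maximalIdeal S) (S ⧸ maximalIdeal S)))
    (j : ℕ) (hj : n₀ + 1 ≤ j) :
    Subsingleton (TorM A j (A ⧸ maximalIdeal A) (A ⧸ maximalIdeal A)) := by
  have hm : (maximalIdeal S).map (algebraMap S A) = maximalIdeal A :=
    map_maximalIdeal_of_surjective _ H.surj
  obtain ⟨e, he⟩ := exists_residue_equiv (S := S) (A := A) H.surj
  have hKreg : IsSMulRegular (maximalIdeal S) x := by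
    intro a b hab
    apply Subtype.ext
    apply H.regular
    exact congrArg Subtype.val hab
  obtain ⟨X, _, _, _, _, φ, hφ⟩ := exists_baseChange (R := S) A (maximalIdeal S)
  have hX : Subsingleton (TorM A j X (A ⧸ maximalIdeal A)) := by
    have h1 := H.length_tor_baseChange j hφ hKreg (A ⧸ maximalIdeal A)
    rw [← Module.length_eq_zero_iff (R := A), ← h1, Module.length_eq_zero_iff]
    obtain ⟨i, rfl⟩ : ∃ i, j = i + 1 := ⟨j - 1, by omega⟩
    obtain ⟨e2⟩ := tor_shift (maximalIdeal S).subtype (maximalIdeal S).mkQ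
      (Submodule.injective_subtype _) (Submodule.mkQ_surjective _)
      (LinearMap.exact_subtype_mkQ _) (A ⧸ maximalIdeal A) i
    have h3 := h (i + 2) (by omega)
    have h4 : Subsingleton (TorM S (i + 2) (S ⧸ maximalIdeal S) (A ⧸ maximalIdeal A)) :=
      (torCongrRight (i + 2) (S ⧸ maximalIdeal S) e).symm.toEquiv.subsingleton
    exact e2.symm.toEquiv.subsingleton
  -- the splitting
  obtain ⟨l, hl⟩ := exists_functional S ⟨x, hx⟩ hx2
  obtain ⟨π, hπ⟩ : ∃ π : X →ₗ[A] (A ⧸ maximalIdeal A), ∀ k, π (φ k) = e (l k) :=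
    ⟨hφ.lift (e.toLinearMap ∘ₗ l), fun k => hφ.lift_eq _ k⟩
  have hkill : maximalIdeal A ≤ LinearMap.ker
      (LinearMap.toSpanSingleton A X (φ ⟨x, hx⟩)) := by
    rw [← hm, Ideal.map_le_iff_le_comap]
    intro s hs
    rw [Ideal.mem_comap, LinearMap.mem_ker, LinearMap.toSpanSingleton_apply, algebraMap_smul,
      ← map_smul]
    have h5 : s • (⟨x, hx⟩ : maximalIdeal S) = x • (⟨s, hs⟩ : maximalIdeal S) := by
      apply Subtype.ext
      exact mul_comm s x
    rw [h5]
    exact H.baseChange_smul φ _
  let ι : (A ⧸ maximalIdeal A) →ₗ[A] X :=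
    Submodule.liftQ _ (LinearMap.toSpanSingleton A X (φ ⟨x, hx⟩)) hkill
  have hι : ∀ a : A, ι (Submodule.Quotient.mk a) = a • φ ⟨x, hx⟩ := fun a => rfl
  have hπι : π ∘ₗ ι = LinearMap.id := by
    refine LinearMap.ext fun t => ?_
    obtain ⟨a, rfl⟩ := Submodule.Quotient.mk_surjective _ t
    rw [LinearMap.comp_apply, hι, map_smul, hπ, hl, LinearMap.id_apply]
    have h8 : e (Ideal.Quotient.mk (maximalIdeal S) 1) = Submodule.Quotient.mk 1 := he
    rw [h8, ← Submodule.Quotient.mk_smul, smul_eq_mul, mul_one]
  refine subsingleton_of_forall_eq 0 fun t => ?_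
  have h7 : torMap j π (A ⧸ maximalIdeal A) (torMap j ι (A ⧸ maximalIdeal A) t) = t := by
    have := congrArg (fun f => f t) (torMap_comp (N := (A ⧸ maximalIdeal A)) j ι π)
    rw [hπι, torMap_id] at this
    exact this.symm
  rw [← h7, Subsingleton.elim (torMap j ι (A ⧸ maximalIdeal A) t) 0, map_zero]

end step

section main

/-- Homological characterization of regularity. -/
theorem isRegularLocalRing_of_tor (d : ℕ) : ∀ (S : Type u) [CommRing S] [IsLocalRing S]
    [IsNoetherianRing S] (n₀ : ℕ) (_ : ringKrullDim S = d)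
    (_ : ∀ j, n₀ ≤ j → Subsingleton (TorM S j (S ⧸ maximalIdeal S) (S ⧸ maximalIdeal S))),
    IsRegularLocalRing S := by
  classical
  induction d with
  | zero =>
    intro S _ _ _ n₀ hd h
    by_cases hne : maximalIdeal S = ⊥
    · refine IsRegularLocalRing.of_spanFinrank_maximalIdeal_le S ?_
      rw [hne, Submodule.spanFinrank_bot, hd]
    · exfalso
      have hass : maximalIdeal S ∉ associatedPrimes S S := by
        intro hass
        obtain ⟨-, x, hx⟩ := isAssociatedPrime_iff.1 hass
        have hker : maximalIdeal S = LinearMap.ker (LinearMap.toSpanSingleton S S x) := by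
          rw [hx]
          ext a
          rw [Submodule.mem_colon_singleton, LinearMap.mem_ker]
          rfl
        exact hne (maximalIdeal_eq_bot_of_embedding S n₀ h
          ((maximalIdeal S).liftQ (LinearMap.toSpanSingleton S S x) hker.le) (by
            rw [← LinearMap.ker_eq_bot, Submodule.ker_liftQ_eq_bot']
            exact hker))
      obtain ⟨x, hx, -, hreg⟩ := exists_regular_notMem_sq S hne hass
      have h1 := ringKrullDim_quotient_span_singleton_succ_eq_ringKrullDim hreg hx
      have hnt : Nontrivial (S ⧸ Ideal.span {x}) := by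
        rw [Ideal.Quotient.nontrivial_iff, Ne, Ideal.span_singleton_eq_top]
        exact hx
      have h2 : (0 : WithBot ℕ∞) ≤ ringKrullDim (S ⧸ Ideal.span {x}) :=
        ringKrullDim_nonneg_of_nontrivial
      rw [hd] at h1
      have h3 : (0 : WithBot ℕ∞) + 1 ≤ 0 := by
        calc (0 : WithBot ℕ∞) + 1 ≤ ringKrullDim (S ⧸ Ideal.span {x}) + 1 := by gcongr
          _ = 0 := by rw [h1]; rfl
      rw [zero_add] at h3
      exact absurd h3 (by decide)
  | succ d ih =>
    intro S _ _ _ n₀ hd h
    have hne : maximalIdeal S ≠ ⊥ := by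
      intro hb
      have h1 := ringKrullDim_le_spanFinrank_maximalIdeal S
      rw [hb, Submodule.spanFinrank_bot, hd] at h1
      norm_cast at h1
    have hass : maximalIdeal S ∉ associatedPrimes S S := by
      intro hass
      obtain ⟨-, x, hx⟩ := isAssociatedPrime_iff.1 hass
      have hker : maximalIdeal S = LinearMap.ker (LinearMap.toSpanSingleton S S x) := by
        rw [hx]
        ext a
        rw [Submodule.mem_colon_singleton, LinearMap.mem_ker]
        rfl
      exact hne (maximalIdeal_eq_bot_of_embedding S n₀ h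
        ((maximalIdeal S).liftQ (LinearMap.toSpanSingleton S S x) hker.le) (by
          rw [← LinearMap.ker_eq_bot, Submodule.ker_liftQ_eq_bot']
          exact hker))
    obtain ⟨x, hx, hx2, hreg⟩ := exists_regular_notMem_sq S hne hass
    have h1 := ringKrullDim_quotient_span_singleton_succ_eq_ringKrullDim hreg hx
    have hnt : Nontrivial (S ⧸ Ideal.span {x}) := by
      rw [Ideal.Quotient.nontrivial_iff, Ne, Ideal.span_singleton_eq_top]
      exact hx
    have hloc : IsLocalRing (S ⧸ Ideal.span {x}) :=
      IsLocalRing.of_surjective' (Ideal.Quotient.mk _) Ideal.Quotient.mk_surjective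
    have H : IsHypersurface S (S ⧸ Ideal.span {x}) x :=
      { regular := hreg
        surj := Ideal.Quotient.mk_surjective
        ker := Ideal.mk_ker }
    obtain ⟨n, hn⟩ := exists_nat_eq_ringKrullDim (S ⧸ Ideal.span {x})
    have hnd : n = d := by
      rw [hn, hd] at h1
      norm_cast at h1
      omega
    subst hnd
    have hreg' := ih (S ⧸ Ideal.span {x}) (n₀ + 1) hn
      (fun j hj => tor_residue_quotient x hx hx2 H n₀ h j hj)
    -- generators
    obtain ⟨s, hcard, hs⟩ := Submodule.FG.exists_span_finset_card_eq_spanFinrank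
      ((maximalIdeal (S ⧸ Ideal.span {x})).fg_of_isNoetherianRing)
    change Ideal.span (s : Set (S ⧸ Ideal.span {x})) = maximalIdeal (S ⧸ Ideal.span {x}) at hs
    have hm : (maximalIdeal S).map (Ideal.Quotient.mk (Ideal.span {x})) =
        maximalIdeal (S ⧸ Ideal.span {x}) :=
      map_maximalIdeal_of_surjective _ Ideal.Quotient.mk_surjective
    let lift : (S ⧸ Ideal.span {x}) → S := surjInv Ideal.Quotient.mk_surjective
    have hlift : ∀ y, Ideal.Quotient.mk (Ideal.span {x}) (lift y) = y :=
      surjInv_eq Ideal.Quotient.mk_surjective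
    have hspan : maximalIdeal S = Ideal.span ((insert x (s.image lift) : Finset S) : Set S) := by
      apply le_antisymm
      · intro z hz
        have h4 : Ideal.Quotient.mk (Ideal.span {x}) z ∈
            (Ideal.span ((s.image lift : Finset S) : Set S)).map
              (Ideal.Quotient.mk (Ideal.span {x})) := by
          rw [Ideal.map_span, Finset.coe_image, ← Set.image_comp]
          have h5 : (Ideal.Quotient.mk (Ideal.span {x}) ∘ lift) '' (s : Set _) = s := by
            rw [show (Ideal.Quotient.mk (Ideal.span {x}) ∘ lift) = id from funext hlift]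
            simp
          rw [h5, hs, ← hm]
          exact Ideal.mem_map_of_mem _ hz
        rw [Ideal.mem_map_iff_of_surjective _ Ideal.Quotient.mk_surjective] at h4
        obtain ⟨w, hw, hwz⟩ := h4
        rw [Ideal.Quotient.mk_eq_mk_iff_sub_mem] at hwz
        have h6 : z = w - (w - z) := by ring
        rw [h6]
        apply Ideal.sub_mem
        · exact Ideal.span_mono (by simp) hw
        · exact Ideal.span_mono (by simp) hwz
      · rw [Ideal.span_le]
        intro z hz
        rw [Finset.coe_insert] at hz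
        rcases hz with rfl | hz
        · exact hx
        · rw [Finset.coe_image] at hz
          obtain ⟨y, hy, rfl⟩ := hz
          have h7 : y ∈ maximalIdeal (S ⧸ Ideal.span {x}) := by
            rw [← hs]
            exact Ideal.subset_span hy
          have hl : IsLocalHom (Ideal.Quotient.mk (Ideal.span {x})) :=
            IsLocalHom.of_surjective _ Ideal.Quotient.mk_surjective
          change lift y ∈ maximalIdeal S
          rw [mem_maximalIdeal, mem_nonunits_iff] at h7 ⊢
          intro hu
          apply h7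
          rw [← hlift y]
          exact hu.map _
    refine IsRegularLocalRing.of_spanFinrank_maximalIdeal_le S ?_
    have h8 : (maximalIdeal S).spanFinrank ≤ (insert x (s.image lift)).card := by
      rw [hspan]
      refine (Submodule.spanFinrank_span_le_ncard_of_finite (Finset.finite_toSet _)).trans ?_
      rw [Set.ncard_coe_finset]
    have h9 : (insert x (s.image lift)).card ≤ s.card + 1 :=
      (Finset.card_insert_le _ _).trans (by
        gcongr
        exact Finset.card_image_le)
    have h10 : s.card = n := by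
      have h11 := exists_nat_ringKrullDim (S ⧸ Ideal.span {x})
      rw [hn] at h11
      rw [hcard]
      exact_mod_cast h11.symm
    rw [hd]
    have : (maximalIdeal S).spanFinrank ≤ n + 1 := by omega
    exact_mod_cast this

/-- Localizations of regular local rings at primes are regular. -/
theorem isRegularLocalRing_localization (R : Type u) [CommRing R] [IsRegularLocalRing R]
    (P : Ideal R) [hP : P.IsPrime] (B : Type u) [CommRing B] [Algebra R B]
    [IsLocalization.AtPrime B P] [IsLocalRing B] : IsRegularLocalRing B := by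
  have hflat : Module.Flat R B := IsLocalization.flat B P.primeCompl
  have hnoe : IsNoetherianRing B := IsLocalization.isNoetherianRing P.primeCompl B inferInstance
  obtain ⟨d, hd⟩ := exists_nat_eq_ringKrullDim R
  obtain ⟨e, he⟩ := exists_nat_eq_ringKrullDim B
  refine isRegularLocalRing_of_tor e B (d + 1) he ?_
  intro j hj
  have h1 := regular_tor_vanish R d hd (R ⧸ P) (R ⧸ P) j hj
  have hm : P.map (algebraMap R B) = maximalIdeal B :=
    IsLocalization.AtPrime.map_eq_maximalIdeal P B
  have h2 : (B ⊗[R] (R ⧸ P)) ≃ₗ[B] (B ⧸ maximalIdeal B) :=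
    (Algebra.TensorProduct.quotIdealMapEquivTensorQuot B P).symm.toLinearEquiv ≪≫ₗ
      Submodule.quotEquivOfEq _ _ hm
  obtain ⟨e1⟩ := exists_tor_flat_iso (C := B) j (TensorProduct.isBaseChange R (R ⧸ P) B)
    (TensorProduct.isBaseChange R (R ⧸ P) B)
  have h3 : Subsingleton (B ⊗[R] (TorM R j (R ⧸ P) (R ⧸ P))) := inferInstance
  have h4 : Subsingleton (TorM B j (B ⊗[R] (R ⧸ P)) (B ⊗[R] (R ⧸ P))) :=
    e1.toEquiv.subsingleton
  have h5 : Subsingleton (TorM B j (B ⧸ maximalIdeal B) (B ⊗[R] (R ⧸ P))) :=
    (torCongrLeft j h2 _).symm.toEquiv.subsingleton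
  exact (torCongrRight j _ h2).symm.toEquiv.subsingleton

end main

end Vale.Agent.P177
end

section

/-!
Localizing a flat map `R → T` at a prime `Q` of `T`.
-/

namespace Vale.Agent.P177

open CategoryTheory TensorProduct Function IsLocalRing RingTheory.Sequence Pointwise

universe u

section loc

variable (R T : Type u) [CommRing R] [CommRing T] [Algebra R T] [Module.Flat R T]
  [IsRegularLocalRing R]

/-- Localization data at a prime. -/
structure LocData (Q : Ideal T) [Q.IsPrime] (L : Type u) [CommRing L] [Algebra R L]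
    [Algebra L (Localization.AtPrime Q)] : Prop where
  reg : IsRegularLocalRing L
  flat : Module.Flat L (Localization.AtPrime Q)
  loc : IsLocalHom (algebraMap L (Localization.AtPrime Q))
  dim : ringKrullDim L = (Q.comap (algebraMap R T)).height
  isloc : IsLocalization (Q.comap (algebraMap R T)).primeCompl L
  tower : IsScalarTower R L (Localization.AtPrime Q)

theorem exists_locData (Q : Ideal T) [Q.IsPrime] :
    ∃ (L : Type u) (_ : CommRing L) (_ : Algebra R L)
      (_ : Algebra L (Localization.AtPrime Q)), LocData R T Q L := by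
  let P := Q.under R
  let _ := Localization.AtPrime.algebraOfLiesOver P Q
  have hloc : IsLocalHom (algebraMap (Localization.AtPrime P) (Localization.AtPrime Q)) := by
    rw [RingHom.algebraMap_toAlgebra]
    exact Localization.isLocalHom_localRingHom P Q (algebraMap R T) Ideal.LiesOver.over
  refine ⟨Localization.AtPrime P, inferInstance, inferInstance, inferInstance, ?_⟩
  exact
    { reg := isRegularLocalRing_localization R P (Localization.AtPrime P)
      flat := inferInstance
      loc := hloc
      dim := IsLocalization.AtPrime.ringKrullDim_eq_height P (Localization.AtPrime P)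
      isloc := inferInstanceAs (IsLocalization P.primeCompl (Localization.AtPrime P))
      tower := inferInstance }

end loc

section cancel

variable {R T : Type u} [CommRing R] [CommRing T] [Algebra R T]

theorem exists_cancel_loc (Q : Ideal T) [Q.IsPrime] (L : Type u) [CommRing L] [Algebra R L]
    [Algebra L (Localization.AtPrime Q)] [IsScalarTower R L (Localization.AtPrime Q)]
    (M : Type u) [AddCommGroup M] [Module R M] :
    Nonempty ((Localization.AtPrime Q ⊗[L] (L ⊗[R] M)) ≃ₗ[Localization.AtPrime Q]
      (Localization.AtPrime Q ⊗[T] (T ⊗[R] M))) :=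
  ⟨AlgebraTensorModule.cancelBaseChange R L (Localization.AtPrime Q) (Localization.AtPrime Q) M
    ≪≫ₗ (AlgebraTensorModule.cancelBaseChange R T (Localization.AtPrime Q)
      (Localization.AtPrime Q) M).symm⟩

end cancel

section ann

variable {R L : Type u} [CommRing R] [CommRing L] [Algebra R L]

theorem map_annihilator_le (M : Type u) [AddCommGroup M] [Module R M] :
    (Module.annihilator R M).map (algebraMap R L) ≤ Module.annihilator L (L ⊗[R] M) := by
  rw [Ideal.map_le_iff_le_comap]
  intro a ha
  rw [Ideal.mem_comap, Module.mem_annihilator]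
  intro z
  induction z using TensorProduct.induction_on with
  | zero => exact smul_zero _
  | tmul b x =>
    rw [TensorProduct.smul_tmul', smul_eq_mul, ← Algebra.smul_def, TensorProduct.smul_tmul,
      Module.mem_annihilator.1 ha, TensorProduct.tmul_zero]
  | add x y hx hy => rw [smul_add, hx, hy, add_zero]

end ann

section dims

theorem krullDim_mono_of_subset {α : Type*} [Preorder α] {s t : Set α} (h : s ⊆ t) :
    Order.krullDim s ≤ Order.krullDim t :=
  Order.krullDim_le_of_strictMono (Set.inclusion h) (fun _ _ hab => hab)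

/-- Lower bound for the dimension of a localization. -/
theorem le_supportDim_localization (R : Type u) [CommRing R] [IsRegularLocalRing R]
    (P P₀ : Ideal R) [P.IsPrime] [hP₀ : P₀.IsPrime] (hle : P₀ ≤ P)
    (L : Type u) [CommRing L] [Algebra R L] [IsLocalization P.primeCompl L]
    [IsRegularLocalRing L] (M : Type u) [AddCommGroup M] [Module R M] [Module.Finite R M]
    (hM : (⟨P₀, hP₀⟩ : PrimeSpectrum R) ∈ Module.support R M) (p p₀ : ℕ)
    (hp : P.height = p) (hp₀ : P₀.height = p₀) :
    ((p - p₀ : ℕ) : WithBot ℕ∞) ≤ Module.supportDim L (L ⊗[R] M) := by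
  have hdisj : Disjoint (P.primeCompl : Set R) P₀ := by
    rw [Set.disjoint_left]
    intro x hx hx0
    exact hx (hle hx0)
  have hprime : (P₀.map (algebraMap R L)).IsPrime :=
    IsLocalization.isPrime_of_isPrime_disjoint P.primeCompl L P₀ hP₀ hdisj
  have hcomap : (P₀.map (algebraMap R L)).comap (algebraMap R L) = P₀ :=
    IsLocalization.comap_map_of_isPrime_disjoint P.primeCompl L hP₀ hdisj
  have hht : (P₀.map (algebraMap R L)).height = p₀ := by
    rw [IsLocalization.height_map_of_disjoint P.primeCompl P₀ hdisj, hp₀]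
  have hL : IsLocalization.AtPrime L P := ‹_›
  have hdimL : ringKrullDim L = (p : WithBot ℕ∞) := by
    rw [IsLocalization.AtPrime.ringKrullDim_eq_height P L, hp]
    rfl
  obtain ⟨zs, -, -, -, h1, h2, -⟩ := exists_ci hdimL (P₀.map (algebraMap R L))
  have h3 : zs.length = p₀ := by
    rw [hht] at h1
    exact_mod_cast h1.symm
  rw [h3] at h2
  rw [← h2]
  apply krullDim_mono_of_subset
  intro Q hQ
  rw [support_quotient_prime] at hQ
  have hflat : Module.Flat R L := IsLocalization.flat L P.primeCompl
  apply mem_support_baseChange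
  refine Module.mem_support_mono ?_ hM
  change P₀ ≤ Q.asIdeal.comap (algebraMap R L)
  rw [← hcomap]
  exact Ideal.comap_mono hQ

end dims

end Vale.Agent.P177
end

section

/-!
Stable filtrations and strict free covers.
-/

namespace Vale.Agent.P177

open IsLocalRing Function Pointwise

universe u

section fil

variable {A : Type*} [CommRing A] (I : Ideal A)

/-- A stable filtration starting with the whole module. -/
structure GoodFil {M : Type*} [AddCommGroup M] [Module A M] (F : ℕ → Submodule A M) : Prop where
  top : F 0 = ⊤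
  anti : ∀ n, F (n + 1) ≤ F n
  smul : ∀ n, I • F n ≤ F (n + 1)
  stable : ∃ n₀, ∀ n, n₀ ≤ n → I • F n = F (n + 1)

variable {I}
variable {M N : Type*} [AddCommGroup M] [Module A M] [AddCommGroup N] [Module A N]
  {F : ℕ → Submodule A M} {G : ℕ → Submodule A N}

theorem GoodFil.antitone (hF : GoodFil I F) : Antitone F := antitone_nat_of_succ_le hF.anti

theorem GoodFil.pow_smul (hF : GoodFil I F) (k n : ℕ) : I ^ k • F n ≤ F (n + k) := by
  induction k with
  | zero => simp
  | succ k ih =>
    rw [pow_succ', mul_smul]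
    exact (smul_mono_right I ih).trans (hF.smul _)

theorem GoodFil.smul_mem (hF : GoodFil I F) {k n : ℕ} {c : A} {m : M} (hc : c ∈ I ^ k)
    (hm : m ∈ F n) : c • m ∈ F (n + k) :=
  hF.pow_smul k n (Submodule.smul_mem_smul hc hm)

/-- The underlying filtration in the sense of Mathlib. -/
def GoodFil.toFiltration (hF : GoodFil I F) : I.Filtration M where
  N := F
  mono := hF.anti
  smul_le := hF.smul

theorem GoodFil.toFiltration_stable (hF : GoodFil I F) : hF.toFiltration.Stable := by
  obtain ⟨n₀, h⟩ := hF.stable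
  exact ⟨n₀, fun n hn => h n hn⟩

variable (I M) in
theorem goodFil_pow : GoodFil I (fun n => (I ^ n • ⊤ : Submodule A M)) where
  top := by simp
  anti n := by
    rw [pow_succ]
    exact Submodule.smul_mono_left Ideal.mul_le_left
  smul n := by rw [pow_succ', mul_smul]
  stable := ⟨0, fun n _ => by rw [pow_succ', mul_smul]⟩

variable (I) in
theorem goodFil_self : GoodFil I (fun n => (I ^ n : Ideal A)) := by
  have := goodFil_pow I A
  simpa using this

/-- The weighted filtration on a power of a module. -/
def wfil (G : ℕ → Submodule A N) {b : ℕ} (a : Fin b → ℕ) (n : ℕ) : Submodule A (Fin b → N) :=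
  Submodule.pi Set.univ (fun j => G (n - a j))

theorem mem_wfil {b : ℕ} {a : Fin b → ℕ} {n : ℕ} {f : Fin b → N} :
    f ∈ wfil G a n ↔ ∀ j, f j ∈ G (n - a j) := by
  simp [wfil, Submodule.mem_pi]

theorem GoodFil.weighted (hG : GoodFil I G) {b : ℕ} (a : Fin b → ℕ) : GoodFil I (wfil G a) where
  top := by
    ext f
    simp [mem_wfil, hG.top]
  anti n := by
    intro f hf
    rw [mem_wfil] at hf ⊢
    exact fun j => hG.antitone (by omega) (hf j)
  smul n := by
    rw [Submodule.smul_le]
    intro c hc f hf
    rw [mem_wfil] at hf ⊢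
    intro j
    have h1 := hG.smul_mem (k := 1) (by simpa using hc) (hf j)
    exact hG.antitone (by omega) h1
  stable := by
    obtain ⟨n₀, hn₀⟩ := hG.stable
    refine ⟨n₀ + ∑ j, a j, fun n hn => ?_⟩
    have haj : ∀ j, a j ≤ ∑ j, a j := fun j =>
      Finset.single_le_sum (f := a) (fun _ _ => Nat.zero_le _) (Finset.mem_univ j)
    refine le_antisymm ?_ ?_
    · rw [Submodule.smul_le]
      intro c hc f hf
      rw [mem_wfil] at hf ⊢
      intro j
      have h1 := hG.smul_mem (k := 1) (by simpa using hc) (hf j)
      exact hG.antitone (by omega) h1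
    · intro f hf
      rw [mem_wfil] at hf
      have h1 : f = ∑ j, LinearMap.single A (fun _ => N) j (f j) := by
        funext i
        simp [Finset.sum_apply, Pi.single_apply]
      rw [h1]
      refine Submodule.sum_mem _ fun j _ => ?_
      have h2 : f j ∈ I • G (n - a j) := by
        have h3 := haj j
        rw [hn₀ _ (by omega)]
        have h4 : n - a j + 1 = n + 1 - a j := by omega
        rw [h4]
        exact hf j
      have h5 : (I • G (n - a j)).map (LinearMap.single A (fun _ : Fin b => N) j) ≤
          I • wfil G a n := by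
        rw [Submodule.map_smul'']
        refine smul_mono_right I ?_
        rintro _ ⟨y, hy, rfl⟩
        rw [mem_wfil]
        intro i
        by_cases hij : i = j
        · subst hij
          simpa using hy
        · simp [Pi.single_eq_of_ne hij]
      exact h5 ⟨_, h2, rfl⟩

/-- Restriction of a stable filtration to a submodule (Artin-Rees). -/
theorem GoodFil.comap_subtype [IsNoetherianRing A] [Module.Finite A M] (hF : GoodFil I F)
    (K : Submodule A M) : GoodFil I (fun n => (F n).comap K.subtype) where
  top := by simp [hF.top]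
  anti n := Submodule.comap_mono (hF.anti n)
  smul n := by
    rw [Submodule.smul_le]
    intro c hc f hf
    exact hF.smul n (Submodule.smul_mem_smul hc hf)
  stable := by
    have h1 := hF.toFiltration_stable.inter_right (I.trivialFiltration K)
    obtain ⟨n₀, h2⟩ := h1
    refine ⟨n₀, fun n hn => ?_⟩
    apply Submodule.map_injective_of_injective K.injective_subtype
    have h3 := h2 n hn
    change I • (F n ⊓ K) = F (n + 1) ⊓ K at h3
    rw [Submodule.map_smul'', Submodule.map_comap_subtype, Submodule.map_comap_subtype,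
      inf_comm, h3, inf_comm]

/-- The linear map on a free module given by the images of the basis vectors. -/
noncomputable def lc {b : ℕ} (k : Fin b → M) : (Fin b → A) →ₗ[A] M :=
  Fintype.linearCombination A k

theorem lc_apply {b : ℕ} (k : Fin b → M) (f : Fin b → A) : lc k f = ∑ j, f j • k j :=
  Fintype.linearCombination_apply _ _ _

theorem lc_mem (hF : GoodFil I F) {b : ℕ} {a : Fin b → ℕ} {k : Fin b → M}
    (hk : ∀ j, k j ∈ F (a j)) {n : ℕ} {f : Fin b → A}
    (hf : f ∈ wfil (fun k => (I ^ k : Ideal A)) a n) : lc k f ∈ F n := by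
  rw [lc_apply]
  rw [mem_wfil] at hf
  refine Submodule.sum_mem _ fun j _ => ?_
  exact hF.antitone (by omega) (hF.smul_mem (hf j) (hk j))

end fil

end Vale.Agent.P177
end

section

/-!
Finite strict free resolutions of filtered modules over regular local rings.
-/

namespace Vale.Agent.P177

open IsLocalRing Function Pointwise

universe u

/-- The filtered module `(M, F)` has a strict free resolution of length at most `r`. -/
def FPD {A : Type u} [CommRing A] (I : Ideal A) : ℕ → ∀ (M : Type u) [AddCommGroup M] [Module A M]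
    (_ : ℕ → Submodule A M), Prop
  | 0, M, _, _, F => ∃ (b : ℕ) (a : Fin b → ℕ) (φ : (Fin b → A) →ₗ[A] M),
      (∀ n, (wfil (fun k => (I ^ k : Ideal A)) a n).map φ = F n) ∧ LinearMap.ker φ = ⊥
  | r + 1, M, _, _, F => ∃ (b : ℕ) (a : Fin b → ℕ) (φ : (Fin b → A) →ₗ[A] M),
      (∀ n, (wfil (fun k => (I ^ k : Ideal A)) a n).map φ = F n) ∧
      FPD I r (LinearMap.ker φ)
        (fun n => (wfil (fun k => (I ^ k : Ideal A)) a n).comap (LinearMap.ker φ).subtype)

section lift

variable {A A' : Type u} [CommRing A] [IsLocalRing A] [IsNoetherianRing A] [CommRing A']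
  [Algebra A A'] (hq : Surjective (algebraMap A A')) (x : A)
  (hker : RingHom.ker (algebraMap A A') = Ideal.span {x}) (hxm : x ∈ maximalIdeal A)
  (I : Ideal A) (hxI : x ∈ I) (hxreg : ∀ c, x * c = 0 → c = 0)
  (hxs : ∀ m c, x * c ∈ I ^ (m + 1) → c ∈ I ^ m)

variable {K K' : Type u} [AddCommGroup K] [Module A K] [Module.Finite A K] [AddCommGroup K']
  [Module A K'] [Module A' K'] [IsScalarTower A A' K'] (p : K →ₗ[A] K')
  (hp : Surjective p) (hpk : ∀ v, p v = 0 → ∃ w, v = x • w)
  (F : ℕ → Submodule A K) (F' : ℕ → Submodule A' K') (hF : GoodFil I F)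
  (hK0 : ∀ v : K, x • v = 0 → v = 0) (hKs : ∀ n (v : K), x • v ∈ F (n + 1) → v ∈ F n)
  (hF' : ∀ n y, y ∈ F' n ↔ ∃ v ∈ F n, p v = y)

omit [IsLocalRing A] [IsNoetherianRing A] in
include hker in
theorem exists_mul_of_map_eq_zero {b : ℕ} (f : Fin b → A) (h : ∀ j, algebraMap A A' (f j) = 0) :
    ∃ g : Fin b → A, f = x • g := by
  have h1 : ∀ j, ∃ c, f j = x * c := by
    intro j
    have : f j ∈ RingHom.ker (algebraMap A A') := h j
    rw [hker, Ideal.mem_span_singleton'] at this
    obtain ⟨c, hc⟩ := this
    exact ⟨c, by rw [← hc, mul_comm]⟩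
  choose g hg using h1
  exact ⟨g, funext fun j => hg j⟩

omit [IsLocalRing A] [IsNoetherianRing A] in
include hq in
theorem exists_lift_wfil {b : ℕ} (a : Fin b → ℕ) (n : ℕ) (f' : Fin b → A')
    (hf' : f' ∈ wfil (fun k => ((I.map (algebraMap A A')) ^ k : Ideal A')) a n) :
    ∃ f ∈ wfil (fun k => (I ^ k : Ideal A)) a n, ∀ j, algebraMap A A' (f j) = f' j := by
  rw [mem_wfil] at hf'
  have h1 : ∀ j, ∃ c ∈ I ^ (n - a j), algebraMap A A' c = f' j := by
    intro j
    have := hf' j
    rw [← Ideal.map_pow, Ideal.mem_map_iff_of_surjective _ hq] at this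
    exact this
  choose f hf hff using h1
  exact ⟨f, mem_wfil.2 hf, hff⟩

include hq hker hxm hxI hp hpk hF hKs hF' in
/-- Lifting a strict cover modulo `x`. -/
theorem lift_cover {b : ℕ} (a : Fin b → ℕ) (φ' : (Fin b → A') →ₗ[A'] K')
    (hφ' : ∀ n, (wfil (fun k => ((I.map (algebraMap A A')) ^ k : Ideal A')) a n).map φ' = F' n) :
    ∃ φ : (Fin b → A) →ₗ[A] K, (∀ n, (wfil (fun k => (I ^ k : Ideal A)) a n).map φ = F n) ∧
      (∀ f, p (φ f) = φ' (fun j => algebraMap A A' (f j))) := by
  have h1 : ∀ j, ∃ k ∈ F (a j), p k = φ' (Pi.single j 1) := by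
    intro j
    rw [← hF', ← hφ']
    refine ⟨Pi.single j 1, ?_, rfl⟩
    rw [SetLike.mem_coe, mem_wfil]
    intro i
    by_cases hij : i = j
    · subst hij
      simp
    · simp [Pi.single_eq_of_ne hij]
  choose k hk hpkj using h1
  have hcomp : ∀ f, p (lc k f) = φ' (fun j => algebraMap A A' (f j)) := by
    intro f
    rw [lc_apply, map_sum, LinearMap.pi_apply_eq_sum_univ φ']
    refine Finset.sum_congr rfl fun j _ => ?_
    rw [map_smul, hpkj, algebraMap_smul]
    congr 2
    funext i
    rw [Pi.single_apply]
    simp only [eq_comm]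
  refine ⟨lc k, ?_, hcomp⟩
  have hstep : ∀ n, ∀ v ∈ F n, ∃ f ∈ wfil (fun k => (I ^ k : Ideal A)) a n, ∃ w,
      v - lc k f = x • w := by
    intro n v hv
    have h2 : p v ∈ F' n := (hF' n _).2 ⟨v, hv, rfl⟩
    rw [← hφ'] at h2
    obtain ⟨f', hf', hf'v⟩ := h2
    obtain ⟨f, hf, hff⟩ := exists_lift_wfil hq I a n f' hf'
    refine ⟨f, hf, hpk _ ?_⟩
    rw [map_sub, hcomp]
    have : (fun j => algebraMap A A' (f j)) = f' := funext hff
    rw [this, hf'v, sub_self]
  have hle : ∀ n, (wfil (fun k => (I ^ k : Ideal A)) a n).map (lc k) ≤ F n := by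
    rintro n _ ⟨f, hf, rfl⟩
    exact lc_mem hF hk hf
  intro n
  refine le_antisymm (hle n) ?_
  induction n with
  | zero =>
    have h2 : F 0 ≤ (wfil (fun k => (I ^ k : Ideal A)) a 0).map (lc k) ⊔
        Ideal.span {x} • F 0 := by
      intro v hv
      obtain ⟨f, hf, w, hw⟩ := hstep 0 v hv
      rw [← sub_add_cancel v (lc k f), add_comm]
      refine Submodule.add_mem_sup ⟨f, hf, rfl⟩ ?_
      rw [hw]
      exact Submodule.smul_mem_smul (Ideal.mem_span_singleton_self x) (by rw [hF.top]; trivial)
    refine Submodule.le_of_le_smul_of_le_jacobson_bot ?_ ?_ h2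
    · exact IsNoetherian.noetherian _
    · rw [IsLocalRing.jacobson_eq_maximalIdeal ⊥ bot_ne_top, Ideal.span_singleton_le_iff_mem]
      exact hxm
  | succ n ih =>
    intro v hv
    obtain ⟨f, hf, w, hw⟩ := hstep (n + 1) v hv
    have hw' : w ∈ F n := by
      apply hKs
      rw [← hw]
      exact sub_mem hv (hle _ ⟨f, hf, rfl⟩)
    obtain ⟨g, hg, rfl⟩ := ih hw'
    refine ⟨f + x • g, add_mem hf ?_, ?_⟩
    · exact ((goodFil_self I).weighted a).smul n (Submodule.smul_mem_smul hxI hg)
    · rw [map_add, map_smul, ← hw]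
      abel

end lift

/-- Finite strict resolutions lift from `A/x` to `A`. -/
theorem FPD.lift {A A' : Type u} [CommRing A] [IsLocalRing A] [IsNoetherianRing A] [CommRing A']
    [Algebra A A'] (hq : Surjective (algebraMap A A')) (x : A)
    (hker : RingHom.ker (algebraMap A A') = Ideal.span {x}) (hxm : x ∈ maximalIdeal A)
    (I : Ideal A) (hxI : x ∈ I) (hxreg : ∀ c, x * c = 0 → c = 0)
    (hxs : ∀ m c, x * c ∈ I ^ (m + 1) → c ∈ I ^ m) (r : ℕ) :
    ∀ {K K' : Type u} [AddCommGroup K] [Module A K] [Module.Finite A K] [AddCommGroup K']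
      [Module A K'] [Module A' K'] [IsScalarTower A A' K'] (p : K →ₗ[A] K')
      (_ : Surjective p) (_ : ∀ v, p v = 0 → ∃ w, v = x • w)
      (F : ℕ → Submodule A K) (F' : ℕ → Submodule A' K') (_ : GoodFil I F)
      (_ : ∀ v : K, x • v = 0 → v = 0) (_ : ∀ n (v : K), x • v ∈ F (n + 1) → v ∈ F n)
      (_ : ∀ n y, y ∈ F' n ↔ ∃ v ∈ F n, p v = y),
      FPD (I.map (algebraMap A A')) r K' F' → FPD I r K F := by
  have hq0 : algebraMap A A' x = 0 := by
    have : x ∈ RingHom.ker (algebraMap A A') := hker ▸ Ideal.mem_span_singleton_self x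
    exact this
  induction r with
  | zero =>
    intro K K' _ _ _ _ _ _ _ p hp hpk F F' hF hK0 hKs hF' h
    obtain ⟨b, a, φ', hφ', hinj⟩ := h
    obtain ⟨φ, hφ, hφφ'⟩ := lift_cover hq x hker hxm I hxI p hp hpk F F' hF hKs hF' a φ' hφ'
    refine ⟨b, a, φ, hφ, ?_⟩
    have h1 : LinearMap.ker φ ≤ Ideal.span {x} • LinearMap.ker φ := by
      intro f hf
      have h2 : φ' (fun j => algebraMap A A' (f j)) = 0 := by
        rw [← hφφ', (LinearMap.mem_ker).1 hf, map_zero]
      have h3 : (fun j => algebraMap A A' (f j)) = 0 := by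
        have : (fun j => algebraMap A A' (f j)) ∈ LinearMap.ker φ' := h2
        rw [hinj] at this
        exact this
      obtain ⟨g, rfl⟩ := exists_mul_of_map_eq_zero x hker f (fun j => congrFun h3 j)
      refine Submodule.smul_mem_smul (Ideal.mem_span_singleton_self x) ?_
      rw [LinearMap.mem_ker, map_smul] at hf
      exact hK0 _ hf
    refine Submodule.eq_bot_of_le_smul_of_le_jacobson_bot (Ideal.span {x}) _ ?_ h1 ?_
    · exact IsNoetherian.noetherian _
    · rw [IsLocalRing.jacobson_eq_maximalIdeal ⊥ bot_ne_top, Ideal.span_singleton_le_iff_mem]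
      exact hxm
  | succ r ih =>
    intro K K' _ _ _ _ _ _ _ p hp hpk F F' hF hK0 hKs hF' h
    obtain ⟨b, a, φ', hφ', hrec⟩ := h
    obtain ⟨φ, hφ, hφφ'⟩ := lift_cover hq x hker hxm I hxI p hp hpk F F' hF hKs hF' a φ' hφ'
    refine ⟨b, a, φ, hφ, ?_⟩
    -- the induced map on kernels
    let ψ : (Fin b → A) →ₗ[A] (Fin b → A') :=
      LinearMap.pi fun j => (Algebra.linearMap A A').comp (LinearMap.proj j)
    have hψ : ∀ f, ψ f = fun j => algebraMap A A' (f j) := fun f => rfl
    let p₁ : LinearMap.ker φ →ₗ[A] LinearMap.ker φ' :=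
      LinearMap.codRestrict ((LinearMap.ker φ').restrictScalars A)
        (ψ.comp (LinearMap.ker φ).subtype) (fun f => by
          change φ' (ψ f.1) = 0
          rw [hψ, ← hφφ', (LinearMap.mem_ker).1 f.2, map_zero])
    have hp₁ : ∀ f : LinearMap.ker φ, (p₁ f : Fin b → A') = fun j => algebraMap A A' (f.1 j) :=
      fun f => rfl
    have hlift : ∀ n, ∀ f' ∈ LinearMap.ker φ',
        f' ∈ wfil (fun k => ((I.map (algebraMap A A')) ^ k : Ideal A')) a n →
        ∃ f ∈ LinearMap.ker φ, f ∈ wfil (fun k => (I ^ k : Ideal A)) a n ∧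
          ∀ j, algebraMap A A' (f j) = f' j := by
      intro n f' hf' hf'n
      obtain ⟨f, hf, hff⟩ := exists_lift_wfil hq I a n f' hf'n
      have h1 : p (φ f) = 0 := by
        rw [hφφ']
        have : (fun j => algebraMap A A' (f j)) = f' := funext hff
        rw [this]
        exact hf'
      obtain ⟨w, hw⟩ := hpk _ h1
      have hfn : φ f ∈ F n := by rw [← hφ]; exact ⟨f, hf, rfl⟩
      -- `w` comes from the appropriate step of the filtration
      have h2 : ∃ g, φ g = w ∧ x • g ∈ wfil (fun k => (I ^ k : Ideal A)) a n := by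
        cases n with
        | zero =>
          have hw0 : w ∈ F 0 := by rw [hF.top]; trivial
          rw [← hφ] at hw0
          obtain ⟨g, -, hg⟩ := hw0
          refine ⟨g, hg, ?_⟩
          rw [((goodFil_self I).weighted a).top]
          trivial
        | succ n =>
          rw [hw] at hfn
          have hw0 := hKs n w hfn
          rw [← hφ] at hw0
          obtain ⟨g, hg, hgw⟩ := hw0
          exact ⟨g, hgw, ((goodFil_self I).weighted a).smul n (Submodule.smul_mem_smul hxI hg)⟩
      obtain ⟨g, hgw, hxg⟩ := h2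
      refine ⟨f - x • g, ?_, sub_mem hf hxg, fun j => ?_⟩
      · rw [LinearMap.mem_ker, map_sub, map_smul, hgw, ← hw, sub_self]
      · rw [← hff j]
        simp [hq0]
    refine ih p₁ ?_ ?_ _ _ ?_ ?_ ?_ ?_ hrec
    · rintro ⟨f', hf'⟩
      obtain ⟨f, hf, -, hff⟩ := hlift 0 f' hf' (by
        rw [((goodFil_self (I.map (algebraMap A A'))).weighted a).top]; trivial)
      exact ⟨⟨f, hf⟩, Subtype.ext (funext hff)⟩
    · rintro ⟨f, hf⟩ h0
      have h1 : ∀ j, algebraMap A A' (f j) = 0 := fun j =>
        congrFun (congrArg Subtype.val h0) j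
      obtain ⟨g, rfl⟩ := exists_mul_of_map_eq_zero x hker f h1
      rw [LinearMap.mem_ker, map_smul] at hf
      exact ⟨⟨g, hK0 _ hf⟩, rfl⟩
    · exact ((goodFil_self I).weighted a).comap_subtype _
    · rintro ⟨f, hf⟩ h0
      have h1 : x • f = 0 := congrArg Subtype.val h0
      apply Subtype.ext
      funext j
      exact hxreg _ (congrFun h1 j)
    · rintro n ⟨f, hf⟩ h0
      have h1 : x • f ∈ wfil (fun k => (I ^ k : Ideal A)) a (n + 1) := h0
      change f ∈ wfil (fun k => (I ^ k : Ideal A)) a n
      rw [mem_wfil] at h1 ⊢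
      intro j
      have h2 := h1 j
      by_cases hj : a j ≤ n
      · have h3 : n + 1 - a j = (n - a j) + 1 := by omega
        rw [h3] at h2
        exact hxs _ _ h2
      · have h3 : n - a j = 0 := by omega
        rw [h3]
        simp
    · rintro n ⟨f', hf'⟩
      constructor
      · intro h
        obtain ⟨f, hf, hfn, hff⟩ := hlift n f' hf' h
        exact ⟨⟨f, hf⟩, hfn, Subtype.ext (funext hff)⟩
      · rintro ⟨⟨f, hf⟩, hfn, hff⟩
        have h1 : f ∈ wfil (fun k => (I ^ k : Ideal A)) a n := hfn
        change f' ∈ wfil (fun k => ((I.map (algebraMap A A')) ^ k : Ideal A')) a n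
        rw [mem_wfil] at h1 ⊢
        intro j
        have h2 : f' j = algebraMap A A' (f j) := (congrFun (congrArg Subtype.val hff) j).symm
        rw [h2, ← Ideal.map_pow]
        exact Ideal.mem_map_of_mem _ (h1 j)

end Vale.Agent.P177
end

section

/-!
Strict transforms of filtered modules.
-/

namespace Vale.Agent.P177

open Function IsLocalRing

universe u

section basic

variable {A : Type*} [CommRing A] {M M₁ : Type*} [AddCommGroup M] [Module A M]
  [AddCommGroup M₁] [Module A M₁] {x : A}

/-- `M₁` is the union of the `x ^ (-n) F n`. -/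
structure IsStrict (x : A) (F : ℕ → Submodule A M) (ι : M →ₗ[A] M₁) : Prop where
  reg : ∀ v : M₁, x • v = 0 → v = 0
  div : ∀ n, ∀ m ∈ F n, ∃ v, x ^ n • v = ι m
  surj : ∀ v, ∃ n, ∃ m ∈ F n, x ^ n • v = ι m
  ker : ∀ m, ι m = 0 → ∃ l, x ^ l • m = 0

variable {F : ℕ → Submodule A M} {ι : M →ₗ[A] M₁}

theorem IsStrict.reg_pow (h : IsStrict x F ι) (n : ℕ) {v : M₁} (hv : x ^ n • v = 0) : v = 0 := by
  induction n with
  | zero => simpa using hv
  | succ n ih =>
    rw [pow_succ', mul_smul] at hv
    exact ih (h.reg _ hv)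

theorem IsStrict.cancel (h : IsStrict x F ι) (n : ℕ) {v w : M₁} (hv : x ^ n • v = x ^ n • w) :
    v = w := by
  rw [← sub_eq_zero]
  apply h.reg_pow n
  rw [smul_sub, hv, sub_self]

end basic

section compare

variable {A : Type*} [CommRing A] {C₂ C₁ E₂ E₁ : Type*} [AddCommGroup C₂] [Module A C₂]
  [AddCommGroup C₁] [Module A C₁] [AddCommGroup E₂] [Module A E₂] [AddCommGroup E₁] [Module A E₁]
  {x : A} {K₂ : ℕ → Submodule A C₂} {K₁ : ℕ → Submodule A C₁} {ι₂ : C₂ →ₗ[A] E₂}
  {ι₁ : C₁ →ₗ[A] E₁}

variable {C₀ E₀ : Type*} [AddCommGroup C₀] [Module A C₀] [AddCommGroup E₀] [Module A E₀]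
  {K₀ : ℕ → Submodule A C₀} {ι₀ : C₀ →ₗ[A] E₀}

end compare

end Vale.Agent.P177
end

section

/-!
Quotients by the power torsion of an element.
-/

namespace Vale.Agent.P177

open IsLocalRing Function TensorProduct

universe u

section tors

variable {S : Type u} [CommRing S] (t : S) (W : Type u) [AddCommGroup W] [Module S W]

/-- Elements killed by a power of `t`. -/
def tors : Submodule S W where
  carrier := {w | ∃ n : ℕ, t ^ n • w = 0}
  zero_mem' := ⟨0, by simp⟩
  add_mem' := by
    rintro v w ⟨n, hn⟩ ⟨m, hm⟩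
    refine ⟨n + m, ?_⟩
    rw [smul_add, pow_add, mul_smul, mul_smul, hm, smul_zero, add_zero, smul_comm, hn, smul_zero]
  smul_mem' := by
    rintro c w ⟨n, hn⟩
    exact ⟨n, by rw [smul_comm, hn, smul_zero]⟩

variable {t W}

end tors

section strict

variable {A S : Type u} [CommRing A] [CommRing S] [Algebra A S] (x : A) (M : Type u)
  [AddCommGroup M] [Module A M]

variable {x M} {I : Ideal A}

end strict

end Vale.Agent.P177
end

section

/-!
The two sided situation `R₁ → T ← R₂`: additivity, symmetry, and the case where one of the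
modules has dimension zero.
-/

namespace Vale.Agent.P177

open CategoryTheory TensorProduct Function IsLocalRing RingTheory.Sequence Pointwise

universe u

/-- Euler characteristic of a pair of modules over two rings mapping to `T`. -/
noncomputable def chi (R₁ R₂ T : Type u) [CommRing R₁] [CommRing R₂] [CommRing T]
    [Algebra R₁ T] [Algebra R₂ T] (t : ℕ) (E G : Type u) [AddCommGroup E] [Module R₁ E]
    [AddCommGroup G] [Module R₂ G] : ℤ :=
  eulerTor T (t + 1) (T ⊗[R₁] E) (T ⊗[R₂] G)

/-- Serre's statements for a pair of modules. -/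
structure Pos (R₁ R₂ T : Type u) [CommRing R₁] [CommRing R₂] [CommRing T]
    [Algebra R₁ T] [Algebra R₂ T] (t b : ℕ) (E G : Type u) [AddCommGroup E] [Module R₁ E]
    [AddCommGroup G] [Module R₂ G] : Prop where
  dim_le : ∀ e g : ℕ, (e : WithBot ℕ∞) ≤ Module.supportDim R₁ E →
    (g : WithBot ℕ∞) ≤ Module.supportDim R₂ G → e + g ≤ b
  nonneg : 0 ≤ chi R₁ R₂ T t E G
  pos : ∀ e g : ℕ, (e : WithBot ℕ∞) ≤ Module.supportDim R₁ E →
    (g : WithBot ℕ∞) ≤ Module.supportDim R₂ G → b ≤ e + g → 0 < chi R₁ R₂ T t E G
  zero : (∀ e g : ℕ, (e : WithBot ℕ∞) ≤ Module.supportDim R₁ E →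
    (g : WithBot ℕ∞) ≤ Module.supportDim R₂ G → e + g < b) → chi R₁ R₂ T t E G = 0

section algebraic

variable {R₁ R₂ T : Type u} [CommRing R₁] [CommRing R₂] [CommRing T] [IsLocalRing T]
  [Algebra R₁ T] [Algebra R₂ T] {t b : ℕ}

theorem FP.mono {E G E' G' : Type u} [AddCommGroup E] [Module R₁ E]
    [AddCommGroup G] [Module R₂ G] [AddCommGroup E'] [Module R₁ E']
    [AddCommGroup G'] [Module R₂ G'] (h : FP R₁ R₂ T E G)
    (h1 : Module.annihilator R₁ E ≤ Module.annihilator R₁ E')
    (h2 : Module.annihilator R₂ G ≤ Module.annihilator R₂ G') : FP R₁ R₂ T E' G' :=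
  h.trans (Ideal.radical_mono (sup_le_sup (Ideal.map_mono h1) (Ideal.map_mono h2)))

theorem FP.symm {E G : Type u} [AddCommGroup E] [Module R₁ E]
    [AddCommGroup G] [Module R₂ G] (h : FP R₁ R₂ T E G) : FP R₂ R₁ T G E := by
  unfold FP at h ⊢
  rwa [sup_comm]

omit [IsLocalRing T] in
theorem map_ann_le_tensor (E : Type u) [AddCommGroup E] [Module R₁ E] :
    (Module.annihilator R₁ E).map (algebraMap R₁ T) ≤ Module.annihilator T (T ⊗[R₁] E) := by
  rw [Ideal.map_le_iff_le_comap]
  intro a ha
  rw [Ideal.mem_comap, Module.mem_annihilator]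
  intro x
  induction x using TensorProduct.induction_on with
  | zero => exact smul_zero _
  | tmul s m =>
    rw [algebraMap_smul, TensorProduct.smul_tmul', TensorProduct.smul_tmul,
      Module.mem_annihilator.1 ha, TensorProduct.tmul_zero]
  | add x y hx hy => rw [smul_add, hx, hy, add_zero]

theorem FP.fl2 {E G : Type u} [AddCommGroup E] [Module R₁ E]
    [AddCommGroup G] [Module R₂ G] (h : FP R₁ R₂ T E G) :
    FL2 ([] : List T) (T ⊗[R₁] E) (T ⊗[R₂] G) := by
  refine h.trans (Ideal.radical_mono ?_)
  exact (sup_le_sup (map_ann_le_tensor E) (map_ann_le_tensor G)).trans le_sup_left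

omit [IsLocalRing T] in
theorem chi_symm (E G : Type u) [AddCommGroup E] [Module R₁ E]
    [AddCommGroup G] [Module R₂ G] : chi R₁ R₂ T t E G = chi R₂ R₁ T t G E :=
  eulerTor_symm _ _ _

omit [IsLocalRing T] in
theorem chi_congr {E G E' G' : Type u} [AddCommGroup E] [Module R₁ E]
    [AddCommGroup G] [Module R₂ G] [AddCommGroup E'] [Module R₁ E']
    [AddCommGroup G'] [Module R₂ G'] (e : E ≃ₗ[R₁] E') (e' : G ≃ₗ[R₂] G') :
    chi R₁ R₂ T t E G = chi R₁ R₂ T t E' G' :=
  eulerTor_congr (AlgebraTensorModule.congr (LinearEquiv.refl T T) e)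
    (AlgebraTensorModule.congr (LinearEquiv.refl T T) e') _

omit [IsLocalRing T] in
theorem Pos.congr {E G E' G' : Type u} [AddCommGroup E] [Module R₁ E]
    [AddCommGroup G] [Module R₂ G] [AddCommGroup E'] [Module R₁ E']
    [AddCommGroup G'] [Module R₂ G'] (e : E ≃ₗ[R₁] E') (e' : G ≃ₗ[R₂] G')
    (h : Pos R₁ R₂ T t b E G) : Pos R₁ R₂ T t b E' G' := by
  have h1 := Module.supportDim_eq_of_equiv e
  have h2 := Module.supportDim_eq_of_equiv e'
  have h3 := chi_congr (T := T) (t := t) e e'
  refine ⟨?_, ?_, ?_, ?_⟩
  · rw [← h1, ← h2]; exact h.dim_le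
  · rw [← h3]; exact h.nonneg
  · rw [← h1, ← h2, ← h3]; exact h.pos
  · rw [← h1, ← h2, ← h3]; exact h.zero

omit [IsLocalRing T] in
theorem Pos.symm {E G : Type u} [AddCommGroup E] [Module R₁ E]
    [AddCommGroup G] [Module R₂ G] (h : Pos R₁ R₂ T t b E G) : Pos R₂ R₁ T t b G E := by
  refine ⟨?_, ?_, ?_, ?_⟩
  · intro e g he hg
    rw [add_comm]
    exact h.dim_le g e hg he
  · rw [chi_symm]; exact h.nonneg
  · intro e g he hg hb
    rw [chi_symm]
    exact h.pos g e hg he (by omega)
  · intro hh
    rw [chi_symm]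
    exact h.zero fun e g he hg => by
      rw [add_comm]
      exact hh g e hg he

end algebraic

section additive

variable {R₁ R₂ T : Type u} [CommRing R₁] [CommRing R₂] [CommRing T]
  [IsNoetherianRing R₁] [IsNoetherianRing R₂] [IsRegularLocalRing T]
  [Algebra R₁ T] [Algebra R₂ T] [Module.Flat R₁ T] [Module.Flat R₂ T] {t b : ℕ}

omit [IsNoetherianRing R₁] [IsNoetherianRing R₂] [Module.Flat R₁ T] [Module.Flat R₂ T] in
theorem FP.length_ne_top {E G : Type u} [AddCommGroup E] [Module R₁ E] [Module.Finite R₁ E]
    [AddCommGroup G] [Module R₂ G] [Module.Finite R₂ G] (h : FP R₁ R₂ T E G) (j : ℕ) :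
    Module.length T (TorM T j (T ⊗[R₁] E) (T ⊗[R₂] G)) ≠ ⊤ := by
  have := tor_finite (R := T) j (T ⊗[R₁] E) (T ⊗[R₂] G)
  exact (h.fl2.tor j).length_ne_top

omit [IsNoetherianRing R₁] [IsNoetherianRing R₂] [Module.Flat R₂ T] in
theorem chi_add (ht : ringKrullDim T = t) {E' E E'' : Type u} [AddCommGroup E'] [Module R₁ E']
    [AddCommGroup E] [Module R₁ E] [AddCommGroup E''] [Module R₁ E''] [Module.Finite R₁ E']
    [Module.Finite R₁ E] [Module.Finite R₁ E'']
    (f : E' →ₗ[R₁] E) (g : E →ₗ[R₁] E'') (hf : Injective f) (hg : Surjective g)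
    (hex : Exact f g) (G : Type u) [AddCommGroup G] [Module R₂ G] [Module.Finite R₂ G]
    (h : FP R₁ R₂ T E G) :
    chi R₁ R₂ T t E G = chi R₁ R₂ T t E' G + chi R₁ R₂ T t E'' G := by
  have h' : FP R₁ R₂ T E' G := h.mono (LinearMap.annihilator_le_of_injective f hf) le_rfl
  have h'' : FP R₁ R₂ T E'' G := h.mono (LinearMap.annihilator_le_of_surjective g hg) le_rfl
  obtain ⟨k1, k2, k3⟩ := baseChange_ses (B := T) f g hf hg hex
  exact eulerTor_add _ _ k1 k2 k3 _ t (fun j => h'.length_ne_top j) (fun j => h.length_ne_top j)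
    (fun j => h''.length_ne_top j) (regular_tor_vanish T t ht _ _ (t + 1) le_rfl)

omit [IsNoetherianRing R₁] [IsNoetherianRing R₂] [Module.Flat R₂ T] in
theorem Pos.ext (ht : ringKrullDim T = t) {E' E E'' : Type u} [AddCommGroup E'] [Module R₁ E']
    [AddCommGroup E] [Module R₁ E] [AddCommGroup E''] [Module R₁ E''] [Module.Finite R₁ E']
    [Module.Finite R₁ E] [Module.Finite R₁ E'']
    (f : E' →ₗ[R₁] E) (g : E →ₗ[R₁] E'') (hf : Injective f) (hg : Surjective g)
    (hex : Exact f g) (G : Type u) [AddCommGroup G] [Module R₂ G] [Module.Finite R₂ G]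
    (h : FP R₁ R₂ T E G) (h1 : Pos R₁ R₂ T t b E' G) (h2 : Pos R₁ R₂ T t b E'' G) :
    Pos R₁ R₂ T t b E G := by
  have hadd := chi_add ht f g hf hg hex G h
  refine ⟨?_, ?_, ?_, ?_⟩
  · intro e g' he hg'
    rcases le_supportDim_of_exact f g hf hg hex e he with h3 | h3
    · exact h1.dim_le e g' h3 hg'
    · exact h2.dim_le e g' h3 hg'
  · rw [hadd]; exact add_nonneg h1.nonneg h2.nonneg
  · intro e g' he hg' hb
    rw [hadd]
    rcases le_supportDim_of_exact f g hf hg hex e he with h3 | h3
    · exact add_pos_of_pos_of_nonneg (h1.pos e g' h3 hg' hb) h2.nonneg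
    · exact add_pos_of_nonneg_of_pos h1.nonneg (h2.pos e g' h3 hg' hb)
  · intro hh
    rw [hadd, h1.zero, h2.zero, add_zero]
    · intro e g' he hg'
      exact hh e g' (he.trans (Module.supportDim_le_of_surjective g hg)) hg'
    · intro e g' he hg'
      exact hh e g' (he.trans (Module.supportDim_le_of_injective f hf)) hg'

omit [IsNoetherianRing R₁] [IsNoetherianRing R₂] [IsRegularLocalRing T]
  [Module.Flat R₁ T] [Module.Flat R₂ T] in
theorem Pos.of_subsingleton_left (E : Type u) [AddCommGroup E] [Module R₁ E]
    [Subsingleton E] (G : Type u) [AddCommGroup G] [Module R₂ G] :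
    Pos R₁ R₂ T t b E G := by
  have hdim : ∀ e : ℕ, ¬ ((e : WithBot ℕ∞) ≤ Module.supportDim R₁ E) := by
    intro e he
    rw [Module.supportDim_eq_bot_of_subsingleton] at he
    simp at he
  have h0 : chi R₁ R₂ T t E G = 0 := by
    have : Subsingleton (T ⊗[R₁] E) := inferInstance
    unfold chi eulerTor
    refine Finset.sum_eq_zero fun j _ => ?_
    have h1 : Module.length T (TorM T j (T ⊗[R₁] E) (T ⊗[R₂] G)) = 0 := by
      rw [Module.length_eq_zero_iff]
      refine subsingleton_of_forall_eq 0 fun x => ?_
      have h2 := tor_smul_eq_zero_left (R := T) (1 : T)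
        (fun m : T ⊗[R₁] E => Subsingleton.elim _ _) j (T ⊗[R₂] G) x
      rwa [one_smul] at h2
    rw [h1]
    simp
  exact ⟨fun e _ he _ => absurd he (hdim e), h0.ge, fun e _ he _ => absurd he (hdim e),
    fun _ => h0⟩

omit [IsNoetherianRing R₂] [Module.Flat R₂ T] in
/-- Reduction to quotients by primes in the first variable. The class of modules considered is
given by a bound on the dimension. -/
theorem pos_of_primes (ht : ringKrullDim T = t) (n : WithBot ℕ∞) (G : Type u) [AddCommGroup G]
    [Module R₂ G] [Module.Finite R₂ G]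
    (hP : ∀ P : Ideal R₁, P.IsPrime → Module.supportDim R₁ (R₁ ⧸ P) ≤ n →
      FP R₁ R₂ T (R₁ ⧸ P) G → Pos R₁ R₂ T t b (R₁ ⧸ P) G)
    (E : Type u) [AddCommGroup E] [Module R₁ E] [hE : Module.Finite R₁ E]
    (hn : Module.supportDim R₁ E ≤ n) (h : FP R₁ R₂ T E G) : Pos R₁ R₂ T t b E G := by
  induction hE using IsNoetherianRing.induction_on_isQuotientEquivQuotientPrime R₁ with
  | subsingleton N => exact Pos.of_subsingleton_left N G
  | quotient N P e =>
    have h1 : FP R₁ R₂ T (R₁ ⧸ P.1) G := h.mono (LinearEquiv.annihilator_eq e).le le_rfl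
    exact (hP P.1 P.2 (by rwa [← Module.supportDim_eq_of_equiv e]) h1).congr e.symm
      (LinearEquiv.refl _ _)
  | exact N₁ N₂ N₃ f g hf hg hex ih1 ih3 =>
    exact Pos.ext ht f g hf hg hex G h
      (ih1 ((Module.supportDim_le_of_injective f hf).trans hn)
        (h.mono (LinearMap.annihilator_le_of_injective f hf) le_rfl))
      (ih3 ((Module.supportDim_le_of_surjective g hg).trans hn)
        (h.mono (LinearMap.annihilator_le_of_surjective g hg) le_rfl))

end additive

end Vale.Agent.P177
end

section

/-!
P177, inner statement: the data of the flag formula with given Noether normalization and given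
flags (definitions only).
-/

namespace Vale.Agent.P177.Full

open TensorProduct IsLocalRing RingTheory.Sequence Function Module Vale.Agent.P177.Flag

universe u

/-- `W(k)[[u_1, .., u_r]]`. -/
abbrev Lam (p : ℕ) [Fact p.Prime] (k : Type u) [CommRing k] (r : ℕ) : Type u :=
  MvPowerSeries (Fin r) (WittVector p k)

/-- The ring `R` with the complete intersection `hs` and its Noether normalization. -/
structure Norm (p : ℕ) [Fact p.Prime] (R : Type u) [CommRing R] [IsLocalRing R] (r : ℕ)
    [IsLocalRing (Lam p (ResidueField R) r)]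
    [Algebra (Lam p (ResidueField R) r) R] (hs : List R) : Prop where
  mem : ∀ h ∈ hs, h ∈ maximalIdeal R
  residue : ∀ w, residue R (algebraMap (Lam p (ResidueField R) r) R (MvPowerSeries.C w)) =
    w.coeff 0
  X_mem : ∀ i, algebraMap (Lam p (ResidueField R) r) R (MvPowerSeries.X i) ∈ maximalIdeal R
  max : maximalIdeal (Lam p (ResidueField R) r) =
    Ideal.span ({(p : Lam p (ResidueField R) r)} ∪ Set.range MvPowerSeries.X)
  dim : ringKrullDim (Lam p (ResidueField R) r) = ringKrullDim (R ⧸ Ideal.ofList hs)
  finite : Module.Finite (Lam p (ResidueField R) r) (R ⧸ Ideal.ofList hs)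
  free : Module.Free (Lam p (ResidueField R) r) (R ⧸ Ideal.ofList hs)
  pow_le : ∃ M : ℕ, maximalIdeal R ^ M ≤ Ideal.ofList hs ⊔
    (maximalIdeal (Lam p (ResidueField R) r)).map (algebraMap (Lam p (ResidueField R) r) R)
  reg : IsWeaklyRegular R (hs ++ ((p : R) :: List.ofFn fun i =>
    algebraMap (Lam p (ResidueField R) r) R (MvPowerSeries.X i)))

/-- An `R`-module `L` killed by `hs`, free over `Λ`, with a flag of eigenvectors over `Ω`. -/
structure FlagMod {R : Type u} [CommRing R] (Λ : Type u) [CommRing Λ] [Algebra Λ R]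
    (Ω : Type u) [Field Ω] [Algebra Λ Ω] (hs : List R) where
  L : Type u
  [grp : AddCommGroup L]
  [modR : Module R L]
  [modΛ : Module Λ L]
  [tower : IsScalarTower Λ R L]
  n : ℕ
  b : Basis (Fin n) Λ L
  v : ℕ → Fin n → Ω
  σ : Fin n → R →ₐ[Λ] Ω
  flag : EigFlag b v σ
  kill : ∀ h ∈ hs, ∀ x : L, h • x = 0
  finite : Module.Finite R L

attribute [instance] FlagMod.grp FlagMod.modR FlagMod.modΛ FlagMod.tower FlagMod.finite

/-- The flag formula with given normalization and given flags. -/
def InnerStmt : Prop :=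
  ∀ (p : ℕ) [Fact p.Prime] (R : Type u) [CommRing R] [IsRegularLocalRing R]
    [IsAdicComplete (maximalIdeal R) R] [CharP (ResidueField R) p] [PerfectRing (ResidueField R) p]
    (d : ℕ), ringKrullDim R = d → (p : R) ≠ 0 → (p : R) ∈ maximalIdeal R ^ 2 →
    ∀ (P : Ideal R), P.IsPrime → ∀ hs : List R,
      maximalIdeal R ≤ (P ⊔ Ideal.ofList hs).radical →
      ∀ a r : ℕ, ringKrullDim (R ⧸ P) = a → hs.length + (r + 1) = d →
        ringKrullDim (R ⧸ Ideal.ofList hs) = ((r + 1 : ℕ) : WithBot ℕ∞) → a + (r + 1) ≤ d →
      ∀ [IsRegularLocalRing (Lam p (ResidueField R) r)] [Algebra (Lam p (ResidueField R) r) R],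
        Norm p R r hs →
      ∀ (Ω : Type u) [Field Ω] [IsAlgClosed Ω] [CharZero Ω] [Algebra (Lam p (ResidueField R) r) Ω]
        [FaithfulSMul (Lam p (ResidueField R) r) Ω]
        [Algebra.IsAlgebraic (Lam p (ResidueField R) r) Ω]
        (F : Fin 2 → FlagMod (Lam p (ResidueField R) r) Ω hs),
        ∃ w : (R →ₐ[Lam p (ResidueField R) r] Ω) → ℝ,
          (∀ i j, 0 ≤ w ((F i).σ j) ∧ (a + (r + 1) = d → 0 < w ((F i).σ j))) ∧
          ∀ i, (eulerTor R (d + 1) (R ⧸ P) (F i).L : ℝ) = ∑ j, w ((F i).σ j)

end Vale.Agent.P177.Full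
end

section

/-!
P177, inner assembly: the elementary hypotheses of the multiplicativity formula for the rings
`Λ → R`.
-/

namespace Vale.Agent.P177.Full

open TensorProduct IsLocalRing RingTheory.Sequence Function Module Vale.Agent.P177.Flag

universe u

section R

variable {R : Type u} [CommRing R] [IsRegularLocalRing R]

theorem length_tensor_ne_top {P : Ideal R} {hs : List R}
    (hrad : maximalIdeal R ≤ (P ⊔ Ideal.ofList hs).radical) (X : Type u) [AddCommGroup X]
    [Module R X] [Module.Finite R X] (hX : ∀ h ∈ hs, ∀ x : X, h • x = 0) :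
    Module.length R ((R ⧸ P) ⊗[R] X) ≠ ⊤ := by
  obtain ⟨k, hk⟩ := Ideal.exists_pow_le_of_le_radical_of_fg hrad (IsNoetherian.noetherian _)
  rw [Module.length_ne_top_iff]
  refine isFiniteLength_of_pow_smul_eq_zero k fun a ha z => ?_
  obtain ⟨b, hb, c, hc, rfl⟩ := Submodule.mem_sup.1 (hk ha)
  have h1 : ∀ x : X, c • x = 0 := by
    intro x
    have h2 : Ideal.ofList hs ≤ LinearMap.ker (LinearMap.toSpanSingleton R X x) := by
      rw [Ideal.ofList, Ideal.span_le]
      intro s hs'
      exact hX s hs' x
    exact h2 hc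
  induction z using TensorProduct.induction_on with
  | zero => exact smul_zero _
  | tmul y x =>
    obtain ⟨y, rfl⟩ := Ideal.Quotient.mk_surjective y
    have h3 : b • (Ideal.Quotient.mk P y) = 0 := Ideal.Quotient.eq_zero_iff_mem.2
      (Ideal.mul_mem_right _ _ hb)
    rw [add_smul, TensorProduct.smul_tmul', h3, TensorProduct.zero_tmul, zero_add,
      ← TensorProduct.tmul_smul, h1, TensorProduct.tmul_zero]
  | add x y hx hy => rw [smul_add, hx, hy, add_zero]

theorem length_tor_ne_top {P : Ideal R} {hs : List R}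
    (hrad : maximalIdeal R ≤ (P ⊔ Ideal.ofList hs).radical) (X : Type u) [AddCommGroup X]
    [Module R X] [Module.Finite R X] (hX : ∀ h ∈ hs, ∀ x : X, h • x = 0) (i : ℕ) :
    Module.length R (TorM R i (R ⧸ P) X) ≠ ⊤ :=
  tor_length_ne_top i _ _ (length_tensor_ne_top hrad X hX)

theorem eulerTor_eq_of_le {d : ℕ} (hd : ringKrullDim R = d) (P : Ideal R) (X : Type u)
    [AddCommGroup X] [Module R X] [Module.Finite R X] {nn : ℕ} (h : d + 1 ≤ nn) :
    eulerTor R nn (R ⧸ P) X = eulerTor R (d + 1) (R ⧸ P) X :=
  eulerTor_of_vanish _ _ _ _ h fun j hj => regular_tor_vanish R d hd _ _ j hj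

omit [IsRegularLocalRing R] in
theorem eulerTor_subsingleton (A X : Type u) [AddCommGroup A] [Module R A]
    [AddCommGroup X] [Module R X] [Subsingleton X] (n : ℕ) : eulerTor R n A X = 0 := by
  unfold eulerTor
  refine Finset.sum_eq_zero fun i _ => ?_
  have h1 : Subsingleton (TorM R i A X) := by
    cases i with
    | zero =>
      have h2 : Subsingleton (A ⊗[R] X) := by
        refine ⟨fun x y => ?_⟩
        have h3 : ∀ z : A ⊗[R] X, z = 0 := fun z => by
          induction z using TensorProduct.induction_on with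
          | zero => rfl
          | tmul a x => rw [Subsingleton.elim x 0, TensorProduct.tmul_zero]
          | add x y hx hy => rw [hx, hy, add_zero]
        rw [h3 x, h3 y]
      exact (torZero A X).toEquiv.subsingleton
    | succ i =>
      obtain ⟨e⟩ := tor_symm (i + 1) A X (R := R)
      have h2 : Subsingleton (TorM R (i + 1) X A) := tor_subsingleton_of_flat i
      exact e.toEquiv.subsingleton
  rw [Module.length_eq_zero_iff.2 h1]
  simp

end R

section Lam

variable {p : ℕ} [Fact p.Prime] {R : Type u} [CommRing R] [IsRegularLocalRing R]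
    [CharP (ResidueField R) p] {hs : List R} {r : ℕ} [IsRegularLocalRing (Lam p (ResidueField R) r)]
    [Algebra (Lam p (ResidueField R) r) R]

theorem Norm.isLocalHom (h : Norm p R r hs) :
    IsLocalHom (algebraMap (Lam p (ResidueField R) r) R) := by
  constructor
  intro a ha
  by_contra hna
  have h1 : a ∈ maximalIdeal (Lam p (ResidueField R) r) := (mem_maximalIdeal a).2 hna
  have h2 : maximalIdeal (Lam p (ResidueField R) r) ≤
      (maximalIdeal R).comap (algebraMap (Lam p (ResidueField R) r) R) := by
    rw [h.max, Ideal.span_le]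
    rintro x (hx | ⟨i, rfl⟩)
    · rw [Set.mem_singleton_iff] at hx
      subst hx
      change algebraMap _ R _ ∈ maximalIdeal R
      rw [map_natCast, ← residue_eq_zero_iff, map_natCast, CharP.cast_eq_zero]
    · exact h.X_mem i
  exact (mem_maximalIdeal _).1 (h2 h1) ha

end Lam

end Vale.Agent.P177.Full
end

section

/-!
P177, block POSTR: the norm of a polynomial over `R0[X_1..X_s]/(F_j(X_j))` as a product over all
choices of roots.
-/

namespace Vale.Agent.P177.Lev

open Polynomial

universe u

theorem res_split {R0 R1 : Type*} [CommRing R0] [CommRing R1] (φ : R0 →+* R1) {D : ℕ}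
    (F g : R0[X]) (n : ℕ) (hn : g.natDegree ≤ n) (c : Fin D → R1)
    (h : F.map φ = ∏ i, (X - C (c i))) :
    φ (resultant F g D n) = ∏ i, (g.map φ).eval (c i) := by
  nontriviality R1
  have hd : (∏ i : Fin D, (X - C (c i))).natDegree = D := by
    rw [natDegree_finsetProd_X_sub_C_eq_card, Finset.card_univ, Fintype.card_fin]
  have hn' : (g.map φ).natDegree ≤ n := natDegree_map_le.trans hn
  have h1 := resultant_prod_left Finset.univ (fun i => X - C (c i)) (g.map φ) n
    (by simp) hn'
  rw [hd] at h1
  rw [← resultant_map_map, h, h1]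
  refine Finset.prod_congr rfl fun i _ => ?_
  rw [natDegree_X_sub_C, resultant_X_sub_C_left _ _ _ hn']

theorem eval_finSucc {R0 R1 : Type*} [CommRing R0] [CommRing R1] (φ : R0 →+* R1) {s : ℕ}
    (y : R1) (z : Fin s → R1) (f : MvPolynomial (Fin (s + 1)) R0) :
    ((MvPolynomial.finSuccEquiv R0 s f).map (MvPolynomial.eval₂Hom φ z)).eval y =
      MvPolynomial.eval₂ φ (Fin.cons y z : Fin (s + 1) → R1) f := by
  have h : ((Polynomial.evalRingHom y).comp (Polynomial.mapRingHom
      (MvPolynomial.eval₂Hom φ z))).comp (MvPolynomial.finSuccEquiv R0 s : _ →+* _) =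
      MvPolynomial.eval₂Hom φ (Fin.cons y z : Fin (s + 1) → R1) := by
    refine MvPolynomial.ringHom_ext (fun r => ?_) fun i => ?_
    · simp [MvPolynomial.finSuccEquiv_apply]
    · refine Fin.cases ?_ (fun i => ?_) i
      · simp [MvPolynomial.finSuccEquiv_X_zero]
      · simp [MvPolynomial.finSuccEquiv_X_succ]
  exact congrArg (fun θ => θ f) h

theorem exists_norm (s : ℕ) : ∀ (R0 : Type u) [CommRing R0] (D : ℕ) (F : Fin s → R0[X])
    (f : MvPolynomial (Fin s) R0), ∃ N : R0, ∀ (R1 : Type u) [CommRing R1] (φ : R0 →+* R1)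
      (c : Fin s → Fin D → R1), (∀ j, (F j).map φ = ∏ i, (X - C (c j i))) →
      ∏ π : Fin s → Fin D, MvPolynomial.eval₂ φ (fun j => c j (π j)) f = φ N := by
  induction s with
  | zero =>
    intro R0 _ D F f
    refine ⟨MvPolynomial.isEmptyAlgEquiv R0 (Fin 0) f, fun R1 _ φ c _ => ?_⟩
    rw [Fintype.prod_unique]
    obtain ⟨a, rfl⟩ := MvPolynomial.C_surjective (R := R0) (Fin 0) f
    rw [MvPolynomial.eval₂_C]
    congr 1
    exact ((MvPolynomial.isEmptyAlgEquiv R0 (Fin 0)).commutes a).symm
  | succ s ih =>
    intro R0 _ D F f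
    let g := MvPolynomial.finSuccEquiv R0 s f
    let N0 : MvPolynomial (Fin s) R0 :=
      resultant ((F 0).map MvPolynomial.C) g D g.natDegree
    obtain ⟨N, hN⟩ := ih R0 D (fun j => F j.succ) N0
    refine ⟨N, fun R1 _ φ c hc => ?_⟩
    rw [← hN R1 φ (fun j => c j.succ) fun j => hc j.succ]
    rw [← Fintype.prod_equiv (Fin.consEquiv fun _ : Fin (s + 1) => Fin D)
      (fun q => MvPolynomial.eval₂ φ (fun j => c j ((Fin.cons q.1 q.2 : Fin (s + 1) → Fin D) j)) f)
      _ fun q => rfl, Fintype.prod_prod_type_right]
    refine Finset.prod_congr rfl fun π _ => ?_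
    have h1 := res_split (MvPolynomial.eval₂Hom φ fun j => c j.succ (π j))
      ((F 0).map MvPolynomial.C) g g.natDegree le_rfl (c 0) (by
        rw [Polynomial.map_map, MvPolynomial.eval₂Hom_comp_C, hc 0])
    refine Eq.trans ?_ h1.symm
    refine Finset.prod_congr rfl fun i _ => ?_
    rw [eval_finSucc]
    congr 1
    funext j
    refine Fin.cases ?_ (fun j => ?_) j
    · rfl
    · rfl

/-- the norm vanishes if `f` vanishes at a common root of the `F_j`. -/
theorem norm_eq_zero {s : ℕ} {R0 A : Type u} [CommRing R0] [CommRing A] [IsDomain A]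
    [Algebra R0 A] (hinj : Function.Injective (algebraMap R0 A)) {D : ℕ} (F : Fin s → R0[X])
    (hFm : ∀ j, (F j).Monic) (hFD : ∀ j, (F j).natDegree = D) (a : Fin s → A)
    (ha : ∀ j, aeval (a j) (F j) = 0) (f : MvPolynomial (Fin s) R0)
    (hf : MvPolynomial.aeval a f = 0)
    (R1 : Type u) [CommRing R1] (φ : R0 →+* R1) (c : Fin s → Fin D → R1)
    (hc : ∀ j, (F j).map φ = ∏ i, (X - C (c j i))) :
    ∏ π : Fin s → Fin D, MvPolynomial.eval₂ φ (fun j => c j (π j)) f = 0 := by
  obtain ⟨N, hN⟩ := exists_norm s R0 D F f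
  rw [hN R1 φ c hc]
  let Ω := AlgebraicClosure (FractionRing A)
  let θ : A →+* Ω := (algebraMap (FractionRing A) Ω).comp (algebraMap A (FractionRing A))
  have hθ : Function.Injective θ := (algebraMap (FractionRing A) Ω).injective.comp
    (IsFractionRing.injective A (FractionRing A))
  let φ' : R0 →+* Ω := θ.comp (algebraMap R0 A)
  have hφ' : Function.Injective φ' := hθ.comp hinj
  suffices h : φ' N = 0 by
    have : N = 0 := hφ' (h.trans (map_zero φ').symm)
    rw [this, map_zero]
  -- the roots in `Ω`
  have hroots : ∀ j, ∃ b : Fin D → Ω, (F j).map φ' = ∏ i, (X - C (b i)) := by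
    intro j
    have hm : ((F j).map φ').Monic := (hFm j).map φ'
    have hs : ((F j).map φ').Splits := IsAlgClosed.splits _
    have hcard : ((F j).map φ').roots.card = D := by
      rw [← hs.natDegree_eq_card_roots, (hFm j).natDegree_map φ', hFD j]
    have h1 := hs.eq_prod_roots_of_monic hm
    obtain ⟨l, hl⟩ : ∃ l : List Ω, (l : Multiset Ω) = ((F j).map φ').roots :=
      ⟨_, Multiset.coe_toList _⟩
    have hlen : l.length = D := by
      rw [← Multiset.coe_card, hl, hcard]
    subst hlen
    refine ⟨l.get, ?_⟩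
    rw [h1, ← hl, Multiset.map_coe, Multiset.prod_coe, ← List.prod_ofFn]
    congr 1
    exact ((List.ofFn_comp' l.get (fun x => X - C x)).trans (by rw [List.ofFn_get])).symm
  choose b hb using hroots
  have hex : ∀ j, ∃ i, b j i = θ (a j) := by
    intro j
    have h1 : ((F j).map φ').eval (θ (a j)) = 0 := by
      have h2 : ((F j).map φ').eval (θ (a j)) = θ (aeval (a j) (F j)) := by
        rw [aeval_def, hom_eval₂, eval_map]
      rw [h2, ha j, map_zero]
    rw [hb j, eval_prod, Finset.prod_eq_zero_iff] at h1
    obtain ⟨i, _, hi⟩ := h1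
    rw [eval_sub, eval_X, eval_C, sub_eq_zero] at hi
    exact ⟨i, hi.symm⟩
  choose π hπ using hex
  rw [← hN Ω φ' b hb]
  refine Finset.prod_eq_zero (Finset.mem_univ π) ?_
  have h3 : MvPolynomial.eval₂ φ' (fun j => b j (π j)) f = θ (MvPolynomial.aeval a f) := by
    rw [MvPolynomial.aeval_def, MvPolynomial.hom_eval₂]
    congr 1
    funext j
    exact hπ j
  rw [h3, hf, map_zero]

end Vale.Agent.P177.Lev
end
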