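import Mathlib
import Vale.Agent.P177.Bd4.B2
import Vale.Agent.P177.Bd4.B1
import Vale.Agent.P177.Bd4.B3
attribute [-instance] DenselyNormedField.toNontriviallyNormedField RCLike.toDenselyNormedField DenselyNormedField.toNormedField NontriviallyNormedField.toNormedField NormedField.toNormedDivisionRing littleWedderburn NormedDivisionRing.toDivisionRing NormedField.toField IdemCommSemiring.toCommSemiring Semifield.toCommSemiring DivisionRing.toDivisionSemiring IdemCommSemiring.toIdemSemiring KleeneAlgebra.toIdemSemiring CommCStarAlgebra.toNormedCommRing NormedField.toNormedCommRing CommCStarAlgebra.toCStarAlgebra CStarAlgebra.toNormedRing NormedCommRing.toNormedRing NormedDivisionRing.toNormedRing SemiRingCat.instSemiringObjForgetRingHomCarrier NormedCommRing.toSeminormedCommRing BooleanRing.toRing NormedRing.toSeminormedRing SeminormedCommRing.toSeminormedRing Field.toEuclideanDomain BooleanRing.toCommRing EuclideanDomain.toCommRing Field.toCommRing NormedCommRing.toCommRing SeminormedCommRing.toCommRing NormedRing.toRing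 SeminormedRing.toRing CommSemiRingCat.FilteredColimits.colimitCommSemiring Ring.toNonAssocRing CommSemiring.toNonAssocCommSemiring NonAssocCommRing.toNonAssocCommSemiring NonAssocCommSemiring.toNonAssocSemiring NonAssocRing.toNonAssocSemiring CommCStarAlgebra.toNonUnitalCommCStarAlgebra CStarAlgebra.toNonUnitalCStarAlgebra NonUnitalCommCStarAlgebra.toNonUnitalCStarAlgebra NonUnitalCommCStarAlgebra.toNonUnitalNormedCommRing NormedCommRing.toNonUnitalNormedCommRing NonUnitalCStarAlgebra.toNonUnitalNormedRing NonUnitalNormedCommRing.toNonUnitalNormedRing NormedRing.toNonUnitalNormedRing CommRing.toAddCommGroupWithOne AddCommMonCat.FilteredColimits.colimitAddCommMonoid AddCommGroupWithOne.toAddCommMonoidWithOne LeftPreLieRing.instLieAdmissibleRing RightPreLieRing.instLieAdmissibleRing NonUnitalNormedCommRing.toNonUnitalSeminormedCommRing SeminormedCommRing.toNonUnitalSeminormedCommRing NonUnitalNormedRing.toNonUnitalSeminormedRing NonUnitalSeminormedCommRing.toNonUnitalSeminormedRing SeminormedRing.toNonUnitalSeminormedRing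 NonUnitalNormedCommRing.toNonUnitalCommRing NonUnitalSeminormedCommRing.toNonUnitalCommRing NonUnitalCommRing.toNonUnitalRing NonUnitalNormedRing.toNonUnitalRing NonUnitalSeminormedRing.toNonUnitalRing Ring.toNonUnitalRing LeftPreLieRing.toNonUnitalNonAssocRing LieAdmissibleRing.toNonUnitalNonAssocRing RightPreLieRing.toNonUnitalNonAssocRing NonAssocCommRing.toNonUnitalNonAssocCommRing NonAssocRing.toNonUnitalNonAssocRing NonUnitalRing.toNonUnitalNonAssocRing NonUnitalRing.toNonUnitalSemiring Semiring.toNonUnitalSemiring NonAssocCommSemiring.toNonUnitalNonAssocCommSemiring NonUnitalCommSemiring.toNonUnitalNonAssocCommSemiring NonUnitalNonAssocCommRing.toNonUnitalNonAssocCommSemiring NonUnitalNonAssocCommSemiring.toNonUnitalNonAssocSemiring NonUnitalSemiring.toNonUnitalNonAssocSemiring LinearOrderedAddCommGroupWithTop.instLinearOrderedAddCommMonoidWithTop LinearOrderedAddCommGroupWithTop.toAddCommMonoid LinearOrderedAddCommMonoidWithTop.toAddCommMonoid AddCommMonoidWithOne.toAddCommMonoid CategoryTheory.CommGrpObj.toGrpObj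 CategoryTheory.Preadditive.instGrpObj CategoryTheory.Abelian.toPreadditive Pi.nonUnitalNonAssocSemiring MulSemiringAction.toDistribMulAction CategoryTheory.BimonObj.toMonObj CategoryTheory.CommRingObj.toRingObj CategoryTheory.GrpObj.toMonObj CategoryTheory.HopfObj.toBimonObj CategoryTheory.RingObj.toMonObj AddCommGroupWithOne.toAddGroupWithOne MonTypeEquivalenceMon.monMonoid LinearOrderedAddCommGroupWithTop.toSubNegMonoid NormedCommGroup.toNormedGroup NormedCommGroup.toSeminormedCommGroup NormedGroup.toSeminormedGroup SeminormedCommGroup.toSeminormedGroup SemiNormedGrp.str instCommGroupOfIsSimpleGroupOfIsNilpotent CommGroup.toGroup CommGrpTypeEquivalenceCommGrp.commGrpCommGroup GrpTypeEquivalenceGrp.grpGroup NormedCommGroup.toCommGroup NormedGroup.toGroup SeminormedCommGroup.toCommGroup SeminormedGroup.toGroup instDistribSMul NonUnitalNonAssocSemiring.toDistribSMul Bialgebra.toAlgebra CommSemiring.toBialgebra CommSemiring.toHopfAlgebra HopfAlgebra.toHopfAlgebraStruct HopfAlgebraStruct.toBialgebra NormedAlgebra.toAlgebra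 instNonUnitalCStarAlgebraForall instSMulZeroClass Pi.nonAssocSemiring NonUnitalNormedRing.toNormedAddCommGroup SSet.stdSimplex.instFunLikeObjOppositeSimplexCategoryMkOpFinHAddNatOfNat Complex.instRCLike ContDiffMapSupportedInClass.toDFunLike RKHS.instFunLike TestFunctionClass.toDFunLike instCoeT instCoeTOfCoeDep instCoeTC instCoeTCOfCoe instCoeHTC instCoeHTCT AddOpposite.instAddZero boolToProp ContinuousAddMonoidHom.instCoeOutOfAddMonoidHomClassOfContinuousMapClass ContinuousMonoidHom.instCoeOutOfMonoidHomClassOfContinuousMapClass HomeomorphClass.instCoeOutHomeomorph IsometryClass.instCoeOutIsometryEquiv LinearOrderedCommGroupWithZero.toLinearOrderedCommMonoidWithZero TensorProduct.instModuleFstSnd LinearOrderedCommGroupWithZero.toCommGroupWithZero Semifield.toCommGroupWithZero CommGroupWithZero.toGroupWithZero DivisionSemiring.toGroupWithZero Monoid.toMulAction Pi.nonUnitalSemiring MonCat.monoidObj CommGroupWithZero.toCommMonoidWithZero LinearOrderedCommMonoidWithZero.toCommMonoidWithZero Action.instMulAction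 Torsor.toMulAction Action.FintypeCat.instMulActionObjFiniteOf GradedMonoid.GradeZero.mulAction CommMonoidWithZero.toMonoidWithZero GroupWithZero.toMonoidWithZero Semiring.toMonoidWithZero LieAdmissibleRing.instLieRing AlgebraicGeometry.instOrderTopCarrierCarrierCommRingCatOfIsIntegral MonoidWithZero.toSemigroupWithZero NonUnitalNonAssocSemiring.toMulZeroClass SemigroupWithZero.toMulZeroClass Pi.addZeroClass Pi.instTopForall CompleteAtomicBooleanAlgebra.toCompleteBooleanAlgebra Invertible.toNeZero Nat.instNeZeroSucc NeZero.of_gt' Nat.AtLeastTwo.toNeZero Algebra.TensorProduct.instCommRing Algebra.TensorProduct.instRing LieAdmissibleAlgebra.toModule Algebra.TensorProduct.instCommSemiring Algebra.TensorProduct.instSemiring OrderDual.instDivisionSemiring Quaternion.instDivisionRing LinearOrderedCommMonoidWithZero.toIsBotZeroClass CompleteAtomicBooleanAlgebra.toCompletelyDistribLattice AddHom.addHomClass Group.instTorsor CompleteBooleanAlgebra.toCompleteDistribLattice CompletelyDistribLattice.toCompleteDistribLattice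 CompleteBooleanAlgebra.toBooleanAlgebra instRingHomSurjectiveForallEvalRingHom instSMulCommClassOfIsScalarTower LeftPreLieAlgebra.toSMulCommClass LieAdmissibleAlgebra.toSMulCommClass RightPreLieAlgebra.toSMulCommClass Algebra.TensorProduct.instNonAssocRing LieRing.toAddCommGroup instMulActionSemiHomClassMulActionHom Pi.normedRing TopologicalSpace.Compacts.instSetLike LeftPreLieAlgebra.toModule LieAlgebra.toModule NormedSpace.toModule RightPreLieAlgebra.toModule Algebra.TensorProduct.instNonAssocSemiring instNonUnitalAlgHomClassOfNonUnitalAlgEquivClass CategoryTheory.Limits.Concrete.instUniqueToTypeTerminal NonUnitalSeminormedRing.toSeminormedAddCommGroup NormedAddCommGroup.toSeminormedAddCommGroup CompleteDistribLattice.toCoframe CompleteDistribLattice.toFrame Nat.instAtLeastTwoHAddOfNat BooleanAlgebra.toBiheytingAlgebra CompleteDistribLattice.toBiheytingAlgebra CompleteLinearOrder.toBiheytingAlgebra CompletelyDistribLattice.toBiheytingAlgebra ProfiniteAddGrp.addGroup Nat.instNontrivial Nat.instOne Nat.Prime.one_lt'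 AbsoluteValue.zeroHomClass CentroidHomClass.toAddMonoidHomClass CommMonCat.str RingCat.FilteredColimits.colimitRing Fin.completeLinearOrder MulSemiringActionSemiHomClass.toDistribMulActionSemiHomClass ValuationClass.toMonoidWithZeroHomClass CompleteBooleanAlgebra.toCompleteLattice NormedAddCommGroup.toNormedAddGroup MonoidWithZeroHomClass.toZeroHomClass MulEquivClass.toMonoidWithZeroHomClass MulRingSeminormClass.toMonoidWithZeroHomClass PadicComplex.normedField CommMonTypeEquivalenceCommMon.commMonCommMonoid Pi.distribSMul' Algebra.TensorProduct.instNonUnitalRing Algebra.TensorProduct.instNonUnitalSemiring Pi.distribMulAction' CompleteLinearOrder.toLinearOrder ConditionallyCompleteLinearOrder.toLinearOrder LinearOrderedAddCommGroupWithTop.toLinearOrder LinearOrderedAddCommMonoidWithTop.toLinearOrder LinearOrderedCommMonoidWithZero.toLinearOrder CompleteLinearOrder.toCompleteLattice Order.Coframe.toCompleteLattice Order.Frame.toCompleteLattice BiheytingAlgebra.toCoheytingAlgebra BiheytingAlgebra.toHeytingAlgebra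 BooleanAlgebra.toGeneralizedBooleanAlgebra Order.Coframe.toCoheytingAlgebra Order.Frame.toHeytingAlgebra TensorProduct.instNormedAddCommGroup BoxIntegral.Box.instMembershipForallReal AlgHom.instContinuousLinearMapClassOfAlgHomClass BialgEquivClass.toCoalgEquivClass BialgHomClass.toCoalgHomClass CoalgEquivClass.toCoalgHomClass CoalgHomClass.toSemilinearMapClass ContinuousSemilinearEquivClass.continuousSemilinearMapClass ContinuousSemilinearMapClass.toSemilinearMapClass PositiveLinearMap.instContinuousLinearMapClassComplexOfLinearMapClassOfOrderHomClass RingHomClass.toLinearMapClassNNRat RingHomClass.toLinearMapClassRat SemilinearIsometryClass.toContinuousSemilinearMapClass SemilinearIsometryClass.toSemilinearMapClass AlgHomClass.linearMapClass NonUnitalAlgHomClass.instSemilinearMapClassOfNonUnitalAlgSemiHomClassToMonoidHomRingHom NormedAddGroup.toSeminormedAddGroup SeminormedAddCommGroup.toSeminormedAddGroup Algebra.TensorProduct.instNonUnitalNonAssocRing Algebra.TensorProduct.instNonUnitalNonAssocSemiring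 Pi.normedAddCommGroup Fin.instBiheytingAlgebra NonUnitalNormedRing.toMetricSpace NormedAddCommGroup.toMetricSpace NormedAddGroup.toMetricSpace NormedCommGroup.toMetricSpace NormedDivisionRing.toMetricSpace NormedField.toMetricSpace NormedGroup.toMetricSpace NormedRing.toMetricSpace TopologicalSpace.UpgradedIsCompletelyMetrizableSpace.toMetricSpace NonUnitalNonAssocSemiring.toDistrib instSubsingleton Group.IsPerfect.subsingleton_of_isMulCommutative CompleteLattice.toCompletePartialOrder CoheytingAlgebra.toGeneralizedCoheytingAlgebra GeneralizedBooleanAlgebra.toGeneralizedCoheytingAlgebra HeytingAlgebra.toGeneralizedHeytingAlgebra instIsDedekindDomainOfIsDomainOfIsDedekindRing instIsDomain DivisionRing.isDomain EuclideanDomain.instIsDomain Field.isDomain IsDedekindDomain.toIsDomain IsDedekindDomainDvr.isDedekindDomain IsDomain.of_isSimpleRing IsPrincipalIdealRing.isDedekindDomain IsStrictOrderedRing.isDomain CategoryTheory.instFinCategoryOfFintypeOfIsThin FinEnum.instFintype SetLike.instFintype Unique.fintype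 CategoryTheory.FinCategory.fintypeObj BialgEquivClass.toBialgHomClass IsEmpty.instSubsingleton MetricSpace.toPseudoMetricSpace NonUnitalSeminormedRing.toPseudoMetricSpace SeminormedAddCommGroup.toPseudoMetricSpace SeminormedAddGroup.toPseudoMetricSpace SeminormedCommGroup.toPseudoMetricSpace SeminormedGroup.toPseudoMetricSpace SeminormedRing.toPseudoMetricSpace TopologicalSpace.UpgradedIsCompletelyPseudoMetrizableSpace.toPseudoMetricSpace EMetricSpace.toPseudoEMetricSpace IsValuativeTopology.instValuedValueGroupWithZeroOfIsUniformAddGroup MetricSpace.toEMetricSpace PseudoEMetricSpace.toUniformSpace PseudoMetricSpace.toPseudoEMetricSpace PseudoMetricSpace.toUniformSpace UniformSpace.toTopologicalSpace UpgradedStandardBorel.toTopologicalSpace Valued.toUniformSpace WithIdeal.instTopologicalSpace WithIdeal.instUniformSpace Algebra.TensorProduct.right_isScalarTower SemilinearIsometryEquivClass.toSemilinearIsometryClass instOfNatAtLeastTwo AlgEquivClass.toAlgHomClass BialgHomClass.toAlgHomClass MulSemiringActionSemiHomClass.toRingHomClass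 RingEquivClass.toRingHomClass Pi.addMonoidWithOne CategoryTheory.Mat_.fintype Fin.instCoheytingAlgebra Fin.instHeytingAlgebra instConditionallyCompletePartialOrderSup CompleteLattice.toCompleteSemilatticeInf CompleteLattice.toCompleteSemilatticeSup Pi.smulZeroClass' LeftPreLieAlgebra.toIsScalarTower LieAdmissibleAlgebra.toIsScalarTower LieRinehartAlgebra.toIsScalarTower RightPreLieAlgebra.toIsScalarTower Pi.mulZeroOneClass FinEnum.decEq FunLike.toDecidableEq LinearOrder.toDecidableEq RCLike.toDecidableEq FirstOrder.Language.instDecidableEqFunctions FirstOrder.Language.instDecidableEqRelations instInfiniteOfUncountable instNontrivialOfCharZero CharZero.infinite Denumerable.instInfinite DivisionRing.toNontrivial EuclideanDomain.toNontrivial Field.henselian Field.instIsLocalRing GroupWithZero.toNontrivial HenselianLocalRing.toIsLocalRing Infinite.instNontrivial IsAlgClosed.instInfinite IsDiscreteValuationRing.toIsLocalRing IsDomain.toNontrivial IsLocalRing.toNontrivial IsOrderedRing.toIsStrictOrderedRing IsRegularLocalRing.instOfIsLocalRingOfIsDomainOfIsPrincipalIdealRing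 IsSimpleAddGroup.toNontrivial IsSimpleGroup.toNontrivial IsSimpleOrder.toNontrivial IsSimpleRing.instNontrivial IsStrictOrderedRing.toNontrivial LinearOrderedAddCommGroupWithTop.toNontrivial NoMaxOrder.infinite NoMinOrder.infinite NontriviallyNormedField.infinite ValuationRing.isLocalRing FirstOrder.Language.instInfiniteOfModelDloOrderOfNonempty Pi.subtractionMonoid TensorProduct.isScalarTower_right OrderDual.instPow_1 CommGrpCat.str ENormedAddCommMonoid.toESeminormedAddCommMonoid ENormedCommMonoid.toESeminormedCommMonoid NormedAddCommGroup.toENormedAddCommMonoid NormedCommGroup.toENormedCommMonoid OrderAddMonoidHom.instAddMonoidHomClass AlgebraicGeometry.Scheme.instPreorderCarrierCarrierCommRingCat Turing.FinTM2.decidableEqK NumberField.to_charZero CategoryTheory.Groupoid.toCategory CategoryTheory.StrictBicategory.category AddCommGroupWithOne.toAddCommGroup NonUnitalNonAssocRing.toAddCommGroup NormedAddCommGroup.toAddCommGroup NormedAddGroup.toAddGroup SeminormedAddCommGroup.toAddCommGroup SeminormedAddGroup.toAddGroup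 ChainCompletePartialOrder.instOfCompleteLattice ChainCompletePartialOrder.instOmegaCompletePartialOrder ChainCompletePartialOrder.toPartialOrder CompletePartialOrder.toOmegaCompletePartialOrder CompletePartialOrder.toPartialOrder OmegaCompletePartialOrder.toPartialOrder Pi.instSubtractionCommMonoid decidableEq_of_subsingleton PartOrdEmb.str AddMonCat.addMonoidObj Fin.instOfNat RCLike.toInnerProductSpaceReal TensorProduct.CompatibleSMul.int RootedTree.semilatticeInf instInhabitedOfMonad Unique.instInhabited instNonemptyOfMonad BooleanAlgebra.toDistribLattice CompleteLattice.toLattice CompleteLattice.toPartialOrder' CompleteSemilatticeInf.toPartialOrder CompleteSemilatticeSup.toPartialOrder ConditionallyCompletePartialOrderInf.toPartialOrder GeneralizedBooleanAlgebra.toDistribLattice GeneralizedCoheytingAlgebra.toDistribLattice GeneralizedCoheytingAlgebra.toLattice GeneralizedHeytingAlgebra.toDistribLattice GeneralizedHeytingAlgebra.toLattice Lattice.toSemilatticeSup LinearOrder.toLattice LinearOrder.toPartialOrder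 Pi.mulZeroClass SemilatticeSup.toPartialOrder Order.Coframe.toDistribLattice Order.Frame.toDistribLattice bot_nonempty infSet_to_nonempty supSet_to_nonempty top_nonempty AddCancelCommMonoid.toAddCancelMonoid AddCancelCommMonoid.toAddCommMonoid AddCancelCommMonoid.toAddLeftCancelMonoid AddCancelMonoid.toAddLeftCancelMonoid AddCancelMonoid.toAddRightCancelMonoid AddCommGroup.toAddCancelCommMonoid AddCommGroup.toGrindIntModule AddCommMonoid.toGrindNatModule AddGroup.toAddCancelMonoid AddLeftCancelMonoid.toAddMonoid AddRightCancelMonoid.toAddMonoid AddTorsor.nonempty BoundedOrder.toOrderBot BoundedOrder.toOrderTop CancelCommMonoid.toCancelMonoid CancelCommMonoid.toCommMonoid CancelCommMonoid.toLeftCancelMonoid CancelMonoid.toLeftCancelMonoid CancelMonoid.toRightCancelMonoid CoheytingAlgebra.toOrderTop CommGroup.toCancelCommMonoid CommGroup.toCommMonoid CommGroup.toDivisionCommMonoid CommGroupWithZero.toDivisionCommMonoid CommMonoidWithZero.toCommMonoid CommRing.toGrindCommRing CommSemiring.toGrindCommSemiring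 CompletePartialOrder.toOrderBot ConditionallyCompleteLinearOrderBot.toOrderBot ConnectedSpace.toNonempty DivInvMonoid.toMonoid DivInvOneMonoid.toDivInvMonoid DivInvOneMonoid.toInvOneClass DivisionCommMonoid.toCommMonoid DivisionCommMonoid.toDivisionMonoid DivisionMonoid.toDivInvMonoid DivisionMonoid.toDivInvOneMonoid DivisionRing.toDivInvMonoid ENormedAddCommMonoid.toENormedAddMonoid ENormedAddMonoid.toESeminormedAddMonoid ENormedCommMonoid.toENormedMonoid ENormedMonoid.toESeminormedMonoid ESeminormedAddCommMonoid.toAddCommMonoid ESeminormedAddCommMonoid.toESeminormedAddMonoid ESeminormedAddMonoid.toAddMonoid ESeminormedCommMonoid.toCommMonoid ESeminormedCommMonoid.toESeminormedMonoid ESeminormedMonoid.toMonoid Field.toGrindField GeneralizedBooleanAlgebra.toOrderBot GeneralizedCoheytingAlgebra.toOrderBot GeneralizedHeytingAlgebra.toOrderTop Group.toCancelMonoid Group.toDivInvMonoid Group.toDivisionMonoid GroupWithZero.toDivInvMonoid GroupWithZero.toDivisionMonoid HeytingAlgebra.toOrderBot IdemSemiring.toOrderBot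 InvOneClass.toOne IrreducibleSpace.connectedSpace IrreducibleSpace.toNonempty LeftCancelMonoid.toMonoid LinearOrderedAddCommGroupWithTop.toOrderTop LinearOrderedAddCommGroupWithTop.toSubtractionMonoid LinearOrderedAddCommMonoidWithTop.toOrderTop LinearOrderedCommMonoidWithZero.toOrderBot MulZeroClass.negZeroClass Nontrivial.to_nonempty NormedAddGroup.toENormedAddMonoid NormedGroup.toENormedMonoid One.instNonempty One.ofOfNat1 PathConnectedSpace.connectedSpace RightCancelMonoid.toMonoid Ring.toGrindRing Semiring.toGrindSemiring Torsor.nonempty UnitalShelf.toOne Zero.instNonempty Zero.ofOfNat0 CategoryTheory.IsConnected.is_nonempty GradedMonoid.GradeZero.commMonoid GradedMonoid.GradeZero.monoid PUnit.instLinearOrderedAddCommMonoidWithTop AlgEquivClass.toLinearEquivClass CoalgEquivClass.toSemilinearEquivClass ContinuousSemilinearEquivClass.toSemilinearEquivClass NonUnitalAlgHomClass.toNonUnitalRingHomClass NonUnitalRingHomClass.toAddMonoidHomClass RingEquivClass.toLinearEquivClassRat RingEquivClass.toNonUnitalRingHomClass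 RingHomClass.toAddMonoidHomClass RingHomClass.toNonUnitalRingHomClass SemilinearIsometryEquivClass.toSemilinearEquivClass SemilinearMapClass.instAddMonoidHomClass DivisionRing.isSimpleRing Pi.instCompleteAtomicBooleanAlgebra Pi.instCompleteBooleanAlgebra AddGroup.instAddTorsor BooleanAlgebra.toBot BooleanAlgebra.toBoundedOrder BooleanAlgebra.toTop CategoryTheory.isConnected_of_nonempty_and_subsingleton CoheytingAlgebra.toBoundedOrder CompleteLattice.toBoundedOrder CompletePartialOrder.toSupSet CompleteSemilatticeInf.toInfSet CompleteSemilatticeSup.toSupSet ConditionallyCompleteLattice.toInfSet ConditionallyCompleteLattice.toSupSet ConditionallyCompletePartialOrderSup.toSupSet GeneralizedBooleanAlgebra.toBot HeytingAlgebra.toBoundedOrder NormedAddTorsor.toAddTorsor NormedAddTorsor.toAddTorsor' OrderBot.toBot SeminormedAddCommGroup.toNormedAddTorsor CategoryTheory.IsSifted.instIsConnected Pi.subNegZeroMonoid Pi.instCanonicallyOrderedAddForall GroupConeClass.toSubmonoidClass CategoryTheory.IsSifted.isSifted_of_hasBinaryCoproducts_and_nonempty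 PositiveLinearMap.instInnerProductSpaceComplexPreGNS Module.FaithfullyFlat.instOfNontrivialOfFree Module.FaithfullyFlat.of_isIntegral_of_isDomain Module.FaithfullyFlat.self Module.FaithfullyFlat.toFlat Module.Flat.instOfIsDedekindDomainOfIsTorsionFree Pi.mulOneClass TopRep.hV1 Pi.instBooleanAlgebra Pi.instCompleteDistribLattice Pi.instCompletelyDistribLattice ContractibleSpace.instOfNonemptyOfIndiscreteTopology ContractibleSpace.instOfNonemptyOfSubsingleton ContractibleSpace.instPathConnectedSpace Convex.instPathConnectedSpace Fin.addCommGroup Fin.instNonUnitalCommRing NormedSpace.instPathConnectedSpace RealTopologicalVectorSpace.contractibleSpace SimplyConnectedSpace.instPathConnectedSpace SimplyConnectedSpace.ofContractible AddQuantale.instAddLeftMono RCLike.innerProductSpace Algebra.TensorProduct.instAddCommGroupWithOne Monoid.End.instMonoidHomClass SubfieldClass.toNormedField Fin.addCommMonoid Fin.instBoundedOrder Fin.instCommMonoid Fin.instInhabited Fin.instNontrivial FirstOrder.Language.graph.instSubsingleton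 AlgHom.instRingHomCompTripleComp invertibleTwo Pi.addCommMagma Pi.instSubsingletonAddUnits instIsCancelMulZero instIsCancelMulZero_1 GCDMonoid.toIsCancelMulZero IsDomain.toIsCancelMulZero NoZeroDivisors.to_isCancelMulZero Subsingleton.to_isCancelMulZero UniqueFactorizationMonoid.toIsCancelMulZero Semigrp.str Submodule.instPowNat instFiniteProp instCStarAlgebraForall instCommCStarAlgebraForall Pi.instBiheytingAlgebra Pi.instCoframe Pi.instFrame Pi.normedCommutativeRing StarSubalgebra.commCStarAlgebra StarSubalgebra.cstarAlgebra SubalgebraClass.normedRing SubringClass.toNormedCommRing SubringClass.toNormedRing Pi.subNegMonoid Pi.instMinForall_mathlib -- iprune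

set_option linter.all false

section

/-!
The formula for the Euler characteristics of a prime cyclic module with the modules free over a
Noether normalization of a complete intersection: interface between the construction of the weights
and the end of the proof of Serre's positivity conjecture.
-/

namespace Vale.Agent.P177

open TensorProduct IsLocalRing RingTheory.Sequence Function

universe u

/-- The Euler characteristic of `A` and `L` is the sum of the weights of the eigencharacters
of `L`. -/
def FlagRep {R : Type u} [CommRing R] (d : ℕ) (A : Type u) [AddCommGroup A] [Module R A]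
    (Λ : Type u) [CommRing Λ] [Algebra Λ R] (Ω : Type u) [Field Ω] [Algebra Λ Ω]
    (hs : List R) (w : (R →ₐ[Λ] Ω) → ℝ) (L : Type u) [AddCommGroup L] [Module R L]
    [Module Λ L] [IsScalarTower Λ R L] : Prop :=
  ∃ (n : ℕ) (σ : Fin n → (R →ₐ[Λ] Ω)), (∀ j, ∀ h ∈ hs, σ j h = 0) ∧
    (∀ r : R, algebraMap Λ Ω (LinearMap.trace Λ L (Algebra.lsmul Λ Λ L r)) = ∑ j, σ j r) ∧
    (eulerTor R (d + 1) A L : ℝ) = ∑ j, w (σ j)

/-- The flag formula for the prime `P` and the complete intersection `hs`. -/
def FlagFormula (R : Type u) [CommRing R] (d : ℕ) (P : Ideal R) (hs : List R) (strict : Prop) :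
    Prop :=
  ∃ (Λ : Type u) (_ : CommRing Λ) (_ : IsRegularLocalRing Λ) (_ : Algebra Λ R) (Ω : Type u)
    (_ : Field Ω) (_ : IsAlgClosed Ω) (_ : CharZero Ω) (_ : Algebra Λ Ω) (_ : FaithfulSMul Λ Ω),
    Module.Finite Λ (R ⧸ Ideal.ofList hs) ∧
    ringKrullDim Λ = ringKrullDim (R ⧸ Ideal.ofList hs) ∧
    ∀ (L₁ L₂ : Type u) [AddCommGroup L₁] [Module R L₁] [Module.Finite R L₁] [Module Λ L₁]
      [IsScalarTower Λ R L₁] [Module.Free Λ L₁] [AddCommGroup L₂] [Module R L₂]
      [Module.Finite R L₂] [Module Λ L₂] [IsScalarTower Λ R L₂] [Module.Free Λ L₂],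
      (∀ h ∈ hs, ∀ x : L₁, h • x = 0) → (∀ h ∈ hs, ∀ x : L₂, h • x = 0) →
      ∃ w : (R →ₐ[Λ] Ω) → ℝ,
        (∀ σ : R →ₐ[Λ] Ω, (∀ h ∈ hs, σ h = 0) → 0 ≤ w σ ∧ (strict → 0 < w σ)) ∧
        FlagRep d (R ⧸ P) Λ Ω hs w L₁ ∧ FlagRep d (R ⧸ P) Λ Ω hs w L₂

/-- The flag formula for all `R`, `P` and `hs`. This is the statement which remains to be proved
for Serre's positivity conjecture. -/
def FlagStmt : Prop :=
  ∀ (p : ℕ) [Fact p.Prime] (R : Type u) [CommRing R] [IsRegularLocalRing R]
    [IsAdicComplete (maximalIdeal R) R] [CharP (ResidueField R) p] [PerfectRing (ResidueField R) p]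
    (d : ℕ), ringKrullDim R = d → (p : R) ≠ 0 → (p : R) ∈ maximalIdeal R ^ 2 →
    ∀ (P : Ideal R), P.IsPrime → ∀ hs : List R, (∀ h ∈ hs, h ∈ maximalIdeal R) →
      IsWeaklyRegular R (hs ++ [(p : R)]) →
      maximalIdeal R ≤ (P ⊔ Ideal.ofList hs).radical →
      ∀ a b : ℕ, ringKrullDim (R ⧸ P) = a → hs.length + b = d → 1 ≤ b →
        ringKrullDim (R ⧸ Ideal.ofList hs) = b → a + b ≤ d →
        FlagFormula R d P hs (a + b = d)

end Vale.Agent.P177
end

section

/-!
P202 MIX: the algebra of all `p`-power roots: relations, universal property, monomial basis.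
-/

namespace Vale.Agent.P202.Mix

open Polynomial TensorProduct IsLocalRing

universe u v w

noncomputable section

variable (p : ℕ) (S : Type u) [CommRing S] {ι : Type v} (a : ι → S)

/-- the ideal of the relations of `RootAlg`. -/
def rrel : Ideal (MvPolynomial (ι × ℕ) S) := Ideal.span
    ((Set.range fun i : ι => (MvPolynomial.X (i, 0) - MvPolynomial.C (a i) :
      MvPolynomial (ι × ℕ) S)) ∪
    Set.range fun x : ι × ℕ => (MvPolynomial.X (x.1, x.2 + 1) ^ p - MvPolynomial.X x :
      MvPolynomial (ι × ℕ) S))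

/-- the projection onto `RootAlg`. -/
def rmk : MvPolynomial (ι × ℕ) S →ₐ[S] RootAlg p S a := Ideal.Quotient.mkₐ S (rrel p S a)

theorem rmk_X (i : ι) (e : ℕ) : rmk p S a (MvPolynomial.X (i, e)) = rx p S a i e := rfl

theorem rmk_C (s : S) : rmk p S a (MvPolynomial.C s) = algebraMap S _ s := rfl

theorem rmk_surj : Function.Surjective (rmk p S a) := Ideal.Quotient.mk_surjective

theorem rmk_eq_of_sub_mem {x y : MvPolynomial (ι × ℕ) S} (h : x - y ∈ rrel p S a) :
    rmk p S a x = rmk p S a y := Ideal.Quotient.eq.mpr h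

theorem rmk_exists_lift {T : Type w} [CommRing T] [Algebra S T]
    (g : MvPolynomial (ι × ℕ) S →ₐ[S] T) (h : ∀ x ∈ rrel p S a, g x = 0) :
    ∃ f : RootAlg p S a →ₐ[S] T, ∀ x, f (rmk p S a x) = g x :=
  ⟨Ideal.Quotient.liftₐ (rrel p S a) g h, fun _ => rfl⟩

theorem rx_zero (i : ι) : rx p S a i 0 = algebraMap S _ (a i) := by
  rw [← rmk_X, ← rmk_C]
  exact rmk_eq_of_sub_mem p S a (Ideal.subset_span (Or.inl ⟨i, rfl⟩))

theorem rx_succ (i : ι) (e : ℕ) : rx p S a i (e + 1) ^ p = rx p S a i e := by
  rw [← rmk_X, ← rmk_X, ← map_pow]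
  exact rmk_eq_of_sub_mem p S a (Ideal.subset_span (Or.inr ⟨(i, e), rfl⟩))

theorem exists_lift {T : Type w} [CommRing T] [Algebra S T] (ρ : ι → ℕ → T)
    (h0 : ∀ i, ρ i 0 = algebraMap S T (a i)) (hs : ∀ i e, ρ i (e + 1) ^ p = ρ i e) :
    ∃ f : RootAlg p S a →ₐ[S] T, ∀ i e, f (rx p S a i e) = ρ i e := by
  have hker : rrel p S a ≤ RingHom.ker
      (MvPolynomial.aeval (R := S) fun x : ι × ℕ => ρ x.1 x.2) := by
    rw [rrel, Ideal.span_le]
    rintro _ (⟨i, rfl⟩ | ⟨x, rfl⟩)
    · simp only [SetLike.mem_coe, RingHom.mem_ker, map_sub, MvPolynomial.aeval_X,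
        MvPolynomial.aeval_C, h0, sub_self]
    · simp only [SetLike.mem_coe, RingHom.mem_ker, map_sub, map_pow, MvPolynomial.aeval_X, hs,
        sub_self]
  obtain ⟨f, hf⟩ := rmk_exists_lift p S a _ (fun x hx => hker hx)
  refine ⟨f, fun i e => ?_⟩
  rw [← rmk_X, hf, MvPolynomial.aeval_X]

theorem rx_pow_pow (i : ι) (e : ℕ) : rx p S a i e ^ p ^ e = algebraMap S _ (a i) := by
  induction e with
  | zero => rw [pow_zero, pow_one, rx_zero]
  | succ e ih => rw [pow_succ', pow_mul, rx_succ, ih]

theorem rx_pow_add (i : ι) (e d : ℕ) : rx p S a i (e + d) ^ p ^ d = rx p S a i e := by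
  induction d with
  | zero => rw [pow_zero, pow_one, add_zero]
  | succ d ih => rw [pow_succ', pow_mul, ← add_assoc, rx_succ, ih]

theorem rx_mem_rsub {F : Finset ι} {e : ℕ} {i : ι} (hi : i ∈ F) :
    rx p S a i e ∈ rsub p S a (F, e) :=
  Algebra.subset_adjoin ⟨i, hi, rfl⟩

theorem rsub_le {F F' : Finset ι} {e e' : ℕ} (hF : F ⊆ F') (he : e ≤ e') :
    rsub p S a (F, e) ≤ rsub p S a (F', e') := by
  refine Algebra.adjoin_le ?_
  rintro _ ⟨i, hi, rfl⟩
  obtain ⟨d, rfl⟩ := Nat.exists_eq_add_of_le he
  change rx p S a i e ∈ rsub p S a (F', e + d)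
  rw [← rx_pow_add p S a i e d]
  exact pow_mem (rx_mem_rsub p S a (hF hi)) _

theorem rsub_mono : Monotone (rsub p S a) := fun _ _ h => rsub_le p S a h.1 h.2

theorem exists_mem_rsub (x : RootAlg p S a) : ∃ y : RI ι, x ∈ rsub p S a y := by
  classical
  obtain ⟨P, rfl⟩ := rmk_surj p S a x
  induction P using MvPolynomial.induction_on with
  | C s => exact ⟨(∅, 0), by rw [rmk_C]; exact algebraMap_mem _ s⟩
  | add f g hf hg =>
    obtain ⟨y, hy⟩ := hf
    obtain ⟨z, hz⟩ := hg
    refine ⟨(y.1 ∪ z.1, max y.2 z.2), ?_⟩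
    rw [map_add]
    exact add_mem (rsub_le p S a Finset.subset_union_left (le_max_left _ _) hy)
      (rsub_le p S a Finset.subset_union_right (le_max_right _ _) hz)
  | mul_X f x hf =>
    obtain ⟨y, hy⟩ := hf
    refine ⟨(insert x.1 y.1, max x.2 y.2), ?_⟩
    rw [map_mul, show rmk p S a (MvPolynomial.X x) = rx p S a x.1 x.2 from rfl]
    refine mul_mem (rsub_le p S a (Finset.subset_insert _ _) (le_max_right _ _) hy)
      (rsub_le p S a (F := {x.1}) ?_ (le_max_left _ _)
        (rx_mem_rsub p S a (Finset.mem_singleton_self _)))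
    intro j hj
    rw [Finset.mem_singleton.mp hj]
    exact Finset.mem_insert_self _ _

theorem prod_rx_mem_span [Fact p.Prime] (F : Finset ι) (e : ℕ) (n : ι →₀ ℕ) (hn : n.support ⊆ F) :
    (n.prod fun i m => rx p S a i e ^ m) ∈ Submodule.span S
      {y | ∃ α : Bx ι (p ^ e), α.1.support ⊆ F ∧ y = α.1.prod fun i m => rx p S a i e ^ m} := by
  have hq : 0 < p ^ e := pow_pos (Fact.out : p.Prime).pos _
  let α : ι →₀ ℕ := n.mapRange (fun m => m % p ^ e) (Nat.zero_mod _)
  have hα : α.support ⊆ F := (Finsupp.support_mapRange).trans hn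
  have h : (n.prod fun i m => rx p S a i e ^ m) =
      (∏ i ∈ F, a i ^ (n i / p ^ e)) • α.prod fun i m => rx p S a i e ^ m := by
    rw [Finsupp.prod_of_support_subset _ hn _ (fun i _ => pow_zero _),
      Finsupp.prod_of_support_subset _ hα _ (fun i _ => pow_zero _), Algebra.smul_def, map_prod,
      ← Finset.prod_mul_distrib]
    refine Finset.prod_congr rfl fun i _ => ?_
    rw [map_pow, ← rx_pow_pow, ← pow_mul, ← pow_add]
    congr 1
    exact (Nat.div_add_mod _ _).symm
  rw [h]
  exact Submodule.smul_mem _ _ (Submodule.subset_span ⟨⟨α, fun i => Nat.mod_lt _ hq⟩, hα, rfl⟩)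

theorem mem_rsub_iff [Fact p.Prime] (F : Finset ι) (e : ℕ) (x : RootAlg p S a) :
    x ∈ rsub p S a (F, e) ↔ x ∈ Submodule.span S
      {y | ∃ α : Bx ι (p ^ e), α.1.support ⊆ F ∧ y = α.1.prod fun i m => rx p S a i e ^ m} := by
  constructor
  · intro hx
    rw [← Subalgebra.mem_toSubmodule, rsub, Algebra.adjoin_eq_span] at hx
    refine Submodule.span_le.mpr ?_ hx
    intro y hy
    obtain ⟨n, hn, rfl⟩ : ∃ n : ι →₀ ℕ, n.support ⊆ F ∧
        y = n.prod fun i m => rx p S a i e ^ m := by
      induction hy using Submonoid.closure_induction with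
      | mem y hy =>
        obtain ⟨i, hi, rfl⟩ := hy
        refine ⟨Finsupp.single i 1, Finsupp.support_single_subset.trans ?_, ?_⟩
        · exact Finset.singleton_subset_iff.mpr hi
        · rw [Finsupp.prod_single_index (by exact pow_zero _), pow_one]
      | one => exact ⟨0, by simp, by simp⟩
      | mul y z _ _ hy hz =>
        classical
        obtain ⟨n, hn, rfl⟩ := hy
        obtain ⟨m, hm, rfl⟩ := hz
        refine ⟨n + m, Finsupp.support_add.trans (Finset.union_subset hn hm), ?_⟩
        rw [Finsupp.prod_add_index' (fun _ => pow_zero _) (fun _ _ _ => pow_add _ _ _)]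
    exact prod_rx_mem_span p S a F e n hn
  · intro hx
    rw [← Subalgebra.mem_toSubmodule]
    refine Submodule.span_le.mpr ?_ hx
    rintro _ ⟨α, hα, rfl⟩
    change (α.1.prod fun i m => rx p S a i e ^ m) ∈ rsub p S a (F, e)
    exact prod_mem fun i hi => pow_mem (rx_mem_rsub p S a (hα hi)) _

end

end Vale.Agent.P202.Mix
end

section

/-!
P202 MIX: the tower of the algebra of all `p`-power roots.
-/

namespace Vale.Agent.P202.Mix

open Polynomial TensorProduct IsLocalRing

universe u v w

noncomputable section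

/-- the set of the exponents with support in `F` is finite. -/
theorem finite_Bx {ι : Type v} (F : Finset ι) (q : ℕ) :
    Finite {α : Bx ι q // α.1.support ⊆ F} := by
  refine Finite.of_injective (fun α : {α : Bx ι q // α.1.support ⊆ F} =>
    (fun i : F => (⟨α.1.1 i, α.1.2 i⟩ : Fin q))) ?_
  intro α β h
  refine Subtype.ext (Subtype.ext (Finsupp.ext fun i => ?_))
  by_cases hi : i ∈ F
  · exact congrArg Fin.val (congrFun h ⟨i, hi⟩)
  · rw [Finsupp.notMem_support_iff.mp fun h' => hi (α.2 h'),
      Finsupp.notMem_support_iff.mp fun h' => hi (β.2 h')]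

variable (p : ℕ) (S : Type u) [CommRing S] {ι : Type v} (a : ι → S)

theorem rsub_fg [Fact p.Prime] (x : RI ι) : (Subalgebra.toSubmodule (rsub p S a x)).FG := by
  obtain ⟨F, e⟩ := x
  have h : Subalgebra.toSubmodule (rsub p S a (F, e)) = Submodule.span S
      {y | ∃ α : Bx ι (p ^ e), α.1.support ⊆ F ∧ y = α.1.prod fun i m => rx p S a i e ^ m} := by
    ext x
    rw [Subalgebra.mem_toSubmodule, mem_rsub_iff]
  rw [h]
  refine Submodule.fg_span ?_
  have := finite_Bx F (p ^ e)
  refine (Set.finite_range (fun α : {α : Bx ι (p ^ e) // α.1.support ⊆ F} =>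
    α.1.1.prod fun i m => rx p S a i e ^ m)).subset ?_
  rintro _ ⟨α, hα, rfl⟩
  exact ⟨⟨α, hα⟩, rfl⟩

open Classical in
/-- the widths of the box of the exponents of the generators of `rsub (F', e')` over
`rsub (F, e)`. -/
def rwidth (F : Finset ι) (e e' : ℕ) (i : ι) : ℕ := if i ∈ F then p ^ (e' - e) else p ^ e'

theorem rwidth_pos [Fact p.Prime] (F : Finset ι) (e e' : ℕ) (i : ι) :
    0 < rwidth p F e e' i := by
  unfold rwidth
  split_ifs
  · exact pow_pos (Fact.out : p.Prime).pos _
  · exact pow_pos (Fact.out : p.Prime).pos _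

theorem prod_rwidth {F F' : Finset ι} (h : F ⊆ F') {e e' : ℕ} (he : e ≤ e') :
    (∏ i ∈ F', rwidth p F e e' i) * p ^ (e * F.card) = p ^ (e' * F'.card) := by
  classical
  have h1 : p ^ (e * F.card) = ∏ i ∈ F', if i ∈ F then p ^ e else 1 := by
    rw [Finset.prod_ite_mem, Finset.inter_eq_right.mpr h, Finset.prod_const, ← pow_mul]
  rw [h1, ← Finset.prod_mul_distrib, pow_mul, ← Finset.prod_const]
  refine Finset.prod_congr rfl fun i _ => ?_
  unfold rwidth
  split_ifs
  · rw [← pow_add, Nat.sub_add_cancel he]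
  · rw [mul_one]

/-- the generators of `rsub (F', e')` over `rsub (F, e)`. -/
abbrev RK (F F' : Finset ι) (e e' : ℕ) : Type v :=
  (i : {x // x ∈ F'}) → Fin (rwidth p F e e' i)

instance instFintypeRK (F F' : Finset ι) (e e' : ℕ) : Fintype (RK p F F' e e') := by
  classical
  exact inferInstance

/-- the monomials. -/
def rgen (F F' : Finset ι) (e e' : ℕ) (β : RK p F F' e e') : RootAlg p S a :=
  ∏ i : {x // x ∈ F'}, rx p S a i e' ^ (β i : ℕ)

theorem rgen_mem (F F' : Finset ι) (e e' : ℕ) (β : RK p F F' e e') :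
    rgen p S a F F' e e' β ∈ rsub p S a (F', e') :=
  prod_mem fun i _ => pow_mem (rx_mem_rsub p S a i.2) _

theorem card_RK {F F' : Finset ι} (h : F ⊆ F') {e e' : ℕ} (he : e ≤ e') :
    Fintype.card (RK p F F' e e') * p ^ (e * F.card) = p ^ (e' * F'.card) := by
  rw [← prod_rwidth p h he, ← Nat.card_eq_fintype_card, Nat.card_pi]
  simp only [Nat.card_eq_fintype_card, Fintype.card_fin]
  rw [Finset.prod_coe_sort F' (rwidth p F e e')]

theorem prod_eq_rgen_mul [Fact p.Prime] {F F' : Finset ι} (h : F ⊆ F') {e e' : ℕ} (he : e ≤ e')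
    (α : Bx ι (p ^ e')) (hα : α.1.support ⊆ F') :
    (α.1.prod fun i m => rx p S a i e' ^ m) =
      rgen p S a F F' e e' (fun i => ⟨α.1 i % rwidth p F e e' i,
        Nat.mod_lt _ (rwidth_pos p F e e' i)⟩) *
      ∏ i ∈ F, rx p S a i e ^ (α.1 i / rwidth p F e e' i) := by
  classical
  have h1 : (∏ i ∈ F, rx p S a i e ^ (α.1 i / rwidth p F e e' i)) =
      ∏ i ∈ F', if i ∈ F then rx p S a i e ^ (α.1 i / rwidth p F e e' i) else 1 := by
    rw [Finset.prod_ite_mem, Finset.inter_eq_right.mpr h]
  rw [h1, rgen, Finset.prod_coe_sort F' (fun i => rx p S a i e' ^ (α.1 i % rwidth p F e e' i)),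
    ← Finset.prod_mul_distrib, Finsupp.prod_of_support_subset _ hα _ (fun i _ => pow_zero _)]
  refine Finset.prod_congr rfl fun i _ => ?_
  unfold rwidth
  split_ifs with hi
  · have h2 : rx p S a i e' ^ p ^ (e' - e) = rx p S a i e := by
      have h3 := rx_pow_add p S a i e (e' - e)
      rwa [Nat.add_sub_cancel' he] at h3
    rw [← h2, ← pow_mul, ← pow_add, Nat.mod_add_div]
  · rw [Nat.mod_eq_of_lt (α.2 i), mul_one]

/-- every element of `rsub (F', e')` is a combination of the monomials with coefficients in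
`rsub (F, e)`. -/
theorem exists_eq_sum_rgen [Fact p.Prime] {F F' : Finset ι} (h : F ⊆ F') {e e' : ℕ}
    (he : e ≤ e') (x : RootAlg p S a) (hx : x ∈ rsub p S a (F', e')) :
    ∃ c : RK p F F' e e' → RootAlg p S a, (∀ β, c β ∈ rsub p S a (F, e)) ∧
      x = ∑ β, rgen p S a F F' e e' β * c β := by
  classical
  have hx' := (mem_rsub_iff p S a F' e' x).mp hx
  clear hx
  induction hx' using Submodule.span_induction with
  | mem x hx =>
    obtain ⟨α, hα, rfl⟩ := hx
    let β0 : RK p F F' e e' := fun i => ⟨α.1 i % rwidth p F e e' i,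
      Nat.mod_lt _ (rwidth_pos p F e e' i)⟩
    let y : RootAlg p S a := ∏ i ∈ F, rx p S a i e ^ (α.1 i / rwidth p F e e' i)
    refine ⟨fun β => if β = β0 then y else 0, fun β => ?_, ?_⟩
    · dsimp only
      split_ifs
      · exact prod_mem fun i hi => pow_mem (rx_mem_rsub p S a hi) _
      · exact zero_mem _
    · dsimp only
      rw [Finset.sum_eq_single β0 (fun β _ hβ => by rw [if_neg hβ, mul_zero])
        (fun h' => absurd (Finset.mem_univ _) h'), if_pos rfl]
      exact prod_eq_rgen_mul p S a h he α hα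
  | zero => exact ⟨0, fun _ => zero_mem _, by simp⟩
  | add x y _ _ hx hy =>
    obtain ⟨c, hc, rfl⟩ := hx
    obtain ⟨d, hd, rfl⟩ := hy
    refine ⟨c + d, fun β => add_mem (hc β) (hd β), ?_⟩
    rw [← Finset.sum_add_distrib]
    exact Finset.sum_congr rfl fun β _ => (mul_add _ _ _).symm
  | smul s x _ hx =>
    obtain ⟨c, hc, rfl⟩ := hx
    refine ⟨s • c, fun β => Subalgebra.smul_mem _ (hc β) s, ?_⟩
    rw [Finset.smul_sum]
    exact Finset.sum_congr rfl fun β _ => (mul_smul_comm _ _ _).symm

/-- the tower of the subalgebras generated by finitely many roots. -/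
def rootTower [Fact p.Prime] : Tower S (RootAlg p S a) (RI ι) where
  sub := rsub p S a
  mono := rsub_mono p S a
  cover := exists_mem_rsub p S a
  rank x := p ^ (x.2 * x.1.card)
  rank_pos x := pow_pos (Fact.out : p.Prime).pos _
  fg := rsub_fg p S a
  gen := by
    rintro ⟨F, e⟩ ⟨F', e'⟩ ⟨hF, he⟩
    have hF : F ⊆ F' := hF
    have he : e ≤ e' := he
    let ε := Fintype.equivFin (RK p F F' e e')
    refine ⟨Fintype.card (RK p F F' e e'), fun k => rgen p S a F F' e e' (ε.symm k),
      card_RK p hF he, fun k => rgen_mem p S a F F' e e' _, fun x hx => ?_⟩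
    obtain ⟨c, hc, rfl⟩ := exists_eq_sum_rgen p S a hF he x hx
    refine ⟨fun k => c (ε.symm k), fun k => hc _, ?_⟩
    exact (Equiv.sum_comp ε.symm fun β => rgen p S a F F' e e' β * c β).symm

/-- TASK K4: the tower (`rank (F, e) = p ^ (e * card F)`; `sub (F', e')` is generated over
`sub (F, e)` by `p ^ (e' * card F' - e * card F)` monomials). -/
theorem exists_rootTower [Fact p.Prime] : ∃ T : Tower S (RootAlg p S a) (RI ι),
    (∀ x, T.sub x = rsub p S a x) ∧ ∀ x, T.rank x = p ^ (x.2 * x.1.card) :=
  ⟨rootTower p S a, fun _ => rfl, fun _ => rfl⟩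

end

end Vale.Agent.P202.Mix
end

section

/-!
P177, good class / masses in the limit (notes 9315 (G), 9353 (B)).

`U` an ultrafilter on `ℕ`, `h e : A e` ring elements, `L e` additive lengths (normalised).
`ell D c M = U-lim  len (h^c M_e)`, `mass D M = inf_c ell D c M`.
-/

namespace Vale.Agent.P177.Mass

open scoped ENNReal Topology
open Filter Vale.Agent.P202.Mix

universe u

/-! ### additive lengths -/

section Len

variable {R : Type u} [CommRing R] (L : AddLen R)
  {M N K : Type u} [AddCommGroup M] [Module R M] [AddCommGroup N] [Module R N]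
  [AddCommGroup K] [Module R K]

theorem len_congr (f : M ≃ₗ[R] N) : L.len M = L.len N := by
  have h := L.add (f : M →ₗ[R] N) (0 : N →ₗ[R] PUnit.{u + 1}) f.injective
    (fun y => ⟨0, Subsingleton.elim _ _⟩)
    (by
      intro y
      constructor
      · intro _
        exact f.surjective y
      · intro _
        rfl)
  rw [L.zero, add_zero] at h
  exact h.symm

theorem len_sub (P : Submodule R M) : L.len M = L.len P + L.len (M ⧸ P) :=
  L.add P.subtype P.mkQ P.injective_subtype P.mkQ_surjective
    (by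
      rw [LinearMap.exact_iff, Submodule.ker_mkQ, Submodule.range_subtype])

theorem len_inj (f : M →ₗ[R] N) (hf : Function.Injective f) : L.len M ≤ L.len N := by
  rw [len_congr L (LinearEquiv.ofInjective f hf), len_sub L (LinearMap.range f)]
  exact le_self_add

theorem len_ker_range (f : M →ₗ[R] N) :
    L.len M = L.len (LinearMap.ker f) + L.len (LinearMap.range f) := by
  rw [len_sub L (LinearMap.ker f), len_congr L f.quotKerEquivRange]

theorem len_range_le (f : M →ₗ[R] N) : L.len (LinearMap.range f) ≤ L.len M := by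
  rw [len_ker_range L f]
  exact le_add_self

theorem len_surj (f : M →ₗ[R] N) (hf : Function.Surjective f) : L.len N ≤ L.len M := by
  have h := len_range_le L f
  rwa [LinearMap.range_eq_top.2 hf, len_congr L (Submodule.topEquiv (R := R) (M := N))] at h

theorem len_map_inj (f : M →ₗ[R] N) (hf : Function.Injective f) (P : Submodule R M) :
    L.len (P.map f) = L.len P :=
  (len_congr L (Submodule.equivMapOfInjective f hf P)).symm

theorem len_subsingleton [Subsingleton M] : L.len M = 0 := by
  have h := len_inj L (0 : M →ₗ[R] PUnit.{u + 1}) (fun x y _ => Subsingleton.elim x y)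
  rw [L.zero] at h
  exact le_antisymm h zero_le

/-- `len (P.map f) + len (P ⊓ ker f) = len P`. -/
theorem len_map_add (f : M →ₗ[R] N) (P : Submodule R M) :
    L.len P = L.len (P ⊓ LinearMap.ker f : Submodule R M) + L.len (P.map f) := by
  rw [len_ker_range L (f ∘ₗ P.subtype), LinearMap.range_comp, Submodule.range_subtype]
  congr 1
  rw [LinearMap.ker_comp]
  refine (len_map_inj L P.subtype P.injective_subtype _).symm.trans ?_
  rw [Submodule.map_comap_subtype]

end Len

/-! ### the submodules `h^c M` -/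

section Pow

variable {R : Type u} [CommRing R] (h : R) (c : ℕ) (M : Type u) [AddCommGroup M] [Module R M]

/-- `h^c M`. -/
def hp : Submodule R M := LinearMap.range (LinearMap.lsmul R M (h ^ c))

variable {M}

end Pow

/-! ### limits along an ultrafilter -/

section Ulim

/-- the limit of `f` along the ultrafilter `U`. -/
noncomputable def ulim (U : Ultrafilter ℕ) (f : ℕ → ℝ≥0∞) : ℝ≥0∞ := (U.map f).lim

variable (U : Ultrafilter ℕ) {f g : ℕ → ℝ≥0∞}

end Ulim

/-! ### masses -/

/-- the data: an ultrafilter, elements `h e` and additive lengths. -/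
structure Dat (A : ℕ → Type u) [∀ e, CommRing (A e)] where
  U : Ultrafilter ℕ
  h : ∀ e, A e
  L : ∀ e, AddLen (A e)

section Mass

variable {A : ℕ → Type u} [∀ e, CommRing (A e)] (D : Dat A)
  (M N K : ℕ → Type u) [∀ e, AddCommGroup (M e)] [∀ e, Module (A e) (M e)]
  [∀ e, AddCommGroup (N e)] [∀ e, Module (A e) (N e)]
  [∀ e, AddCommGroup (K e)] [∀ e, Module (A e) (K e)]

/-- `U-lim len (h^c M_e)`. -/
noncomputable def ell (c : ℕ) : ℝ≥0∞ := ulim D.U fun e => (D.L e).len (hp (D.h e) c (M e))

/-- the mass of a sequence of modules. -/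
noncomputable def mass : ℝ≥0∞ := ⨅ c, ell D M c

variable {M N K}

end Mass

end Vale.Agent.P177.Mass
end

section

/-!
P177, block B8, part 1: the Künneth formula for Euler characteristics, for an additive length.

`G i` flat modules, `C i` the cokernels of a complex `... → G 1 → G 0`, `H i` its homology. Then
the alternating sum of the lengths of `ker (C (i + 1) ⊗ Y → G i ⊗ Y)` (the homology of `G ⊗ Y`) is
the alternating sum of the Euler characteristics of `H i` and `Y`.
-/

namespace Vale.Agent.P177.B8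

open Vale.Agent.P202.Mix Vale.Agent.P177.Mass TensorProduct
open scoped ENNReal

universe u

variable {R : Type u} [CommRing R] (L : AddLen R)

section Nums

variable {A B C : ℕ → Type u} [∀ j, AddCommGroup (A j)] [∀ j, Module R (A j)]
  [∀ j, AddCommGroup (B j)] [∀ j, Module R (B j)] [∀ j, AddCommGroup (C j)] [∀ j, Module R (C j)]
  (f : ∀ j, A j →ₗ[R] B j) (g : ∀ j, B j →ₗ[R] C j) (d : ∀ j, C (j + 1) →ₗ[R] A j)

theorem len_exact {M N K : Type u} [AddCommGroup M] [Module R M] [AddCommGroup N] [Module R N]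
    [AddCommGroup K] [Module R K] (f : M →ₗ[R] N) (g : N →ₗ[R] K) (h : Function.Exact f g) :
    L.len N = L.len (LinearMap.range f) + L.len (LinearMap.range g) := by
  rw [len_ker_range L g]
  have : LinearMap.ker g = LinearMap.range f := by
    rw [LinearMap.exact_iff] at h
    exact h
  rw [this]

/-- numerical identity of a long exact sequence. -/
theorem alt_sum {A B C a b r : ℕ → ℝ} (hA : ∀ j, A j = r j + a j) (hB : ∀ j, B j = a j + b j)
    (hC : ∀ j, C (j + 1) = b (j + 1) + r j) (n : ℕ) :
    ∑ j ∈ Finset.range n, (-1 : ℝ) ^ j * (A (j + 1) - B (j + 1) + C (j + 1)) =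
      r 0 - (-1) ^ n * r n := by
  induction n with
  | zero => simp
  | succ n ih =>
    rw [Finset.sum_range_succ, ih, hA, hB, hC, pow_succ]
    ring

end Nums

section Tor

variable (Y : Type u) [AddCommGroup Y] [Module R Y]

/-- the length of `Tor_j (M, Y)`. -/
noncomputable def tl (j : ℕ) (M : Type u) [AddCommGroup M] [Module R M] : ℝ≥0∞ :=
  L.len (TorM R j M Y)

/-- the Euler characteristic of `M` and `Y`, up to degree `n - 1`. -/
noncomputable def chi (n : ℕ) (M : Type u) [AddCommGroup M] [Module R M] : ℝ :=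
  ∑ j ∈ Finset.range n, (-1 : ℝ) ^ j * (tl L Y j M).toReal

/-- the part of positive degree of the Euler characteristic. -/
noncomputable def ee (n : ℕ) (M : Type u) [AddCommGroup M] [Module R M] : ℝ :=
  ∑ j ∈ Finset.range n, (-1 : ℝ) ^ j * (tl L Y (j + 1) M).toReal

variable {M' M M'' : Type u} [AddCommGroup M'] [Module R M'] [AddCommGroup M] [Module R M]
  [AddCommGroup M''] [Module R M'']

theorem chi_succ (n : ℕ) : chi L Y (n + 1) M = (tl L Y 0 M).toReal - ee L Y n M := by
  unfold chi ee
  rw [Finset.sum_range_succ', sub_eq_add_neg, ← Finset.sum_neg_distrib, add_comm]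
  congr 1
  · simp
  · exact Finset.sum_congr rfl fun j _ => by rw [pow_succ]; ring

theorem tl_congr (e : M ≃ₗ[R] M') (j : ℕ) : tl L Y j M = tl L Y j M' :=
  Vale.Agent.P177.Mass.len_congr L (torCongrLeft j e Y)

theorem tl_zero_eq : tl L Y 0 M = L.len (M ⊗[R] Y) := Vale.Agent.P177.Mass.len_congr L (torZero M Y)

variable (f : M' →ₗ[R] M) (g : M →ₗ[R] M'')

/-- The numbers attached to the long exact sequence of Tor. -/
theorem tor_nums (hf : Function.Injective f) (hg : Function.Surjective g)
    (h : Function.Exact f g) : ∃ b r : ℕ → ℝ≥0∞,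
    (∀ j, tl L Y j M' = r j + L.len (LinearMap.range (torMap j f Y))) ∧
    (∀ j, tl L Y j M = L.len (LinearMap.range (torMap j f Y)) + b j) ∧
    (∀ j, tl L Y (j + 1) M'' = b (j + 1) + r j) ∧ tl L Y 0 M'' = b 0 := by
  obtain ⟨δ, h1, h2, h3⟩ := exists_torDelta f g hf hg h Y
  refine ⟨fun j => L.len (LinearMap.range (torMap j g Y)),
    fun j => L.len (LinearMap.range (δ j)), fun j => len_exact L _ _ (h2 j),
    fun j => len_exact L _ _ (h3 j), fun j => len_exact L _ _ (h1 j), ?_⟩
  have hs : Function.Surjective (torMap 0 g Y) := by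
    intro x
    obtain ⟨y, hy⟩ := LinearMap.rTensor_surjective Y hg (torZero M'' Y x)
    refine ⟨(torZero M Y).symm y, ?_⟩
    apply (torZero M'' Y).injective
    rw [torZero_naturality, LinearEquiv.apply_symm_apply, hy]
  show tl L Y 0 M'' = L.len (LinearMap.range (torMap 0 g Y))
  rw [LinearMap.range_eq_top.2 hs]
  exact (Vale.Agent.P177.Mass.len_congr L (Submodule.topEquiv (R := R) (M := TorM R 0 M'' Y))).symm

/-- finiteness in a short exact sequence (middle term). -/
theorem tl_le_add (hf : Function.Injective f) (hg : Function.Surjective g)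
    (h : Function.Exact f g) (j : ℕ) : tl L Y j M ≤ tl L Y j M' + tl L Y j M'' := by
  obtain ⟨b, r, h1, h2, h3, h4⟩ := tor_nums L Y f g hf hg h
  rw [h1, h2]
  have : b j ≤ tl L Y j M'' := by
    cases j with
    | zero => rw [h4]
    | succ j => rw [h3]; exact le_self_add
  exact add_le_add le_add_self this

/-- **Additivity of the Euler characteristic.** -/
theorem chi_add (hf : Function.Injective f) (hg : Function.Surjective g)
    (h : Function.Exact f g) (n : ℕ) (h' : ∀ j, tl L Y j M' ≠ ⊤) (h'' : ∀ j, tl L Y j M'' ≠ ⊤)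
    (hn : tl L Y n M' = 0) :
    chi L Y (n + 1) M = chi L Y (n + 1) M' + chi L Y (n + 1) M'' := by
  obtain ⟨b, r, h1, h2, h3, h4⟩ := tor_nums L Y f g hf hg h
  have hbt : ∀ j, b j ≠ ⊤ := by
    intro j
    have := h'' j
    cases j with
    | zero => rwa [h4] at this
    | succ j => rw [h3] at this; exact (ENNReal.add_ne_top.1 this).1
  have hrt : ∀ j, r j ≠ ⊤ := fun j => by
    have := h' j
    rw [h1] at this
    exact (ENNReal.add_ne_top.1 this).1
  have hat : ∀ j, L.len (LinearMap.range (torMap j f Y)) ≠ ⊤ := fun j => by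
    have := h' j
    rw [h1] at this
    exact (ENNReal.add_ne_top.1 this).2
  have key := alt_sum (A := fun j => (tl L Y j M').toReal) (B := fun j => (tl L Y j M).toReal)
    (C := fun j => (tl L Y j M'').toReal)
    (a := fun j => (L.len (LinearMap.range (torMap j f Y))).toReal) (b := fun j => (b j).toReal)
    (r := fun j => (r j).toReal)
    (fun j => by rw [h1, ENNReal.toReal_add (hrt j) (hat j)])
    (fun j => by rw [h2, ENNReal.toReal_add (hat j) (hbt j)])
    (fun j => by rw [h3, ENNReal.toReal_add (hbt _) (hrt j)]) n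
  have hr : r n = 0 := by
    have := h1 n
    rw [hn] at this
    exact (add_eq_zero.1 this.symm).1
  simp only [hr, ENNReal.toReal_zero, mul_zero, sub_zero] at key
  have e1 : ∑ j ∈ Finset.range n, (-1 : ℝ) ^ j *
      ((tl L Y (j + 1) M').toReal - (tl L Y (j + 1) M).toReal + (tl L Y (j + 1) M'').toReal) =
      ee L Y n M' - ee L Y n M + ee L Y n M'' := by
    unfold ee
    rw [← Finset.sum_sub_distrib, ← Finset.sum_add_distrib]
    exact Finset.sum_congr rfl fun j _ => by ring
  rw [e1] at key
  rw [chi_succ, chi_succ, chi_succ, h1 0, h2 0, h4, ENNReal.toReal_add (hrt 0) (hat 0),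
    ENNReal.toReal_add (hat 0) (hbt 0)]
  linarith

end Tor

section Step

variable (Y : Type u) [AddCommGroup Y] [Module R Y]
variable {H C' G C : Type u} [AddCommGroup H] [Module R H] [AddCommGroup C'] [Module R C']
  [AddCommGroup G] [Module R G] [AddCommGroup C] [Module R C]

/-- length of the kernel of a composition with surjective first map. -/
theorem len_ker_comp {M N K : Type u} [AddCommGroup M] [Module R M] [AddCommGroup N] [Module R N]
    [AddCommGroup K] [Module R K] (f : M →ₗ[R] N) (g : N →ₗ[R] K) (hf : Function.Surjective f) :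
    L.len (LinearMap.ker (g ∘ₗ f)) = L.len (LinearMap.ker f) + L.len (LinearMap.ker g) := by
  have hle : LinearMap.ker f ≤ LinearMap.ker (g ∘ₗ f) := by
    intro x hx
    rw [LinearMap.mem_ker] at hx ⊢
    rw [LinearMap.comp_apply, hx, map_zero]
  refine L.add (Submodule.inclusion hle)
    ((f ∘ₗ (LinearMap.ker (g ∘ₗ f)).subtype).codRestrict (LinearMap.ker g) fun x => x.2)
    (Submodule.inclusion_injective hle) ?_ ?_
  · rintro ⟨y, hy⟩
    obtain ⟨x, rfl⟩ := hf y
    exact ⟨⟨x, hy⟩, rfl⟩
  · intro x
    constructor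
    · intro hx
      have : f x.1 = 0 := congrArg Subtype.val hx
      exact ⟨⟨x.1, this⟩, rfl⟩
    · rintro ⟨y, rfl⟩
      exact Subtype.ext y.2

variable (ι : H →ₗ[R] C') (δ : C' →ₗ[R] G) (π : G →ₗ[R] C)

/-- One step of the Künneth formula. -/
theorem step [Module.Flat R G] (hι : Function.Injective ι) (hιδ : Function.Exact ι δ)
    (hδπ : Function.Exact δ π) (hπ : Function.Surjective π) (b : ℕ) (hb : 1 ≤ b)
    (hH : ∀ j, tl L Y j H ≠ ⊤) (hH0 : ∀ j, b ≤ j → tl L Y j H = 0)
    (hC : ∀ j, 1 ≤ j → tl L Y j C ≠ ⊤) (hC0 : ∀ j, b ≤ j → tl L Y j C = 0) :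
    (∀ j, 1 ≤ j → tl L Y j C' ≠ ⊤) ∧ (∀ j, b ≤ j → tl L Y j C' = 0) ∧
      L.len (LinearMap.ker (δ.rTensor Y)) ≠ ⊤ ∧
      (L.len (LinearMap.ker (δ.rTensor Y))).toReal =
        chi L Y (b + 1) H + ee L Y b C + ee L Y b C' := by
  let B := LinearMap.range δ
  let δ' : C' →ₗ[R] B := δ.rangeRestrict
  have hδ' : Function.Surjective δ' := δ.surjective_rangeRestrict
  have hιδ' : Function.Exact ι δ' := by
    intro x
    rw [← hιδ x]
    constructor
    · intro hx
      exact congrArg Subtype.val hx
    · intro hx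
      exact Subtype.ext hx
  have hBπ : Function.Exact B.subtype π := by
    intro x
    rw [hδπ x]
    constructor
    · rintro ⟨y, rfl⟩
      exact ⟨⟨δ y, ⟨y, rfl⟩⟩, rfl⟩
    · rintro ⟨⟨_, ⟨y, rfl⟩⟩, rfl⟩
      exact ⟨y, rfl⟩
  have hshift : ∀ j, tl L Y (j + 1) B = tl L Y (j + 2) C := by
    intro j
    obtain ⟨e⟩ := tor_shift B.subtype π B.injective_subtype hπ hBπ Y j
    exact (Vale.Agent.P177.Mass.len_congr L e).symm
  have h1C : tl L Y 1 C = L.len (LinearMap.ker (B.subtype.rTensor Y)) := by
    obtain ⟨e⟩ := tor_one B.subtype π B.injective_subtype hπ hBπ Y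
    exact Vale.Agent.P177.Mass.len_congr L e
  obtain ⟨bb, r, h1, h2, h3, h4⟩ := tor_nums L Y ι δ' hι hδ' hιδ'
  have hB : ∀ j, 1 ≤ j → tl L Y j B ≠ ⊤ := by
    intro j hj
    obtain ⟨j, rfl⟩ := Nat.exists_eq_add_of_le' hj
    rw [hshift]
    exact hC _ (by omega)
  have hB0 : ∀ j, b ≤ j → tl L Y j B = 0 := by
    intro j hj
    obtain ⟨j, rfl⟩ := Nat.exists_eq_add_of_le' (hb.trans hj)
    rw [hshift]
    exact hC0 _ (by omega)
  have hC' : ∀ j, 1 ≤ j → tl L Y j C' ≠ ⊤ := fun j hj =>
    ne_top_of_le_ne_top (ENNReal.add_ne_top.2 ⟨hH j, hB j hj⟩) (tl_le_add L Y ι δ' hι hδ' hιδ' j)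
  have hC'0 : ∀ j, b ≤ j → tl L Y j C' = 0 := fun j hj => by
    have := tl_le_add L Y ι δ' hι hδ' hιδ' j
    rw [hH0 j hj, hB0 j hj, add_zero] at this
    exact le_antisymm this bot_le
  -- the range of `H ⊗ Y → C' ⊗ Y`
  have hran : L.len (LinearMap.ker (δ'.rTensor Y)) =
      L.len (LinearMap.range (torMap 0 ι Y)) := by
    have e1 : LinearMap.ker (δ'.rTensor Y) = LinearMap.range (ι.rTensor Y) := by
      have := rTensor_exact Y hιδ' hδ'
      rw [LinearMap.exact_iff] at this
      exact this
    rw [e1]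
    have e2 : LinearMap.range (torMap 0 ι Y) =
        (LinearMap.range (ι.rTensor Y)).map (torZero C' Y).symm.toLinearMap := by
      ext x
      simp only [LinearMap.mem_range, Submodule.mem_map]
      constructor
      · rintro ⟨y, rfl⟩
        refine ⟨ι.rTensor Y (torZero H Y y), ⟨_, rfl⟩, ?_⟩
        apply (torZero C' Y).injective
        rw [torZero_naturality]
        exact LinearEquiv.apply_symm_apply _ _
      · rintro ⟨_, ⟨y, rfl⟩, rfl⟩
        refine ⟨(torZero H Y).symm y, ?_⟩
        apply (torZero C' Y).injective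
        rw [torZero_naturality, LinearEquiv.apply_symm_apply]
        exact (LinearEquiv.apply_symm_apply _ _).symm
    rw [e2]
    exact Vale.Agent.P177.Mass.len_congr L ((torZero C' Y).symm.submoduleMap _)
  have hcomp : L.len (LinearMap.ker (δ.rTensor Y)) =
      L.len (LinearMap.range (torMap 0 ι Y)) + tl L Y 1 C := by
    have e1 : δ.rTensor Y = (B.subtype.rTensor Y) ∘ₗ (δ'.rTensor Y) := by
      rw [← LinearMap.rTensor_comp]
      rfl
    rw [e1, len_ker_comp L _ _ (LinearMap.rTensor_surjective Y hδ'), hran, h1C]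
  have hrt : ∀ j, r j ≠ ⊤ := fun j => by
    have := hH j
    rw [h1] at this
    exact (ENNReal.add_ne_top.1 this).1
  have hat : ∀ j, L.len (LinearMap.range (torMap j ι Y)) ≠ ⊤ := fun j => by
    have := hH j
    rw [h1] at this
    exact (ENNReal.add_ne_top.1 this).2
  have hbt : ∀ j, bb (j + 1) ≠ ⊤ := by
    intro j
    have := hB (j + 1) (by omega)
    rw [h3] at this
    exact (ENNReal.add_ne_top.1 this).1
  refine ⟨hC', hC'0, ?_, ?_⟩
  · rw [hcomp]
    exact ENNReal.add_ne_top.2 ⟨hat 0, hC 1 le_rfl⟩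
  have hr : r b = 0 := by
    have := h1 b
    rw [hH0 b le_rfl] at this
    exact (add_eq_zero.1 this.symm).1
  have key : ∀ n, ∑ j ∈ Finset.range n, (-1 : ℝ) ^ j * ((tl L Y (j + 1) H).toReal -
      (tl L Y (j + 1) C').toReal + (tl L Y (j + 1) B).toReal) =
      (r 0).toReal - (-1) ^ n * (r n).toReal := by
    intro n
    induction n with
    | zero => simp
    | succ n ih =>
      rw [Finset.sum_range_succ, ih, h1, h2, h3, ENNReal.toReal_add (hrt _) (hat _),
        ENNReal.toReal_add (hat _) (hbt _), ENNReal.toReal_add (hbt _) (hrt _), pow_succ]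
      ring
  have key' := key b
  rw [hr, ENNReal.toReal_zero, mul_zero, sub_zero] at key'
  have e1 : ∑ j ∈ Finset.range b, (-1 : ℝ) ^ j * ((tl L Y (j + 1) H).toReal -
      (tl L Y (j + 1) C').toReal + (tl L Y (j + 1) B).toReal) =
      ee L Y b H - ee L Y b C' + ∑ j ∈ Finset.range b, (-1 : ℝ) ^ j * (tl L Y (j + 2) C).toReal := by
    unfold ee
    rw [← Finset.sum_sub_distrib, ← Finset.sum_add_distrib]
    exact Finset.sum_congr rfl fun j _ => by rw [hshift]; ring
  have e2 : ee L Y b C = (tl L Y 1 C).toReal -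
      ∑ j ∈ Finset.range b, (-1 : ℝ) ^ j * (tl L Y (j + 2) C).toReal := by
    have h5 : ee L Y (b + 1) C = ee L Y b C := by
      unfold ee
      rw [Finset.sum_range_succ, hC0 (b + 1) (by omega)]
      simp
    rw [← h5]
    unfold ee
    rw [Finset.sum_range_succ', sub_eq_add_neg, ← Finset.sum_neg_distrib, add_comm]
    congr 1
    · simp
    · exact Finset.sum_congr rfl fun j _ => by rw [pow_succ]; ring
  rw [e1] at key'
  rw [hcomp, ENNReal.toReal_add (hat 0) (hC 1 le_rfl), chi_succ, e2, h1 0,
    ENNReal.toReal_add (hrt 0) (hat 0)]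
  linarith

/-- If `H` is invisible, the vanishing range of Tor improves by one. -/
theorem step_null [Module.Flat R G] (hι : Function.Injective ι) (hιδ : Function.Exact ι δ)
    (hδπ : Function.Exact δ π) (hπ : Function.Surjective π) (c : ℕ) (hc : 1 ≤ c)
    (hH0 : ∀ j, tl L Y j H = 0) (hC0 : ∀ j, c + 1 ≤ j → tl L Y j C = 0) :
    ∀ j, c ≤ j → tl L Y j C' = 0 := by
  let B := LinearMap.range δ
  let δ' : C' →ₗ[R] B := δ.rangeRestrict
  have hδ' : Function.Surjective δ' := δ.surjective_rangeRestrict
  have hιδ' : Function.Exact ι δ' := by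
    intro x
    rw [← hιδ x]
    constructor
    · intro hx
      exact congrArg Subtype.val hx
    · intro hx
      exact Subtype.ext hx
  have hBπ : Function.Exact B.subtype π := by
    intro x
    rw [hδπ x]
    constructor
    · rintro ⟨y, rfl⟩
      exact ⟨⟨δ y, ⟨y, rfl⟩⟩, rfl⟩
    · rintro ⟨⟨_, ⟨y, rfl⟩⟩, rfl⟩
      exact ⟨y, rfl⟩
  intro j hj
  have h1 := tl_le_add L Y ι δ' hι hδ' hιδ' j
  have h2 : tl L Y j B = 0 := by
    obtain ⟨j, rfl⟩ := Nat.exists_eq_add_of_le' (hc.trans hj)
    obtain ⟨e⟩ := tor_shift B.subtype π B.injective_subtype hπ hBπ Y j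
    exact (Vale.Agent.P177.Mass.len_congr L e).symm.trans (hC0 _ (by omega))
  rw [hH0 j, h2, add_zero] at h1
  exact le_antisymm h1 bot_le

end Step

section Kunneth

variable (Y : Type u) [AddCommGroup Y] [Module R Y]

/-- **The Künneth formula for Euler characteristics.** `G i` flat, `δ i : C (i + 1) → G i` with
cokernel `C i`, and `H (i + 1)` the kernel of `δ i`, `H 0 = C 0`. -/
theorem kunneth (G C H : ℕ → Type u) [∀ i, AddCommGroup (G i)] [∀ i, Module R (G i)]
    [∀ i, AddCommGroup (C i)] [∀ i, Module R (C i)] [∀ i, AddCommGroup (H i)]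
    [∀ i, Module R (H i)] [∀ i, Module.Flat R (G i)]
    (δ : ∀ i, C (i + 1) →ₗ[R] G i) (π : ∀ i, G i →ₗ[R] C i) (ι : ∀ i, H (i + 1) →ₗ[R] C (i + 1))
    (e₀ : H 0 ≃ₗ[R] C 0) (hι : ∀ i, Function.Injective (ι i))
    (hιδ : ∀ i, Function.Exact (ι i) (δ i)) (hδπ : ∀ i, Function.Exact (δ i) (π i))
    (hπ : ∀ i, Function.Surjective (π i)) (b d : ℕ) (hb : 1 ≤ b)
    (hH : ∀ i j, tl L Y j (H i) ≠ ⊤) (hH0 : ∀ i j, b ≤ j → tl L Y j (H i) = 0)
    (hd : ∀ i, d ≤ i → ∀ j, tl L Y j (H i) = 0)
    (w : ℕ → ℝ≥0∞) (hw0 : w 0 = L.len (C 0 ⊗[R] Y))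
    (hw : ∀ i, w (i + 1) = L.len (LinearMap.ker ((δ i).rTensor Y))) :
    (∀ i, w i ≠ ⊤) ∧ ∀ n, d + b ≤ n →
      ∑ i ∈ Finset.range n, (-1 : ℝ) ^ i * (w i).toReal =
        ∑ i ∈ Finset.range n, (-1 : ℝ) ^ i * chi L Y (b + 1) (H i) := by
  have main : ∀ i, (∀ j, 1 ≤ j → tl L Y j (C i) ≠ ⊤) ∧ (∀ j, b ≤ j → tl L Y j (C i) = 0) ∧
      w i ≠ ⊤ ∧ ∑ k ∈ Finset.range (i + 1), (-1 : ℝ) ^ k * (w k).toReal =
        ∑ k ∈ Finset.range (i + 1), (-1 : ℝ) ^ k * chi L Y (b + 1) (H k) +
          (-1) ^ i * ee L Y b (C i) := by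
    intro i
    induction i with
    | zero =>
      have h1 : ∀ j, tl L Y j (C 0) = tl L Y j (H 0) := fun j => (tl_congr L Y e₀ j).symm
      refine ⟨fun j _ => by rw [h1]; exact hH 0 j, fun j hj => by rw [h1]; exact hH0 0 j hj, ?_, ?_⟩
      · rw [hw0, ← tl_zero_eq, h1]
        exact hH 0 0
      · have h2 : ee L Y b (H 0) = ee L Y b (C 0) := by
          unfold ee
          exact Finset.sum_congr rfl fun j _ => by rw [h1]
        simp only [zero_add, Finset.range_one, Finset.sum_singleton, pow_zero, one_mul]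
        rw [hw0, ← tl_zero_eq, chi_succ, h1, h2]
        ring
    | succ i ih =>
      obtain ⟨h1, h2, -, h4⟩ := ih
      obtain ⟨k1, k2, k3, k4⟩ := step L Y (ι i) (δ i) (π i) (hι i) (hιδ i) (hδπ i) (hπ i) b hb
        (hH (i + 1)) (hH0 (i + 1)) h1 h2
      refine ⟨k1, k2, by rw [hw]; exact k3, ?_⟩
      rw [Finset.sum_range_succ, h4, Finset.sum_range_succ _ (i + 1), hw, k4, pow_succ]
      ring
  refine ⟨fun i => (main i).2.2.1, fun n hn => ?_⟩
  -- the last remainder vanishes
  have tail : ∀ m, m + 1 ≤ b → ∀ j, b - m ≤ j → tl L Y j (C (d + m)) = 0 := by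
    intro m
    induction m with
    | zero => intro _ j hj; exact (main _).2.1 j (by omega)
    | succ m ih =>
      intro hm j hj
      exact step_null L Y (ι (d + m)) (δ (d + m)) (π (d + m)) (hι _) (hιδ _) (hδπ _) (hπ _)
        (b - (m + 1)) (by omega) (hd _ (by omega))
        (fun j hj => ih (by omega) j (by omega)) j hj
  have tail' : ∀ m, ∀ j, 1 ≤ j → tl L Y j (C (d + (b - 1) + m)) = 0 := by
    intro m
    induction m with
    | zero => intro j hj; exact tail (b - 1) (by omega) j (by omega)
    | succ m ih =>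
      intro j hj
      exact step_null L Y (ι (d + (b - 1) + m)) (δ _) (π _) (hι _) (hιδ _) (hδπ _) (hπ _)
        1 le_rfl (hd _ (by omega)) (fun j hj => ih j (by omega)) j hj
  obtain ⟨m, rfl⟩ : ∃ m, n = d + (b - 1) + m + 1 := ⟨n - (d + b), by omega⟩
  rw [(main (d + (b - 1) + m)).2.2.2]
  have : ee L Y b (C (d + (b - 1) + m)) = 0 := by
    unfold ee
    refine Finset.sum_eq_zero fun j _ => ?_
    rw [tail' m (j + 1) (by omega)]
    simp
  rw [this, mul_zero, add_zero]

end Kunneth

end Vale.Agent.P177.B8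
end

section

/-!
P177, block B8, part 2: devissage. `E` flat over a local ring `Λ`. For a module `N` of finite
length over `Λ` the Euler characteristic of `E ⊗ N` and `Y` is the length of `N` times the Euler
characteristic of `E ⊗ k` and `Y`.
-/

namespace Vale.Agent.P177.B8

open Vale.Agent.P202.Mix Vale.Agent.P177.Mass TensorProduct
open scoped ENNReal

universe u

variable {Λ E : Type u} [CommRing Λ] [CommRing E] [Algebra Λ E] (L : AddLen E)
  (Y : Type u) [AddCommGroup Y] [Module E Y]

/-- isomorphic modules have the same length of Tor after base change. -/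
theorem tl_baseChange_congr {N N' : Type u} [AddCommGroup N] [Module Λ N] [AddCommGroup N']
    [Module Λ N'] (e : N ≃ₗ[Λ] N') (j : ℕ) : tl L Y j (E ⊗[Λ] N) = tl L Y j (E ⊗[Λ] N') :=
  tl_congr L Y (e.baseChange Λ E N N') j

theorem tl_subsingleton {M : Type u} [AddCommGroup M] [Module E M] [Subsingleton M] (j : ℕ) :
    tl L Y j M = 0 := by
  have e : M ≃ₗ[E] PUnit.{u + 1} :=
    { toFun := fun _ => PUnit.unit
      invFun := fun _ => 0
      map_add' := fun _ _ => rfl
      map_smul' := fun _ _ => rfl
      left_inv := fun _ => Subsingleton.elim _ _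
      right_inv := fun _ => rfl }
  rw [tl_congr L Y e]
  cases j with
  | zero =>
    rw [tl_zero_eq]
    have : Subsingleton (PUnit.{u + 1} ⊗[E] Y) := by
      refine ⟨fun a b => ?_⟩
      have h : ∀ a : PUnit.{u + 1} ⊗[E] Y, a = 0 := by
        intro a
        induction a using TensorProduct.induction_on with
        | zero => rfl
        | tmul x y =>
          have : x = 0 := Subsingleton.elim _ _
          rw [this, TensorProduct.zero_tmul]
        | add a b ha hb => rw [ha, hb, add_zero]
      rw [h a, h b]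
    have e' : (PUnit.{u + 1} ⊗[E] Y) ≃ₗ[E] PUnit.{u + 1} :=
      { toFun := fun _ => PUnit.unit
        invFun := fun _ => 0
        map_add' := fun _ _ => rfl
        map_smul' := fun _ _ => rfl
        left_inv := fun _ => Subsingleton.elim _ _
        right_inv := fun _ => rfl }
    rw [Vale.Agent.P177.Mass.len_congr L e', L.zero]
  | succ j =>
    have : Module.Flat E PUnit.{u + 1} := by
      have : Module.Free E PUnit.{u + 1} := Module.Free.of_subsingleton _ _
      infer_instance
    have s : Subsingleton (TorM E (j + 1) PUnit.{u + 1} Y) := tor_subsingleton_of_flat j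
    have e' : TorM E (j + 1) PUnit.{u + 1} Y ≃ₗ[E] PUnit.{u + 1} :=
      { toFun := fun _ => PUnit.unit
        invFun := fun _ => 0
        map_add' := fun _ _ => rfl
        map_smul' := fun _ _ => rfl
        left_inv := fun _ => Subsingleton.elim _ _
        right_inv := fun _ => rfl }
    exact (Vale.Agent.P177.Mass.len_congr L e').trans L.zero

/-- **Devissage.** -/
theorem devissage [IsLocalRing Λ] [Module.Flat Λ E] (b : ℕ)
    (hfin : ∀ j, tl L Y j (E ⊗[Λ] (Λ ⧸ IsLocalRing.maximalIdeal Λ)) ≠ ⊤)
    (hvan : ∀ j, b ≤ j → tl L Y j (E ⊗[Λ] (Λ ⧸ IsLocalRing.maximalIdeal Λ)) = 0)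
    (N : Type u) [AddCommGroup N] [Module Λ N] (hN : IsFiniteLength Λ N) :
    (∀ j, tl L Y j (E ⊗[Λ] N) ≠ ⊤) ∧ (∀ j, b ≤ j → tl L Y j (E ⊗[Λ] N) = 0) ∧
      Vale.Agent.P177.B8.chi L Y (b + 1) (E ⊗[Λ] N) = ((Module.length Λ N).toNat : ℝ) *
        Vale.Agent.P177.B8.chi L Y (b + 1) (E ⊗[Λ] (Λ ⧸ IsLocalRing.maximalIdeal Λ)) := by
  induction hN with
  | of_subsingleton =>
    rename_i M _ _ _
    have : Subsingleton (E ⊗[Λ] M) := by
      refine ⟨fun a b => ?_⟩
      have h : ∀ a : E ⊗[Λ] M, a = 0 := by
        intro a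
        induction a using TensorProduct.induction_on with
        | zero => rfl
        | tmul x y =>
          have : y = 0 := Subsingleton.elim _ _
          rw [this, TensorProduct.tmul_zero]
        | add a b ha hb => rw [ha, hb, add_zero]
      rw [h a, h b]
    have h0 : ∀ j, tl L Y j (E ⊗[Λ] M) = 0 := fun j => tl_subsingleton L Y j
    refine ⟨fun j => by rw [h0]; exact ENNReal.zero_ne_top, fun j _ => h0 j, ?_⟩
    have h1 : Module.length Λ M = 0 := Module.length_eq_zero_iff.2 inferInstance
    rw [h1]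
    unfold Vale.Agent.P177.B8.chi
    simp [h0]
  | of_simple_quotient hN ih =>
    rename_i M _ _ N _
    obtain ⟨i1, i2, i3⟩ := ih
    obtain ⟨m, hm, ⟨e⟩⟩ := isSimpleModule_iff_quot_maximal.mp (‹IsSimpleModule Λ (M ⧸ N)›)
    obtain rfl := IsLocalRing.eq_maximalIdeal hm
    have q1 : ∀ j, tl L Y j (E ⊗[Λ] (M ⧸ N)) =
        tl L Y j (E ⊗[Λ] (Λ ⧸ IsLocalRing.maximalIdeal Λ)) := fun j => tl_baseChange_congr L Y e j
    have hf : Function.Injective (N.subtype.baseChange E) :=
      Module.Flat.lTensor_preserves_injective_linearMap (M := E) N.subtype N.injective_subtype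
    have hg : Function.Surjective (N.mkQ.baseChange E) :=
      LinearMap.lTensor_surjective E N.mkQ_surjective
    have hex : Function.Exact N.subtype N.mkQ := by
      rw [LinearMap.exact_iff, Submodule.ker_mkQ, Submodule.range_subtype]
    have hfg : Function.Exact (N.subtype.baseChange E) (N.mkQ.baseChange E) :=
      lTensor_exact E hex N.mkQ_surjective
    have hle := tl_le_add L Y _ _ hf hg hfg
    have q2 : Vale.Agent.P177.B8.chi L Y (b + 1) (E ⊗[Λ] (M ⧸ N)) =
        Vale.Agent.P177.B8.chi L Y (b + 1) (E ⊗[Λ] (Λ ⧸ IsLocalRing.maximalIdeal Λ)) := by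
      unfold Vale.Agent.P177.B8.chi
      exact Finset.sum_congr rfl fun j _ => by rw [q1]
    refine ⟨fun j => ne_top_of_le_ne_top (ENNReal.add_ne_top.2 ⟨i1 j, ?_⟩) (hle j),
      fun j hj => ?_, ?_⟩
    · rw [q1]
      exact hfin j
    · have := hle j
      rw [i2 j hj, q1, hvan j hj, add_zero] at this
      exact le_antisymm this bot_le
    · rw [Vale.Agent.P177.B8.chi_add L Y _ _ hf hg hfg b i1 (fun j => by rw [q1]; exact hfin j) (i2 b le_rfl), i3, q2]
      have h1 : Module.length Λ M = Module.length Λ N + 1 := by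
        rw [Module.length_eq_add_of_exact N.subtype N.mkQ N.injective_subtype N.mkQ_surjective hex]
        congr 1
        exact Module.length_eq_one (R := Λ) (M := M ⧸ N)
      have h2 : Module.length Λ N ≠ ⊤ := Module.length_ne_top_iff.2 hN
      rw [h1, ENat.toNat_add h2 ENat.one_ne_top]
      push_cast
      simp only [ENat.toNat_one, Nat.cast_one]
      ring

end Vale.Agent.P177.B8
end

section

/-!
P177, block B8, part 3: syzygies, and comparison of tensor products over different rings.
-/

namespace Vale.Agent.P177.B8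

open Vale.Agent.P202.Mix Vale.Agent.P177.Mass TensorProduct
open scoped ENNReal

universe u

section Syz

variable {R : Type u} [CommRing R]

/-- Tor in terms of syzygies. -/
theorem tor_syz (K F : ℕ → Type u) [∀ i, AddCommGroup (K i)] [∀ i, Module R (K i)]
    [∀ i, AddCommGroup (F i)] [∀ i, Module R (F i)] [∀ i, Module.Flat R (F i)]
    (f : ∀ i, K (i + 1) →ₗ[R] F i) (g : ∀ i, F i →ₗ[R] K i) (hf : ∀ i, Function.Injective (f i))
    (hg : ∀ i, Function.Surjective (g i)) (h : ∀ i, Function.Exact (f i) (g i)) (N : Type u)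
    [AddCommGroup N] [Module R N] (i : ℕ) :
    Nonempty (TorM R (i + 1) (K 0) N ≃ₗ[R] LinearMap.ker ((f i).rTensor N)) := by
  have aux : ∀ i j, Nonempty (TorM R (j + 1 + i) (K 0) N ≃ₗ[R] TorM R (j + 1) (K i) N) := by
    intro i
    induction i with
    | zero => intro j; exact ⟨LinearEquiv.refl R _⟩
    | succ i ih =>
      intro j
      obtain ⟨e1⟩ := ih (j + 1)
      obtain ⟨e2⟩ := tor_shift (f i) (g i) (hf i) (hg i) (h i) N j
      have : j + 1 + (i + 1) = j + 1 + 1 + i := by omega
      rw [this]
      exact ⟨e1 ≪≫ₗ e2⟩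
  have e1' : Nonempty (TorM R (i + 1) (K 0) N ≃ₗ[R] TorM R 1 (K i) N) := by
    have := aux i 0
    rwa [show 0 + 1 + i = i + 1 by omega] at this
  obtain ⟨e1⟩ := e1'
  obtain ⟨e2⟩ := tor_one (f i) (g i) (hf i) (hg i) (h i) N
  exact ⟨e1 ≪≫ₗ e2⟩

/-- the covering map of a module by the free module on its elements. -/
noncomputable def cov (M : Type u) [AddCommGroup M] [Module R M] : (M →₀ R) →ₗ[R] M :=
  Finsupp.linearCombination R id

/-- the syzygies of a module, for the free covers on all the elements. -/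
noncomputable def syz (A : ModuleCat.{u} R) : ℕ → ModuleCat.{u} R
  | 0 => A
  | n + 1 => ModuleCat.of R (LinearMap.ker (cov (R := R) (syz A n)))

/-- the free covers. -/
abbrev Fs (A : ModuleCat.{u} R) (n : ℕ) : Type u := (syz A n) →₀ R

/-- the covering map. -/
noncomputable def gs (A : ModuleCat.{u} R) (n : ℕ) : Fs A n →ₗ[R] syz A n :=
  cov (syz A n)

/-- the inclusion of the syzygies. -/
noncomputable def fs (A : ModuleCat.{u} R) (n : ℕ) : syz A (n + 1) →ₗ[R] Fs A n :=
  (LinearMap.ker (cov (R := R) (syz A n))).subtype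

theorem fs_injective (A : ModuleCat.{u} R) (n : ℕ) : Function.Injective (fs A n) :=
  Submodule.injective_subtype (LinearMap.ker (cov (R := R) (syz A n)))

theorem gs_surjective (A : ModuleCat.{u} R) (n : ℕ) : Function.Surjective (gs A n) := fun m =>
  ⟨Finsupp.single m 1, by simp [gs, cov]⟩

theorem fs_exact (A : ModuleCat.{u} R) (n : ℕ) : Function.Exact (fs A n) (gs A n) := by
  intro x
  constructor
  · intro hx
    exact ⟨(⟨x, hx⟩ : LinearMap.ker (cov (R := R) (syz A n))), rfl⟩
  · rintro ⟨y, rfl⟩
    exact (show LinearMap.ker (cov (R := R) (syz A n)) from y).2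

end Syz

section Cmp

variable {Λ R E D : Type u} [CommRing Λ] [CommRing R] [CommRing E] [CommRing D]
  [Algebra Λ R] [Algebra Λ E] [Algebra R D] [Algebra E D]
  (P : Type u) [AddCommGroup P] [Module R P] [Module Λ P] [IsScalarTower Λ R P]
  (Y : Type u) [AddCommGroup Y] [Module E Y] [Module Λ Y] [IsScalarTower Λ E Y]
  (X : Type u) [AddCommGroup X] [Module D X] [Module R X] [IsScalarTower R D X]
  [Module E X] [IsScalarTower E D X]
  (K : Type u) [AddCommGroup K] [Module R K]

/-- `X = Y ⊗[Λ] P` with `E` acting through `Y` and `R` acting through `P`. -/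
structure TData where
  /-- the identification -/
  e : Y ⊗[Λ] P ≃+ X
  hE : ∀ (a : E) (y : Y) (l : P), e ((a • y) ⊗ₜ l) = a • e (y ⊗ₜ l)
  hR : ∀ (r : R) (y : Y) (l : P), e (y ⊗ₜ (r • l)) = r • e (y ⊗ₜ l)

variable {P Y X}

/-- the `R`-linear map `l ↦ y ⊗ l`. -/
def TData.phi (T : TData (Λ := Λ) (R := R) (E := E) P Y X) (y : Y) : P →ₗ[R] X where
  toFun l := T.e (y ⊗ₜ l)
  map_add' a b := by rw [TensorProduct.tmul_add, map_add]
  map_smul' r a := by rw [T.hR, RingHom.id_apply]

theorem TData.phi_apply (T : TData (Λ := Λ) (R := R) (E := E) P Y X) (y : Y) (l : P) :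
    T.phi y l = T.e (y ⊗ₜ l) := rfl

/-- `y ⊗ (l ⊗ k) ↦ (y ⊗ l) ⊗ k`. -/
noncomputable def TData.bet (T : TData (Λ := Λ) (R := R) (E := E) P Y X) :
    Y ⊗[Λ] (P ⊗[R] K) →+ X ⊗[R] K :=
  TensorProduct.liftAddHom
    { toFun := fun y => (LinearMap.rTensor K (T.phi y)).toAddMonoidHom
      map_zero' := by
        ext z
        change (LinearMap.rTensor K (T.phi 0)) z = 0
        have : T.phi 0 = 0 := by
          ext l
          rw [TData.phi_apply, TensorProduct.zero_tmul, map_zero, LinearMap.zero_apply]
        rw [this, LinearMap.rTensor_zero, LinearMap.zero_apply]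
      map_add' := fun y y' => by
        ext z
        change (LinearMap.rTensor K (T.phi (y + y'))) z =
          (LinearMap.rTensor K (T.phi y)) z + (LinearMap.rTensor K (T.phi y')) z
        have : T.phi (y + y') = T.phi y + T.phi y' := by
          ext l
          rw [LinearMap.add_apply, TData.phi_apply, TensorProduct.add_tmul, map_add]
          rfl
        rw [this, LinearMap.rTensor_add, LinearMap.add_apply] }
    (by
      intro r y z
      change (LinearMap.rTensor K (T.phi (r • y))) z = (LinearMap.rTensor K (T.phi y)) (r • z)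
      induction z using TensorProduct.induction_on with
      | zero => rw [smul_zero, map_zero, map_zero]
      | tmul l k =>
        rw [TensorProduct.smul_tmul', LinearMap.rTensor_tmul, LinearMap.rTensor_tmul,
          TData.phi_apply, TData.phi_apply, TensorProduct.smul_tmul]
      | add a b ha hb => rw [smul_add, map_add, map_add, ha, hb])

theorem TData.bet_tmul (T : TData (Λ := Λ) (R := R) (E := E) P Y X) (y : Y) (l : P) (k : K) :
    T.bet K (y ⊗ₜ (l ⊗ₜ k)) = T.e (y ⊗ₜ l) ⊗ₜ k := rfl

/-- the `Λ`-linear map `l ↦ l ⊗ k`. -/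
noncomputable def mkk (k : K) : P →ₗ[Λ] P ⊗[R] K where
  toFun l := l ⊗ₜ k
  map_add' a b := TensorProduct.add_tmul a b k
  map_smul' r a := by rw [RingHom.id_apply, TensorProduct.smul_tmul']

theorem mkk_apply (k : K) (l : P) : mkk (Λ := Λ) (R := R) K k l = l ⊗ₜ k := rfl

/-- The map sending (y ⊗ l) ⊗ k to y ⊗ (l ⊗ k). -/
noncomputable def TData.alp (T : TData (Λ := Λ) (R := R) (E := E) P Y X) :
    X ⊗[R] K →+ Y ⊗[Λ] (P ⊗[R] K) :=
  TensorProduct.liftAddHom
    { toFun := fun x =>
        { toFun := fun k => (mkk (Λ := Λ) (R := R) (P := P) K k).lTensor Y (T.e.symm x)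
          map_zero' := by
            have : mkk (Λ := Λ) (R := R) (P := P) K 0 = 0 := by
              ext l
              rw [mkk_apply, TensorProduct.tmul_zero, LinearMap.zero_apply]
            rw [this, LinearMap.lTensor_zero, LinearMap.zero_apply]
          map_add' := fun k k' => by
            have : mkk (Λ := Λ) (R := R) (P := P) K (k + k') = mkk K k + mkk K k' := by
              ext l
              rw [LinearMap.add_apply, mkk_apply, mkk_apply, mkk_apply, TensorProduct.tmul_add]
            rw [this, LinearMap.lTensor_add, LinearMap.add_apply] }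
      map_zero' := by
        ext k
        change (mkk (Λ := Λ) (R := R) (P := P) K k).lTensor Y (T.e.symm 0) = 0
        rw [map_zero, map_zero]
      map_add' := fun x x' => by
        ext k
        change (mkk (Λ := Λ) (R := R) (P := P) K k).lTensor Y (T.e.symm (x + x')) =
          (mkk (Λ := Λ) (R := R) (P := P) K k).lTensor Y (T.e.symm x) +
          (mkk (Λ := Λ) (R := R) (P := P) K k).lTensor Y (T.e.symm x')
        rw [map_add, map_add] }
    (by
      intro r x k
      change (mkk (Λ := Λ) (R := R) (P := P) K k).lTensor Y (T.e.symm (r • x)) =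
        (mkk (Λ := Λ) (R := R) (P := P) K (r • k)).lTensor Y (T.e.symm x)
      obtain ⟨t, rfl⟩ := T.e.surjective x
      rw [AddEquiv.symm_apply_apply]
      induction t using TensorProduct.induction_on with
      | zero => rw [map_zero, smul_zero, map_zero, map_zero, map_zero]
      | tmul y l =>
        rw [← T.hR, AddEquiv.symm_apply_apply, LinearMap.lTensor_tmul, LinearMap.lTensor_tmul,
          mkk_apply, mkk_apply, TensorProduct.smul_tmul]
      | add a b ha hb => rw [map_add, smul_add, map_add, map_add, map_add, ha, hb])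

theorem TData.alp_tmul (T : TData (Λ := Λ) (R := R) (E := E) P Y X) (x : X) (k : K) :
    T.alp K (x ⊗ₜ k) = (mkk (Λ := Λ) (R := R) (P := P) K k).lTensor Y (T.e.symm x) := rfl

theorem TData.alp_bet (T : TData (Λ := Λ) (R := R) (E := E) P Y X) (t : Y ⊗[Λ] (P ⊗[R] K)) :
    T.alp K (T.bet K t) = t := by
  induction t using TensorProduct.induction_on with
  | zero => rw [map_zero, map_zero]
  | tmul y z =>
    induction z using TensorProduct.induction_on with
    | zero => rw [TensorProduct.tmul_zero, map_zero, map_zero]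
    | tmul l k =>
      rw [TData.bet_tmul, TData.alp_tmul, AddEquiv.symm_apply_apply, LinearMap.lTensor_tmul,
        mkk_apply]
    | add a b ha hb => rw [TensorProduct.tmul_add, map_add, map_add, ha, hb]
  | add a b ha hb => rw [map_add, map_add, ha, hb]

theorem TData.bet_alp (T : TData (Λ := Λ) (R := R) (E := E) P Y X) (t : X ⊗[R] K) :
    T.bet K (T.alp K t) = t := by
  induction t using TensorProduct.induction_on with
  | zero => rw [map_zero, map_zero]
  | tmul x k =>
    rw [TData.alp_tmul]
    obtain ⟨s, rfl⟩ := T.e.surjective x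
    rw [AddEquiv.symm_apply_apply]
    induction s using TensorProduct.induction_on with
    | zero => rw [map_zero, map_zero, map_zero, TensorProduct.zero_tmul]
    | tmul y l => rw [LinearMap.lTensor_tmul, mkk_apply, TData.bet_tmul]
    | add a b ha hb => rw [map_add, map_add, map_add, TensorProduct.add_tmul, ha, hb]
  | add a b ha hb => rw [map_add, map_add, ha, hb]

/-- `Y ⊗[Λ] (P ⊗[R] K) = X ⊗[R] K`. -/
noncomputable def TData.equ (T : TData (Λ := Λ) (R := R) (E := E) P Y X) :
    Y ⊗[Λ] (P ⊗[R] K) ≃+ X ⊗[R] K where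
  toFun := T.bet K
  invFun := T.alp K
  left_inv := T.alp_bet K
  right_inv := T.bet_alp K
  map_add' := map_add _

theorem TData.bet_smul (T : TData (Λ := Λ) (R := R) (E := E) P Y X) (a : E)
    (t : Y ⊗[Λ] (P ⊗[R] K)) : T.bet K (a • t) = algebraMap E D a • T.bet K t := by
  induction t using TensorProduct.induction_on with
  | zero => rw [smul_zero, map_zero, smul_zero]
  | tmul y z =>
    rw [TensorProduct.smul_tmul']
    induction z using TensorProduct.induction_on with
    | zero => rw [TensorProduct.tmul_zero, TensorProduct.tmul_zero, map_zero, smul_zero]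
    | tmul l k =>
      rw [TData.bet_tmul, TData.bet_tmul, T.hE, TensorProduct.smul_tmul', algebraMap_smul]
    | add a b ha hb => rw [TensorProduct.tmul_add, map_add, TensorProduct.tmul_add, map_add,
        smul_add, ha, hb]
  | add a b ha hb => rw [smul_add, map_add, map_add, smul_add, ha, hb]

variable {K} {F : Type u} [AddCommGroup F] [Module R F]

/-- naturality. -/
theorem TData.bet_nat (T : TData (Λ := Λ) (R := R) (E := E) P Y X) (f : K →ₗ[R] F)
    (t : Y ⊗[Λ] (P ⊗[R] K)) :
    T.bet F (((f.lTensor P).restrictScalars Λ).lTensor Y t) = f.lTensor X (T.bet K t) := by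
  induction t using TensorProduct.induction_on with
  | zero => simp only [map_zero]
  | tmul y z =>
    induction z using TensorProduct.induction_on with
    | zero => simp only [TensorProduct.tmul_zero, map_zero]
    | tmul l k =>
      rw [TData.bet_tmul, LinearMap.lTensor_tmul, LinearMap.restrictScalars_apply,
        LinearMap.lTensor_tmul, LinearMap.lTensor_tmul, TData.bet_tmul]
    | add a b ha hb => simp only [TensorProduct.tmul_add, map_add, ha, hb]
  | add a b ha hb => simp only [map_add, ha, hb]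

end Cmp

end Vale.Agent.P177.B8
end

section

/-!
P177, block TH: additive lengths, null modules, null isomorphisms, Tor of null modules.
-/

namespace Vale.Agent.P177.TH

open Vale.Agent.P202.Mix TensorProduct Function
open scoped ENNReal

universe u

section Len

variable {D : Type u} [CommRing D] (L : AddLen D)
variable {M N K E : Type u} [AddCommGroup M] [Module D M] [AddCommGroup N] [Module D N]
  [AddCommGroup K] [Module D K] [AddCommGroup E] [Module D E]

theorem len_congr (f : M ≃ₗ[D] N) : L.len M = L.len N := by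
  have h := L.add (f : M →ₗ[D] N) (0 : N →ₗ[D] PUnit.{u + 1}) f.injective
    (fun y => ⟨0, Subsingleton.elim _ _⟩) (fun y => ⟨fun _ => f.surjective y, fun _ => rfl⟩)
  rw [L.zero, add_zero] at h
  exact h.symm

theorem len_sub (P : Submodule D M) : L.len M = L.len P + L.len (M ⧸ P) :=
  L.add P.subtype P.mkQ P.injective_subtype P.mkQ_surjective
    (by rw [LinearMap.exact_iff, Submodule.ker_mkQ, Submodule.range_subtype])

theorem len_ker_range (f : M →ₗ[D] N) :
    L.len M = L.len (LinearMap.ker f) + L.len (LinearMap.range f) := by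
  rw [len_sub L (LinearMap.ker f), len_congr L f.quotKerEquivRange]

theorem len_le_of_inj (f : M →ₗ[D] N) (hf : Injective f) : L.len M ≤ L.len N := by
  rw [len_congr L (LinearEquiv.ofInjective f hf), len_sub L (LinearMap.range f)]
  exact le_self_add

theorem len_range_le (f : M →ₗ[D] N) : L.len (LinearMap.range f) ≤ L.len M := by
  rw [len_ker_range L f]
  exact le_add_self

theorem len_le_of_surj (f : M →ₗ[D] N) (hf : Surjective f) : L.len N ≤ L.len M := by
  have h := len_range_le L f
  rwa [LinearMap.range_eq_top.2 hf, len_congr L (Submodule.topEquiv (R := D) (M := N))] at h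

theorem len_of_subsingleton [Subsingleton M] : L.len M = 0 := by
  have e : M ≃ₗ[D] PUnit.{u + 1} :=
    { toFun := fun _ => PUnit.unit
      map_add' := fun _ _ => rfl
      map_smul' := fun _ _ => rfl
      invFun := fun _ => 0
      left_inv := fun _ => Subsingleton.elim _ _
      right_inv := fun _ => rfl }
  rw [len_congr L e, L.zero]

/-- null modules. -/
def Null (M : Type u) [AddCommGroup M] [Module D M] : Prop := L.len M = 0

variable {L}

theorem Null.of_inj (h : Null L N) (f : M →ₗ[D] N) (hf : Injective f) : Null L M :=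
  le_antisymm ((len_le_of_inj L f hf).trans h.le) zero_le

theorem Null.of_surj (h : Null L M) (f : M →ₗ[D] N) (hf : Surjective f) : Null L N :=
  le_antisymm ((len_le_of_surj L f hf).trans h.le) zero_le

theorem Null.congr (h : Null L M) (f : M ≃ₗ[D] N) : Null L N :=
  h.of_surj f.toLinearMap f.surjective

theorem null_of_subsingleton [Subsingleton M] : Null L M := len_of_subsingleton L

theorem Null.sub (h : Null L M) (P : Submodule D M) : Null L P := h.of_inj P.subtype P.injective_subtype

theorem Null.quot (h : Null L M) (P : Submodule D M) : Null L (M ⧸ P) :=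
  h.of_surj P.mkQ P.mkQ_surjective

theorem null_iff_ker_range (f : M →ₗ[D] N) :
    Null L M ↔ Null L (LinearMap.ker f) ∧ Null L (LinearMap.range f) := by
  unfold Null
  rw [len_ker_range L f, add_eq_zero]

/-- the middle of an exact sequence. -/
theorem Null.of_exact (f : M →ₗ[D] N) (g : N →ₗ[D] K) (h : Exact f g) (hM : Null L M)
    (hK : Null L K) : Null L N := by
  rw [null_iff_ker_range g]
  refine ⟨?_, hK.sub _⟩
  have h1 : LinearMap.ker g = LinearMap.range f := (LinearMap.exact_iff.1 h)
  rw [h1]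
  exact hM.of_surj f.rangeRestrict f.surjective_rangeRestrict

theorem Null.submodule_mono {P Q : Submodule D M} (hPQ : P ≤ Q) (h : Null L Q) : Null L P :=
  h.of_inj (Submodule.inclusion hPQ) (Submodule.inclusion_injective hPQ)

theorem Null.prod (h : Null L M) (h' : Null L N) : Null L (M × N) :=
  Null.of_exact (LinearMap.inl D M N) (LinearMap.snd D M N) (by
    intro x
    constructor
    · intro hx
      exact ⟨x.1, Prod.ext rfl hx.symm⟩
    · rintro ⟨y, rfl⟩
      rfl) h h'

theorem Null.pi_fin (h : Null L M) (n : ℕ) : Null L (Fin n → M) := by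
  induction n with
  | zero => exact null_of_subsingleton
  | succ n ih =>
    have := h.prod ih
    refine this.congr (Fin.consLinearEquiv D (fun _ : Fin (n + 1) => M))

variable (L) in
/-- comparison of the terms of an exact sequence with null neighbours. -/
theorem len_eq_of_null (f : M →ₗ[D] N) (g : N →ₗ[D] K) (h : K →ₗ[D] E) (hfg : Exact f g)
    (hgh : Exact g h) (hM : Null L M) (hE : Null L E) : L.len N = L.len K := by
  have h1 : L.len (LinearMap.ker g) = 0 := by
    rw [LinearMap.exact_iff.1 hfg]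
    exact hM.of_surj f.rangeRestrict f.surjective_rangeRestrict
  have h2 : L.len (LinearMap.range h) = 0 := hE.sub _
  rw [len_ker_range L g, h1, zero_add, len_ker_range L h, h2, add_zero, LinearMap.exact_iff.1 hgh]

/-- null isomorphisms. -/
structure NIso (L : AddLen D) (f : M →ₗ[D] N) : Prop where
  ker : Null L (LinearMap.ker f)
  coker : Null L (N ⧸ LinearMap.range f)

end Len

section Res

variable {D : Type u} [CommRing D] (L : AddLen D) (B : Type u) [CommRing B] [Algebra D B]

/-- the restriction of an additive length along `D → B`. -/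
noncomputable def resLen : AddLen B where
  len M _ _ := @AddLen.len D _ L M _ (Module.compHom M (algebraMap D B))
  zero := by
    let _ : Module D PUnit.{u + 1} := Module.compHom PUnit.{u + 1} (algebraMap D B)
    exact len_of_subsingleton L
  add {M N K} _ _ _ _ _ _ f g hf hg h := by
    let _ : Module D M := Module.compHom M (algebraMap D B)
    let _ : Module D N := Module.compHom N (algebraMap D B)
    let _ : Module D K := Module.compHom K (algebraMap D B)
    let f' : M →ₗ[D] N := { toFun := f, map_add' := map_add f, map_smul' := fun r x => map_smul f (algebraMap D B r) x }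
    let g' : N →ₗ[D] K := { toFun := g, map_add' := map_add g, map_smul' := fun r x => map_smul g (algebraMap D B r) x }
    exact L.add f' g' hf hg h

theorem resLen_len (M : Type u) [AddCommGroup M] [Module D M] [Module B M] [IsScalarTower D B M] :
    (resLen L B).len M = L.len M := by
  have h : ∀ (i j : Module D M), (∀ (r : D) (x : M), i.smul r x = j.smul r x) →
      @AddLen.len D _ L M _ i = @AddLen.len D _ L M _ j := by
    intro i j hij
    have : i = j := Module.ext' i j hij
    rw [this]
  exact h _ _ fun r x => algebraMap_smul B r x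

end Res

section Tor

variable {B : Type u} [CommRing B] {L : AddLen B}

/-- finite presentation up to degree `n`. -/
def FPn (B : Type u) [CommRing B] : ℕ → ∀ (A : Type u) [AddCommGroup A] [Module B A], Prop
  | 0 => fun A _ _ => ∃ (k : ℕ) (f : (Fin k → B) →ₗ[B] A), Surjective f
  | n + 1 => fun A _ _ => ∃ (k : ℕ) (f : (Fin k → B) →ₗ[B] A), Surjective f ∧
      FPn B n (LinearMap.ker f)

theorem null_tensor_of_fp {A Y : Type u} [AddCommGroup A] [Module B A] [AddCommGroup Y]
    [Module B Y] (hA : FPn B 0 A) (hY : Null L Y) : Null L (A ⊗[B] Y) := by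
  obtain ⟨k, f, hf⟩ := hA
  have h1 : Null L ((Fin k → B) ⊗[B] Y) := by
    refine (hY.pi_fin k).congr ?_
    exact (TensorProduct.comm B _ _ ≪≫ₗ TensorProduct.piScalarRight B B Y (Fin k)).symm
  exact h1.of_surj (f.rTensor Y) (LinearMap.rTensor_surjective Y hf)

theorem FPn.zero {n : ℕ} {A : Type u} [AddCommGroup A] [Module B A] (hA : FPn B n A) :
    FPn B 0 A := by
  cases n with
  | zero => exact hA
  | succ n =>
    obtain ⟨k, f, hf, -⟩ := hA
    exact ⟨k, f, hf⟩

theorem null_tor_one {K F A Y : Type u} [AddCommGroup K] [Module B K] [AddCommGroup F]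
    [Module B F] [Module.Flat B F] [AddCommGroup A] [Module B A] [AddCommGroup Y] [Module B Y]
    (i : K →ₗ[B] F) (g : F →ₗ[B] A) (hi : Injective i) (hg : Surjective g) (h : Exact i g)
    (hK : FPn B 0 K) (hY : Null L Y) : Null L (TorM B 1 A Y) := by
  obtain ⟨e⟩ := tor_one i g hi hg h Y
  have h1 : Null L (LinearMap.ker (i.rTensor Y)) :=
    Null.of_inj (null_tensor_of_fp hK hY) (Submodule.subtype _) (Submodule.injective_subtype _)
  exact h1.congr e.symm

/-- `Tor` of a null module. -/
theorem null_tor (n : ℕ) {A Y : Type u} [AddCommGroup A] [Module B A] [AddCommGroup Y]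
    [Module B Y] (hA : FPn B n A) (hY : Null L Y) : Null L (TorM B n A Y) := by
  induction n generalizing A with
  | zero => exact (null_tensor_of_fp hA hY).congr (torZero A Y).symm
  | succ n ih =>
    obtain ⟨k, f, hf, hK⟩ := hA
    have hex : Exact (LinearMap.ker f).subtype f := by
      rw [LinearMap.exact_iff, Submodule.range_subtype]
    cases n with
    | zero =>
      exact null_tor_one (LinearMap.ker f).subtype f (Submodule.injective_subtype _) hf hex hK hY
    | succ n =>
      obtain ⟨e⟩ := tor_shift (LinearMap.ker f).subtype f (Submodule.injective_subtype _) hf hex Y n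
      exact (ih hK).congr e.symm

theorem null_tor' (n : ℕ) {A Y : Type u} [AddCommGroup A] [Module B A] [AddCommGroup Y]
    [Module B Y] (hA : FPn B n A) (hY : Null L Y) : Null L (TorM B n Y A) := by
  obtain ⟨e⟩ := tor_symm (R := B) n A Y
  exact (null_tor n hA hY).congr e

variable {X Y Z : Type u} [AddCommGroup X] [Module B X] [AddCommGroup Y] [Module B Y]
  [AddCommGroup Z] [Module B Z] {A : Type u} [AddCommGroup A] [Module B A]

theorem torMap_zero_surjective (g : Y →ₗ[B] Z) (hg : Surjective g) :
    Surjective (torMap 0 g A) := by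
  intro z
  obtain ⟨y, hy⟩ := LinearMap.rTensor_surjective A hg (torZero Z A z)
  refine ⟨(torZero Y A).symm y, ?_⟩
  apply (torZero Z A).injective
  rw [torZero_naturality, LinearEquiv.apply_symm_apply, hy]

/-- quotient by a null submodule. -/
theorem tor_len_quot (hA : ∀ n, FPn B n A) (f : X →ₗ[B] Y) (g : Y →ₗ[B] Z) (hf : Injective f)
    (hg : Surjective g) (h : Exact f g) (hX : Null L X) (n : ℕ) :
    L.len (TorM B n Y A) = L.len (TorM B n Z A) := by
  obtain ⟨δ, h1, h2, h3⟩ := exists_torDelta f g hf hg h A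
  cases n with
  | zero =>
    refine len_eq_of_null L (torMap 0 f A) (torMap 0 g A) (0 : TorM B 0 Z A →ₗ[B] PUnit.{u + 1})
      (h3 0) ?_ (null_tor' 0 (hA 0) hX) null_of_subsingleton
    intro z
    exact ⟨fun _ => torMap_zero_surjective g hg z, fun _ => rfl⟩
  | succ n =>
    exact len_eq_of_null L (torMap (n + 1) f A) (torMap (n + 1) g A) (δ n) (h3 (n + 1)) (h1 n)
      (null_tor' (n + 1) (hA _) hX) (null_tor' n (hA _) hX)

/-- submodule with null quotient. -/
theorem tor_len_sub (hA : ∀ n, FPn B n A) (f : X →ₗ[B] Y) (g : Y →ₗ[B] Z) (hf : Injective f)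
    (hg : Surjective g) (h : Exact f g) (hZ : Null L Z) (n : ℕ) :
    L.len (TorM B n X A) = L.len (TorM B n Y A) := by
  obtain ⟨δ, h1, h2, h3⟩ := exists_torDelta f g hf hg h A
  exact len_eq_of_null L (δ n) (torMap n f A) (torMap n g A) (h2 n) (h3 n)
    (null_tor' (n + 1) (hA _) hZ) (null_tor' n (hA _) hZ)

theorem tor_len_of_niso (hA : ∀ n, FPn B n A) (f : X →ₗ[B] Y) (hf : NIso L f) (n : ℕ) :
    L.len (TorM B n X A) = L.len (TorM B n Y A) := by
  rw [tor_len_quot hA (LinearMap.ker f).subtype f.rangeRestrict (Submodule.injective_subtype _)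
    f.surjective_rangeRestrict (by
      rw [LinearMap.exact_iff, Submodule.range_subtype, LinearMap.ker_rangeRestrict]) hf.ker n]
  exact tor_len_sub hA (LinearMap.range f).subtype (LinearMap.range f).mkQ
    (Submodule.injective_subtype _) (Submodule.mkQ_surjective _) (by
      rw [LinearMap.exact_iff, Submodule.range_subtype, Submodule.ker_mkQ]) hf.coker n

end Tor

end Vale.Agent.P177.TH
end

section

/-!
P177, block TH: Euler characteristics of Tor with respect to an additive length: additivity.
-/

namespace Vale.Agent.P177.TH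

open Vale.Agent.P202.Mix TensorProduct Function
open scoped ENNReal

universe u

variable {B : Type u} [CommRing B] (L : AddLen B)

/-- Euler characteristic of `Tor^B(X, A)` with respect to an additive length. -/
noncomputable def chi (n : ℕ) (X A : Type u) [AddCommGroup X] [Module B X] [AddCommGroup A]
    [Module B A] : ℝ :=
  ∑ i ∈ Finset.range n, (-1 : ℝ) ^ i * (L.len (TorM B i X A)).toReal

theorem tele (T : ℕ → ℝ) (h0 : T 0 = 0) (n : ℕ) :
    ∑ i ∈ Finset.range n, (-1 : ℝ) ^ i * (T (i + 1) + T i) = - (-1 : ℝ) ^ n * T n := by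
  induction n with
  | zero => simp [h0]
  | succ n ih =>
    rw [Finset.sum_range_succ, ih, pow_succ]
    ring

variable {L}
variable {X Y Z : Type u} [AddCommGroup X] [Module B X] [AddCommGroup Y] [Module B Y]
  [AddCommGroup Z] [Module B Z] {A : Type u} [AddCommGroup A] [Module B A]

/-- Additivity of the Euler characteristic. -/
theorem chi_add (n : ℕ) (f : X →ₗ[B] Y) (g : Y →ₗ[B] Z) (hf : Injective f) (hg : Surjective g)
    (h : Exact f g) (hX : ∀ i, L.len (TorM B i X A) < ⊤) (hZ : ∀ i, L.len (TorM B i Z A) < ⊤)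
    (hn : Null L (TorM B n Z A)) :
    (∀ i, L.len (TorM B i Y A) < ⊤) ∧ chi L n Y A = chi L n X A + chi L n Z A := by
  obtain ⟨δ, h1, h2, h3⟩ := exists_torDelta f g hf hg h A
  set r : ℕ → ℝ≥0∞ := fun i => L.len (LinearMap.range (torMap i f A)) with hr
  set s : ℕ → ℝ≥0∞ := fun i => L.len (LinearMap.range (torMap i g A)) with hs
  let T : ℕ → ℝ≥0∞ := fun i => match i with
    | 0 => 0
    | i + 1 => L.len (LinearMap.range (δ i))
  have ha : ∀ i, L.len (TorM B i X A) = T (i + 1) + r i := by
    intro i
    rw [len_ker_range L (torMap i f A), LinearMap.exact_iff.1 (h2 i)]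
  have hb : ∀ i, L.len (TorM B i Y A) = r i + s i := by
    intro i
    rw [len_ker_range L (torMap i g A), LinearMap.exact_iff.1 (h3 i)]
  have hc : ∀ i, L.len (TorM B i Z A) = s i + T i := by
    intro i
    cases i with
    | zero =>
      have h4 : s 0 = L.len (TorM B 0 Z A) := by
        rw [hs]
        dsimp only
        rw [LinearMap.range_eq_top.2 (Vale.Agent.P177.TH.torMap_zero_surjective g hg)]
        exact Vale.Agent.P177.TH.len_congr L (Submodule.topEquiv (R := B) (M := TorM B 0 Z A))
      change _ = s 0 + 0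
      rw [add_zero, h4]
    | succ i =>
      rw [len_ker_range L (δ i), LinearMap.exact_iff.1 (h1 i)]
  have hrf : ∀ i, r i ≠ ⊤ := fun i => ((le_add_self.trans (ha i).ge).trans_lt (hX i)).ne
  have hsf : ∀ i, s i ≠ ⊤ := fun i => ((le_self_add.trans (hc i).ge).trans_lt (hZ i)).ne
  have hTf : ∀ i, T i ≠ ⊤ := fun i => ((le_add_self.trans (hc i).ge).trans_lt (hZ i)).ne
  refine ⟨fun i => ?_, ?_⟩
  · rw [hb]
    exact ENNReal.add_lt_top.2 ⟨(hrf i).lt_top, (hsf i).lt_top⟩
  · have hTn : T n = 0 := by
      have h5 : L.len (TorM B n Z A) = 0 := hn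
      rw [hc, add_eq_zero] at h5
      exact h5.2
    have htel := tele (fun i => (T i).toReal) (by simp [T]) n
    rw [hTn, ENNReal.toReal_zero, mul_zero] at htel
    unfold chi
    rw [← sub_eq_zero, ← Finset.sum_add_distrib, ← Finset.sum_sub_distrib, ← neg_eq_zero, ← htel,
      ← Finset.sum_neg_distrib]
    refine Finset.sum_congr rfl fun i _ => ?_
    rw [ha, hb, hc, ENNReal.toReal_add (hTf (i + 1)) (hrf i), ENNReal.toReal_add (hrf i) (hsf i),
      ENNReal.toReal_add (hsf i) (hTf i)]
    ring

theorem chi_of_niso (hA : ∀ n, FPn B n A) (f : X →ₗ[B] Y) (hf : NIso L f) (n : ℕ) :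
    chi L n X A = chi L n Y A := by
  unfold chi
  exact Finset.sum_congr rfl fun i _ => by rw [tor_len_of_niso hA f hf i]

/-- `chi` of a subsingleton. -/
theorem chi_of_null (hA : ∀ n, FPn B n A) (hX : Null L X) (n : ℕ) :
    chi L n X A = 0 := by
  unfold chi
  refine Finset.sum_eq_zero fun i _ => ?_
  have h : L.len (TorM B i X A) = 0 := null_tor' i (hA i) hX
  rw [h, ENNReal.toReal_zero, mul_zero]

/-- Additivity up to null modules: right exact sequences with null kernel. -/
theorem chi_add_null (hA : ∀ n, FPn B n A) (n : ℕ) (f : X →ₗ[B] Y) (g : Y →ₗ[B] Z)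
    (hf : Null L (LinearMap.ker f)) (hg : Surjective g)
    (h : Exact f g) (hX : ∀ i, L.len (TorM B i X A) < ⊤) (hZ : ∀ i, L.len (TorM B i Z A) < ⊤)
    (hn : Null L (TorM B n Z A)) :
    (∀ i, L.len (TorM B i Y A) < ⊤) ∧ chi L n Y A = chi L n X A + chi L n Z A := by
  have h1 : NIso L f.rangeRestrict := by
    refine ⟨by rwa [LinearMap.ker_rangeRestrict], ?_⟩
    have : Subsingleton (LinearMap.range f ⧸ LinearMap.range f.rangeRestrict) := by
      rw [LinearMap.range_eq_top.2 f.surjective_rangeRestrict]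
      exact Submodule.Quotient.subsingleton_iff.2 rfl
    exact null_of_subsingleton
  have h2 := chi_add (L := L) (A := A) n (LinearMap.range f).subtype g
    (Submodule.injective_subtype _) hg (by
      rw [LinearMap.exact_iff, Submodule.range_subtype]
      exact LinearMap.exact_iff.1 h) (fun i => by rw [← tor_len_of_niso hA _ h1 i]; exact hX i)
      hZ hn
  rw [← chi_of_niso hA _ h1 n] at h2
  exact h2

end Vale.Agent.P177.TH
end

section

/-!
P177, block TH: change of rings for Tor along a quotient by a regular element, additive lengths,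
up to null modules.
-/

namespace Vale.Agent.P177.TH

open Vale.Agent.P202.Mix TensorProduct Function
open scoped ENNReal

universe u

variable {D B : Type u} [CommRing D] [CommRing B] [Algebra D B] {α : D} (L : AddLen D)

section basic

variable {K F M X Y N : Type u} [AddCommGroup K] [Module D K] [AddCommGroup F] [Module D F]
  [AddCommGroup M] [Module D M]
  [AddCommGroup X] [Module D X] [Module B X] [IsScalarTower D B X]
  [AddCommGroup Y] [Module D Y] [Module B Y] [IsScalarTower D B Y]
  [AddCommGroup N] [Module D N] [Module B N] [IsScalarTower D B N]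

theorem len_tensor_baseChange {φ : K →ₗ[D] X} (hφ : IsBaseChange B φ) (N : Type u)
    [AddCommGroup N] [Module D N] [Module B N] [IsScalarTower D B N] :
    L.len (K ⊗[D] N) = (resLen L B).len (X ⊗[B] N) := by
  obtain ⟨e, -⟩ := exists_cancel hφ N
  rw [Vale.Agent.P177.TH.len_congr L (TensorProduct.comm D K N), Vale.Agent.P177.TH.len_congr (resLen L B) (TensorProduct.comm B X N),
    Vale.Agent.P177.TH.len_congr (resLen L B) e, resLen_len]

/-- comparison of degree one kernels. -/
theorem len_ker_baseChange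
    {φ : K →ₗ[D] X} (hφ : IsBaseChange B φ) {ψ : F →ₗ[D] Y} (hψ : IsBaseChange B ψ)
    (i : K →ₗ[D] F) (j : X →ₗ[B] Y) (hij : ∀ k, j (φ k) = ψ (i k))
    (N : Type u) [AddCommGroup N] [Module D N] [Module B N] [IsScalarTower D B N] :
    L.len (LinearMap.ker (i.rTensor N)) =
      (resLen L B).len (LinearMap.ker (j.rTensor N)) := by
  obtain ⟨e1⟩ := ker_comm (N := N) i
  obtain ⟨e2⟩ := ker_comm (N := N) j
  rw [Vale.Agent.P177.TH.len_congr L e1, Vale.Agent.P177.TH.len_congr (resLen L B) e2]
  let θ : N ⊗[D] K →ₗ[B] N ⊗[D] F := AlgebraTensorModule.map LinearMap.id i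
  have h1 : L.len (LinearMap.ker (i.lTensor N)) = L.len (LinearMap.ker θ) := by
    have e : LinearMap.ker (i.lTensor N) ≃ₗ[D] LinearMap.ker θ :=
      { toFun := fun x => ⟨x.1, x.2⟩
        invFun := fun x => ⟨x.1, x.2⟩
        left_inv := fun _ => rfl
        right_inv := fun _ => rfl
        map_add' := fun _ _ => rfl
        map_smul' := fun _ _ => rfl }
    exact Vale.Agent.P177.TH.len_congr L e
  rw [h1, ← resLen_len L B]
  obtain ⟨eX, heX⟩ := exists_cancel hφ N
  obtain ⟨eY, heY⟩ := exists_cancel hψ N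
  have hX : ∀ z : N ⊗[D] K, j.lTensor N (eX.symm z) = eY.symm (θ z) := by
    intro z
    induction z using TensorProduct.induction_on with
    | zero => simp
    | tmul n k =>
      have a1 : eX.symm (n ⊗ₜ[D] k) = n ⊗ₜ[B] φ k := by
        rw [LinearEquiv.symm_apply_eq, heX]
      have a2 : eY.symm (n ⊗ₜ[D] i k) = n ⊗ₜ[B] ψ (i k) := by
        rw [LinearEquiv.symm_apply_eq, heY]
      have a3 : θ (n ⊗ₜ[D] k) = n ⊗ₜ[D] i k := by simp [θ]
      rw [a1, a3, a2, LinearMap.lTensor_tmul, hij]
    | add a b ha hb => rw [map_add, map_add, ha, hb, map_add, map_add]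
  obtain ⟨e3⟩ := ker_equiv eX.symm eY.symm θ (j.lTensor N) hX
  exact Vale.Agent.P177.TH.len_congr (resLen L B) e3

/-- Change of rings for Tor: honest version. -/
theorem len_tor_baseChange (H : IsHypersurface D B α) (n : ℕ)
    {K X : Type u} [AddCommGroup K] [Module D K]
    [AddCommGroup X] [Module D X] [Module B X] [IsScalarTower D B X]
    {φ : K →ₗ[D] X} (hφ : IsBaseChange B φ) (hK : IsSMulRegular K α)
    (N : Type u) [AddCommGroup N] [Module D N] [Module B N] [IsScalarTower D B N] :
    L.len (TorM D n K N) = (resLen L B).len (TorM B n X N) := by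
  induction n generalizing K X with
  | zero =>
    rw [Vale.Agent.P177.TH.len_congr L (torZero K N), len_tensor_baseChange L hφ N,
      Vale.Agent.P177.TH.len_congr (resLen L B) (torZero X N)]
  | succ n ih =>
    obtain ⟨F, K1, _, _, _, _, i, g, hF, hi, hg, h⟩ := exists_cover D K
    obtain ⟨Y, _, _, _, _, ψ, hψ⟩ := exists_baseChange (R := D) B F
    obtain ⟨X1, _, _, _, _, φ1, hφ1⟩ := exists_baseChange (R := D) B K1
    let j : X1 →ₗ[B] Y := hφ1.lift (ψ ∘ₗ i)
    have hj : ∀ k, j (φ1 k) = ψ (i k) := fun k => hφ1.lift_eq _ k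
    let q : Y →ₗ[B] X := hψ.lift (φ ∘ₗ g)
    have hq : ∀ y, q (ψ y) = φ (g y) := fun y => hψ.lift_eq _ y
    have hjinj : Injective j := H.baseChange_injective hφ1 hψ i j hj g hi h hK
    obtain ⟨hex, hqs⟩ := H.baseChange_exact hφ1 hψ hφ i j hj g hg q hq h
    have hYflat : Module.Flat B Y := Module.Flat.isBaseChange D B F Y hψ
    have hFr : IsSMulRegular F α := H.regular_of_flat F
    have hK1 : IsSMulRegular K1 α := by
      intro a b hab
      apply hi
      apply hFr
      simpa using congrArg i hab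
    cases n with
    | zero =>
      obtain ⟨e1⟩ := tor_one i g hi hg h N
      obtain ⟨e2⟩ := tor_one j q hjinj hqs hex N
      rw [Vale.Agent.P177.TH.len_congr L e1, Vale.Agent.P177.TH.len_congr (resLen L B) e2]
      exact len_ker_baseChange L hφ1 hψ i j hj N
    | succ n =>
      obtain ⟨e1⟩ := tor_shift i g hi hg h N n
      obtain ⟨e2⟩ := tor_shift j q hjinj hqs hex N n
      rw [Vale.Agent.P177.TH.len_congr L e1, Vale.Agent.P177.TH.len_congr (resLen L B) e2]
      exact ih hφ1 hK1

end basic

section null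

variable {L}

/-- the `α`-torsion. -/
abbrev tors (α : D) (X : Type u) [AddCommGroup X] [Module D X] : Submodule D X :=
  LinearMap.ker (LinearMap.lsmul D X α)

theorem null_range_of_factor {P Q Z : Type u} [AddCommGroup P] [Module D P] [AddCommGroup Q]
    [Module D Q] [AddCommGroup Z] [Module D Z] (g : P →ₗ[D] Q) (hg : Surjective g)
    (s : P →ₗ[D] Z) (h : LinearMap.ker g ≤ LinearMap.ker s) (hQ : Null L Q) :
    Null L (LinearMap.range s) := by
  let t : Q →ₗ[D] Z := (LinearMap.ker g).liftQ s h ∘ₗ
    (g.quotKerEquivOfSurjective hg).symm.toLinearMap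
  have ht : ∀ y, t (g y) = s y := by
    intro y
    have h1 : (g.quotKerEquivOfSurjective hg).symm (g y) = (LinearMap.ker g).mkQ y := by
      rw [LinearEquiv.symm_apply_eq]
      rfl
    change (LinearMap.ker g).liftQ s h ((g.quotKerEquivOfSurjective hg).symm (g y)) = _
    rw [h1, Submodule.mkQ_apply, Submodule.liftQ_apply]
  have hr : LinearMap.range s = LinearMap.range t := by
    ext z
    constructor
    · rintro ⟨y, rfl⟩
      exact ⟨g y, ht y⟩
    · rintro ⟨q, rfl⟩
      obtain ⟨y, rfl⟩ := hg q
      exact ⟨y, (ht y).symm⟩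
  rw [hr]
  exact hQ.of_surj t.rangeRestrict t.surjective_rangeRestrict

/-- the kernel of `K/αK → F/αF` is a quotient of the `α`-torsion of `M = F/K`. -/
theorem null_ker_baseChange (H : IsHypersurface D B α)
    {K F M X Y : Type u} [AddCommGroup K] [Module D K] [AddCommGroup F] [Module D F]
    [AddCommGroup M] [Module D M]
    [AddCommGroup X] [Module D X] [Module B X] [IsScalarTower D B X]
    [AddCommGroup Y] [Module D Y] [Module B Y] [IsScalarTower D B Y]
    {φ : K →ₗ[D] X} (hφ : IsBaseChange B φ) {ψ : F →ₗ[D] Y} (hψ : IsBaseChange B ψ)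
    (i : K →ₗ[D] F) (j : X →ₗ[B] Y) (hij : ∀ k, j (φ k) = ψ (i k))
    (g : F →ₗ[D] M) (hi : Injective i) (hg : Surjective g) (h : Exact i g)
    (hM : Null L (tors α M)) :
    Null (resLen L B) (LinearMap.ker j) := by
  let P : Submodule D F := (tors α M).comap g
  have hP : ∀ y : P, ∃ k, i k = α • (y : F) := by
    intro y
    refine (h _).1 ?_
    rw [map_smul]
    exact y.2
  choose s0 hs0 using hP
  let s : P →ₗ[D] X :=
    φ ∘ₗ
    { toFun := s0
      map_add' := fun x y => hi (by rw [map_add, hs0, hs0, hs0, Submodule.coe_add, smul_add])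
      map_smul' := fun r x => hi (by
        rw [map_smul, hs0, hs0, RingHom.id_apply, Submodule.coe_smul, smul_comm]) }
  have hs : ∀ y : P, s y = φ (s0 y) := fun _ => rfl
  let g' : P →ₗ[D] tors α M := g.restrict fun x hx => hx
  have hg' : Surjective g' := by
    rintro ⟨m, hm⟩
    obtain ⟨y, rfl⟩ := hg m
    exact ⟨⟨y, hm⟩, rfl⟩
  have hker : LinearMap.ker g' ≤ LinearMap.ker s := by
    intro y hy
    have h0 : g (y : F) = 0 := congrArg Subtype.val (LinearMap.mem_ker.1 hy)
    obtain ⟨k, hk⟩ := (h _).1 h0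
    have h1 : s0 y = α • k := hi (by rw [hs0, map_smul, hk])
    rw [LinearMap.mem_ker, hs, h1, H.baseChange_smul]
  have h2 := null_range_of_factor g' hg' s hker hM
  have hr : ∀ z : X, j z = 0 ↔ z ∈ LinearMap.range s := by
    intro z
    constructor
    · intro hz
      obtain ⟨x, rfl⟩ := H.baseChange_surj hφ z
      rw [hij] at hz
      obtain ⟨y, hy⟩ := H.baseChange_eq_zero hψ _ hz
      have hyP : y ∈ P := by
        change α • g y = 0
        rw [← map_smul, ← hy]
        exact (h _).2 ⟨x, rfl⟩
      refine ⟨⟨y, hyP⟩, ?_⟩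
      rw [hs]
      congr 1
      exact hi (by rw [hs0, hy])
    · rintro ⟨y, rfl⟩
      rw [hs, hij, hs0, H.baseChange_smul]
  have e : LinearMap.range s ≃ₗ[D] LinearMap.ker j :=
    { toFun := fun x => ⟨x.1, (hr _).2 x.2⟩
      invFun := fun x => ⟨x.1, (hr _).1 x.2⟩
      left_inv := fun _ => rfl
      right_inv := fun _ => rfl
      map_add' := fun _ _ => rfl
      map_smul' := fun _ _ => rfl }
  have h3 : Null L (LinearMap.ker j) := h2.congr e
  unfold Null
  rw [resLen_len]
  exact h3

theorem len_ker_comp (L : AddLen D) {X Y Z : Type u} [AddCommGroup X] [Module D X]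
    [AddCommGroup Y] [Module D Y] [AddCommGroup Z] [Module D Z] (u : X →ₗ[D] Y) (v : Y →ₗ[D] Z)
    (hu : Surjective u) :
    L.len (LinearMap.ker (v ∘ₗ u)) = L.len (LinearMap.ker u) + L.len (LinearMap.ker v) := by
  have hle : LinearMap.ker u ≤ LinearMap.ker (v ∘ₗ u) := LinearMap.ker_le_ker_comp u v
  have hres : ∀ x ∈ LinearMap.ker (v ∘ₗ u), u x ∈ LinearMap.ker v := fun x hx => hx
  refine L.add (Submodule.inclusion hle) (u.restrict hres)
    (Submodule.inclusion_injective hle) ?_ ?_
  · rintro ⟨y, hy⟩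
    obtain ⟨x, rfl⟩ := hu y
    exact ⟨⟨x, hy⟩, rfl⟩
  · rintro ⟨x, hx⟩
    constructor
    · intro h
      have h' : u x = 0 := congrArg Subtype.val h
      exact ⟨⟨x, h'⟩, rfl⟩
    · rintro ⟨⟨y, hy⟩, hyx⟩
      apply Subtype.ext
      have h1 : y = x := congrArg Subtype.val hyx
      subst h1
      exact hy

theorem null_ker_rTensor {X Y N : Type u} [AddCommGroup X] [Module B X] [AddCommGroup Y]
    [Module B Y] [AddCommGroup N] [Module B N] {LB : AddLen B} (hN : FPn B 0 N)
    (j : X →ₗ[B] Y) (hj : Surjective j) (h : Null LB (LinearMap.ker j)) :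
    Null LB (LinearMap.ker (j.rTensor N)) := by
  have hex : Exact ((LinearMap.ker j).subtype.rTensor N) (j.rTensor N) :=
    rTensor_exact N (by rw [LinearMap.exact_iff, Submodule.range_subtype]) hj
  have h1 : Null LB (N ⊗[B] (LinearMap.ker j)) := null_tensor_of_fp hN h
  have h2 : Null LB ((LinearMap.ker j) ⊗[B] N) := h1.congr (TensorProduct.comm B _ _)
  rw [LinearMap.exact_iff.1 hex]
  exact h2.of_surj (LinearMap.rangeRestrict _) (LinearMap.surjective_rangeRestrict _)

/-- Change of rings for Tor: version up to null modules. -/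
theorem len_tor_baseChange_null (H : IsHypersurface D B α) (n : ℕ)
    {M Z : Type u} [AddCommGroup M] [Module D M]
    [AddCommGroup Z] [Module D Z] [Module B Z] [IsScalarTower D B Z]
    {χ : M →ₗ[D] Z} (hχ : IsBaseChange B χ) (hM : Null L (tors α M))
    (N : Type u) [AddCommGroup N] [Module D N] [Module B N] [IsScalarTower D B N]
    (hN : ∀ n, FPn B n N) :
    L.len (TorM D n M N) = (resLen L B).len (TorM B n Z N) := by
  cases n with
  | zero =>
    rw [Vale.Agent.P177.TH.len_congr L (torZero M N), len_tensor_baseChange L hχ N,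
      Vale.Agent.P177.TH.len_congr (resLen L B) (torZero Z N)]
  | succ n =>
    obtain ⟨F, K1, _, _, _, _, i, g, hF, hi, hg, h⟩ := exists_cover D M
    obtain ⟨Y, _, _, _, _, ψ, hψ⟩ := exists_baseChange (R := D) B F
    obtain ⟨X1, _, _, _, _, φ1, hφ1⟩ := exists_baseChange (R := D) B K1
    let j : X1 →ₗ[B] Y := hφ1.lift (ψ ∘ₗ i)
    have hj : ∀ k, j (φ1 k) = ψ (i k) := fun k => hφ1.lift_eq _ k
    let q : Y →ₗ[B] Z := hψ.lift (χ ∘ₗ g)
    have hq : ∀ y, q (ψ y) = χ (g y) := fun y => hψ.lift_eq _ y
    have hjnull : Null (resLen L B) (LinearMap.ker j) :=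
      null_ker_baseChange H hφ1 hψ i j hj g hi hg h hM
    obtain ⟨hex, hqs⟩ := H.baseChange_exact hφ1 hψ hχ i j hj g hg q hq h
    have hYflat : Module.Flat B Y := Module.Flat.isBaseChange D B F Y hψ
    have hFr : IsSMulRegular F α := H.regular_of_flat F
    have hK1 : IsSMulRegular K1 α := by
      intro a b hab
      apply hi
      apply hFr
      simpa using congrArg i hab
    -- the image of `j`
    have hker : LinearMap.ker j.rangeRestrict = LinearMap.ker j := LinearMap.ker_rangeRestrict j
    have hI : NIso (resLen L B) j.rangeRestrict := by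
      refine ⟨by rwa [hker], ?_⟩
      have : Subsingleton (LinearMap.range j ⧸ LinearMap.range j.rangeRestrict) := by
        rw [LinearMap.range_eq_top.2 j.surjective_rangeRestrict]
        exact Submodule.Quotient.subsingleton_iff.2 rfl
      exact null_of_subsingleton
    have hex' : Exact (LinearMap.range j).subtype q := by
      rw [LinearMap.exact_iff, Submodule.range_subtype]
      exact LinearMap.exact_iff.1 hex
    cases n with
    | zero =>
      obtain ⟨e1⟩ := tor_one i g hi hg h N
      have h1 : (resLen L B).len (TorM B 1 Z N) = (resLen L B).len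
          (LinearMap.ker ((LinearMap.range j).subtype.rTensor N)) := by
        obtain ⟨e2⟩ := tor_one (LinearMap.range j).subtype q (Submodule.injective_subtype _) hqs
          hex' N
        exact Vale.Agent.P177.TH.len_congr _ e2
      rw [Vale.Agent.P177.TH.len_congr L e1, h1, len_ker_baseChange L hφ1 hψ i j hj N]
      have h2 : j.rTensor N = (LinearMap.range j).subtype.rTensor N ∘ₗ
          j.rangeRestrict.rTensor N := by
        rw [← LinearMap.rTensor_comp]
        rfl
      have h3 : Null (resLen L B) (LinearMap.ker (j.rangeRestrict.rTensor N)) :=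
        null_ker_rTensor (hN 0) _ j.surjective_rangeRestrict hI.ker
      rw [h2, len_ker_comp (resLen L B) _ _
        (LinearMap.rTensor_surjective N j.surjective_rangeRestrict), h3, zero_add]
    | succ n =>
      obtain ⟨e1⟩ := tor_shift i g hi hg h N n
      obtain ⟨e2⟩ := tor_shift (LinearMap.range j).subtype q (Submodule.injective_subtype _) hqs
          hex' N n
      rw [Vale.Agent.P177.TH.len_congr L e1, Vale.Agent.P177.TH.len_congr (resLen L B) e2, ← tor_len_of_niso hN _ hI (n + 1)]
      exact len_tor_baseChange L H (n + 1) hφ1 hK1 N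

end null

end Vale.Agent.P177.TH
end

section

/-!
P177, block TH: vanishing (up to null modules) of Tor over the hypersurface `B = D/α` between a
module with a matrix factorisation and `X/αX` with `X[α] ⊆ αX` up to null modules.
-/

namespace Vale.Agent.P177.TH

open Vale.Agent.P202.Mix TensorProduct Function
open scoped ENNReal

universe u

variable {D B : Type u} [CommRing D] [CommRing B] [Algebra D B] {α : D} {L : AddLen D}

/-- `A` is the cokernel of an injective map of flat finitely generated `D`-modules. -/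
def MF (D : Type u) [CommRing D] (A : Type u) [AddCommGroup A] [Module D A] : Prop :=
  ∃ (Q1 Q0 : Type u) (_ : AddCommGroup Q1) (_ : Module D Q1) (_ : AddCommGroup Q0)
    (_ : Module D Q0) (φ : Q1 →ₗ[D] Q0) (q : Q0 →ₗ[D] A), Module.Flat D Q1 ∧ Module.Flat D Q0 ∧
    FPn D 0 Q1 ∧ FPn D 0 Q0 ∧ Injective φ ∧ Surjective q ∧ Exact φ q

/-- admissibility with respect to `α`: `X[α] ⊆ α^m X` up to null modules. -/
def AFlat (L : AddLen D) (α : D) (m : ℕ) (X : Type u) [AddCommGroup X] [Module D X] : Prop :=
  Null L (Vale.Agent.P177.TH.tors α X ⧸ Submodule.comap (Vale.Agent.P177.TH.tors α X).subtype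
    (LinearMap.range (LinearMap.lsmul D X (α ^ m))))

theorem exists_psi {A Q1 Q0 : Type u} [AddCommGroup A] [Module D A] [AddCommGroup Q1]
    [Module D Q1] [AddCommGroup Q0] [Module D Q0] (φ : Q1 →ₗ[D] Q0) (q : Q0 →ₗ[D] A)
    (hA : ∀ a : A, α • a = 0) (hφ : Injective φ) (h : Exact φ q) :
    ∃ ψ : Q0 →ₗ[D] Q1, (∀ x, φ (ψ x) = α • x) ∧ (∀ y, ψ (φ y) = α • y) := by
  have hex : ∀ y : Q0, ∃ k, φ k = α • y := fun y => (h _).1 (by rw [map_smul, hA])
  choose s0 hs0 using hex
  refine ⟨{ toFun := s0
            map_add' := fun x y => hφ (by rw [map_add, hs0, hs0, hs0, smul_add])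
            map_smul' := fun r x => hφ (by
              rw [map_smul, hs0, hs0, RingHom.id_apply, smul_comm]) }, hs0, fun y => ?_⟩
  apply hφ
  rw [map_smul]
  exact hs0 _

/-- the image of the `α`-torsion of `Q ⊗ X` under a map killing `α (Q ⊗ X)` is null. -/
theorem null_range_tors {Q X Z : Type u} [AddCommGroup Q] [Module D Q] [Module.Flat D Q]
    [AddCommGroup X] [Module D X] [AddCommGroup Z] [Module D Z] (hQ : FPn D 0 Q)
    (hX : AFlat L α 1 X) (T : Q ⊗[D] X →ₗ[D] Z) (hT : ∀ z, T (α • z) = 0) :
    Null L (LinearMap.range (T ∘ₗ (Vale.Agent.P177.TH.tors α (Q ⊗[D] X)).subtype)) := by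
  -- the torsion of `Q ⊗ X` is the image of `Q ⊗ X[α]`
  have hex : Exact ((Vale.Agent.P177.TH.tors α X).subtype.lTensor Q) ((LinearMap.lsmul D X α).lTensor Q) := by
    apply Module.Flat.lTensor_exact
    rw [LinearMap.exact_iff, Submodule.range_subtype]
  have hls : ∀ z : Q ⊗[D] X, (LinearMap.lsmul D X α).lTensor Q z = α • z := by
    intro z
    induction z using TensorProduct.induction_on with
    | zero => simp
    | tmul a b => simp
    | add a b ha hb => rw [map_add, ha, hb, smul_add]
  let s : Q ⊗[D] (Vale.Agent.P177.TH.tors α X) →ₗ[D] Z := T ∘ₗ (Vale.Agent.P177.TH.tors α X).subtype.lTensor Q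
  have h1 : LinearMap.range (T ∘ₗ (Vale.Agent.P177.TH.tors α (Q ⊗[D] X)).subtype) ≤ LinearMap.range s := by
    rintro _ ⟨⟨z, hz⟩, rfl⟩
    have hz' : (LinearMap.lsmul D X α).lTensor Q z = 0 := by
      rw [hls]
      exact hz
    obtain ⟨w, hw⟩ := (hex z).1 hz'
    exact ⟨w, congrArg T hw⟩
  refine Null.submodule_mono h1 ?_
  let P : Submodule D (Vale.Agent.P177.TH.tors α X) := Submodule.comap (Vale.Agent.P177.TH.tors α X).subtype
    (LinearMap.range (LinearMap.lsmul D X (α ^ 1)))
  refine null_range_of_factor (P.mkQ.lTensor Q) (LinearMap.lTensor_surjective Q P.mkQ_surjective)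
    s ?_ (null_tensor_of_fp hQ hX)
  have hex2 : Exact (P.subtype.lTensor Q) (P.mkQ.lTensor Q) := by
    apply lTensor_exact Q _ P.mkQ_surjective
    rw [LinearMap.exact_iff, Submodule.range_subtype, Submodule.ker_mkQ]
  rw [LinearMap.exact_iff.1 hex2]
  rintro _ ⟨w, rfl⟩
  rw [LinearMap.mem_ker]
  induction w using TensorProduct.induction_on with
  | zero => simp
  | tmul a b =>
    obtain ⟨⟨b, hb⟩, x, hx⟩ := b
    change T (a ⊗ₜ[D] b) = 0
    have hx' : α • x = b := by
      have : α ^ 1 • x = b := hx
      rwa [pow_one] at this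
    rw [← hx', TensorProduct.tmul_smul, hT]
  | add a b ha hb => rw [map_add, map_add, ha, hb, add_zero]

/-- the syzygy over `B` of a module with a matrix factorisation, as a flat list of data. -/
inductive MFStep (B : Type u) [CommRing B] [Algebra D B] (α : D) (A : Type u)
    [AddCommGroup A] [Module B A] : Prop
  | mk (Q1 Q0 W0 A' : Type u) (i1 : AddCommGroup Q1) (i2 : Module D Q1) (i3 : AddCommGroup Q0)
      (i4 : Module D Q0) (i5 : AddCommGroup W0) (i6 : Module D W0) (i7 : Module B W0)
      (i8 : IsScalarTower D B W0) (i9 : AddCommGroup A') (i10 : Module D A') (i11 : Module B A')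
      (i12 : IsScalarTower D B A')
      (φ : Q1 →ₗ[D] Q0) (ψ : Q0 →ₗ[D] Q1) (π0 : Q0 →ₗ[D] W0) (qb : W0 →ₗ[B] A)
      (ι : A' →ₗ[B] W0) (r : Q1 →ₗ[D] A') (hf1 : Module.Flat D Q1) (hf0 : Module.Flat D Q0)
      (hp1 : FPn D 0 Q1) (hp0 : FPn D 0 Q0) (hψ1 : ∀ x, φ (ψ x) = α • x)
      (hψ2 : ∀ y, ψ (φ y) = α • y) (hπ0 : IsBaseChange B π0) (hW0 : Module.Flat B W0)
      (hqbs : Surjective qb) (hι : Injective ι) (hexb : Exact ι qb)
      (hιr : ∀ y, ι (r y) = π0 (φ y)) (hrs : Surjective r) (hexr : Exact ψ r)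
      (hA' : MF D A') : MFStep B α A

/-- the syzygy over `B` of a module with a matrix factorisation. -/
theorem mf_step (H : IsHypersurface D B α) {A : Type u} [AddCommGroup A] [Module D A]
    [Module B A] [IsScalarTower D B A] (hA : MF D A) : MFStep (D := D) B α A := by
  obtain ⟨Q1, Q0, _, _, _, _, φ, q, hf1, hf0, hp1, hp0, hφ, hq, hex⟩ := hA
  obtain ⟨ψ, hψ1, hψ2⟩ := exists_psi (α := α) φ q (fun a => H.smul_eq_zero a) hφ hex
  obtain ⟨W0, _, _, _, _, π0, hπ0⟩ := exists_baseChange (R := D) B Q0
  have hW0 : Module.Flat B W0 := Module.Flat.isBaseChange D B Q0 W0 hπ0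
  let qb : W0 →ₗ[B] A := hπ0.lift q
  have hqb : ∀ y, qb (π0 y) = q y := fun y => hπ0.lift_eq _ y
  have hqbs : Surjective qb := by
    intro a
    obtain ⟨y, rfl⟩ := hq a
    exact ⟨π0 y, hqb y⟩
  have hexb : Exact (LinearMap.ker qb).subtype qb := by
    rw [LinearMap.exact_iff, Submodule.range_subtype]
  have hr0 : ∀ y, π0 (φ y) ∈ LinearMap.ker qb := by
    intro y
    rw [LinearMap.mem_ker, hqb]
    exact (hex _).2 ⟨y, rfl⟩
  let r : Q1 →ₗ[D] LinearMap.ker qb :=
    { toFun := fun y => ⟨π0 (φ y), hr0 y⟩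
      map_add' := fun x y => Subtype.ext (by simp)
      map_smul' := fun c x => Subtype.ext (by
        change π0 (φ (c • x)) = c • π0 (φ x)
        rw [map_smul, map_smul]) }
  have hrs : Surjective r := by
    rintro ⟨z, hz⟩
    obtain ⟨x, rfl⟩ := H.baseChange_surj hπ0 z
    rw [LinearMap.mem_ker, hqb] at hz
    obtain ⟨y, rfl⟩ := (hex _).1 hz
    exact ⟨y, rfl⟩
  have hψinj : Injective ψ := by
    have h1 : IsSMulRegular Q0 α := H.regular_of_flat Q0
    intro x y hxy
    apply h1
    change α • x = α • y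
    rw [← hψ1, ← hψ1, hxy]
  have hexr : Exact ψ r := by
    intro y
    constructor
    · intro hy
      have h1 : π0 (φ y) = 0 := congrArg Subtype.val hy
      obtain ⟨w, hw⟩ := H.baseChange_eq_zero hπ0 _ h1
      exact ⟨w, hφ (by rw [hψ1, hw])⟩
    · rintro ⟨x, rfl⟩
      apply Subtype.ext
      change π0 (φ (ψ x)) = 0
      rw [hψ1, H.baseChange_smul]
  exact ⟨Q1, Q0, W0, LinearMap.ker qb, inferInstance, inferInstance, inferInstance, inferInstance,
    inferInstance, inferInstance, inferInstance, inferInstance, inferInstance, inferInstance,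
    inferInstance, inferInstance, φ, ψ, π0, qb, (LinearMap.ker qb).subtype, r, hf1, hf0, hp1, hp0,
    hψ1, hψ2, hπ0, hW0, hqbs, Submodule.injective_subtype _, hexb, fun y => rfl, hrs, hexr,
    Q0, Q1, inferInstance, inferInstance, inferInstance, inferInstance, ψ, r, hf0, hf1, hp0, hp1,
    hψinj, hrs, hexr⟩

/-- Vanishing of `Tor^B_j(A, X/αX)`, `j ≥ 1`, for `A` with a matrix factorisation. -/
theorem mf_null (H : IsHypersurface D B α) {X Y : Type u} [AddCommGroup X] [Module D X]
    [AddCommGroup Y] [Module D Y] [Module B Y] [IsScalarTower D B Y] {π : X →ₗ[D] Y}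
    (hπ : IsBaseChange B π) (hX : AFlat L α 1 X) (j : ℕ) {A : Type u} [AddCommGroup A] [Module D A]
    [Module B A] [IsScalarTower D B A] (hA : MF D A) :
    Null (resLen L B) (TorM B (j + 1) A Y) := by
  induction j generalizing A with
  | zero =>
    obtain ⟨Q1, Q0, W0, A', _, _, _, _, _, _, _, _, _, _, _, _, φ, ψ, π0, qb, ι, r, hf1, hf0, hp1,
      hp0, hψ1, hψ2, hπ0, hW0, hqbs, hι, hexb, hιr, hrs, hexr, hA'⟩ := mf_step H hA
    obtain ⟨e1⟩ := tor_one ι qb hι hqbs hexb Y
    refine Null.congr ?_ e1.symm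
    -- pass to `D`
    obtain ⟨eX, heX⟩ := exists_cancel hπ A'
    obtain ⟨eY, heY⟩ := exists_cancel hπ W0
    let θ : A' ⊗[D] X →ₗ[B] W0 ⊗[D] X := AlgebraTensorModule.map ι LinearMap.id
    have hθ : ∀ z : A' ⊗[B] Y, θ (eX z) = eY (ι.rTensor Y z) := by
      intro z
      induction z using TensorProduct.induction_on with
      | zero => simp
      | tmul a y =>
        obtain ⟨x, rfl⟩ := H.baseChange_surj hπ y
        rw [heX, LinearMap.rTensor_tmul, heY]
        rfl
      | add a b ha hb => rw [map_add, map_add, ha, hb, map_add, map_add]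
    obtain ⟨e3⟩ := ker_equiv eX eY (ι.rTensor Y) θ hθ
    refine Null.congr ?_ e3.symm
    -- the kernel of `θ`
    let T : Q1 ⊗[D] X →ₗ[D] A' ⊗[D] X := r.rTensor X
    have hTs : Surjective T := LinearMap.rTensor_surjective X hrs
    have hαA' : ∀ a : A', α • a = 0 := fun a => H.smul_eq_zero a
    have hTα : ∀ z, T (α • z) = 0 := by
      intro z
      rw [map_smul]
      generalize T z = w
      induction w using TensorProduct.induction_on with
      | zero => simp
      | tmul a b => rw [TensorProduct.smul_tmul', hαA', TensorProduct.zero_tmul]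
      | add a b ha hb => rw [smul_add, ha, hb, add_zero]
    have h1 := null_range_tors hp1 hX T hTα
    have hθT : ∀ z, θ (T z) = π0.rTensor X (φ.rTensor X z) := by
      intro z
      induction z using TensorProduct.induction_on with
      | zero => simp
      | tmul a b =>
        change ι (r a) ⊗ₜ[D] b = π0 (φ a) ⊗ₜ[D] b
        rw [hιr]
      | add a b ha hb => simp only [map_add, ha, hb]
    have hψφ : ∀ z : Q1 ⊗[D] X, ψ.rTensor X (φ.rTensor X z) = α • z := by
      intro z
      induction z using TensorProduct.induction_on with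
      | zero => simp
      | tmul a b =>
        change ψ (φ a) ⊗ₜ[D] b = _
        rw [hψ2, TensorProduct.smul_tmul']
      | add a b ha hb => simp only [map_add, ha, hb, smul_add]
    have hφψ : ∀ z : Q0 ⊗[D] X, φ.rTensor X (ψ.rTensor X z) = α • z := by
      intro z
      induction z using TensorProduct.induction_on with
      | zero => simp
      | tmul a b =>
        change φ (ψ a) ⊗ₜ[D] b = _
        rw [hψ1, TensorProduct.smul_tmul']
      | add a b ha hb => simp only [map_add, ha, hb, smul_add]
    have hrψ : ∀ z : Q0 ⊗[D] X, T (ψ.rTensor X z) = 0 := by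
      intro z
      induction z using TensorProduct.induction_on with
      | zero => simp
      | tmul a b =>
        change r (ψ a) ⊗ₜ[D] b = _
        rw [(hexr _).2 ⟨a, rfl⟩, TensorProduct.zero_tmul]
      | add a b ha hb => simp only [map_add, ha, hb, add_zero]
    have hπ0ker : Exact ((LinearMap.lsmul D Q0 α).rTensor X) (π0.rTensor X) := by
      apply rTensor_exact X _ (H.baseChange_surj hπ0)
      intro y
      constructor
      · intro hy
        obtain ⟨w, hw⟩ := H.baseChange_eq_zero hπ0 _ hy
        exact ⟨w, hw.symm⟩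
      · rintro ⟨w, rfl⟩
        exact H.baseChange_smul π0 w
    have hls : ∀ z : Q0 ⊗[D] X, (LinearMap.lsmul D Q0 α).rTensor X z = α • z := by
      intro z
      induction z using TensorProduct.induction_on with
      | zero => simp
      | tmul a b =>
        change (α • a) ⊗ₜ[D] b = _
        rw [TensorProduct.smul_tmul']
      | add a b ha hb => rw [map_add, ha, hb, smul_add]
    have hle : ∀ w ∈ LinearMap.ker θ, w ∈ LinearMap.range (T ∘ₗ (Vale.Agent.P177.TH.tors α (Q1 ⊗[D] X)).subtype) := by
      intro w hw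
      obtain ⟨z, rfl⟩ := hTs w
      rw [LinearMap.mem_ker, hθT] at hw
      obtain ⟨w', hw'⟩ := (hπ0ker _).1 hw
      rw [hls] at hw'
      have h2 : φ.rTensor X (z - ψ.rTensor X w') = 0 := by
        rw [map_sub, hφψ, hw', sub_self]
      have h3 : α • (z - ψ.rTensor X w') = 0 := by
        rw [← hψφ, h2, map_zero]
      refine ⟨⟨z - ψ.rTensor X w', h3⟩, ?_⟩
      change T (z - ψ.rTensor X w') = T z
      rw [map_sub, hrψ, sub_zero]
    have h4 : Null L (LinearMap.ker θ) := by
      let emb : LinearMap.ker θ →ₗ[D] LinearMap.range (T ∘ₗ (Vale.Agent.P177.TH.tors α (Q1 ⊗[D] X)).subtype) :=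
        { toFun := fun w => ⟨w.1, hle w.1 w.2⟩
          map_add' := fun _ _ => rfl
          map_smul' := fun _ _ => rfl }
      refine h1.of_inj emb ?_
      intro a b hab
      have h5 := congrArg Subtype.val hab
      exact Subtype.ext h5
    unfold Null
    rw [resLen_len]
    exact h4
  | succ j ih =>
    obtain ⟨Q1, Q0, W0, A', _, _, _, _, _, _, _, _, _, _, _, _, φ, ψ, π0, qb, ι, r, hf1, hf0, hp1,
      hp0, hψ1, hψ2, hπ0, hW0, hqbs, hι, hexb, hιr, hrs, hexr, hA'⟩ := mf_step H hA
    obtain ⟨e⟩ := tor_shift ι qb hι hqbs hexb Y j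
    exact (ih hA').congr e.symm

/-- the `n`-th syzygy over `B` has a matrix factorisation. -/
def Vn (D B : Type u) [CommRing D] [CommRing B] [Algebra D B] :
    ℕ → ∀ (A : Type u) [AddCommGroup A] [Module D A] [Module B A] [IsScalarTower D B A], Prop
  | 0 => fun A _ _ _ _ => MF D A
  | n + 1 => fun A _ _ _ _ => ∃ (k : ℕ) (f : (Fin k → B) →ₗ[B] A), Surjective f ∧
      Vn D B n (LinearMap.ker f)

/-- Vanishing of `Tor^B_j(A, X/αX)`, `j > n`, if the `n`-th syzygy of `A` has a matrix
factorisation. -/
theorem vn_null (H : IsHypersurface D B α) {X Y : Type u} [AddCommGroup X] [Module D X]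
    [AddCommGroup Y] [Module D Y] [Module B Y] [IsScalarTower D B Y] {π : X →ₗ[D] Y}
    (hπ : IsBaseChange B π) (hX : AFlat L α 1 X) (n : ℕ) {A : Type u} [AddCommGroup A] [Module D A]
    [Module B A] [IsScalarTower D B A] (hA : Vn D B n A) (j : ℕ) (hj : n + 1 ≤ j) :
    Null (resLen L B) (TorM B j A Y) := by
  induction n generalizing A j with
  | zero =>
    obtain ⟨j, rfl⟩ : ∃ i, j = i + 1 := ⟨j - 1, by omega⟩
    exact mf_null H hπ hX j hA
  | succ n ih =>
    obtain ⟨k, f, hf, hK⟩ := hA
    obtain ⟨j, rfl⟩ : ∃ i, j = i + 2 := ⟨j - 2, by omega⟩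
    have hex : Exact (LinearMap.ker f).subtype f := by
      rw [LinearMap.exact_iff, Submodule.range_subtype]
    obtain ⟨e⟩ := tor_shift (LinearMap.ker f).subtype f (Submodule.injective_subtype _) hf hex Y j
    exact (ih hK (j + 1) (by omega)).congr e.symm

end Vale.Agent.P177.TH
end

section

/-!
P177, block TH: the truncated Euler characteristic `θ`, as a function satisfying `IsTheta`.
-/

namespace Vale.Agent.P177.TH

open Vale.Agent.P202.Mix TensorProduct Function
open scoped ENNReal

universe u

variable {D : Type u} [CommRing D] (B : Type u) [CommRing B] [Algebra D B] (α : D) (L : AddLen D)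
  (η : D)

/-- the truncated Euler characteristic. -/
noncomputable def theta (n : ℕ) (A : Type u) [AddCommGroup A] [Module B A]
    (X : Type u) [AddCommGroup X] [Module D X] : ℝ :=
  Vale.Agent.P177.TH.chi (resLen L B) n (B ⊗[D] X) A

/-- admissible modules. -/
def Adm (m : ℕ) (A : Type u) [AddCommGroup A] [Module B A]
    (X : Type u) [AddCommGroup X] [Module D X] : Prop :=
  (∃ k : ℕ, ∀ x : X, α • x = 0 → ∃ y : X, η ^ k • x = α ^ m • y) ∧
    ∀ i, (resLen L B).len (TorM B i (B ⊗[D] X) A) < ⊤

/-- modules killed by powers of `η` are null. -/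
def EtaNull : Prop := ∀ (M : Type u) [AddCommGroup M] [Module D M] (k : ℕ),
  (∀ x : M, η ^ k • x = 0) → Null L M

variable {B α L η}

theorem aflat_of (hη : EtaNull L η) {m : ℕ} (hm : 1 ≤ m) {X : Type u} [AddCommGroup X]
    [Module D X] (h : ∃ k : ℕ, ∀ x : X, α • x = 0 → ∃ y : X, η ^ k • x = α ^ m • y) :
    AFlat L α 1 X := by
  obtain ⟨k, hk⟩ := h
  refine hη _ k ?_
  intro x
  obtain ⟨⟨x, hx⟩, rfl⟩ := Submodule.mkQ_surjective _ x
  rw [← map_smul, Submodule.mkQ_apply, Submodule.Quotient.mk_eq_zero]
  obtain ⟨y, hy⟩ := hk x hx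
  obtain ⟨m, rfl⟩ : ∃ i, m = i + 1 := ⟨m - 1, by omega⟩
  refine ⟨α ^ m • y, ?_⟩
  change α ^ 1 • α ^ m • y = η ^ k • x
  rw [hy, smul_smul, pow_one, ← pow_succ']

/-- `B ⊗ X → B ⊗ Y` is a null isomorphism. -/
theorem niso_baseChange (H : IsHypersurface D B α) (hη : EtaNull L η)
    {X Y : Type u} [AddCommGroup X] [Module D X] [AddCommGroup Y] [Module D Y] (f : X →ₗ[D] Y)
    (k : ℕ) (h1 : ∀ x, f x = 0 → η ^ k • x = 0) (h2 : ∀ y, ∃ x, f x = η ^ k • y) :
    NIso (resLen L B) (f.baseChange B) := by
  have hη' : ∀ (M : Type u) [AddCommGroup M] [Module D M] [Module B M] [IsScalarTower D B M]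
      (k : ℕ), (∀ x : M, η ^ k • x = 0) → Null (resLen L B) M := by
    intro M _ _ _ _ k hk
    unfold Null
    rw [resLen_len]
    exact hη M k hk
  refine ⟨hη' _ (k + k) ?_, hη' _ k ?_⟩
  · rintro ⟨z, hz⟩
    apply Subtype.ext
    change η ^ (k + k) • z = 0
    obtain ⟨x, rfl⟩ := H.one_tmul_surj z
    have hz' : (1 : B) ⊗ₜ[D] f x = 0 := hz
    obtain ⟨y, hy⟩ := H.one_tmul_eq_zero _ hz'
    obtain ⟨x', hx'⟩ := h2 y
    have h3 : f (η ^ k • x - α • x') = 0 := by
      rw [map_sub, map_smul, map_smul, hy, hx', smul_comm, sub_self]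
    have h4 := h1 _ h3
    rw [smul_sub, smul_smul, ← pow_add, sub_eq_zero] at h4
    rw [← TensorProduct.tmul_smul, h4, smul_comm]
    exact H.smul_tmul_one _
  · intro z
    obtain ⟨z, rfl⟩ := Submodule.mkQ_surjective _ z
    obtain ⟨y, rfl⟩ := H.one_tmul_surj z
    obtain ⟨x, hx⟩ := h2 y
    have h5 : (LinearMap.range (f.baseChange B)).mkQ (η ^ k • (1 : B) ⊗ₜ[D] y) = 0 := by
      rw [Submodule.mkQ_apply, Submodule.Quotient.mk_eq_zero]
      refine ⟨(1 : B) ⊗ₜ[D] x, ?_⟩
      rw [LinearMap.baseChange_tmul, hx, TensorProduct.tmul_smul]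
    exact h5

/-- right exactness and null kernel for the base change of a short exact sequence. -/
theorem ses_baseChange (H : IsHypersurface D B α) (hη : EtaNull L η) {m : ℕ}
    {X' X X'' : Type u} [AddCommGroup X'] [Module D X'] [AddCommGroup X] [Module D X]
    [AddCommGroup X''] [Module D X''] (f : X' →ₗ[D] X) (g : X →ₗ[D] X'') (hf : Injective f)
    (hg : Surjective g) (h : Exact f g) (hq : ∀ x : X, α ^ (m + 1) • x = 0)
    (h'' : ∃ k : ℕ, ∀ x : X'', α • x = 0 → ∃ y : X'', η ^ k • x = α ^ m • y) :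
    Null (resLen L B) (LinearMap.ker (f.baseChange B)) ∧ Surjective (g.baseChange B) ∧
      Exact (f.baseChange B) (g.baseChange B) := by
  refine ⟨?_, LinearMap.lTensor_surjective B hg, lTensor_exact B h hg⟩
  obtain ⟨k, hk⟩ := h''
  unfold Null
  rw [resLen_len]
  refine hη _ k ?_
  rintro ⟨z, hz⟩
  apply Subtype.ext
  change η ^ k • z = 0
  obtain ⟨x', rfl⟩ := H.one_tmul_surj z
  have hz' : (1 : B) ⊗ₜ[D] f x' = 0 := hz
  obtain ⟨x, hx⟩ := H.one_tmul_eq_zero _ hz'
  have h1 : α • g x = 0 := by
    rw [← map_smul, ← hx]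
    exact (h _).2 ⟨x', rfl⟩
  obtain ⟨y'', hy''⟩ := hk _ h1
  obtain ⟨y, rfl⟩ := hg y''
  have h2 : g (η ^ k • x - α ^ m • y) = 0 := by
    rw [map_sub, map_smul, map_smul, hy'', sub_self]
  obtain ⟨w, hw⟩ := (h _).1 h2
  have h3 : η ^ k • x' = α • w := by
    apply hf
    rw [map_smul, map_smul, hw, smul_sub, smul_smul α (α ^ m), ← pow_succ', hq, sub_zero, hx,
      smul_comm]
  rw [← TensorProduct.tmul_smul, h3]
  exact H.smul_tmul_one _

variable (B α L η)

/-- **The truncated Euler characteristic.** -/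
theorem isTheta (H : IsHypersurface D B α) (hη : EtaNull L η) {m : ℕ} (hm : 1 ≤ m)
    (A : Type u) [AddCommGroup A] [Module D A] [Module B A] [IsScalarTower D B A]
    (hA : ∀ i, FPn B i A) (n : ℕ) (s : ℕ) (hs : s + 1 ≤ n) (hV : Vn D B s A) :
    Ap.IsTheta η (α ^ (m + 1)) (fun X _ _ => theta B L n A X)
      (fun X _ _ => Adm B α L η m A X) where
  zero X _ _ hX := by
    have hs : Subsingleton X := ⟨fun a b => by rw [hX a, hX b]⟩
    have hs' : Subsingleton (B ⊗[D] X) := by
      refine ⟨fun a b => ?_⟩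
      obtain ⟨x, rfl⟩ := H.one_tmul_surj a
      obtain ⟨y, rfl⟩ := H.one_tmul_surj b
      rw [Subsingleton.elim x y]
    have hn : Null (resLen L B) (B ⊗[D] X) := null_of_subsingleton
    refine ⟨⟨⟨0, fun x _ => ⟨0, by rw [hX x, smul_zero, smul_zero]⟩⟩, fun i => ?_⟩, ?_⟩
    · have h : (resLen L B).len (TorM B i (B ⊗[D] X) A) = 0 := null_tor' i (hA i) hn
      rw [h]
      exact ENNReal.zero_lt_top
    · exact chi_of_null hA hn n
  iso {X Y} _ _ _ _ f k hqX hqY h1 h2 := by
    have hN := niso_baseChange H hη f k h1 h2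
    refine ⟨?_, chi_of_niso hA _ hN n⟩
    unfold Adm
    have e1 : (∀ i, (resLen L B).len (TorM B i (B ⊗[D] X) A) < ⊤) ↔
        (∀ i, (resLen L B).len (TorM B i (B ⊗[D] Y) A) < ⊤) := by
      refine forall_congr' fun i => ?_
      rw [tor_len_of_niso hA _ hN i]
    rw [e1]
    refine and_congr_left fun _ => ?_
    constructor
    · rintro ⟨k', hk'⟩
      refine ⟨k' + k + k, fun y hy => ?_⟩
      obtain ⟨x, hx⟩ := h2 y
      have h3 : f (α • x) = 0 := by rw [map_smul, hx, smul_comm, hy, smul_zero]
      have h4 := h1 _ h3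
      rw [smul_comm] at h4
      obtain ⟨z, hz⟩ := hk' _ h4
      refine ⟨f z, ?_⟩
      rw [pow_add, mul_smul, ← hx, ← map_smul, pow_add, mul_smul, hz, map_smul]
    · rintro ⟨k', hk'⟩
      refine ⟨k + (k + k'), fun x hx => ?_⟩
      have h3 : α • f x = 0 := by rw [← map_smul, hx, map_zero]
      obtain ⟨y, hy⟩ := hk' _ h3
      obtain ⟨x', hx'⟩ := h2 y
      have h4 : f (η ^ (k + k') • x - α ^ m • x') = 0 := by
        rw [map_sub, map_smul, map_smul, pow_add, mul_smul, hy, hx', smul_comm, sub_self]
      have h5 := h1 _ h4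
      rw [smul_sub, sub_eq_zero, smul_smul, ← pow_add] at h5
      exact ⟨η ^ k • x', by rw [h5, smul_comm]⟩
  ext {X' X X''} _ _ _ _ _ _ f g hf hg h hq hX' hX'' := by
    obtain ⟨hn, hgs, hex⟩ := ses_baseChange (L := L) H hη f g hf hg h hq hX''.1
    have hvan : Null (resLen L B) (TorM B n (B ⊗[D] X'') A) := by
      have h1 : Null (resLen L B) (TorM B n A (B ⊗[D] X'')) :=
        vn_null H (TensorProduct.isBaseChange D X'' B) (aflat_of hη hm hX''.1) s hV n hs
      obtain ⟨e⟩ := tor_symm (R := B) n A (B ⊗[D] X'')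
      exact h1.congr e
    have key := chi_add_null (L := resLen L B) hA n (f.baseChange B) (g.baseChange B) hn hgs hex
      hX'.2 hX''.2 hvan
    refine ⟨⟨?_, key.1⟩, key.2⟩
    obtain ⟨k', hk'⟩ := hX'.1
    obtain ⟨k, hk⟩ := hX''.1
    refine ⟨k' + k, fun x hx => ?_⟩
    have h1 : α • g x = 0 := by rw [← map_smul, hx, map_zero]
    obtain ⟨y'', hy''⟩ := hk _ h1
    obtain ⟨y, rfl⟩ := hg y''
    have h2 : g (η ^ k • x - α ^ m • y) = 0 := by
      rw [map_sub, map_smul, map_smul, hy'', sub_self]
    obtain ⟨w, hw⟩ := (h _).1 h2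
    have h3 : α • w = 0 := by
      apply hf
      rw [map_smul, hw, map_zero, smul_sub, smul_smul α (α ^ m), ← pow_succ', hq, sub_zero,
        smul_comm, hx, smul_zero]
    obtain ⟨z, hz⟩ := hk' _ h3
    refine ⟨η ^ k' • y + f z, ?_⟩
    rw [smul_add, ← map_smul f, ← hz, map_smul, hw, smul_sub, smul_smul (η ^ k') (η ^ k), ← pow_add,
      smul_comm (α ^ m) (η ^ k')]
    abel

/-- the truncation of an honest module. -/
theorem theta_trunc (H : IsHypersurface D B α) (hη : EtaNull L η) {m : ℕ}
    (A : Type u) [AddCommGroup A] [Module D A] [Module B A] [IsScalarTower D B A]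
    (hA : ∀ i, FPn B i A) (n : ℕ) {V X : Type u} [AddCommGroup V] [Module D V]
    [AddCommGroup X] [Module D X] (hV : ∃ k : ℕ, ∀ v : V, α • v = 0 → η ^ k • v = 0)
    (hfin : ∀ i, L.len (TorM D i V A) < ⊤) (f : V →ₗ[D] X) (hf : Surjective f)
    (hker : ∀ v, f v = 0 ↔ ∃ w, v = α ^ (m + 1) • w) :
    Adm B α L η m A X ∧ theta B L n A X = Vale.Agent.P177.TH.chi L n V A := by
  obtain ⟨k, hk⟩ := hV
  -- `B ⊗ V = B ⊗ X`
  have hbij : Bijective (f.baseChange B) := by
    refine ⟨?_, LinearMap.lTensor_surjective B hf⟩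
    rw [injective_iff_map_eq_zero]
    intro z hz
    obtain ⟨v, rfl⟩ := H.one_tmul_surj z
    have hz' : (1 : B) ⊗ₜ[D] f v = 0 := hz
    obtain ⟨x, hx⟩ := H.one_tmul_eq_zero _ hz'
    obtain ⟨v', rfl⟩ := hf x
    have h1 : f (v - α • v') = 0 := by rw [map_sub, map_smul, hx, sub_self]
    obtain ⟨w, hw⟩ := (hker _).1 h1
    have h2 : v = α • (v' + α ^ m • w) := by
      rw [smul_add, smul_smul, ← pow_succ', ← hw]
      abel
    rw [h2]
    exact H.smul_tmul_one _
  let e : (B ⊗[D] V) ≃ₗ[B] (B ⊗[D] X) := LinearEquiv.ofBijective (f.baseChange B) hbij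
  have hlen : ∀ i, (resLen L B).len (TorM B i (B ⊗[D] X) A) = L.len (TorM D i V A) := by
    intro i
    rw [len_tor_baseChange_null H i (TensorProduct.isBaseChange D V B) (hη _ k ?_) A hA,
      Vale.Agent.P177.TH.len_congr _ (torCongrLeft i e A)]
    rintro ⟨v, hv⟩
    exact Subtype.ext (hk v hv)
  refine ⟨⟨⟨k, fun x hx => ?_⟩, fun i => by rw [hlen]; exact hfin i⟩, ?_⟩
  · obtain ⟨v, rfl⟩ := hf x
    rw [← map_smul] at hx
    obtain ⟨w, hw⟩ := (hker _).1 hx
    have h1 : α • (v - α ^ m • w) = 0 := by
      rw [smul_sub, hw, smul_smul, ← pow_succ', sub_self]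
    have h2 := hk _ h1
    rw [smul_sub, sub_eq_zero] at h2
    refine ⟨f (η ^ k • w), ?_⟩
    rw [← map_smul, ← map_smul, h2, smul_comm]
  · unfold theta Vale.Agent.P177.TH.chi
    exact Finset.sum_congr rfl fun i _ => by rw [hlen]

end Vale.Agent.P177.TH
end

section

/-!
P177, (K): the Koszul homology of `J b = perfHull (P Y^b)` with respect to `y` is controlled by
the quotients `J b / J b'`, and these (up to `h`-torsion) by `C / perfHull (Y ^ l)`.
-/

namespace Vale.Agent.P177.KM

open Vale.Agent.P202.Mix Vale.Agent.P177.Mass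
open scoped ENNReal

universe u

section Abs

variable {R : Type u} [CommRing R] (L : AddLen R) {N V : Type u} [AddCommGroup N] [Module R N]
  [AddCommGroup V] [Module R V] {n : ℕ}

theorem len_quot_le {A B : Submodule R N} (h : A ≤ B) : L.len (N ⧸ B) ≤ L.len (N ⧸ A) :=
  len_surj L (Submodule.factor h) (Submodule.factor_surjective h)

theorem len_quot_ker {K : Type u} [AddCommGroup K] [Module R K] (f : N →ₗ[R] K) :
    L.len (N ⧸ LinearMap.ker f) ≤ L.len K := by
  rw [Vale.Agent.P177.Mass.len_congr L f.quotKerEquivRange]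
  exact len_inj L (LinearMap.range f).subtype (LinearMap.range f).injective_subtype

theorem len_quot_inf (A B : Submodule R N) :
    L.len (N ⧸ (A ⊓ B)) ≤ L.len (N ⧸ A) + L.len (N ⧸ B) := by
  have h1 := len_map_add L (Submodule.factor (inf_le_left : A ⊓ B ≤ A)) ⊤
  rw [top_inf_eq, Vale.Agent.P177.Mass.len_congr L (Submodule.topEquiv (R := R) (M := N ⧸ (A ⊓ B)))] at h1
  rw [h1, add_comm]
  refine add_le_add ?_ ?_
  · exact (len_inj L (Submodule.subtype _) (Submodule.injective_subtype _))
  · refine len_inj L ((Submodule.factor (inf_le_right : A ⊓ B ≤ B)) ∘ₗ Submodule.subtype _) ?_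
    rw [← LinearMap.ker_eq_bot, LinearMap.ker_eq_bot']
    rintro ⟨x, hx⟩ h2
    obtain ⟨y, rfl⟩ := Submodule.mkQ_surjective _ x
    have hxA : y ∈ A := by
      have h3 : Submodule.factor (inf_le_left : A ⊓ B ≤ A) ((A ⊓ B).mkQ y) = 0 := hx
      simpa [Submodule.factor_mk, Submodule.Quotient.mk_eq_zero] using h3
    have hxB : y ∈ B := by
      have h3 : Submodule.factor (inf_le_right : A ⊓ B ≤ B) ((A ⊓ B).mkQ y) = 0 := h2
      simpa [Submodule.factor_mk, Submodule.Quotient.mk_eq_zero] using h3
    refine Subtype.ext ?_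
    show (A ⊓ B).mkQ y = 0
    rw [Submodule.mkQ_apply, Submodule.Quotient.mk_eq_zero]
    exact ⟨hxA, hxB⟩

theorem len_quot_iInf {ι : Type*} (s : Finset ι) (A : ι → Submodule R N) :
    L.len (N ⧸ (s.inf A)) ≤ ∑ i ∈ s, L.len (N ⧸ A i) := by
  classical
  induction s using Finset.induction_on with
  | empty =>
    rw [Finset.inf_empty, Finset.sum_empty]
    exact (len_subsingleton L).le
  | insert i s hi ih =>
    rw [Finset.inf_insert, Finset.sum_insert hi]
    exact (len_quot_inf L _ _).trans (add_le_add le_rfl ih)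

/-- the `i`-th Koszul homology of commuting operators. -/
abbrev KH (T : Fin n → V →ₗ[R] V) (i : ℕ) : Type u :=
  ↥(kcyc T (i : ℤ)) ⧸ (kbd T (i : ℤ)).submoduleOf (kcyc T (i : ℤ))

/-- **abstract (K)**: if the subcomplex with terms `G S` is exact in degree `i`, then
`len H_i(T; V) ≤ ∑_{|S| = i} len (V / G S)`. -/
theorem len_KH_le (T : Fin n → V →ₗ[R] V) (G : Finset (Fin n) → Submodule R V) (i : ℕ)
    (hG : ∀ v : Finset (Fin n) → V, (∀ S : Finset (Fin n), S.card = i → v S ∈ G S) →
      (∀ S : Finset (Fin n), S.card ≠ i → v S = 0) → kz T v = 0 →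
      ∃ w : Finset (Fin n) → V, (∀ S : Finset (Fin n), S.card ≠ i + 1 → w S = 0) ∧ kz T w = v) :
    L.len (KH T i) ≤ ∑ S ∈ (Finset.univ : Finset (Finset (Fin n))).filter (fun S => S.card = i),
      L.len (V ⧸ G S) := by
  classical
  set s := (Finset.univ : Finset (Finset (Fin n))).filter (fun S => S.card = i) with hs
  set A : Finset (Fin n) → Submodule R ↥(kcyc T (i : ℤ)) := fun S =>
    LinearMap.ker ((G S).mkQ ∘ₗ (LinearMap.proj S) ∘ₗ (kcyc T (i : ℤ)).subtype) with hA
  have h1 : s.inf A ≤ (kbd T (i : ℤ)).submoduleOf (kcyc T (i : ℤ)) := by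
    rintro ⟨v, hv⟩ hx
    rw [Submodule.mem_finsetInf] at hx
    have hv1 : ∀ S : Finset (Fin n), S.card = i → v S ∈ G S := by
      intro S hS
      have h2 := hx S (by simp [hs, hS])
      simpa [hA, LinearMap.mem_ker, Submodule.Quotient.mk_eq_zero] using h2
    have hv2 : ∀ S : Finset (Fin n), S.card ≠ i → v S = 0 := by
      intro S hS
      by_contra h
      have := hv.1 S h
      exact hS (by exact_mod_cast this)
    obtain ⟨w, hw1, hw2⟩ := hG v hv1 hv2 hv.2
    show v ∈ kbd T (i : ℤ)
    refine ⟨w, ?_, hw2⟩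
    intro S hS
    by_contra h
    exact hS (hw1 S (by intro h'; exact h (by rw [h']; push_cast; rfl)))
  refine (len_quot_le L h1).trans ((len_quot_iInf L s A).trans ?_)
  exact Finset.sum_le_sum fun S _ => len_quot_ker L _

end Abs

end Vale.Agent.P177.KM
end
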