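import Mathlib
import Vale.Agent.P177.Bd4.B2
import Vale.Agent.P177.Bd4.B3
import Vale.Agent.P177.Bd4.B1
attribute [-instance] DenselyNormedField.toNontriviallyNormedField RCLike.toDenselyNormedField DenselyNormedField.toNormedField NontriviallyNormedField.toNormedField NormedField.toNormedDivisionRing littleWedderburn NormedDivisionRing.toDivisionRing NormedField.toField IdemCommSemiring.toCommSemiring IdemCommSemiring.toIdemSemiring KleeneAlgebra.toIdemSemiring DivisionRing.toDivisionSemiring SemiRingCat.instSemiringObjForgetRingHomCarrier BooleanRing.toRing CommSemiRingCat.FilteredColimits.colimitCommSemiring CommCStarAlgebra.toCStarAlgebra CommCStarAlgebra.toNormedCommRing NormedField.toNormedCommRing CStarAlgebra.toNormedRing NormedCommRing.toNormedRing NormedDivisionRing.toNormedRing NormedCommRing.toSeminormedCommRing NormedRing.toSeminormedRing SeminormedCommRing.toSeminormedRing Field.toEuclideanDomain BooleanRing.toCommRing EuclideanDomain.toCommRing NormedCommRing.toCommRing SeminormedCommRing.toCommRing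 NormedRing.toRing SeminormedRing.toRing LeftPreLieRing.instLieAdmissibleRing RightPreLieRing.instLieAdmissibleRing CommRing.toAddCommGroupWithOne NonAssocRing.toAddCommGroupWithOne NonAssocCommRing.toNonAssocCommSemiring CommSemiring.toNonAssocCommSemiring NonAssocCommSemiring.toNonAssocSemiring NonAssocRing.toNonAssocSemiring AddCommGroupWithOne.toAddCommMonoidWithOne CommCStarAlgebra.toNonUnitalCommCStarAlgebra CStarAlgebra.toNonUnitalCStarAlgebra NonUnitalCommCStarAlgebra.toNonUnitalCStarAlgebra NonUnitalCommCStarAlgebra.toNonUnitalNormedCommRing NormedCommRing.toNonUnitalNormedCommRing NonUnitalCStarAlgebra.toNonUnitalNormedRing NonUnitalNormedCommRing.toNonUnitalNormedRing NormedRing.toNonUnitalNormedRing LinearOrderedAddCommGroupWithTop.instLinearOrderedAddCommMonoidWithTop LeftPreLieRing.toNonUnitalNonAssocRing LieAdmissibleRing.toNonUnitalNonAssocRing RightPreLieRing.toNonUnitalNonAssocRing LinearOrderedAddCommGroupWithTop.toAddCommMonoid NonUnitalNormedCommRing.toNonUnitalSeminormedCommRing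 SeminormedCommRing.toNonUnitalSeminormedCommRing NonUnitalNormedRing.toNonUnitalSeminormedRing NonUnitalSeminormedCommRing.toNonUnitalSeminormedRing SeminormedRing.toNonUnitalSeminormedRing NonAssocCommRing.toNonUnitalNonAssocCommRing NonUnitalNormedCommRing.toNonUnitalCommRing NonUnitalSeminormedCommRing.toNonUnitalCommRing NonUnitalCommRing.toNonUnitalRing NonUnitalNormedRing.toNonUnitalRing NonUnitalRing.toNonUnitalNonAssocRing NonUnitalSeminormedRing.toNonUnitalRing Ring.toNonUnitalRing NonAssocCommSemiring.toNonUnitalNonAssocCommSemiring NonUnitalNonAssocCommSemiring.toNonUnitalNonAssocSemiring NonUnitalRing.toNonUnitalSemiring NonUnitalSemiring.toNonUnitalNonAssocSemiring Semiring.toNonUnitalSemiring AddCommMonoidWithOne.toAddCommMonoid Pi.nonUnitalNonAssocSemiring SSet.stdSimplex.instFunLikeObjOppositeSimplexCategoryMkOpFinHAddNatOfNat AddCommMonCat.FilteredColimits.colimitAddCommMonoid CategoryTheory.CommGrpObj.mk CategoryTheory.CommGrpObj.toGrpObj CategoryTheory.Preadditive.instGrpObj CategoryTheory.instBraidedCategoryType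 CategoryTheory.Abelian.toPreadditive CategoryTheory.BimonObj.toMonObj CategoryTheory.CommRingObj.toRingObj CategoryTheory.GrpObj.toMonObj CategoryTheory.HopfObj.toBimonObj CategoryTheory.RingObj.toMonObj MonTypeEquivalenceMon.monMonoid Pi.nonAssocSemiring MulSemiringAction.toDistribMulAction AddCommGroupWithOne.toAddGroupWithOne LinearOrderedAddCommGroupWithTop.toSubNegMonoid NormedCommGroup.toNormedGroup NormedCommGroup.toSeminormedCommGroup NormedGroup.toSeminormedGroup SeminormedCommGroup.toSeminormedGroup instCommGroupOfIsSimpleGroupOfIsNilpotent CommGroup.toGroup CommGrpTypeEquivalenceCommGrp.commGrpCommGroup GrpTypeEquivalenceGrp.grpGroup NormedCommGroup.toCommGroup NormedGroup.toGroup SeminormedCommGroup.toCommGroup SeminormedGroup.toGroup Bialgebra.toAlgebra CommSemiring.toBialgebra CommSemiring.toHopfAlgebra HopfAlgebra.toHopfAlgebraStruct HopfAlgebraStruct.toBialgebra NormedAlgebra.toAlgebra instDistribSMul SemiNormedGrp.str instSMulZeroClass NonUnitalNormedRing.toNormedAddCommGroup LieAdmissibleRing.instLieRing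 RingCat.FilteredColimits.colimitRing instCoeT instNonUnitalCStarAlgebraForall MonCat.monoidObj LieRing.toAddCommGroup LinearOrderedCommGroupWithZero.toLinearOrderedCommMonoidWithZero BoxIntegral.Box.instMembershipForallReal CompleteAtomicBooleanAlgebra.toCompleteBooleanAlgebra instCoeTOfCoeDep ContDiffMapSupportedInClass.toDFunLike RKHS.instFunLike TestFunctionClass.toDFunLike Pi.addZeroClass Complex.instRCLike TopRep.hV1 Real.instRCLike CompleteAtomicBooleanAlgebra.toCompletelyDistribLattice CompleteBooleanAlgebra.toBooleanAlgebra CompleteBooleanAlgebra.toCompleteDistribLattice CompletelyDistribLattice.toCompleteDistribLattice instNonUnitalAlgHomClassOfNonUnitalAlgEquivClass Invertible.toNeZero LinearOrderedCommMonoidWithZero.toIsBotZeroClass NeZero.of_gt' Nat.AtLeastTwo.toNeZero BooleanAlgebra.toBiheytingAlgebra CompleteDistribLattice.toBiheytingAlgebra CompleteDistribLattice.toCoframe CompleteDistribLattice.toFrame CompleteLinearOrder.toBiheytingAlgebra CompletelyDistribLattice.toBiheytingAlgebra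 LinearOrderedCommGroupWithZero.toCommGroupWithZero Semifield.toCommGroupWithZero CompleteLinearOrder.toConditionallyCompleteLinearOrderBot CommGroupWithZero.toGroupWithZero DivisionSemiring.toGroupWithZero ProfiniteAddGrp.addGroup CompleteBooleanAlgebra.toCompleteLattice CommGroupWithZero.toCommMonoidWithZero LinearOrderedCommMonoidWithZero.toCommMonoidWithZero Pi.mulZeroOneClass BooleanAlgebra.toGeneralizedBooleanAlgebra instCoeTC TwoSidedIdeal.instIsTwoSidedCoeOrderHomIdealAsIdeal ConditionallyCompleteLinearOrderBot.toConditionallyCompleteLinearOrder GroupWithZero.toMonoidWithZero MonoidWithZero.toSemigroupWithZero SemigroupWithZero.toMulZeroClass BiheytingAlgebra.toCoheytingAlgebra BiheytingAlgebra.toHeytingAlgebra CompleteLinearOrder.toCompleteLattice Order.Coframe.toCoheytingAlgebra Order.Coframe.toCompleteLattice Order.Frame.toCompleteLattice Order.Frame.toHeytingAlgebra RightPreLieAlgebra.instLieAdmissibleAlgebra instCoeTCOfCoe BialgEquivClass.toBialgHomClass AbsoluteValue.mulHomClass LieAdmissibleAlgebra.toModule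 instCoeHTC instCoeHTCT CompleteLinearOrder.toLinearOrder ConditionallyCompleteLinearOrder.toLinearOrder LinearOrderedAddCommGroupWithTop.toLinearOrder LinearOrderedAddCommMonoidWithTop.toLinearOrder LinearOrderedCommMonoidWithZero.toLinearOrder LeftPreLieAlgebra.toModule LieAlgebra.toModule NormedSpace.toModule RightPreLieAlgebra.toModule CoheytingAlgebra.toGeneralizedCoheytingAlgebra GeneralizedBooleanAlgebra.toGeneralizedCoheytingAlgebra HeytingAlgebra.toGeneralizedHeytingAlgebra NonUnitalSeminormedRing.toSeminormedAddCommGroup NormedAddCommGroup.toSeminormedAddCommGroup Pi.nonUnitalSemiring Nat.instNontrivial Nat.instOne Nat.Prime.one_lt' TopologicalSpace.Compacts.instSetLike Std.DTreeMap.Raw.instSingletonSigma AddOpposite.instAddZero ConditionallyCompleteLinearOrder.toConditionallyCompleteLattice instConditionallyCompletePartialOrderSup ConditionallyCompleteLattice.toConditionallyCompletePartialOrder ConditionallyCompletePartialOrder.toConditionallyCompletePartialOrderInf ConditionallyCompletePartialOrder.toConditionallyCompletePartialOrderSup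 Pi.subtractionMonoid OrderAddMonoidHom.instAddMonoidHomClass OrderRingHom.instRingHomClass Fin.completeLinearOrder CategoryTheory.Mat_.fintype instDistribLatticeOfLinearOrder BooleanAlgebra.toDistribLattice ChainCompletePartialOrder.instOfCompleteLattice ChainCompletePartialOrder.instOmegaCompletePartialOrder ChainCompletePartialOrder.toPartialOrder CompleteLattice.toPartialOrder' CompletePartialOrder.toOmegaCompletePartialOrder ConditionallyCompletePartialOrderInf.toPartialOrder ConditionallyCompletePartialOrderSup.toPartialOrder DistribLattice.toLattice GeneralizedBooleanAlgebra.toDistribLattice GeneralizedCoheytingAlgebra.toDistribLattice GeneralizedCoheytingAlgebra.toLattice GeneralizedHeytingAlgebra.toDistribLattice GeneralizedHeytingAlgebra.toLattice Lattice.toSemilatticeInf LinearOrder.toLattice OmegaCompletePartialOrder.toPartialOrder SemilatticeInf.toPartialOrder Order.Coframe.toDistribLattice Order.Frame.toDistribLattice Monoid.End.instMonoidHomClass NormedAddCommGroup.toNormedAddGroup AddMonCat.addMonoidObj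 CategoryTheory.Limits.Concrete.instUniqueToTypeTerminal AlgEquivClass.toAlgHomClass BialgHomClass.toAlgHomClass CentroidHomClass.toAddMonoidHomClass OrderDual.instPow_1 ValuationClass.toMonoidWithZeroHomClass MulSemiringActionSemiHomClass.toDistribMulActionSemiHomClass instIsDedekindDomainOfIsDomainOfIsDedekindRing IsDedekindDomainDvr.isDedekindDomain OrderDual.instDivisionSemiring Quaternion.instDivisionRing AbsoluteValue.zeroHomClass Fin.instBiheytingAlgebra ContinuousAddMonoidHom.instCoeOutOfAddMonoidHomClassOfContinuousMapClass ContinuousMonoidHom.instCoeOutOfMonoidHomClassOfContinuousMapClass HomeomorphClass.instCoeOutHomeomorph IsometryClass.instCoeOutIsometryEquiv Action.instMulAction Torsor.toMulAction Action.FintypeCat.instMulActionObjFiniteOf GradedMonoid.GradeZero.mulAction TensorProduct.instModuleFstSnd AlgHom.instContinuousLinearMapClassOfAlgHomClass BialgHomClass.toCoalgHomClass CoalgEquivClass.toCoalgHomClass CoalgHomClass.toSemilinearMapClass ContinuousSemilinearEquivClass.continuousSemilinearMapClass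 ContinuousSemilinearMapClass.toSemilinearMapClass PositiveLinearMap.instContinuousLinearMapClassComplexOfLinearMapClassOfOrderHomClass RingHomClass.toLinearMapClassNNRat RingHomClass.toLinearMapClassRat SemilinearIsometryClass.toContinuousSemilinearMapClass SemilinearIsometryClass.toSemilinearMapClass AddHom.addHomClass CommMonTypeEquivalenceCommMon.commMonCommMonoid NormedAddGroup.toSeminormedAddGroup SeminormedAddCommGroup.toSeminormedAddGroup ENormedAddCommMonoid.toESeminormedAddCommMonoid NormedAddCommGroup.toENormedAddCommMonoid IsRegularLocalRing.instOfIsLocalRingOfIsDomainOfIsPrincipalIdealRing AlgHomClass.linearMapClass NonUnitalAlgHomClass.instSemilinearMapClassOfNonUnitalAlgSemiHomClassToMonoidHomRingHom SemilinearEquivClass.instSemilinearMapClass instIsDomain DivisionRing.isDomain EuclideanDomain.instIsDomain Field.isDomain IsDedekindDomain.toIsDomain IsStrictOrderedRing.isDomain instCharZeroOfIsSemireal instIsSemirealOfIsStrictOrderedRingOfExistsAddOfLE FloorSemiring.instCharZero IsRealClosed.toIsSemireal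 IsStrictOrderedRing.toCharZero NumberField.to_charZero RCLike.charZero_rclike Pi.normedRing boolToProp AddCommGroupWithOne.toAddCommGroup NormedAddCommGroup.toAddCommGroup SeminormedAddCommGroup.toAddCommGroup SubfieldClass.toSubringClass NormedAddGroup.toAddGroup SeminormedAddGroup.toAddGroup NonUnitalNormedRing.toMetricSpace NormedAddCommGroup.toMetricSpace NormedAddGroup.toMetricSpace NormedCommGroup.toMetricSpace NormedDivisionRing.toMetricSpace NormedField.toMetricSpace NormedGroup.toMetricSpace NormedRing.toMetricSpace TopologicalSpace.UpgradedIsCompletelyMetrizableSpace.toMetricSpace Module.toMulActionWithZero MonoidWithZero.toMulActionWithZero ENormedCommMonoid.toESeminormedCommMonoid NormedCommGroup.toENormedCommMonoid Pi.normedAddCommGroup Field.instIsLocalRing IsDiscreteValuationRing.toIsLocalRing LinearOrderedAddCommGroupWithTop.toSubtractionMonoid ValuationRing.isLocalRing NonUnitalAlgHomClass.toNonUnitalRingHomClass RingEquivClass.toNonUnitalRingHomClass AddCancelCommMonoid.toAddCommMonoid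 AddCommGroup.toAddCancelCommMonoid ESeminormedAddCommMonoid.toAddCommMonoid MulOpposite.instMulOne BialgHomClass.toMonoidHomClass MulCharClass.toMonoidHomClass MulDistribMulActionSemiHomClass.toMonoidHomClass Fin.instCoheytingAlgebra Fin.instHeytingAlgebra AddCancelCommMonoid.toAddCancelMonoid AddCancelCommMonoid.toAddLeftCancelMonoid AddCancelMonoid.toAddLeftCancelMonoid AddLeftCancelMonoid.toAddMonoid AddRightCancelMonoid.toAddMonoid ENormedAddCommMonoid.toENormedAddMonoid ENormedAddMonoid.toESeminormedAddMonoid ESeminormedAddCommMonoid.toESeminormedAddMonoid ESeminormedAddMonoid.toAddMonoid NormedAddGroup.toENormedAddMonoid CommRing.toGrindCommRing Field.toGrindField Ring.toGrindRing SubringClass.toNegMemClass RootedTree.orderBot PadicComplex.normedField instInfiniteOfUncountable instNontrivialOfCharZero CharZero.infinite Denumerable.instInfinite DivisionRing.toNontrivial EuclideanDomain.toNontrivial GroupWithZero.toNontrivial Infinite.instNontrivial IsAlgClosed.instInfinite IsDomain.toNontrivial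 IsOrderedRing.toIsStrictOrderedRing IsSimpleAddGroup.toNontrivial IsSimpleGroup.toNontrivial IsSimpleOrder.toNontrivial IsSimpleRing.instNontrivial IsStrictOrderedRing.toNontrivial LinearOrderedAddCommGroupWithTop.toNontrivial NoMaxOrder.infinite NoMinOrder.infinite NontriviallyNormedField.infinite FirstOrder.Language.instInfiniteOfModelDloOrderOfNonempty instSubsingleton Group.IsPerfect.subsingleton_of_isMulCommutative IsEmpty.instSubsingleton CommSemiring.toGrindCommSemiring Semiring.toGrindSemiring AddCommGroup.toGrindIntModule Fin.instOfNat Pi.mulZeroClass SaturatedAddSubmonoid.instAddSubmonoidClass OreLocalization.instAddCommGroup EMetricSpace.toPseudoEMetricSpace IsValuativeTopology.instValuedValueGroupWithZeroOfIsUniformAddGroup MetricSpace.toEMetricSpace MetricSpace.toPseudoMetricSpace NonUnitalSeminormedRing.toPseudoMetricSpace PseudoEMetricSpace.toUniformSpace PseudoMetricSpace.toPseudoEMetricSpace PseudoMetricSpace.toUniformSpace SeminormedAddCommGroup.toPseudoMetricSpace SeminormedAddGroup.toPseudoMetricSpace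 SeminormedCommGroup.toPseudoMetricSpace SeminormedGroup.toPseudoMetricSpace SeminormedRing.toPseudoMetricSpace UniformSpace.toTopologicalSpace UpgradedStandardBorel.toTopologicalSpace Valued.toUniformSpace WithIdeal.instTopologicalSpace WithIdeal.instUniformSpace TopologicalSpace.UpgradedIsCompletelyPseudoMetrizableSpace.toPseudoMetricSpace BooleanAlgebra.toBot GeneralizedBooleanAlgebra.toBot Pi.instTopForall CancelCommMonoid.toCancelMonoid CancelCommMonoid.toCommMonoid CancelCommMonoid.toLeftCancelMonoid CancelMonoid.toLeftCancelMonoid CancelMonoid.toRightCancelMonoid CommGroup.toCancelCommMonoid CommGroup.toCommMonoid CommGroup.toDivisionCommMonoid CommGroupWithZero.toDivisionCommMonoid CommMonoidWithZero.toCommMonoid DivInvMonoid.toMonoid DivInvOneMonoid.toDivInvMonoid DivisionCommMonoid.toCommMonoid DivisionCommMonoid.toDivisionMonoid DivisionMonoid.toDivInvMonoid DivisionMonoid.toDivInvOneMonoid DivisionRing.toDivInvMonoid ENormedCommMonoid.toENormedMonoid ENormedMonoid.toESeminormedMonoid ESeminormedCommMonoid.toCommMonoid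 ESeminormedCommMonoid.toESeminormedMonoid ESeminormedMonoid.toMonoid Group.toCancelMonoid Group.toDivInvMonoid Group.toDivisionMonoid GroupWithZero.toDivInvMonoid GroupWithZero.toDivisionMonoid LeftCancelMonoid.toMonoid NormedGroup.toENormedMonoid RightCancelMonoid.toMonoid GradedMonoid.GradeZero.commMonoid GradedMonoid.GradeZero.monoid Pi.instOne AddCommMonoid.toGrindNatModule Pi.instBotForall Pi.mulOneClass CommMonCat.str bot_nonempty infSet_to_nonempty instInhabitedOfMonad instNonemptyOfInhabited instNonemptyOfMonad supSet_to_nonempty top_nonempty AddTorsor.nonempty ConnectedSpace.toNonempty IrreducibleSpace.toNonempty MulZeroClass.negZeroClass Nontrivial.to_nonempty One.instNonempty Preorder.smallCategory Torsor.nonempty Unique.instInhabited Zero.instNonempty CategoryTheory.Groupoid.toCategory CategoryTheory.IsConnected.is_nonempty CategoryTheory.StrictBicategory.category MulActionWithZero.toMulAction MulDistribMulAction.toMulAction MulSemiringAction.toMulDistribMulAction instSMulCommClassOfIsScalarTower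 LeftPreLieAlgebra.toSMulCommClass LieAdmissibleAlgebra.toSMulCommClass RightPreLieAlgebra.toSMulCommClass ValuationSubring.instSubringClass Zero.ofOfNat0 CategoryTheory.IsSifted.isSifted_of_hasBinaryCoproducts_and_nonempty instFiniteProp Pi.commMagma LeftPreLieAlgebra.instLieAdmissibleAlgebra LieAdmissibleAlgebra.instLieAlgebra LieAlgebra.ofAssociativeAlgebra ConvexCone.instAddMemClass PartOrdEmb.str AddGroup.instAddTorsor BooleanAlgebra.toBoundedOrder BooleanAlgebra.toTop BoundedOrder.toOrderTop CategoryTheory.isConnected_of_nonempty_and_subsingleton CoheytingAlgebra.toBoundedOrder CoheytingAlgebra.toOrderTop CompletePartialOrder.toSupSet CompleteSemilatticeInf.toInfSet CompleteSemilatticeSup.toSupSet ConditionallyCompleteLattice.toInfSet ConditionallyCompleteLattice.toSupSet ConditionallyCompleteLinearOrderBot.toOrderBot ConditionallyCompletePartialOrderInf.toInfSet ConditionallyCompletePartialOrderSup.toSupSet DivInvOneMonoid.toInvOneClass GeneralizedBooleanAlgebra.toOrderBot GeneralizedCoheytingAlgebra.toOrderBot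 GeneralizedHeytingAlgebra.toOrderTop Group.instTorsor HeytingAlgebra.toBoundedOrder HeytingAlgebra.toOrderBot IdemSemiring.toOrderBot InvOneClass.toOne IrreducibleSpace.connectedSpace LinearOrderedAddCommGroupWithTop.toOrderTop LinearOrderedAddCommMonoidWithTop.toOrderTop LinearOrderedCommMonoidWithZero.toOrderBot NormedAddTorsor.toAddTorsor NormedAddTorsor.toAddTorsor' One.ofOfNat1 PathConnectedSpace.connectedSpace SeminormedAddCommGroup.toNormedAddTorsor UnitalShelf.toOne CategoryTheory.IsSifted.instIsConnected instFiniteCarrierToTopAndTotallyDisconnectedSpaceSecondCountableTopologyOfObj MulActionWithZero.toSMulWithZero MulZeroClass.toSMulWithZero SMulWithZero.toSMulZeroClass SubfieldClass.toDivisionRing SubfieldClass.toField SubfieldClass.toNormedField Ideal.Quotient.normedCommRing Ideal.Quotient.semiNormedCommRing IsDedekindDomain.isDedekindDomainDvr IsDedekindDomain.toIsDedekindRing of_isDiscreteValuationRing ValuationRing.instOfIsLocalRingOfIsBezout ValuationRing.of_field instMulActionSemiHomClassMulActionHom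 Pi.addMonoidWithOne Pi.subNegMonoid ContractibleSpace.instOfNonemptyOfIndiscreteTopology ContractibleSpace.instOfNonemptyOfSubsingleton ContractibleSpace.instPathConnectedSpace Convex.instPathConnectedSpace NormedSpace.instPathConnectedSpace RealTopologicalVectorSpace.contractibleSpace SimplyConnectedSpace.instPathConnectedSpace SimplyConnectedSpace.ofContractible Turing.FinTM2.decidableEqK Pi.distribSMul' BialgEquivClass.toCoalgEquivClass SemilinearIsometryEquivClass.toSemilinearIsometryClass StarSubalgebra.commCStarAlgebra StarSubalgebra.cstarAlgebra SubalgebraClass.normedRing SubalgebraClass.seminormedRing SubringClass.toCommRing SubringClass.toNormedCommRing SubringClass.toNormedRing SubringClass.toRing SubringClass.toSeminormedCommRing SubringClass.toSeminormedRing SetLike.GradeZero.instCommRing SetLike.GradeZero.instRing Pi.involutiveNeg SemilatSupCat.isSemilatticeSup Fin.addCommGroup Fin.instNonUnitalCommRing CategoryTheory.instFinCategoryOfFintypeOfIsThin FinEnum.instFintype SetLike.instFintype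 Unique.fintype CategoryTheory.FinCategory.fintypeObj FinEnum.decEq FunLike.toDecidableEq LinearOrder.toDecidableEq RCLike.toDecidableEq FirstOrder.Language.instDecidableEqFunctions FirstOrder.Language.instDecidableEqRelations Pi.distribMulAction' instTopologicalSpaceFin Fin.addCommMonoid Fin.instBoundedOrder Fin.instCommMonoid Fin.instInhabited Fin.instNontrivial Fin.instPartialOrder LeftPreLieAlgebra.toIsScalarTower LieAdmissibleAlgebra.toIsScalarTower LieRinehartAlgebra.toIsScalarTower RightPreLieAlgebra.toIsScalarTower coePNatNat Nat.Primes.coeNat Nat.Primes.coePNat instIsRightCancelAddOfAddRightReflectLE Pi.instIsRightCancelAdd Pi.subNegZeroMonoid instIsPrincipalIdealRingOfIsSemisimpleRing instIsSemisimpleModuleOfIsSimpleModule instIsSemisimpleRingOfSubsingleton instIsSimpleModule DivisionSemiring.isPrincipalIdealRing EuclideanDomain.to_principal_ideal_domain IsDedekindDomain.isPrincipalIdealRing IsDiscreteValuationRing.toIsPrincipalIdealRing IsPrincipalIdealRing.of_isNoetherianRing_of_isBezout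 IsSemisimpleRing.isSemisimpleModule IsSimpleRing.instIsSemisimpleRing IsBezout.of_isPrincipalIdealRing ValuationRing.instIsBezout Pi.instSubtractionCommMonoid MulEquivClass.toMonoidWithZeroHomClass MulRingSeminormClass.toMonoidWithZeroHomClass Pi.monoidWithZero TensorProduct.isScalarTower TensorProduct.isScalarTower_right Algebra.TensorProduct.right_isScalarTower decidableEq_of_subsingleton AlgebraicGeometry.instOrderTopCarrierCarrierCommRingCatOfIsIntegral OneHom.oneHomClass CommBialgCat.instCommRingObjForgetBialgHomCarrier CharP.ofCharZero AlgebraicGeometry.Scheme.component_nontrivial Submodule.Quotient.distribMulAction LinearMap.IsScalarTower.compatibleSMul' forall_prop_decidable instDecidableForall Array.instDecidableForallForallMemOfDecidablePred Finset.decidableDforallFinset Fintype.decidableForallFintype List.decidableBAll Multiset.decidableDforallMultiset Option.decidableForallMem Vector.instDecidableForallForallMemOfDecidablePred Ordinal.leftDistribClass CompTriple.instComp_id CompTriple.instId_comp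 smoothSheafCommRing.instLocalRing_stalk Bialgebra.Quotient.instQuotientIdeal HopfAlgebra.Quotient.instHopfAlgebraStructQuotientIdeal HopfAlgebra.Quotient.instQuotientIdeal Submodule.Quotient.distribMulAction' -- iprune

set_option linter.all false

section

/-! Data for the reduction to the diagonal. -/

namespace Vale.Agent.P177

open IsLocalRing RingTheory.Sequence

universe u

/-- Data for the reduction to the diagonal. -/
structure DiagData (S B : Type u) [CommRing S] [IsLocalRing S] [CommRing B] (d : ℕ) where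
  i₁ : S →+* B
  i₂ : S →+* B
  flat₁ : i₁.Flat
  flat₂ : i₂.Flat
  μ : B →+* S
  μ_i₁ : μ.comp i₁ = RingHom.id S
  μ_i₂ : μ.comp i₂ = RingHom.id S
  ρ : B →+* S
  ρ_i₁ : ρ.comp i₁ = RingHom.id S
  ker_ρ : RingHom.ker ρ = (maximalIdeal S).map i₂
  δ : List B
  length_δ : δ.length = d
  ker_μ : RingHom.ker μ = Ideal.ofList δ
  regular_δ : IsRegular B δ

end Vale.Agent.P177
end

section

/-! Reduction to the diagonal for power series rings over a field. -/

namespace Vale.Agent.P177

open IsLocalRing RingTheory.Sequence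

/-- Kernel of a retraction of local rings. -/
theorem ker_le_of_retraction {S B : Type*} [CommRing S] [IsLocalRing S]
    [IsAdicComplete (maximalIdeal S) S] [CommRing B] [IsLocalRing B] [IsNoetherianRing B]
    (i : S →+* B) (π : B →+* S) (hπ : π.comp i = RingHom.id S) (J : Ideal B)
    (hJ : J ≤ RingHom.ker π) (hm : (maximalIdeal S).map i ⊔ J = maximalIdeal B)
    (hres : ∀ b : B, ∃ s : S, b - i s ∈ maximalIdeal B) : RingHom.ker π = J := by
  apply le_antisymm _ hJ
  have hJm : J ≤ maximalIdeal B := hm ▸ le_sup_right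
  have hnt : Nontrivial (B ⧸ J) :=
    Ideal.Quotient.nontrivial_iff.mpr (fun h => (maximalIdeal.isMaximal B).ne_top
      (top_le_iff.mp (h ▸ hJm)))
  have hloc : IsLocalRing (B ⧸ J) :=
    IsLocalRing.of_surjective' (Ideal.Quotient.mk J) Ideal.Quotient.mk_surjective
  let f : S →+* B ⧸ J := (Ideal.Quotient.mk J).comp i
  have hmap : (maximalIdeal S).map f = (maximalIdeal B).map (Ideal.Quotient.mk J) := by
    rw [← Ideal.map_map, ← hm, Ideal.map_sup, Ideal.map_quotient_self, sup_bot_eq]
  have hle : (maximalIdeal B).map (Ideal.Quotient.mk J) ≤ maximalIdeal (B ⧸ J) := by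
    rw [Ideal.map_le_iff_le_comap]
    intro b hb hu
    obtain ⟨u, hu⟩ := hu
    obtain ⟨c, hc⟩ := Ideal.Quotient.mk_surjective (u⁻¹ : (B ⧸ J)ˣ).val
    have h1 : b * c - 1 ∈ J := by
      rw [← Ideal.Quotient.mk_eq_mk_iff_sub_mem, map_mul, hc, ← hu, Units.mul_inv, map_one]
    have h2 : (1 : B) ∈ maximalIdeal B := by
      have h3 := Ideal.sub_mem _ (Ideal.mul_mem_right c _ hb) (hJm h1)
      rwa [sub_sub_cancel] at h3
    exact (maximalIdeal.isMaximal B).ne_top (Ideal.eq_top_of_isUnit_mem _ h2 isUnit_one)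
  have hH : IsHausdorff ((maximalIdeal S).map f) (B ⧸ J) := by
    rw [hmap]
    refine IsHausdorff.of_isLocalRing _ _ (fun h => ?_)
    rw [h] at hle
    exact (maximalIdeal.isMaximal (B ⧸ J)).ne_top (top_le_iff.mp hle)
  have hsurj : Function.Surjective f := by
    apply surjective_of_mk_map_comp_surjective (I := maximalIdeal S) f
    intro y
    obtain ⟨y, rfl⟩ := Ideal.Quotient.mk_surjective y
    obtain ⟨b, rfl⟩ := Ideal.Quotient.mk_surjective y
    obtain ⟨s, hs⟩ := hres b
    refine ⟨s, ?_⟩
    rw [RingHom.comp_apply, Ideal.Quotient.mk_eq_mk_iff_sub_mem, hmap, ← neg_mem_iff, neg_sub]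
    exact Ideal.mem_map_of_mem _ hs
  intro b hb
  obtain ⟨s, hs⟩ := hsurj (Ideal.Quotient.mk J b)
  have h1 : i s - b ∈ J := by
    rw [← Ideal.Quotient.mk_eq_mk_iff_sub_mem]
    exact hs
  have h2 : π (i s - b) = 0 := hJ h1
  have h3 : π (i s) = s := RingHom.congr_fun hπ s
  rw [map_sub, h3, RingHom.mem_ker.mp hb, sub_zero] at h2
  rw [h2, map_zero, zero_sub, neg_mem_iff] at h1
  exact h1

section

variable (k : Type*) [Field k] (d : ℕ)

/-- The diagonal elements. -/
noncomputable def diagList : List (MvPowerSeries (Fin d ⊕ Fin d) k) :=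
  List.ofFn (fun j : Fin d => MvPowerSeries.X (Sum.inl j) - MvPowerSeries.X (Sum.inr j))

theorem ofList_diagList : Ideal.ofList (diagList k d) =
    Ideal.span (Set.range (fun j : Fin d =>
      (MvPowerSeries.X (Sum.inl j) - MvPowerSeries.X (Sum.inr j) :
        MvPowerSeries (Fin d ⊕ Fin d) k))) := by
  rw [Ideal.ofList, diagList]
  congr 1
  ext x
  simp [List.mem_ofFn]

theorem map_maximalIdeal_rename (e : Fin d ↪ Fin d ⊕ Fin d)
    [IsLocalRing (MvPowerSeries (Fin d) k)] :
    (maximalIdeal (MvPowerSeries (Fin d) k)).map (MvPowerSeries.rename (R := k) e).toRingHom =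
      Ideal.span (Set.range (fun j : Fin d => MvPowerSeries.X (e j))) := by
  rw [mvPowerSeries_maximalIdeal, Ideal.map_span, ← Set.range_comp]
  congr 2
  ext1 j
  exact MvPowerSeries.rename_X e j

theorem sub_C_mem (σ : Type*) [Finite σ] [IsLocalRing (MvPowerSeries σ k)]
    (b : MvPowerSeries σ k) :
    b - MvPowerSeries.C (MvPowerSeries.constantCoeff b) ∈ maximalIdeal (MvPowerSeries σ k) := by
  rw [mvPowerSeries_maximalIdeal]
  apply mem_span_X_of_constantCoeff_eq_zero
  simp

theorem maximalIdeal_eq_sup :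
    (maximalIdeal (MvPowerSeries (Fin d ⊕ Fin d) k)) =
      Ideal.span (Set.range (fun j : Fin d => MvPowerSeries.X (Sum.inl j))) ⊔
      Ideal.span (Set.range (fun j : Fin d => MvPowerSeries.X (Sum.inr j))) := by
  rw [mvPowerSeries_maximalIdeal, ← Ideal.span_union]
  congr 1
  ext x
  simp

theorem maximalIdeal_eq_sup' :
    (maximalIdeal (MvPowerSeries (Fin d ⊕ Fin d) k)) =
      Ideal.span (Set.range (fun j : Fin d => MvPowerSeries.X (Sum.inl j))) ⊔
      Ideal.ofList (diagList k d) := by
  rw [maximalIdeal_eq_sup, ofList_diagList]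
  apply le_antisymm
  · refine sup_le le_sup_left ?_
    rw [Ideal.span_le]
    rintro _ ⟨j, rfl⟩
    have h1 : (MvPowerSeries.X (Sum.inl j) : MvPowerSeries (Fin d ⊕ Fin d) k) ∈
        Ideal.span (Set.range (fun j : Fin d =>
          (MvPowerSeries.X (Sum.inl j) : MvPowerSeries (Fin d ⊕ Fin d) k))) :=
      Ideal.subset_span ⟨j, rfl⟩
    have h2 : (MvPowerSeries.X (Sum.inl j) - MvPowerSeries.X (Sum.inr j) :
        MvPowerSeries (Fin d ⊕ Fin d) k) ∈ Ideal.span (Set.range (fun j : Fin d =>
          (MvPowerSeries.X (Sum.inl j) - MvPowerSeries.X (Sum.inr j) :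
          MvPowerSeries (Fin d ⊕ Fin d) k))) :=
      Ideal.subset_span ⟨j, rfl⟩
    have h3 := Ideal.sub_mem _ (Ideal.mem_sup_left h1) (Ideal.mem_sup_right h2)
    rwa [sub_sub_cancel] at h3
  · refine sup_le le_sup_left ?_
    rw [Ideal.span_le]
    rintro _ ⟨j, rfl⟩
    exact Ideal.sub_mem _ (Ideal.mem_sup_left (Ideal.subset_span ⟨j, rfl⟩))
      (Ideal.mem_sup_right (Ideal.subset_span ⟨j, rfl⟩))

theorem isAdicComplete_mvPowerSeries (σ : Type*) [Finite σ] [IsLocalRing (MvPowerSeries σ k)] :
    IsAdicComplete (maximalIdeal (MvPowerSeries σ k)) (MvPowerSeries σ k) := by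
  rw [mvPowerSeries_maximalIdeal]
  infer_instance

theorem isRegular_diagList : IsRegular (MvPowerSeries (Fin d ⊕ Fin d) k) (diagList k d) := by
  have hreg := mvPowerSeries_isRegularLocalRing (Fin d ⊕ Fin d) k
  have h1 := isRegular_of_ofList_eq_maximalIdeal (MvPowerSeries (Fin d ⊕ Fin d) k)
    (diagList k d ++ List.ofFn (fun j : Fin d => MvPowerSeries.X (Sum.inl j))) (by
      rw [Ideal.ofList_append, maximalIdeal_eq_sup', sup_comm]
      congr 1
      rw [Ideal.ofList]
      congr 1
      ext x
      simp [List.mem_ofFn]) (by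
      rw [mvPowerSeries_ringKrullDim]
      simp [diagList])
  have h2 := (isWeaklyRegular_append_iff _ _ _).mp h1.toIsWeaklyRegular
  refine ⟨h2.1, fun htop => ?_⟩
  apply h1.top_ne_smul
  refine le_antisymm (htop.le.trans (Submodule.smul_mono_left ?_)) le_top
  rw [Ideal.ofList_append]
  exact le_sup_left

end

universe u

theorem exists_diagData (k : Type u) [Field k] (d : ℕ) [IsLocalRing (MvPowerSeries (Fin d) k)] :
    Nonempty (DiagData (MvPowerSeries (Fin d) k) (MvPowerSeries (Fin d ⊕ Fin d) k) d) := by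
  have hS := isAdicComplete_mvPowerSeries k (Fin d)
  have hres : ∀ b : MvPowerSeries (Fin d ⊕ Fin d) k, ∃ s : MvPowerSeries (Fin d) k,
      b - (MvPowerSeries.rename (R := k) Function.Embedding.inl).toRingHom s ∈
        maximalIdeal (MvPowerSeries (Fin d ⊕ Fin d) k) := by
    intro b
    refine ⟨MvPowerSeries.C (MvPowerSeries.constantCoeff b), ?_⟩
    have h1 : (MvPowerSeries.rename (R := k)
        (Function.Embedding.inl : Fin d ↪ Fin d ⊕ Fin d)).toRingHom
        (MvPowerSeries.C (MvPowerSeries.constantCoeff b)) =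
        MvPowerSeries.C (MvPowerSeries.constantCoeff b) := MvPowerSeries.rename_C _ _
    rw [h1]
    exact sub_C_mem k _ b
  refine ⟨{
    i₁ := (MvPowerSeries.rename (R := k) Function.Embedding.inl).toRingHom
    i₂ := (MvPowerSeries.rename (R := k) Function.Embedding.inr).toRingHom
    flat₁ := flat_rename _
    flat₂ := flat_rename _
    μ := (MvPowerSeries.rename (R := k) (Sum.elim id id)).toRingHom
    μ_i₁ := ?_
    μ_i₂ := ?_
    ρ := (MvPowerSeries.killCompl (R := k) Function.Embedding.inl).toRingHom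
    ρ_i₁ := ?_
    ker_ρ := ?_
    δ := diagList k d
    length_δ := by simp [diagList]
    ker_μ := ?_
    regular_δ := isRegular_diagList k d }⟩
  · ext1 p
    change MvPowerSeries.rename (Sum.elim id id) (MvPowerSeries.rename
      (Function.Embedding.inl : Fin d ↪ Fin d ⊕ Fin d) p) = p
    rw [MvPowerSeries.rename_rename]
    exact MvPowerSeries.rename_id_apply p
  · ext1 p
    change MvPowerSeries.rename (Sum.elim id id) (MvPowerSeries.rename
      (Function.Embedding.inr : Fin d ↪ Fin d ⊕ Fin d) p) = p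
    rw [MvPowerSeries.rename_rename]
    exact MvPowerSeries.rename_id_apply p
  · ext1 p
    exact MvPowerSeries.killCompl_rename_app p
  · apply ker_le_of_retraction
      (i := (MvPowerSeries.rename (R := k) Function.Embedding.inl).toRingHom)
      (hres := hres)
    · ext1 p
      exact MvPowerSeries.killCompl_rename_app p
    · rw [map_maximalIdeal_rename, Ideal.span_le]
      rintro _ ⟨j, rfl⟩
      exact MvPowerSeries.killCompl_X_eq_zero (by simp)
    · rw [map_maximalIdeal_rename, map_maximalIdeal_rename, maximalIdeal_eq_sup]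
      rfl
  · apply ker_le_of_retraction
      (i := (MvPowerSeries.rename (R := k) Function.Embedding.inl).toRingHom)
      (hres := hres)
    · ext1 p
      change MvPowerSeries.rename (Sum.elim id id) (MvPowerSeries.rename
        (Function.Embedding.inl : Fin d ↪ Fin d ⊕ Fin d) p) = p
      rw [MvPowerSeries.rename_rename]
      exact MvPowerSeries.rename_id_apply p
    · rw [ofList_diagList, Ideal.span_le]
      rintro _ ⟨j, rfl⟩
      change MvPowerSeries.rename (Sum.elim id id) _ = 0
      rw [map_sub, MvPowerSeries.rename_X, MvPowerSeries.rename_X]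
      simp
    · rw [map_maximalIdeal_rename, maximalIdeal_eq_sup']
      rfl

end Vale.Agent.P177
end

section

/-!
The kernel of a surjection from a regular local ring onto a flat extension of a hypersurface
of the same embedding codimension is principal.
-/

namespace Vale.Agent.P177

open IsLocalRing RingTheory.Sequence Pointwise TensorProduct

universe u

lemma maximalIdeal_ne_sq (R : Type u) [CommRing R] [IsRegularLocalRing R] {n : ℕ}
    (hn : ringKrullDim R = (n + 1 : ℕ)) : ¬ maximalIdeal R ≤ maximalIdeal R ^ 2 := by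
  intro hle
  have hbot : maximalIdeal R = ⊥ := by
    apply Submodule.eq_bot_of_le_smul_of_le_jacobson_bot (maximalIdeal R) _
      ((maximalIdeal R).fg_of_isNoetherianRing)
    · rw [smul_eq_mul, ← pow_two]; exact hle
    · rw [IsLocalRing.jacobson_eq_maximalIdeal _ bot_ne_top]
  have h1 := exists_nat_ringKrullDim R
  rw [hbot, Submodule.spanFinrank_bot, hn] at h1
  norm_cast at h1

lemma isPrime_span_singleton (R : Type u) [CommRing R] [IsRegularLocalRing R] {y : R}
    (hy : y ∈ maximalIdeal R) (hy2 : y ∉ maximalIdeal R ^ 2) : (Ideal.span {y}).IsPrime := by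
  have := (regular_quotient R y hy hy2).1
  have := regular_isDomain (R ⧸ Ideal.span {y})
  exact (Ideal.Quotient.isDomain_iff_prime _).mp this

theorem exists_prime_not_dvd (R : Type u) [CommRing R] [IsRegularLocalRing R] (a : R) (ha : a ≠ 0)
    (hd : 2 ≤ ringKrullDim R) :
    ∃ y ∈ maximalIdeal R, y ∉ maximalIdeal R ^ 2 ∧ a ∉ Ideal.span {y} := by
  classical
  have : IsDomain R := regular_isDomain R
  by_contra hcon
  push Not at hcon
  have hfin := Ideal.finite_minimalPrimes_of_isNoetherianRing R (Ideal.span {a})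
  have hsub : (maximalIdeal R : Set R) ⊆
      ⋃ i ∈ (↑(insert (maximalIdeal R ^ 2) hfin.toFinset) : Set (Ideal R)),
        ((id i : Ideal R) : Set R) := by
    intro z hz
    by_cases hz2 : z ∈ maximalIdeal R ^ 2
    · exact Set.mem_biUnion (Finset.mem_coe.mpr (Finset.mem_insert_self _ _)) hz2
    · have hza := hcon z hz hz2
      have hzp := isPrime_span_singleton R hz hz2
      obtain ⟨P, hP, hPle⟩ := Ideal.exists_minimalPrimes_le (I := Ideal.span {a})
        (J := Ideal.span {z}) (by rwa [Ideal.span_singleton_le_iff_mem])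
      have hPp : P.IsPrime := hP.1.1
      have haP : a ∈ P := hP.1.2 (Ideal.mem_span_singleton_self a)
      have hzP : z ∈ P := by
        by_contra hzP
        have hPbot : P = ⊥ := by
          apply Submodule.eq_bot_of_le_smul_of_le_jacobson_bot (maximalIdeal R) P
            P.fg_of_isNoetherianRing
          · intro c hc
            obtain ⟨b, rfl⟩ := Ideal.mem_span_singleton'.mp (hPle hc)
            have hb : b ∈ P := (hPp.mem_or_mem hc).resolve_right hzP
            rw [mul_comm]
            exact Submodule.smul_mem_smul hz hb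
          · rw [IsLocalRing.jacobson_eq_maximalIdeal _ bot_ne_top]
        rw [hPbot] at haP
        exact ha haP
      exact Set.mem_biUnion (Finset.mem_coe.mpr (Finset.mem_insert_of_mem
        (hfin.mem_toFinset.mpr hP))) hzP
  obtain ⟨n, hn⟩ := exists_nat_eq_ringKrullDim R
  rw [Ideal.subset_union_prime (f := id) (maximalIdeal R ^ 2) (maximalIdeal R ^ 2)] at hsub
  · obtain ⟨P, hP, hle⟩ := hsub
    rcases Finset.mem_insert.mp hP with rfl | hP
    · obtain ⟨m, rfl⟩ : ∃ m, n = m + 1 := by
        rw [hn] at hd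
        norm_cast at hd
        exact ⟨n - 1, by omega⟩
      exact maximalIdeal_ne_sq R hn hle
    · have hPmin := hfin.mem_toFinset.mp hP
      have hPp : P.IsPrime := hPmin.1.1
      have hPeq : P = maximalIdeal R := le_antisymm (le_maximalIdeal hPp.ne_top) hle
      have h1 : P.height ≤ 1 := by
        have : (Ideal.span {a}).IsPrincipal := ⟨a, rfl⟩
        exact Ideal.height_le_one_of_isPrincipal_of_mem_minimalPrimes _ _ hPmin
      have h2 := maximalIdeal_height_eq_ringKrullDim (R := R)
      rw [← hPeq] at h2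
      rw [← h2] at hd
      have h3 : (2 : WithBot ℕ∞) ≤ ((1 : ℕ∞) : WithBot ℕ∞) := hd.trans (by exact_mod_cast h1)
      norm_cast at h3
  · intro P hP h1 _
    rcases Finset.mem_insert.mp hP with rfl | hP
    · exact absurd rfl h1
    · exact (hfin.mem_toFinset.mp hP).1.1

lemma isPrincipalIdealRing_of_dim_one (S : Type u) [CommRing S] [IsRegularLocalRing S]
    (hS : ringKrullDim S = 1) : IsPrincipalIdealRing S := by
  have : IsDomain S := regular_isDomain S
  have h1 := exists_nat_ringKrullDim S
  rw [hS] at h1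
  have h2 : (maximalIdeal S).spanFinrank = 1 := by
    exact_mod_cast h1.symm
  have h3 : (maximalIdeal S).IsPrincipal := ((Submodule.spanFinrank_eq_one_iff _).mp h2).1
  exact ((tfae_of_isNoetherianRing_of_isLocalRing_of_isDomain S).out 4 0).mp h3

lemma exists_pow_le_span (R : Type u) [CommRing R] [IsRegularLocalRing R]
    (hR : ringKrullDim R = 1) (a : R) (ha : a ≠ 0) :
    ∃ N : ℕ, maximalIdeal R ^ N ≤ Ideal.span {a} := by
  have : IsDomain R := regular_isDomain R
  have := isPrincipalIdealRing_of_dim_one R hR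
  by_cases hu : IsUnit a
  · exact ⟨0, by simp [Ideal.span_singleton_eq_top.mpr hu]⟩
  have h := ((tfae_of_isNoetherianRing_of_isLocalRing_of_isDomain R).out 0 6).mp
    ‹IsPrincipalIdealRing R›
  obtain ⟨N, hN⟩ := h (Ideal.span {a}) (by simpa using ha)
  exact ⟨N, hN.ge⟩

lemma flat_quotient_map (A C : Type u) [CommRing A] [CommRing C] [Algebra A C] [Module.Flat A C]
    (I : Ideal A) : Module.Flat (A ⧸ I) (C ⧸ I.map (algebraMap A C)) := by
  let e₁ : (C ⧸ I.map (algebraMap A C)) ≃ₗ[A] (A ⧸ I) ⊗[A] C :=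
    ((Algebra.TensorProduct.quotIdealMapEquivTensorQuot C I).toLinearEquiv.restrictScalars A).trans
      (TensorProduct.comm A C (A ⧸ I))
  let e₂ : (C ⧸ I.map (algebraMap A C)) ≃ₗ[A ⧸ I] (A ⧸ I) ⊗[A] C :=
    e₁.extendScalarsOfSurjective Ideal.Quotient.mk_surjective
  exact Module.Flat.of_linearEquiv e₂

theorem ker_principal_aux (n : ℕ) : ∀ {R S C A : Type u} [CommRing R] [IsRegularLocalRing R]
    [CommRing S] [IsRegularLocalRing S] [CommRing A] [CommRing C] [IsLocalRing C]
    [Algebra A C] [Module.Flat A C] (ψ : R →+* A) (_ : Function.Surjective ψ) (a : R)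
    (_ : RingHom.ker ψ = Ideal.span {a}) (_ : a ∈ maximalIdeal R ^ 2) (_ : a ≠ 0)
    (_ : ((maximalIdeal R).map ψ).map (algebraMap A C) = maximalIdeal C)
    (φ : S →+* C) (_ : Function.Surjective φ)
    (_ : ringKrullDim R = n) (_ : ringKrullDim S = n),
    ∃ g : S, g ≠ 0 ∧ RingHom.ker φ = Ideal.span {g} := by
  induction n with
  | zero =>
    intro R S C A _ _ _ _ _ _ _ _ _ ψ hψ a hker ha ha0 hloc φ hφ hR hS
    exfalso
    have h1 := exists_nat_ringKrullDim R
    rw [hR] at h1
    have h2 : (maximalIdeal R).spanFinrank = 0 := by exact_mod_cast h1.symm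
    rw [Submodule.spanFinrank_eq_zero_iff_eq_bot ((maximalIdeal R).fg_of_isNoetherianRing)] at h2
    rw [h2] at ha
    apply ha0
    simpa [pow_two] using ha
  | succ n ih =>
    intro R S C A _ _ _ _ _ _ _ _ _ ψ hψ a hker ha ha0 hloc φ hφ hR hS
    have hRd : IsDomain R := regular_isDomain R
    have hSd : IsDomain S := regular_isDomain S
    have hloc' : (maximalIdeal R).map ((algebraMap A C).comp ψ) = maximalIdeal C := by
      rw [← hloc, Ideal.map_map]
    have hA : Nontrivial A := by
      by_contra hcon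
      rw [not_nontrivial_iff_subsingleton] at hcon
      have : (1 : C) = 0 := by
        rw [← map_one (algebraMap A C), Subsingleton.elim (1 : A) 0, map_zero]
      exact one_ne_zero this
    have hAl : IsLocalRing A := .of_surjective' ψ hψ
    have hmA : (maximalIdeal R).map ψ = maximalIdeal A :=
      map_maximalIdeal_of_surjective _ hψ
    have hlh : IsLocalHom (algebraMap A C) := by
      apply ((local_hom_TFAE (algebraMap A C)).out 0 2).mpr
      rw [← hmA, hloc]
    have hff : Module.FaithfullyFlat A C := Module.FaithfullyFlat.of_flat_of_isLocalHom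
    rcases n with _ | n
    · -- dimension one
      have hSp := isPrincipalIdealRing_of_dim_one S (by simpa using hS)
      obtain ⟨N, hN⟩ := exists_pow_le_span R (by simpa using hR) a ha0
      obtain ⟨g, hg⟩ := (IsPrincipalIdealRing.principal (RingHom.ker φ)).principal
      refine ⟨g, ?_, hg⟩
      rintro rfl
      have hinj : Function.Injective φ := by
        rw [RingHom.injective_iff_ker_eq_bot, hg]
        simp
      have hnil : maximalIdeal C ^ N = ⊥ := by
        rw [← hloc', ← Ideal.map_pow, eq_bot_iff]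
        refine (Ideal.map_mono hN).trans ?_
        rw [Ideal.map_span, Set.image_singleton, Ideal.span_singleton_le_iff_mem, Ideal.mem_bot,
          RingHom.comp_apply]
        have : ψ a = 0 := by
          rw [← RingHom.mem_ker, hker]; exact Ideal.mem_span_singleton_self a
        rw [this, map_zero]
      have hbot : maximalIdeal S = ⊥ := by
        rw [eq_bot_iff]
        intro s hs
        have h1 : φ s ∈ maximalIdeal C := by
          rw [← map_maximalIdeal_of_surjective φ hφ]
          exact Ideal.mem_map_of_mem _ hs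
        have h2 : φ (s ^ N) = 0 := by
          have := Ideal.pow_mem_pow h1 N
          rw [hnil] at this
          rw [map_pow]; exact this
        have h3 : s ^ N = 0 := hinj (by rw [h2, map_zero])
        exact eq_zero_of_pow_eq_zero h3
      have h4 := exists_nat_ringKrullDim S
      rw [hbot, Submodule.spanFinrank_bot, hS] at h4
      norm_cast at h4
    · -- dimension at least two
      obtain ⟨y, hy, hy2, hay⟩ := exists_prime_not_dvd R a ha0 (by
        rw [hR]; exact_mod_cast (by omega : 2 ≤ n + 1 + 1))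
      obtain ⟨Y, hY⟩ := hφ (algebraMap A C (ψ y))
      have hyC : algebraMap A C (ψ y) ∈ maximalIdeal C := by
        rw [← hloc]
        exact Ideal.mem_map_of_mem _ (Ideal.mem_map_of_mem _ hy)
      have hYm : Y ∈ maximalIdeal S := by
        rw [mem_maximalIdeal]
        intro hu
        have := hu.map φ
        rw [hY] at this
        exact (mem_maximalIdeal _).mp hyC this
      have hYm2 : Y ∉ maximalIdeal S ^ 2 := by
        intro hcon
        have h1 : algebraMap A C (ψ y) ∈ maximalIdeal C ^ 2 := by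
          rw [← hY, ← map_maximalIdeal_of_surjective φ hφ, ← Ideal.map_pow]
          exact Ideal.mem_map_of_mem _ hcon
        have h2 : ψ y ∈ maximalIdeal A ^ 2 := by
          rw [← Ideal.comap_map_eq_self_of_faithfullyFlat (B := C) (maximalIdeal A ^ 2),
            Ideal.mem_comap, Ideal.map_pow, ← hmA, hloc]
          exact h1
        rw [← hmA, ← Ideal.map_pow] at h2
        obtain ⟨y', hy', hyy⟩ := (Ideal.mem_map_iff_of_surjective ψ hψ).mp h2
        have h3 : y - y' ∈ RingHom.ker ψ := by
          rw [RingHom.mem_ker, map_sub, hyy, sub_self]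
        rw [hker] at h3
        have h4 : y - y' ∈ maximalIdeal R ^ 2 :=
          (Ideal.span_singleton_le_iff_mem _).mpr ha h3
        exact hy2 (by simpa using add_mem h4 hy')
      obtain ⟨hregR, hdimR⟩ := regular_quotient R y hy hy2
      obtain ⟨hregS, hdimS⟩ := regular_quotient S Y hYm hYm2
      -- the quotient data
      let I : Ideal A := Ideal.span {ψ y}
      have hImap : I.map (algebraMap A C) = Ideal.span {algebraMap A C (ψ y)} := by
        rw [Ideal.map_span, Set.image_singleton]
      have hflat : Module.Flat (A ⧸ I) (C ⧸ I.map (algebraMap A C)) := flat_quotient_map A C I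
      have hne : I.map (algebraMap A C) ≠ ⊤ := by
        rw [hImap]
        intro h
        rw [Ideal.span_singleton_eq_top] at h
        exact (mem_maximalIdeal _).mp hyC h
      have hnt : Nontrivial (C ⧸ I.map (algebraMap A C)) := Ideal.Quotient.nontrivial_iff.mpr hne
      have hCl : IsLocalRing (C ⧸ I.map (algebraMap A C)) :=
        .of_surjective' (Ideal.Quotient.mk _) Ideal.Quotient.mk_surjective
      let ψ' : R ⧸ Ideal.span {y} →+* A ⧸ I :=
        Ideal.quotientMap I ψ (by
          rw [Ideal.span_singleton_le_iff_mem, Ideal.mem_comap]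
          exact Ideal.mem_span_singleton_self _)
      have hψ' : Function.Surjective ψ' := Ideal.quotientMap_surjective hψ
      let φ' : S ⧸ Ideal.span {Y} →+* C ⧸ I.map (algebraMap A C) :=
        Ideal.quotientMap _ φ (by
          rw [Ideal.span_singleton_le_iff_mem, Ideal.mem_comap, hImap, hY]
          exact Ideal.mem_span_singleton_self _)
      have hφ' : Function.Surjective φ' := Ideal.quotientMap_surjective hφ
      have hker' : RingHom.ker ψ' = Ideal.span {Ideal.Quotient.mk (Ideal.span {y}) a} := by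
        apply le_antisymm
        · intro r hr
          obtain ⟨r, rfl⟩ := Ideal.Quotient.mk_surjective r
          rw [RingHom.mem_ker, Ideal.quotientMap_mk, Ideal.Quotient.eq_zero_iff_mem] at hr
          obtain ⟨c, hc⟩ := Ideal.mem_span_singleton'.mp hr
          obtain ⟨c, rfl⟩ := hψ c
          have h3 : r - c * y ∈ RingHom.ker ψ := by
            rw [RingHom.mem_ker, map_sub, map_mul, hc, sub_self]
          rw [hker] at h3
          obtain ⟨b, hb⟩ := Ideal.mem_span_singleton'.mp h3
          rw [Ideal.mem_span_singleton']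
          refine ⟨Ideal.Quotient.mk _ b, ?_⟩
          rw [← map_mul, hb, Ideal.Quotient.mk_eq_mk_iff_sub_mem]
          have : r - c * y - r = -(c * y) := by ring
          rw [this, neg_mem_iff]
          exact Ideal.mul_mem_left _ _ (Ideal.mem_span_singleton_self _)
        · rw [Ideal.span_singleton_le_iff_mem, RingHom.mem_ker, Ideal.quotientMap_mk]
          have : ψ a = 0 := by
            rw [← RingHom.mem_ker, hker]; exact Ideal.mem_span_singleton_self a
          rw [this, map_zero]
      have hmR : (maximalIdeal R).map (Ideal.Quotient.mk (Ideal.span {y})) =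
          maximalIdeal (R ⧸ Ideal.span {y}) :=
        map_maximalIdeal_of_surjective _ Ideal.Quotient.mk_surjective
      have ha' : Ideal.Quotient.mk (Ideal.span {y}) a ∈ maximalIdeal (R ⧸ Ideal.span {y}) ^ 2 := by
        rw [← hmR, ← Ideal.map_pow]
        exact Ideal.mem_map_of_mem _ ha
      have ha0' : Ideal.Quotient.mk (Ideal.span {y}) a ≠ 0 := by
        rw [Ne, Ideal.Quotient.eq_zero_iff_mem]
        exact hay
      have hloc'' : ((maximalIdeal (R ⧸ Ideal.span {y})).map ψ').map
          (algebraMap (A ⧸ I) (C ⧸ I.map (algebraMap A C))) =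
          maximalIdeal (C ⧸ I.map (algebraMap A C)) := by
        rw [← hmR, ← map_maximalIdeal_of_surjective (Ideal.Quotient.mk (I.map (algebraMap A C)))
          Ideal.Quotient.mk_surjective, ← hloc, Ideal.map_map, Ideal.map_map, Ideal.map_map,
          Ideal.map_map]
        rfl
      have hdR : ringKrullDim (R ⧸ Ideal.span {y}) = (n + 1 : ℕ) := by
        obtain ⟨k, hk⟩ := exists_nat_eq_ringKrullDim (R ⧸ Ideal.span {y})
        rw [hk, hR] at hdimR
        rw [hk]
        norm_cast at hdimR ⊢
        omega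
      have hdS : ringKrullDim (S ⧸ Ideal.span {Y}) = (n + 1 : ℕ) := by
        obtain ⟨k, hk⟩ := exists_nat_eq_ringKrullDim (S ⧸ Ideal.span {Y})
        rw [hk, hS] at hdimS
        rw [hk]
        norm_cast at hdimS ⊢
        omega
      obtain ⟨g', hg'0, hg'⟩ := ih ψ' hψ' _ hker' ha' ha0' hloc'' φ' hφ' hdR hdS
      obtain ⟨G, hG⟩ := Ideal.Quotient.mk_surjective g'
      have hGk : φ' (Ideal.Quotient.mk _ G) = 0 := by
        rw [← RingHom.mem_ker, hg', hG]; exact Ideal.mem_span_singleton_self _
      rw [Ideal.quotientMap_mk, Ideal.Quotient.eq_zero_iff_mem, hImap] at hGk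
      obtain ⟨c, hc⟩ := Ideal.mem_span_singleton'.mp hGk
      obtain ⟨t, rfl⟩ := hφ c
      have hgk : φ (G - t * Y) = 0 := by
        rw [map_sub, map_mul, hY, hc, sub_self]
      have hgm : Ideal.Quotient.mk (Ideal.span {Y}) (G - t * Y) = g' := by
        rw [map_sub, hG, sub_eq_self, Ideal.Quotient.eq_zero_iff_mem]
        exact Ideal.mul_mem_left _ _ (Ideal.mem_span_singleton_self _)
      refine ⟨G - t * Y, ?_, ?_⟩
      · intro h0
        rw [h0, map_zero] at hgm
        exact hg'0 hgm.symm
      · have hreg : ∀ c : C, algebraMap A C (ψ y) * c = 0 → c = 0 := by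
          have hyA : IsSMulRegular A (ψ y) := by
            rw [isSMulRegular_iff_right_eq_zero_of_smul]
            intro r hr
            obtain ⟨r, rfl⟩ := hψ r
            rw [smul_eq_mul, ← map_mul, ← RingHom.mem_ker, hker] at hr
            obtain ⟨s, hs⟩ := Ideal.mem_span_singleton'.mp hr
            have hyp := isPrime_span_singleton R hy hy2
            have h5 : s * a ∈ Ideal.span {y} := by
              rw [hs]; exact Ideal.mul_mem_right _ _ (Ideal.mem_span_singleton_self _)
            obtain ⟨s', hs'⟩ := Ideal.mem_span_singleton'.mp ((hyp.mem_or_mem h5).resolve_right hay)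
            have hy0 : y ≠ 0 := fun h => hy2 (h ▸ zero_mem _)
            have h6 : s' * a = r := by
              apply mul_left_cancel₀ hy0
              rw [← hs, ← hs']; ring
            rw [← RingHom.mem_ker, hker, ← h6]
            exact Ideal.mul_mem_left _ _ (Ideal.mem_span_singleton_self _)
          have hyC' : IsSMulRegular C (algebraMap A C (ψ y)) := hyA.of_flat
          intro c hc'
          exact isSMulRegular_iff_right_eq_zero_of_smul.mp hyC' c hc'
        apply le_antisymm
        · apply Submodule.le_of_le_smul_of_le_jacobson_bot (I := maximalIdeal S)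
            ((RingHom.ker φ).fg_of_isNoetherianRing)
          · rw [IsLocalRing.jacobson_eq_maximalIdeal _ bot_ne_top]
          · intro κ hκ
            have h7 : Ideal.Quotient.mk (Ideal.span {Y}) κ ∈ RingHom.ker φ' := by
              rw [RingHom.mem_ker, Ideal.quotientMap_mk, hκ, map_zero]
            rw [hg', ← hgm] at h7
            obtain ⟨α, hα⟩ := Ideal.mem_span_singleton'.mp h7
            obtain ⟨α, rfl⟩ := Ideal.Quotient.mk_surjective α
            rw [← map_mul, eq_comm, Ideal.Quotient.mk_eq_mk_iff_sub_mem] at hα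
            obtain ⟨β, hβ⟩ := Ideal.mem_span_singleton'.mp hα
            have h8 : κ = α * (G - t * Y) + β * Y := by rw [hβ]; ring
            have h9 : φ β = 0 := by
              apply hreg
              have := congrArg φ h8
              rw [map_add, map_mul, map_mul, hgk, (RingHom.mem_ker).mp hκ, mul_zero, zero_add,
                hY] at this
              rw [mul_comm]; exact this.symm
            rw [h8]
            apply add_mem
            · exact Ideal.mem_sup_left (Ideal.mul_mem_left _ _ (Ideal.mem_span_singleton_self _))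
            · apply Ideal.mem_sup_right
              rw [mul_comm]
              exact Submodule.smul_mem_smul hYm ((RingHom.mem_ker).mpr h9)
        · rw [Ideal.span_singleton_le_iff_mem, RingHom.mem_ker, hgk]

theorem ker_isPrincipal {R S C : Type u} [CommRing R] [IsRegularLocalRing R]
    [CommRing S] [IsRegularLocalRing S] (hdim : ringKrullDim R = ringKrullDim S)
    [CommRing C] [IsLocalRing C] (a : R) (ha : a ∈ maximalIdeal R ^ 2) (ha0 : a ≠ 0)
    [Algebra (R ⧸ Ideal.span {a}) C] [Module.Flat (R ⧸ Ideal.span {a}) C]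
    (hloc : ((maximalIdeal R).map (Ideal.Quotient.mk (Ideal.span {a}))).map
      (algebraMap (R ⧸ Ideal.span {a}) C) = maximalIdeal C)
    (φ : S →+* C) (hφ : Function.Surjective φ) :
    ∃ g : S, g ≠ 0 ∧ RingHom.ker φ = Ideal.span {g} := by
  obtain ⟨n, hn⟩ := exists_nat_eq_ringKrullDim R
  exact ker_principal_aux n (Ideal.Quotient.mk (Ideal.span {a})) Ideal.Quotient.mk_surjective a
    Ideal.mk_ker ha ha0 hloc φ hφ hn (hdim ▸ hn)

end Vale.Agent.P177
end

section

/-!
Tor via free resolutions given by maps between finite free modules.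
-/

namespace Vale.Agent.P177

open CategoryTheory TensorProduct Function

universe u

section act

variable {A : Type*} [CommRing A] {p q r : ℕ} (N : Type*) [AddCommGroup N] [Module A N]

/-- The action of a linear map of finite free modules on powers of a module. -/
def act (δ : (Fin p → A) →ₗ[A] (Fin q → A)) : (Fin p → N) →ₗ[A] (Fin q → N) where
  toFun v := fun k => ∑ j, δ (Pi.single j 1) k • v j
  map_add' v w := by
    funext k
    simp [smul_add, Finset.sum_add_distrib]
  map_smul' c v := by
    funext k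
    simp only [Pi.smul_apply, RingHom.id_apply, Finset.smul_sum]
    exact Finset.sum_congr rfl fun j _ => smul_comm _ _ _

variable {N}

end act

section tensor

variable {R : Type u} [CommRing R] {p q : ℕ} (N : Type u) [AddCommGroup N] [Module R N]

/-- `R^p ⊗ N ≃ N^p`. -/
noncomputable def powEquiv (p : ℕ) : (Fin p → R) ⊗[R] N ≃ₗ[R] (Fin p → N) :=
  TensorProduct.comm R _ _ ≪≫ₗ TensorProduct.piScalarRight R R N (Fin p)

end tensor

/-- A resolution by finite free modules. -/
structure FR (R : Type*) [CommRing R] (M : Type*) [AddCommGroup M] [Module R M] where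
  /-- ranks -/
  b : ℕ → ℕ
  /-- augmentation -/
  ε : (Fin (b 0) → R) →ₗ[R] M
  /-- differentials -/
  δ : ∀ i, (Fin (b (i + 1)) → R) →ₗ[R] (Fin (b i) → R)
  surj : Surjective ε
  exact_zero : Exact (δ 0) ε
  exact_succ : ∀ i, Exact (δ (i + 1)) (δ i)

namespace FR

variable {R : Type u} [CommRing R] {M : Type u} [AddCommGroup M] [Module R M] (X : FR R M)
  (N : Type u) [AddCommGroup N] [Module R N]

/-- The cycles. -/
def Z : ∀ i, Submodule R (Fin (X.b i) → N)
  | 0 => ⊤
  | i + 1 => LinearMap.ker (act N (X.δ i))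

end FR

end Vale.Agent.P177
end

section

/-!
Flat change of rings for Tor: comparison as modules.
-/

namespace Vale.Agent.P177

open CategoryTheory TensorProduct Function IsLocalRing RingTheory.Sequence Pointwise

universe u

variable {S B : Type u} [CommRing S] [CommRing B] [Algebra S B]

theorem tor_bc_common [Module.Flat S B] (n : ℕ) {K X : Type u} [AddCommGroup K] [Module S K]
    [AddCommGroup X] [Module S X] [Module B X] [IsScalarTower S B X]
    {φ : K →ₗ[S] X} (hφ : IsBaseChange B φ)
    (N : Type u) [AddCommGroup N] [Module S N] [Module B N] [IsScalarTower S B N] :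
    ∃ (M : Type u) (_ : AddCommGroup M) (_ : Module S M) (_ : Module B M)
      (_ : IsScalarTower S B M), Nonempty (TorM S n K N ≃ₗ[S] M) ∧
      Nonempty (TorM B n X N ≃ₗ[B] M) := by
  induction n generalizing K X with
  | zero =>
    obtain ⟨e, -⟩ := exists_cancel hφ N
    exact ⟨N ⊗[S] K, inferInstance, inferInstance, inferInstance, inferInstance,
      ⟨torZero K N ≪≫ₗ TensorProduct.comm S K N⟩,
      ⟨torZero X N ≪≫ₗ TensorProduct.comm B X N ≪≫ₗ e⟩⟩
  | succ n ih =>
    obtain ⟨F, K1, _, _, _, _, i, g, hF, hi, hg, h⟩ := exists_cover S K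
    obtain ⟨Y, _, _, _, _, ψ, hψ⟩ := exists_baseChange (R := S) B F
    obtain ⟨X1, _, _, _, _, φ1, hφ1⟩ := exists_baseChange (R := S) B K1
    let j : X1 →ₗ[B] Y := hφ1.lift (ψ ∘ₗ i)
    have hj : ∀ k, j (φ1 k) = ψ (i k) := fun k => hφ1.lift_eq _ k
    let q : Y →ₗ[B] X := hψ.lift (φ ∘ₗ g)
    have hq : ∀ y, q (ψ y) = φ (g y) := fun y => hψ.lift_eq _ y
    have hjinj : Injective j := bc_injective hφ1 hψ i j hj hi
    have hqs : Surjective q := bc_surjective hψ hφ g q hq hg
    have hex : Exact j q := bc_exact hφ1 hψ hφ i j hj g q hq hg h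
    have hYflat : Module.Flat B Y := Module.Flat.isBaseChange S B F Y hψ
    cases n with
    | zero =>
      obtain ⟨e1⟩ := tor_one i g hi hg h N
      obtain ⟨e2⟩ := tor_one j q hjinj hqs hex N
      obtain ⟨θ, hθ, ⟨e⟩⟩ := exists_ker_bc hφ1 hψ i j hj N
      obtain ⟨e3⟩ := ker_comm (N := N) i
      have e4 : LinearMap.ker (i.lTensor N) ≃ₗ[S] LinearMap.ker θ := by
        have : LinearMap.ker (i.lTensor N) = (LinearMap.ker θ).restrictScalars S := by
          ext x
          change i.lTensor N x = 0 ↔ θ x = 0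
          rw [hθ]
        rw [this]
        exact LinearEquiv.refl _ _
      exact ⟨LinearMap.ker θ, inferInstance, inferInstance, inferInstance, inferInstance,
        ⟨e1 ≪≫ₗ e3 ≪≫ₗ e4⟩, ⟨e2 ≪≫ₗ e.symm⟩⟩
    | succ n =>
      obtain ⟨e1⟩ := tor_shift i g hi hg h N n
      obtain ⟨e2⟩ := tor_shift j q hjinj hqs hex N n
      obtain ⟨M, i1, i2, i3, i4, ⟨f1⟩, ⟨f2⟩⟩ := ih hφ1
      exact ⟨M, i1, i2, i3, i4, ⟨e1 ≪≫ₗ f1⟩, ⟨e2 ≪≫ₗ f2⟩⟩

end Vale.Agent.P177
end

section

/-!
Lengths over a base ring in terms of the lengths of the localizations at maximal ideals.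
-/

namespace Vale.Agent.P177

open CategoryTheory TensorProduct Function IsLocalRing RingTheory.Sequence Pointwise

universe u

section simple

variable {B : Type u} [CommRing B]

theorem length_localization_quot_self (m : Ideal B) [hm : m.IsMaximal] :
    Module.length (Localization.AtPrime m) (Localization.AtPrime m ⊗[B] (B ⧸ m)) = 1 := by
  have e := (Algebra.TensorProduct.quotIdealMapEquivTensorQuot (Localization.AtPrime m)
    m).toLinearEquiv
  rw [← e.length_eq, Localization.AtPrime.map_eq_maximalIdeal, Module.length_eq_one_iff]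
  exact isSimpleModule_iff_quot_maximal.mpr ⟨_, inferInstance, ⟨LinearEquiv.refl _ _⟩⟩

theorem subsingleton_localization_quot (m m' : Ideal B) [hm : m.IsMaximal] [hm' : m'.IsMaximal]
    (hne : m ≠ m') : Subsingleton (Localization.AtPrime m ⊗[B] (B ⧸ m')) := by
  have e := (Algebra.TensorProduct.quotIdealMapEquivTensorQuot (Localization.AtPrime m)
    m').toLinearEquiv
  have h1 : m'.map (algebraMap B (Localization.AtPrime m)) = ⊤ := by
    have h2 : ¬ (m' ≤ m) := fun hle => hne (hm'.eq_of_le hm.ne_top hle).symm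
    rw [SetLike.not_le_iff_exists] at h2
    obtain ⟨x, hx, hxm⟩ := h2
    exact Ideal.eq_top_of_isUnit_mem _ (Ideal.mem_map_of_mem _ hx)
      (IsLocalization.map_units (Localization.AtPrime m) (⟨x, hxm⟩ : m.primeCompl))
  have h3 : Subsingleton (Localization.AtPrime m ⧸
      m'.map (algebraMap B (Localization.AtPrime m))) := Ideal.Quotient.subsingleton_iff.2 h1
  exact e.symm.toEquiv.subsingleton

end simple

theorem length_eq_sum {T B : Type u} [CommRing T] [CommRing B] [Algebra T B]
    (S : Finset (MaximalSpectrum B)) (M : Type u) [AddCommGroup M] [Module B M]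
    (hfin : IsFiniteLength B M) : ∀ [Module T M] [IsScalarTower T B M],
    (∀ m : MaximalSpectrum B, m ∉ S → Subsingleton (Localization.AtPrime m.asIdeal ⊗[B] M)) →
    Module.length T M = ∑ m ∈ S, Module.length T (B ⧸ m.asIdeal) *
      Module.length (Localization.AtPrime m.asIdeal) (Localization.AtPrime m.asIdeal ⊗[B] M) := by
  classical
  induction hfin with
  | of_subsingleton =>
    intro _ _ hS
    rename_i M _ _ hM _ _
    rw [Module.length_eq_zero_iff.2 hM, Finset.sum_eq_zero]
    intro m _
    have : Subsingleton (Localization.AtPrime m.asIdeal ⊗[B] M) := inferInstance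
    rw [Module.length_eq_zero_iff.2 this, mul_zero]
  | of_simple_quotient hN ih =>
    rename_i M _ _ N hsimple
    intro _ _ hS
    obtain ⟨m', hm', ⟨e⟩⟩ := isSimpleModule_iff_quot_maximal.1 hsimple
    have hex : Exact N.subtype N.mkQ := by
      intro x
      rw [Submodule.mkQ_apply, Submodule.Quotient.mk_eq_zero]
      simp
    have hsurj : Surjective N.mkQ := Submodule.mkQ_surjective _
    have hlen : Module.length T M = Module.length T N + Module.length T (B ⧸ m') := by
      rw [Module.length_eq_add_of_exact (N.subtype.restrictScalars T) (N.mkQ.restrictScalars T)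
        (Submodule.injective_subtype _) hsurj hex]
      congr 1
      exact (e.restrictScalars T).length_eq
    have hloc : ∀ m : MaximalSpectrum B,
        Injective (N.subtype.baseChange (Localization.AtPrime m.asIdeal)) ∧
        Surjective (N.mkQ.baseChange (Localization.AtPrime m.asIdeal)) ∧
        Exact (N.subtype.baseChange (Localization.AtPrime m.asIdeal))
          (N.mkQ.baseChange (Localization.AtPrime m.asIdeal)) := fun m =>
      baseChange_ses N.subtype N.mkQ (Submodule.injective_subtype _) hsurj hex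
    have hSN : ∀ m : MaximalSpectrum B, m ∉ S →
        Subsingleton (Localization.AtPrime m.asIdeal ⊗[B] N) := fun m hm =>
      haveI := hS m hm
      (hloc m).1.subsingleton
    have eloc : ∀ m : MaximalSpectrum B,
        Module.length (Localization.AtPrime m.asIdeal)
          (Localization.AtPrime m.asIdeal ⊗[B] (M ⧸ N)) = if m = ⟨m', hm'⟩ then 1 else 0 := by
      intro m
      have hmm := m.isMaximal
      rw [(e.baseChange B (Localization.AtPrime m.asIdeal) _ _).length_eq]
      split_ifs with h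
      · subst h
        exact length_localization_quot_self m'
      · have hne : m.asIdeal ≠ m' := fun h' => h (MaximalSpectrum.ext h')
        have := subsingleton_localization_quot m.asIdeal m' hne
        rw [Module.length_eq_zero_iff]
        exact this
    have hmem : (⟨m', hm'⟩ : MaximalSpectrum B) ∈ S := by
      by_contra hcon
      have h1 := hS _ hcon
      have h2 : Subsingleton (Localization.AtPrime m' ⊗[B] (M ⧸ N)) :=
        (hloc ⟨m', hm'⟩).2.1.subsingleton
      have h3 := eloc ⟨m', hm'⟩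
      rw [if_pos rfl, Module.length_eq_zero_iff.2 h2] at h3
      exact zero_ne_one h3
    rw [hlen, ih hSN]
    have hsum : ∀ m ∈ S, Module.length T (B ⧸ m.asIdeal) *
        Module.length (Localization.AtPrime m.asIdeal) (Localization.AtPrime m.asIdeal ⊗[B] M) =
        Module.length T (B ⧸ m.asIdeal) *
        Module.length (Localization.AtPrime m.asIdeal) (Localization.AtPrime m.asIdeal ⊗[B] N) +
        (if m = ⟨m', hm'⟩ then Module.length T (B ⧸ m') else 0) := by
      intro m _
      rw [Module.length_eq_add_of_exact _ _ (hloc m).1 (hloc m).2.1 (hloc m).2.2, eloc m, mul_add]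
      congr 1
      split_ifs with h
      · rw [mul_one, h]
      · rw [mul_zero]
    rw [Finset.sum_congr rfl hsum, Finset.sum_add_distrib, Finset.sum_ite_eq' S, if_pos hmem]

end Vale.Agent.P177
end

section

/-!
Heights of primes in polynomial rings: elimination of variables.
-/

namespace Vale.Agent.P177

section step

variable {Γ : Type*} [CommRing Γ] [IsNoetherianRing Γ]

end step

end Vale.Agent.P177
end

section

/-!
The elements `h_i - ∑_l (A_il - A_li) u_l` and elimination of `d - 1` variables.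
-/

namespace Vale.Agent.P177

open MvPolynomial

variable {Γ : Type*} [CommRing Γ] {d : ℕ}

/-- The elements `h_i - ∑_l (A_il - A_li) u_l`. -/
noncomputable def altElt (h u : Fin d → Γ) (i : Fin d) : MvPolynomial (Fin d × Fin d) Γ :=
  C (h i) - ∑ l, (X (i, l) - X (l, i)) * C (u l)

theorem sum_alt_eq_zero {S : Type*} [CommRing S] (A : Fin d × Fin d → S) (u : Fin d → S) :
    ∑ i, u i * ∑ l, (A (i, l) - A (l, i)) * u l = 0 := by
  have h1 : ∑ i, u i * ∑ l, (A (i, l) - A (l, i)) * u l =
      ∑ i, ∑ l, A (i, l) * u i * u l - ∑ i, ∑ l, A (l, i) * u i * u l := by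
    rw [← Finset.sum_sub_distrib]
    refine Finset.sum_congr rfl fun i _ => ?_
    rw [Finset.mul_sum, ← Finset.sum_sub_distrib]
    refine Finset.sum_congr rfl fun l _ => ?_
    ring
  rw [h1, sub_eq_zero]
  rw [Finset.sum_comm]
  refine Finset.sum_congr rfl fun i _ => Finset.sum_congr rfl fun l _ => ?_
  ring

end Vale.Agent.P177
end

section

/-!
Quotients of the localization of a polynomial ring over a local ring at the origin.
-/

namespace Vale.Agent.P177

open TensorProduct IsLocalRing MvPolynomial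

universe u

end Vale.Agent.P177
end

section

/-!
P202 MIX, task M12, part B: length estimates, towers, a universal property (helper677).
-/

namespace Vale.Agent.P202.Mix.UL

open TensorProduct IsLocalRing
open scoped ENNReal

universe u v w

section len

variable {S : Type u} [CommRing S] [IsLocalRing S] {N : Type v} [AddCommGroup N] [Module S N]

end len

section tower

variable {S : Type u} [CommRing S] [IsLocalRing S] {R : Type v} [CommRing R] [Algebra S R]
  {I : Type*} [Preorder I] [IsDirectedOrder I] (T : Tower S R I)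
  {N : Type w} [AddCommGroup N] [Module S N] [Module R N] [IsScalarTower S R N]

end tower

section univ

end univ

end Vale.Agent.P202.Mix.UL
end

section

/-!
P177: long exact sequence of the Koszul homology `(KC M xs).H` in the module `M`, and
`H_i(x :: xs; M) = H_i(xs; M / x M)` if `x` is `M`-regular.
-/

namespace Vale.Agent.P177.KG

universe u

namespace Cx

variable {R : Type u} [CommRing R]

/-- morphisms of complexes. -/
structure Hom (A B : Cx R) where
  f : ∀ i, A.X i →ₗ[R] B.X i
  comm : ∀ i x, f i (A.d i x) = B.d i (f (i + 1) x)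

variable {A B D : Cx R}

theorem Hom.map_Z (f : Hom A B) : ∀ (i : ℕ) (x : A.X i), x ∈ A.Z i → f.f i x ∈ B.Z i
  | 0, _, _ => mem_Z_zero _ _
  | i + 1, x, hx => by
    rw [mem_Z_succ] at hx ⊢
    rw [← f.comm, hx, map_zero]

theorem Hom.map_B (f : Hom A B) (i : ℕ) (x : A.X i) (hx : x ∈ A.B i) : f.f i x ∈ B.B i := by
  obtain ⟨y, rfl⟩ := hx
  exact ⟨f.f (i + 1) y, (f.comm i y).symm⟩

/-- the map on homology. -/
def Hom.H (f : Hom A B) (i : ℕ) : A.H i →ₗ[R] B.H i := mapH (f.f i) (f.map_Z i) (f.map_B i)

theorem Hom.H_cl (f : Hom A B) (i : ℕ) (x : A.X i) (hx : x ∈ A.Z i) :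
    f.H i (A.cl i ⟨x, hx⟩) = B.cl i ⟨f.f i x, f.map_Z i x hx⟩ := rfl

/-- the cone of a morphism. -/
def Hom.cone (f : Hom A B) (y : R) : Hom (A.cone y) (B.cone y) where
  f
    | 0 => (f.f 0 : A.X 0 →ₗ[R] B.X 0)
    | i + 1 => (LinearMap.prodMap (f.f (i + 1)) (f.f i) :
        (A.X (i + 1) × A.X i) →ₗ[R] (B.X (i + 1) × B.X i))
  comm i x := by
    cases i with
    | zero =>
      obtain ⟨a, b, rfl⟩ := A.exists_pr y 0 x
      show f.f 0 (A.d 0 a + y • b) = B.d 0 (f.f 1 a) + y • f.f 0 b
      rw [map_add, map_smul, f.comm]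
    | succ i =>
      obtain ⟨a, b, rfl⟩ := A.exists_pr y (i + 1) x
      show ((f.f (i + 1) (A.d (i + 1) a + y • b), f.f i (- A.d i b)) : B.X (i + 1) × B.X i) =
        (B.d (i + 1) (f.f (i + 2) a) + y • f.f (i + 1) b, - B.d i (f.f (i + 1) b))
      rw [map_add, map_smul, f.comm, map_neg, f.comm]

theorem Hom.cone_pr (f : Hom A B) (y : R) (i : ℕ) (a : A.X (i + 1)) (b : A.X i) :
    (f.cone y).f (i + 1) (A.pr y i a b) = B.pr y i (f.f (i + 1) a) (f.f i b) := rfl

/-- short exact sequences of complexes. -/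
structure SES (f : Hom A B) (g : Hom B D) : Prop where
  inj : ∀ i, Function.Injective (f.f i)
  surj : ∀ i, Function.Surjective (g.f i)
  ex : ∀ i, Function.Exact (f.f i) (g.f i)

theorem SES.cone {f : Hom A B} {g : Hom B D} (h : SES f g) (y : R) :
    SES (f.cone y) (g.cone y) where
  inj i := by
    cases i with
    | zero => exact h.inj 0
    | succ i =>
      intro x x' hx
      obtain ⟨a, b, rfl⟩ := A.exists_pr y i x
      obtain ⟨a', b', rfl⟩ := A.exists_pr y i x'
      rw [Hom.cone_pr, Hom.cone_pr, pr_inj] at hx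
      rw [pr_inj]
      exact ⟨h.inj _ hx.1, h.inj _ hx.2⟩
  surj i := by
    cases i with
    | zero => exact h.surj 0
    | succ i =>
      intro x
      obtain ⟨a, b, rfl⟩ := D.exists_pr y i x
      obtain ⟨a', rfl⟩ := h.surj _ a
      obtain ⟨b', rfl⟩ := h.surj _ b
      exact ⟨B.pr y i a' b', rfl⟩
  ex i := by
    cases i with
    | zero => exact h.ex 0
    | succ i =>
      intro x
      obtain ⟨a, b, rfl⟩ := B.exists_pr y i x
      rw [Hom.cone_pr, pr_eq_zero]
      constructor
      · rintro ⟨ha, hb⟩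
        obtain ⟨a', rfl⟩ := (h.ex _ _).1 ha
        obtain ⟨b', rfl⟩ := (h.ex _ _).1 hb
        exact ⟨A.pr y i a' b', rfl⟩
      · rintro ⟨x', hx'⟩
        obtain ⟨a', b', rfl⟩ := A.exists_pr y i x'
        rw [Hom.cone_pr, pr_inj] at hx'
        obtain ⟨rfl, rfl⟩ := hx'
        exact ⟨(h.ex _ _).2 ⟨a', rfl⟩, (h.ex _ _).2 ⟨b', rfl⟩⟩

section LES

variable {f : Hom A B} {g : Hom B D} (h : SES f g)
include h

/-- exactness at `H_i(B)`. -/
theorem SES.exact₂ (i : ℕ) : Function.Exact (f.H i) (g.H i) := by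
  intro z
  constructor
  · obtain ⟨b, hb, rfl⟩ := B.cl_surj i z
    intro hz
    rw [Hom.H_cl, cl_eq_zero] at hz
    obtain ⟨c, hc⟩ := hz
    obtain ⟨b', rfl⟩ := h.surj (i + 1) c
    have h1 : g.f i (b - B.d i b') = 0 := by rw [map_sub, g.comm, hc, sub_self]
    obtain ⟨a, ha⟩ := (h.ex i _).1 h1
    have haZ : a ∈ A.Z i := by
      cases i with
      | zero => exact mem_Z_zero _ _
      | succ i =>
        rw [mem_Z_succ] at hb ⊢
        apply h.inj i
        rw [f.comm, ha, map_sub, hb, B.dd, sub_zero, map_zero]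
    refine ⟨A.cl i ⟨a, haZ⟩, ?_⟩
    rw [Hom.H_cl, cl_eq_cl, ha]
    exact ⟨-b', by rw [map_neg]; abel⟩
  · rintro ⟨w, rfl⟩
    obtain ⟨a, ha, rfl⟩ := A.cl_surj i w
    rw [Hom.H_cl, Hom.H_cl, cl_eq_zero]
    have h1 : g.f i (f.f i a) = 0 := (h.ex i _).2 ⟨a, rfl⟩
    rw [h1]
    exact Submodule.zero_mem _

theorem SES.surj_zero : Function.Surjective (g.H 0) := by
  intro z
  obtain ⟨c, hc, rfl⟩ := D.cl_surj 0 z
  obtain ⟨b, rfl⟩ := h.surj 0 c
  exact ⟨B.cl 0 ⟨b, mem_Z_zero _ _⟩, rfl⟩

/-- the preimage in `B` of the cycles of `D`. -/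
def PZ (g : Hom B D) (i : ℕ) : Submodule R (B.X (i + 1)) := (D.Z (i + 1)).comap (g.f (i + 1))

theorem SES.exists_lift (i : ℕ) (b : PZ g i) : ∃ a : A.X i, f.f i a = B.d i b.1 := by
  have h1 : g.f i (B.d i b.1) = 0 := by
    rw [g.comm]
    exact b.2
  exact (h.ex i _).1 h1

/-- the connecting map on representatives. -/
noncomputable def SES.pre (i : ℕ) : PZ g i →ₗ[R] A.X i where
  toFun b := (h.exists_lift i b).choose
  map_add' b b' := by
    apply h.inj i
    rw [map_add, (h.exists_lift i (b + b')).choose_spec, (h.exists_lift i b).choose_spec,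
      (h.exists_lift i b').choose_spec, Submodule.coe_add, map_add]
  map_smul' r b := by
    apply h.inj i
    rw [RingHom.id_apply, map_smul, (h.exists_lift i (r • b)).choose_spec,
      (h.exists_lift i b).choose_spec, Submodule.coe_smul, map_smul]

theorem SES.pre_spec (i : ℕ) (b : PZ g i) : f.f i (h.pre i b) = B.d i b.1 :=
  (h.exists_lift i b).choose_spec

theorem SES.pre_mem (i : ℕ) (b : PZ g i) : h.pre i b ∈ A.Z i := by
  cases i with
  | zero => exact mem_Z_zero _ _
  | succ i =>
    rw [mem_Z_succ]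
    apply h.inj i
    rw [f.comm, h.pre_spec, B.dd, map_zero]

/-- the connecting map on `PZ`. -/
noncomputable def SES.preH (i : ℕ) : PZ g i →ₗ[R] A.H i :=
  A.cl i ∘ₗ (h.pre i).codRestrict (A.Z i) (h.pre_mem i)

omit h in
/-- the class in `H_{i+1}(D)`. -/
def gcl (g : Hom B D) (i : ℕ) : PZ g i →ₗ[R] D.H (i + 1) :=
  D.cl (i + 1) ∘ₗ ((g.f (i + 1)) ∘ₗ (PZ g i).subtype).codRestrict (D.Z (i + 1)) (fun b => b.2)

theorem SES.gcl_surjective (i : ℕ) : Function.Surjective (gcl g i) := by
  intro z
  obtain ⟨c, hc, rfl⟩ := D.cl_surj (i + 1) z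
  obtain ⟨b, rfl⟩ := h.surj (i + 1) c
  exact ⟨⟨b, hc⟩, rfl⟩

theorem SES.ker_le (i : ℕ) : LinearMap.ker (gcl g i) ≤ LinearMap.ker (h.preH i) := by
  rintro ⟨b, hb⟩ hx
  have h1 : g.f (i + 1) b ∈ D.B (i + 1) := D.cl_eq_zero.1 hx
  obtain ⟨c, hc⟩ := h1
  obtain ⟨b', rfl⟩ := h.surj (i + 2) c
  have h2 : g.f (i + 1) (b - B.d (i + 1) b') = 0 := by rw [map_sub, g.comm, hc, sub_self]
  obtain ⟨a, ha⟩ := (h.ex (i + 1) _).1 h2
  refine A.cl_eq_zero.2 ⟨a, ?_⟩
  apply h.inj i
  show f.f i (A.d i a) = f.f i (h.pre i ⟨b, hb⟩)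
  rw [h.pre_spec, f.comm, ha, map_sub, B.dd, sub_zero]

/-- the connecting homomorphism. -/
noncomputable def SES.delta (i : ℕ) : D.H (i + 1) →ₗ[R] A.H i :=
  ((LinearMap.ker (gcl g i)).liftQ (h.preH i) (h.ker_le i)) ∘ₗ
    ((gcl g i).quotKerEquivOfSurjective (h.gcl_surjective i)).symm.toLinearMap

theorem SES.delta_gcl (i : ℕ) (b : PZ g i) : h.delta i (gcl g i b) = h.preH i b := by
  have h1 : ((gcl g i).quotKerEquivOfSurjective (h.gcl_surjective i)).symm (gcl g i b) =
      (LinearMap.ker (gcl g i)).mkQ b := by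
    rw [LinearEquiv.symm_apply_eq]
    rfl
  show ((LinearMap.ker (gcl g i)).liftQ (h.preH i) (h.ker_le i)) _ = _
  rw [LinearEquiv.coe_coe, h1]
  rfl

/-- exactness at `H_{i+1}(D)`. -/
theorem SES.exact₃ (i : ℕ) : Function.Exact (g.H (i + 1)) (h.delta i) := by
  intro z
  constructor
  · obtain ⟨b, rfl⟩ := h.gcl_surjective i z
    intro hz
    rw [h.delta_gcl] at hz
    obtain ⟨a, ha⟩ := A.cl_eq_zero.1 hz
    have ha' : f.f i (A.d i a) = f.f i (h.pre i b) := congrArg (f.f i) ha
    rw [h.pre_spec, f.comm] at ha'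
    have h1 : b.1 - f.f (i + 1) a ∈ B.Z (i + 1) := by
      rw [mem_Z_succ, map_sub, ha', sub_self]
    refine ⟨B.cl (i + 1) ⟨_, h1⟩, ?_⟩
    rw [Hom.H_cl]
    refine D.cl_eq_cl.2 ?_
    have h2 : g.f (i + 1) (f.f (i + 1) a) = 0 := (h.ex _ _).2 ⟨a, rfl⟩
    rw [map_sub, h2, sub_zero]
    show g.f (i + 1) b.1 - g.f (i + 1) b.1 ∈ _
    rw [sub_self]
    exact Submodule.zero_mem _
  · rintro ⟨w, rfl⟩
    obtain ⟨b, hb, rfl⟩ := B.cl_surj (i + 1) w
    have hb' : b ∈ PZ g i := g.map_Z (i + 1) b hb
    have e : g.H (i + 1) (B.cl (i + 1) ⟨b, hb⟩) = gcl g i ⟨b, hb'⟩ := rfl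
    rw [e, h.delta_gcl]
    refine A.cl_eq_zero.2 ?_
    show h.pre i ⟨b, hb'⟩ ∈ A.B i
    have h1 : h.pre i ⟨b, hb'⟩ = 0 := by
      apply h.inj i
      rw [h.pre_spec, map_zero]
      exact hb
    rw [h1]
    exact Submodule.zero_mem _

/-- exactness at `H_i(A)`. -/
theorem SES.exact₁ (i : ℕ) : Function.Exact (h.delta i) (f.H i) := by
  intro z
  constructor
  · obtain ⟨a, ha, rfl⟩ := A.cl_surj i z
    intro hz
    rw [Hom.H_cl, cl_eq_zero] at hz
    obtain ⟨b, hb⟩ := hz
    have hb' : b ∈ PZ g i := by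
      show g.f (i + 1) b ∈ D.Z (i + 1)
      rw [mem_Z_succ, ← g.comm, hb]
      exact (h.ex i _).2 ⟨a, rfl⟩
    refine ⟨gcl g i ⟨b, hb'⟩, ?_⟩
    rw [h.delta_gcl]
    refine A.cl_eq_cl.2 ?_
    have h1 : h.pre i ⟨b, hb'⟩ = a := by
      apply h.inj i
      rw [h.pre_spec]
      exact hb
    show h.pre i ⟨b, hb'⟩ - a ∈ _
    rw [h1, sub_self]
    exact Submodule.zero_mem _
  · rintro ⟨w, rfl⟩
    obtain ⟨b, rfl⟩ := h.gcl_surjective i w
    rw [h.delta_gcl]
    have e : h.preH i b = A.cl i ⟨h.pre i b, h.pre_mem i b⟩ := rfl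
    rw [e, Hom.H_cl]
    refine B.cl_eq_zero.2 ?_
    rw [h.pre_spec]
    exact ⟨b.1, rfl⟩

end LES

/-! ### cones of an injective multiplication -/

section ConeQuot

variable {f : Hom A A} {g : Hom A D} (h : SES f g) (x : R) (hf : ∀ i a, f.f i a = x • a)
include h hf

theorem SES.g_smul (i : ℕ) (a : A.X i) : g.f i (x • a) = 0 := by
  rw [← hf]
  exact (h.ex i _).2 ⟨a, rfl⟩

theorem SES.smul_inj (i : ℕ) {a : A.X i} (ha : x • a = 0) : a = 0 := by
  rw [← hf] at ha
  exact h.inj i (by rw [ha, map_zero])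

omit h hf in
/-- `(a, b) ↦ g a`. -/
def qf (g : Hom A D) (x : R) : ∀ i, (A.cone x).X i →ₗ[R] D.X i
  | 0 => (g.f 0 : A.X 0 →ₗ[R] D.X 0)
  | i + 1 => ((g.f (i + 1)) ∘ₗ LinearMap.fst R _ _ : (A.X (i + 1) × A.X i) →ₗ[R] D.X (i + 1))

omit h hf in
theorem qf_p0 (g : Hom A D) (x : R) (a : A.X 0) : qf g x 0 (A.p0 x a) = g.f 0 a := rfl

omit h hf in
theorem qf_pr (g : Hom A D) (x : R) (i : ℕ) (a : A.X (i + 1)) (b : A.X i) :
    qf g x (i + 1) (A.pr x i a b) = g.f (i + 1) a := rfl

/-- the map of complexes `cone x A → D`. -/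
def SES.q : Hom (A.cone x) D where
  f := qf g x
  comm i z := by
    cases i with
    | zero =>
      obtain ⟨a, b, rfl⟩ := A.exists_pr x 0 z
      rw [d_pr_zero, qf_p0, qf_pr, map_add, h.g_smul x hf, add_zero, g.comm]
    | succ i =>
      obtain ⟨a, b, rfl⟩ := A.exists_pr x (i + 1) z
      rw [d_pr_succ, qf_pr, qf_pr, map_add, h.g_smul x hf, add_zero, g.comm]

theorem SES.q_bijective (i : ℕ) : Function.Bijective ((h.q x hf).H i) := by
  constructor
  · rw [injective_iff_map_eq_zero]
    intro z hz
    obtain ⟨w, hw, rfl⟩ := (A.cone x).cl_surj i z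
    rw [Hom.H_cl, cl_eq_zero] at hz
    refine (A.cone x).cl_eq_zero.2 ?_
    cases i with
    | zero =>
      obtain ⟨a, rfl⟩ := A.exists_p0 x w
      obtain ⟨c, hc⟩ := hz
      obtain ⟨a', rfl⟩ := h.surj 1 c
      have h1 : g.f 0 (a - A.d 0 a') = 0 := by
        rw [map_sub, g.comm, hc]
        exact sub_self _
      obtain ⟨b, hb⟩ := (h.ex 0 _).1 h1
      rw [hf] at hb
      exact A.mem_B_cone_zero.2 ⟨a', b, by rw [hb, add_sub_cancel]⟩
    | succ i =>
      obtain ⟨a, b, rfl⟩ := A.exists_pr x i w
      obtain ⟨c, hc⟩ := hz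
      obtain ⟨a', rfl⟩ := h.surj (i + 2) c
      have h1 : g.f (i + 1) (a - A.d (i + 1) a') = 0 := by
        rw [map_sub, g.comm, hc]
        exact sub_self _
      obtain ⟨b', hb'⟩ := (h.ex (i + 1) _).1 h1
      rw [hf] at hb'
      have ha : A.d (i + 1) a' + x • b' = a := by rw [hb', add_sub_cancel]
      refine A.mem_B_cone.2 ⟨a', b', ha, ?_⟩
      obtain ⟨-, h2⟩ := A.mem_Z_cone.1 hw
      rw [← ha, map_add, A.dd, zero_add, map_smul, ← smul_add] at h2
      exact neg_eq_of_add_eq_zero_right (h.smul_inj x hf i h2)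
  · intro z
    obtain ⟨c, hc, rfl⟩ := D.cl_surj i z
    obtain ⟨a, rfl⟩ := h.surj i c
    cases i with
    | zero => exact ⟨(A.cone x).cl 0 ⟨A.p0 x a, mem_Z_zero _ _⟩, rfl⟩
    | succ i =>
      have h1 : g.f i (A.d i a) = 0 := by
        rw [g.comm]
        exact hc
      obtain ⟨b, hb⟩ := (h.ex i _).1 h1
      rw [hf] at hb
      refine ⟨(A.cone x).cl (i + 1) ⟨A.pr x i a (-b), ?_⟩, rfl⟩
      refine A.mem_Z_cone.2 ⟨?_, ?_⟩
      · refine Submodule.neg_mem _ ?_
        cases i with
        | zero => exact mem_Z_zero _ _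
        | succ i =>
          rw [mem_Z_succ]
          refine h.smul_inj x hf i ?_
          rw [← map_smul, hb, A.dd]
      · rw [smul_neg, hb, add_neg_cancel]

end ConeQuot

end Cx

/-! ### Koszul complexes -/

section Kos

variable {R : Type u} [CommRing R] {M N K : Type u} [AddCommGroup M] [Module R M]
  [AddCommGroup N] [Module R N] [AddCommGroup K] [Module R K]

/-- the map `M → N` in degree `0`. -/
def ptMap (f : M →ₗ[R] N) : Cx.Hom (pt R M) (pt R N) where
  f
    | 0 => (f : M →ₗ[R] N)
    | _ + 1 => (LinearMap.id : PUnit.{u + 1} →ₗ[R] PUnit.{u + 1})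
  comm i _ := by
    cases i with
    | zero => exact map_zero f
    | succ i => rfl

/-- functoriality of the Koszul complex. -/
def KCmap (f : M →ₗ[R] N) : ∀ xs : List R, Cx.Hom (KC M xs) (KC N xs)
  | [] => ptMap f
  | x :: xs => (KCmap f xs).cone x

theorem KCses {f : M →ₗ[R] N} {g : N →ₗ[R] K} (hf : Function.Injective f)
    (hg : Function.Surjective g) (hfg : Function.Exact f g) (xs : List R) :
    Cx.SES (KCmap f xs) (KCmap g xs) := by
  induction xs with
  | nil =>
    refine ⟨fun i => ?_, fun i => ?_, fun i => ?_⟩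
    · cases i with
      | zero => exact hf
      | succ i => exact fun _ _ _ => rfl
    · cases i with
      | zero => exact hg
      | succ i => exact fun _ => ⟨PUnit.unit, rfl⟩
    · cases i with
      | zero => exact hfg
      | succ i => exact fun _ => ⟨fun _ => ⟨PUnit.unit, rfl⟩, fun _ => rfl⟩
  | cons x xs ih => exact ih.cone x

theorem KCmap_smul (r : R) (f : M →ₗ[R] M) (hf : ∀ m, f m = r • m) (xs : List R) :
    ∀ (i : ℕ) (a : (KC M xs).X i), (KCmap f xs).f i a = r • a := by
  induction xs with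
  | nil =>
    intro i a
    cases i with
    | zero => exact hf a
    | succ i => rfl
  | cons x xs ih =>
    intro i a
    cases i with
    | zero => exact ih 0 a
    | succ i =>
      obtain ⟨a, b, rfl⟩ := (KC M xs).exists_pr x i a
      have h1 := ih (i + 1) a
      have h2 := ih i b
      have h3 : (KCmap f (x :: xs)).f (i + 1) ((KC M xs).pr x i a b) =
          (KC M xs).pr x i ((KCmap f xs).f (i + 1) a) ((KCmap f xs).f i b) := rfl
      rw [h3, h1, h2]
      rfl

/-- `H_i(x :: xs; M) ≃ H_i(xs; M / x M)` for `x` regular on `M`; here `K = M / x M`. -/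
noncomputable def KC_cons_equiv (x : R) (hx : ∀ m : M, x • m = 0 → m = 0) (g : M →ₗ[R] K)
    (hg : Function.Surjective g) (hk : ∀ m, g m = 0 ↔ ∃ m', x • m' = m) (xs : List R) (i : ℕ) :
    (KC M (x :: xs)).H i ≃ₗ[R] (KC K xs).H i := by
  have hinj : Function.Injective (LinearMap.lsmul R M x) := by
    rw [injective_iff_map_eq_zero]
    exact hx
  have hex : Function.Exact (LinearMap.lsmul R M x) g := by
    intro m
    exact hk m
  have h := KCses hinj hg hex xs
  exact LinearEquiv.ofBijective _ (h.q_bijective x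
    (fun i a => KCmap_smul x (LinearMap.lsmul R M x) (fun m => rfl) xs i a) i)

end Kos

section Len

variable {R : Type u} [CommRing R] (L : ALen R) {M N K : Type u} [AddCommGroup M] [Module R M]
  [AddCommGroup N] [Module R N] [AddCommGroup K] [Module R K] {f : M →ₗ[R] N} {g : N →ₗ[R] K}
  (hf : Function.Injective f) (hg : Function.Surjective g) (hfg : Function.Exact f g)
include hf hg hfg

theorem KC_len_mid (xs : List R) (i : ℕ) :
    L.len ((KC N xs).H i) ≤ L.len ((KC M xs).H i) + L.len ((KC K xs).H i) :=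
  len_le_of_exact L _ _ ((KCses hf hg hfg xs).exact₂ i)

theorem KC_len_right (xs : List R) (i : ℕ) :
    L.len ((KC K xs).H (i + 1)) ≤ L.len ((KC N xs).H (i + 1)) + L.len ((KC M xs).H i) :=
  len_le_of_exact L _ _ ((KCses hf hg hfg xs).exact₃ i)

theorem KC_len_right_zero (xs : List R) :
    L.len ((KC K xs).H 0) ≤ L.len ((KC N xs).H 0) :=
  len_le_of_surj L _ (KCses hf hg hfg xs).surj_zero

theorem KC_len_left (xs : List R) (i : ℕ) :
    L.len ((KC M xs).H i) ≤ L.len ((KC K xs).H (i + 1)) + L.len ((KC N xs).H i) :=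
  len_le_of_exact L _ _ ((KCses hf hg hfg xs).exact₁ i)

end Len

end Vale.Agent.P177.KG
end

section

/-!
P177, NatW: comparison of `WI J / (p - [t], p ^ N)` with `WI J' / (p - [t'], p ^ N)` for a
homomorphism `f : C → C'` of perfect rings, `f J ⊆ J'`, `t' = f t`.
-/

namespace Vale.Agent.P177.NatC

open Vale.Agent.P177.Perf Vale.Agent.P177.PI WittVector

universe u v

variable (p : ℕ) [hp : Fact p.Prime] {C : Type u} [CommRing C] [CharP C p] [PerfectRing C p]
  {C' : Type v} [CommRing C'] [CharP C' p] [PerfectRing C' p] (f : C →+* C')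

theorem map_mem_WI {J : Ideal C} {J' : Ideal C'} (hJ : IsPerf p J) (h : ∀ x ∈ J, f x ∈ J')
    {x : WittVector p C} (hx : x ∈ WI p J) : WittVector.map f x ∈ WI p J' := by
  refine mem_WI_of_coeff p fun k => ?_
  obtain ⟨c, hc, hce⟩ := coeff_of_mem_WI p hJ hx k
  exact ⟨f c, h c hc, by rw [map_coeff, hce, map_pow]⟩

/-- an element of `WI J` is congruent to `[a]` modulo `p WI J`. -/
theorem exists_of_coeff {J : Ideal C} (hJ : IsPerf p J) {x y : WittVector p C} (hx : x ∈ WI p J)
    (hy : y ∈ WI p J) (h : x.coeff 0 = y.coeff 0) :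
    ∃ z ∈ WI p J, x = y + (p : WittVector p C) * z := by
  have h1 : (x - y).coeff 0 = 0 := by
    have h2 : WittVector.constantCoeff (x - y) = 0 := by
      rw [map_sub]
      exact sub_eq_zero.2 h
    exact h2
  obtain ⟨z, hz, he⟩ := exists_p_mul_of_coeff_zero p hJ (sub_mem hx hy) h1
  exact ⟨z, hz, by rw [← he]; ring⟩

omit [CharP C p] [PerfectRing C p] in
/-- (S) almost surjectivity. -/
theorem natW_surj {J : Ideal C} {J' : Ideal C'} (hJ' : IsPerf p J')
    (hf : ∀ x ∈ J, f x ∈ J') (t θ : C)
    (hS : ∀ y ∈ J', ∃ x ∈ J, ∃ z ∈ J', f θ * y = f x + f t * z) (N : ℕ) :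
    ∀ y ∈ WI p J', ∃ x ∈ WI p J, ∃ u ∈ WI p J', ∃ v ∈ WI p J',
      teichmuller p (f θ) ^ N * y = WittVector.map f x +
        ((p : WittVector p C') - teichmuller p (f t)) * u + (p : WittVector p C') ^ N * v := by
  induction N with
  | zero =>
    intro y hy
    exact ⟨0, zero_mem _, 0, zero_mem _, y, hy, by simp⟩
  | succ N ih =>
    intro y hy
    obtain ⟨x0, hx0, z0, hz0, he0⟩ := hS _ (coeff_zero_mem p hJ' hy)
    obtain ⟨y1, hy1, he1⟩ := exists_of_coeff p hJ'
      (Ideal.mul_mem_left _ (teichmuller p (f θ)) hy)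
      (add_mem (te_mem_WI p (hf _ hx0)) (te_mem_WI p (Ideal.mul_mem_left _ (f t) hz0))) (by
        have h1 : (teichmuller p (f x0) + teichmuller p (f t * z0)).coeff 0 =
            (teichmuller p (f x0)).coeff 0 + (teichmuller p (f t * z0)).coeff 0 :=
          map_add (WittVector.constantCoeff (p := p) (R := C')) _ _
        rw [h1, P202.Mix.teichmuller_mul_coeff, pow_zero, pow_one, he0, teichmuller_coeff_zero,
          teichmuller_coeff_zero])
    obtain ⟨x, hx, u, hu, v, hv, he⟩ := ih (y1 + teichmuller p z0) (add_mem hy1 (te_mem_WI p hz0))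
    refine ⟨teichmuller p θ ^ N * teichmuller p x0 + p * x,
      add_mem (Ideal.mul_mem_left _ _ (te_mem_WI p hx0)) (Ideal.mul_mem_left _ _ hx),
      p * u - teichmuller p (f θ) ^ N * teichmuller p z0,
      sub_mem (Ideal.mul_mem_left _ _ hu) (Ideal.mul_mem_left _ _ (te_mem_WI p hz0)), v, hv, ?_⟩
    rw [map_add, map_mul, map_mul, map_pow, map_teichmuller, map_teichmuller, map_natCast]
    rw [map_mul] at he1
    linear_combination teichmuller p (f θ) ^ N * he1 + p * he

/-- (I) almost injectivity. -/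
theorem natW_inj {J : Ideal C} {J' : Ideal C'} (hJ : IsPerf p J) (hJ' : IsPerf p J')
    (hf : ∀ x ∈ J, f x ∈ J') (t θ : C) (ht : f t ∈ nonZeroDivisors C')
    (hI : ∀ x ∈ J, (∃ z ∈ J', f x = f t * z) → ∃ y ∈ J, θ * x = t * y) (N : ℕ) :
    ∀ x ∈ WI p J, (∃ u ∈ WI p J', ∃ v ∈ WI p J', WittVector.map f x =
        ((p : WittVector p C') - teichmuller p (f t)) * u + (p : WittVector p C') ^ N * v) →
      ∃ u ∈ WI p J, ∃ v ∈ WI p J, teichmuller p θ ^ N * x =
        ((p : WittVector p C) - teichmuller p t) * u + (p : WittVector p C) ^ N * v := by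
  induction N with
  | zero =>
    intro x hx _
    exact ⟨0, zero_mem _, x, hx, by simp⟩
  | succ N ih =>
    rintro x hx ⟨u, hu, v, hv, he⟩
    have h0 : f (x.coeff 0) = f t * -(u.coeff 0) := by
      have h1 := congrArg WittVector.constantCoeff he
      rw [map_add, map_mul, map_mul, map_sub, map_pow, map_natCast, CharP.cast_eq_zero, zero_sub,
        zero_pow (Nat.succ_ne_zero N), zero_mul, add_zero] at h1
      have h2 : (WittVector.map f x).coeff 0 = -(teichmuller p (f t)).coeff 0 * u.coeff 0 := h1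
      rw [map_coeff, teichmuller_coeff_zero] at h2
      rw [h2]; ring
    obtain ⟨y0, hy0, he0⟩ := hI _ (coeff_zero_mem p hJ hx)
      ⟨-(u.coeff 0), neg_mem (coeff_zero_mem p hJ' hu), h0⟩
    obtain ⟨x1, hx1, he1⟩ := exists_of_coeff p hJ (Ideal.mul_mem_left _ (teichmuller p θ) hx)
      (te_mem_WI p (Ideal.mul_mem_left _ t hy0)) (by
        rw [P202.Mix.teichmuller_mul_coeff, pow_zero, pow_one, he0, teichmuller_coeff_zero])
    rw [map_mul] at he1
    -- the next element
    have hx2 : teichmuller p y0 + x1 ∈ WI p J := add_mem (te_mem_WI p hy0) hx1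
    have he2 : teichmuller p θ * x = -(((p : WittVector p C) - teichmuller p t) *
        teichmuller p y0) + p * (teichmuller p y0 + x1) := by
      rw [he1]; ring
    have he3 := congrArg (WittVector.map f) he2
    rw [map_mul, map_add, map_neg, map_mul, map_mul, map_sub, map_teichmuller, map_teichmuller,
      map_teichmuller, map_natCast, he] at he3
    set u' : WittVector p C' := teichmuller p (f θ) * u + teichmuller p (f y0) with hu'
    have hu'J : u' ∈ WI p J' := add_mem (Ideal.mul_mem_left _ _ hu) (te_mem_WI p (hf _ hy0))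
    have he4 : ((p : WittVector p C') - teichmuller p (f t)) * u' =
        p * (WittVector.map f (teichmuller p y0 + x1) -
          p ^ N * (teichmuller p (f θ) * v)) := by
      rw [hu']
      linear_combination he3
    have h5 : u'.coeff 0 = 0 := by
      have h1 := congrArg WittVector.constantCoeff he4
      rw [map_mul, map_mul, map_sub, map_natCast, CharP.cast_eq_zero, zero_sub, zero_mul] at h1
      have h2 : -(teichmuller p (f t)).coeff 0 * u'.coeff 0 = 0 := h1
      rw [teichmuller_coeff_zero, neg_mul, neg_eq_zero] at h2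
      exact (mul_left_mem_nonZeroDivisors_eq_zero_iff ht).1 h2
    obtain ⟨u'', hu'', he5⟩ := exists_p_mul_of_coeff_zero p hJ' hu'J h5
    have he6 : WittVector.map f (teichmuller p y0 + x1) =
        ((p : WittVector p C') - teichmuller p (f t)) * u'' + (p : WittVector p C') ^ N *
          (teichmuller p (f θ) * v) := by
      have h6 : (WittVector.map f (teichmuller p y0 + x1) -
        (((p : WittVector p C') - teichmuller p (f t)) * u'' + (p : WittVector p C') ^ N *
          (teichmuller p (f θ) * v))) * (p : WittVector p C') = 0 := by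
        rw [he5] at he4
        linear_combination -he4
      exact sub_eq_zero.1 (WittVector.eq_zero_of_p_mul_eq_zero _ h6)
    obtain ⟨a, ha, b, hb, he7⟩ := ih _ hx2 ⟨u'', hu'', _, Ideal.mul_mem_left _ _ hv, he6⟩
    refine ⟨p * a - teichmuller p θ ^ N * teichmuller p y0,
      sub_mem (Ideal.mul_mem_left _ _ ha) (Ideal.mul_mem_left _ _ (te_mem_WI p hy0)), b, hb, ?_⟩
    linear_combination teichmuller p θ ^ N * he2 + p * he7

end Vale.Agent.P177.NatC
end

section

/-!
# Block GB of P177: comparison of the pieces of the flag with the honest modules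

`f : C → C'` a homomorphism of perfect rings, `J ⊆ C`, `J' ⊆ C'` perfect ideals with `f J ⊆ J'` and
`J / t → J' / t'` an isomorphism up to `η`.  `H = WI J' / E' WI J'`, `E'` the equation of `R`, with
`(E', p ^ N) = (p - [t'], p ^ N)`, a module over `D` through `ρ : D → W(C') / E'`, and `α ∈ D` acts
as `p ^ c * unit`.  Then `WI J / (p - [t], p ^ N) WI J → H / α ^ (m + 1) H`, `N = c (m + 1)`, has
kernel and cokernel killed by `[η] ^ (3 N)`.
-/

namespace Vale.Agent.P177.NatG

open Vale.Agent.P177.PI Vale.Agent.P177.NatC WittVector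

universe u v w

section

variable (p : ℕ) [hp : Fact p.Prime] {C' : Type v} [CommRing C']

/-- the honest module of the ideal `J'` and the equation `E'`. -/
abbrev HM (J' : Ideal C') (E' : WittVector p C') : Type v :=
  (WI p J') ⧸ (Ideal.span {E'} • (⊤ : Submodule (WittVector p C') (WI p J')))

variable {p} {J' : Ideal C'} {E' : WittVector p C'}

theorem hm_mk_eq_zero (x : WI p J') : (Submodule.Quotient.mk x : HM p J' E') = 0 ↔
    ∃ y ∈ WI p J', (x : WittVector p C') = E' * y := by
  rw [Submodule.Quotient.mk_eq_zero, Submodule.ideal_span_singleton_smul,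
    Submodule.mem_smul_pointwise_iff_exists]
  constructor
  · rintro ⟨y, -, rfl⟩
    exact ⟨y, y.2, rfl⟩
  · rintro ⟨y, hy, he⟩
    exact ⟨⟨y, hy⟩, trivial, Subtype.ext he.symm⟩

theorem hm_mk_eq (x y : WI p J') : (Submodule.Quotient.mk x : HM p J' E') = Submodule.Quotient.mk y ↔
    ∃ z ∈ WI p J', (x : WittVector p C') = y + E' * z := by
  rw [← sub_eq_zero, ← Submodule.Quotient.mk_sub, hm_mk_eq_zero]
  constructor
  · rintro ⟨z, hz, he⟩
    refine ⟨z, hz, ?_⟩
    rw [← he]
    push_cast
    ring
  · rintro ⟨z, hz, he⟩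
    refine ⟨z, hz, ?_⟩
    push_cast
    rw [he]
    ring

end

variable (p : ℕ) [hp : Fact p.Prime] {C : Type w} [CommRing C] [CharP C p] [PerfectRing C p]
  {C' : Type v} [CommRing C'] [CharP C' p] [PerfectRing C' p] (f : C →+* C')
  {D : Type u} [CommRing D]

/-- **Block GB.** -/
theorem exists_glue {J : Ideal C} {J' : Ideal C'} (hJ : IsPerf p J) (hJ' : IsPerf p J')
    (hf : ∀ x ∈ J, f x ∈ J') (t η : C) (ht : f t ∈ nonZeroDivisors C')
    (hS : ∀ y ∈ J', ∃ x ∈ J, ∃ z ∈ J', f η * y = f x + f t * z)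
    (hI : ∀ x ∈ J, (∃ z ∈ J', f x = f t * z) → ∃ y ∈ J, η ^ 3 * x = t * y)
    (M1 N1 : Ideal (WittVector p C)) (N : ℕ) (hM1 : ∀ x, x ∈ M1 ↔ x ∈ WI p J)
    (hN1 : ∀ x, x ∈ N1 ↔ ∃ u ∈ WI p J, ∃ v ∈ WI p J,
      x = ((p : WittVector p C) - teichmuller p t) * u + (p : WittVector p C) ^ N * v)
    (E' : WittVector p C')
    (hE1 : ∃ a b : WittVector p C', (p : WittVector p C') - teichmuller p (f t) =
      a * E' + b * (p : WittVector p C') ^ N)
    (hE2 : ∃ a b : WittVector p C', E' =
      a * ((p : WittVector p C') - teichmuller p (f t)) + b * (p : WittVector p C') ^ N)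
    [Module D (HM p J' E')] (ρ : D →+* WittVector p C' ⧸ Ideal.span {E'})
    (hρ : ∀ (d : D) (w : WittVector p C'), ρ d = Ideal.Quotient.mk _ w →
      ∀ h : HM p J' E', d • h = w • h)
    (α : D) (c m : ℕ) (u : WittVector p C') (hu : IsUnit u)
    (hα : ρ α = Ideal.Quotient.mk _ ((p : WittVector p C') ^ c * u)) (hN : c * (m + 1) = N)
    (K : Submodule D (HM p J' E')) (hK : ∀ h, h ∈ K ↔ ∃ h', h = α ^ (m + 1) • h')
    (η' : D) (hη' : ρ η' = Ideal.Quotient.mk _ (teichmuller p (f η))) :
    ∃ π : (M1 ⧸ (Submodule.comap M1.subtype N1)) →+ (HM p J' E' ⧸ K),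
      (∀ y, ∃ x, π x = η' ^ (3 * N) • y) ∧
      (∀ x, π x = 0 → teichmuller p η ^ (3 * N) • x = 0) ∧
      (∀ (d : D) (w : WittVector p C) (z : WittVector p C'),
        ρ d = Ideal.Quotient.mk _ (WittVector.map f w + (p : WittVector p C') ^ N * z) →
        ∀ x, π (w • x) = d • π x) := by
  have hpw : ∀ h : HM p J' E', α ^ (m + 1) • h = ((p : WittVector p C') ^ N * u ^ (m + 1)) • h := by
    intro h
    refine hρ _ _ ?_ h
    rw [map_pow, hα, ← map_pow, mul_pow, ← pow_mul, hN]
  obtain ⟨ui, hui⟩ := hu.exists_right_inv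
  have hui' : u ^ (m + 1) * ui ^ (m + 1) = 1 := by rw [← mul_pow, hui, one_pow]
  have hfm : ∀ x : M1, WittVector.map f (x : WittVector p C) ∈ WI p J' := fun x =>
    map_mem_WI p f hJ hf ((hM1 _).1 x.2)
  -- membership in `K`
  have hKmk : ∀ x : WI p J', (Submodule.Quotient.mk x : HM p J' E') ∈ K ↔
      ∃ a ∈ WI p J', ∃ b ∈ WI p J', (x : WittVector p C') =
        ((p : WittVector p C') - teichmuller p (f t)) * a + (p : WittVector p C') ^ N * b := by
    intro x
    rw [hK]
    constructor
    · rintro ⟨h', hh⟩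
      obtain ⟨z, rfl⟩ := Submodule.Quotient.mk_surjective _ h'
      rw [hpw, ← Submodule.Quotient.mk_smul, hm_mk_eq] at hh
      obtain ⟨y, hy, he⟩ := hh
      obtain ⟨a, b, hab⟩ := hE2
      refine ⟨a * y, Ideal.mul_mem_left _ _ hy, u ^ (m + 1) * z + b * y,
        add_mem (Ideal.mul_mem_left _ _ z.2) (Ideal.mul_mem_left _ _ hy), ?_⟩
      rw [he]
      have h1 : (((p : WittVector p C') ^ N * u ^ (m + 1)) • z : WI p J').1 =
          (p : WittVector p C') ^ N * u ^ (m + 1) * z.1 := rfl
      rw [h1]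
      linear_combination y * hab
    · rintro ⟨y, hy, z, hz, he⟩
      obtain ⟨a, b, hab⟩ := hE1
      refine ⟨Submodule.Quotient.mk ⟨ui ^ (m + 1) * (z + b * y),
        Ideal.mul_mem_left _ _ (add_mem hz (Ideal.mul_mem_left _ _ hy))⟩, ?_⟩
      rw [hpw, ← Submodule.Quotient.mk_smul, hm_mk_eq]
      refine ⟨a * y, Ideal.mul_mem_left _ _ hy, ?_⟩
      have h1 : (((p : WittVector p C') ^ N * u ^ (m + 1)) •
          (⟨ui ^ (m + 1) * (z + b * y), Ideal.mul_mem_left _ _ (add_mem hz
            (Ideal.mul_mem_left _ _ hy))⟩ : WI p J') : WI p J').1 =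
          (p : WittVector p C') ^ N * u ^ (m + 1) * (ui ^ (m + 1) * (z + b * y)) := rfl
      rw [h1, he]
      linear_combination y * hab - (p : WittVector p C') ^ N * (z + b * y) * hui'
  let π0 : M1 →+ (HM p J' E' ⧸ K) :=
    { toFun := fun x => Submodule.Quotient.mk (Submodule.Quotient.mk ⟨WittVector.map f x, hfm x⟩)
      map_zero' := by
        rw [Submodule.Quotient.mk_eq_zero]
        have : (⟨WittVector.map f ((0 : M1) : WittVector p C), hfm 0⟩ : WI p J') = 0 :=
          Subtype.ext (map_zero _)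
        rw [this, Submodule.Quotient.mk_zero]
        exact zero_mem _
      map_add' := fun x y => by
        rw [← Submodule.Quotient.mk_add, ← Submodule.Quotient.mk_add]
        congr 2
        exact Subtype.ext (map_add _ _ _) }
  have hπ0 : ∀ x : M1, π0 x = 0 ↔ ∃ a ∈ WI p J', ∃ b ∈ WI p J',
      WittVector.map f (x : WittVector p C) =
        ((p : WittVector p C') - teichmuller p (f t)) * a + (p : WittVector p C') ^ N * b := by
    intro x
    change Submodule.Quotient.mk _ = _ ↔ _
    rw [Submodule.Quotient.mk_eq_zero, hKmk]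
  let π : (M1 ⧸ (Submodule.comap M1.subtype N1)) →+ (HM p J' E' ⧸ K) :=
    QuotientAddGroup.lift (Submodule.comap M1.subtype N1).toAddSubgroup π0 (by
      intro x hx
      have hx' : (x : WittVector p C) ∈ N1 := hx
      obtain ⟨a, ha, b, hb, he⟩ := (hN1 _).1 hx'
      rw [AddMonoidHom.mem_ker, hπ0]
      refine ⟨WittVector.map f a, map_mem_WI p f hJ hf ha, WittVector.map f b,
        map_mem_WI p f hJ hf hb, ?_⟩
      rw [he, map_add, map_mul, map_mul, map_sub, map_pow, map_natCast, map_teichmuller])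
  have hπ : ∀ x : M1, π (Submodule.Quotient.mk x) = π0 x := fun x => rfl
  refine ⟨π, fun y => ?_, fun x hx => ?_, fun d w z' hdw x => ?_⟩
  · obtain ⟨h, rfl⟩ := Submodule.Quotient.mk_surjective _ y
    obtain ⟨z, rfl⟩ := Submodule.Quotient.mk_surjective _ h
    obtain ⟨x, hx, a, ha, b, hb, he⟩ := natW_surj p f hJ' hf t η hS N
      (teichmuller p (f η) ^ (2 * N) * z) (Ideal.mul_mem_left _ _ z.2)
    refine ⟨Submodule.Quotient.mk ⟨x, (hM1 _).2 hx⟩, ?_⟩
    rw [hπ, ← Submodule.Quotient.mk_smul]
    have h1 : η' ^ (3 * N) • (Submodule.Quotient.mk z : HM p J' E') =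
        teichmuller p (f η) ^ (3 * N) • (Submodule.Quotient.mk z : HM p J' E') :=
      hρ _ _ (by rw [map_pow, hη', map_pow]) _
    change Submodule.Quotient.mk (Submodule.Quotient.mk _) = _
    rw [h1, ← Submodule.Quotient.mk_smul, Submodule.Quotient.eq, ← Submodule.Quotient.mk_sub, hKmk]
    refine ⟨-a, neg_mem ha, -b, neg_mem hb, ?_⟩
    have h2 : ((⟨WittVector.map f x, hfm ⟨x, (hM1 _).2 hx⟩⟩ : WI p J') -
        teichmuller p (f η) ^ (3 * N) • z : WI p J').1 =
        WittVector.map f x - teichmuller p (f η) ^ (3 * N) * z.1 := rfl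
    refine h2.trans ?_
    have h3 : 3 * N = N + 2 * N := by ring
    rw [h3, pow_add]
    linear_combination -he
  · obtain ⟨z, rfl⟩ := Submodule.Quotient.mk_surjective _ x
    rw [hπ, hπ0] at hx
    obtain ⟨a, ha, b, hb, he⟩ := natW_inj p f hJ hJ' hf t (η ^ 3) ht hI N z ((hM1 _).1 z.2) hx
    rw [← Submodule.Quotient.mk_smul, Submodule.Quotient.mk_eq_zero]
    change teichmuller p η ^ (3 * N) * (z : WittVector p C) ∈ N1
    rw [hN1]
    refine ⟨a, ha, b, hb, ?_⟩
    rw [← he, map_pow, ← pow_mul]
  · obtain ⟨z, rfl⟩ := Submodule.Quotient.mk_surjective _ x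
    rw [← Submodule.Quotient.mk_smul, hπ, hπ]
    change Submodule.Quotient.mk (Submodule.Quotient.mk _) =
      d • Submodule.Quotient.mk (Submodule.Quotient.mk _)
    rw [← Submodule.Quotient.mk_smul, hρ d _ hdw, ← Submodule.Quotient.mk_smul, Submodule.Quotient.eq,
      ← Submodule.Quotient.mk_sub, hKmk]
    refine ⟨0, zero_mem _, -(z' * WittVector.map f z), neg_mem (Ideal.mul_mem_left _ _ (hfm z)), ?_⟩
    change WittVector.map f (w * z.1) - (WittVector.map f w + (p : WittVector p C') ^ N * z') *
      WittVector.map f z.1 = _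
    rw [map_mul]
    ring

end Vale.Agent.P177.NatG
end

section

/-!
# P177, block NAT-A of note 9642: the ring `C^nat = C[(t^c/Θ)^(1/p^∞)] ⊆ C[1/Θ]`

`C` perfect of characteristic `p`, `t` a nonzerodivisor, `Θ ∈ C`, `θ = Θ^(1/p^f)`.
(N0) `C^nat` is perfect and `t` is regular on it; (N1) `θ C^nat ⊆ C + t^(c/p^f) C^nat`;
(N2) `θ^3 (C ∩ t^ν C^nat) ⊆ t^ν C` if `ν p^f ≤ c`.
-/

set_option linter.all false

namespace Vale.Agent.P177.CN

open Polynomial Vale.Agent.P177.PI

universe u

section gen

variable (p : ℕ) [hp : Fact p.Prime] {C : Type u} [CommRing C] [CharP C p] [PerfectRing C p]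

theorem isReduced_of_perfect (p : ℕ) [hp : Fact p.Prime] (C : Type u) [CommRing C] [CharP C p]
    [PerfectRing C p] : IsReduced C := by
  refine ⟨fun x hx => ?_⟩
  obtain ⟨n, hn⟩ := hx
  have h1 : x ^ p ^ n = 0 := by
    have h2 : n ≤ p ^ n := (Nat.lt_pow_self hp.out.one_lt).le
    obtain ⟨m, hm⟩ := Nat.exists_eq_add_of_le h2
    rw [hm, pow_add, hn, zero_mul]
  apply pow_pow_inj p n
  rw [h1, zero_pow (pow_ne_zero _ hp.out.ne_zero)]

theorem rt_add_pow (e n : ℕ) (a : C) : rt p (n + e) a ^ p ^ n = rt p e a := by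
  apply pow_pow_inj p e
  rw [rt_pow, ← pow_mul, ← pow_add, rt_pow]

variable {D : Type u} [CommRing D] [CharP D p] [PerfectRing D p] [Algebra C D]

theorem map_rt (e : ℕ) (a : C) : algebraMap C D (rt p e a) = rt p e (algebraMap C D a) := by
  apply pow_pow_inj p e
  rw [rt_pow, ← map_pow, rt_pow]

/-- the `C`-algebra generated by all the roots of `w`. -/
noncomputable def Nt (C : Type u) [CommRing C] [CharP C p] [PerfectRing C p]
    {D : Type u} [CommRing D] [CharP D p] [PerfectRing D p] [Algebra C D] (w : D) :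
    Subalgebra C D :=
  Algebra.adjoin C (Set.range fun e => rt p e w)

theorem rt_mem_Nt (w : D) (e : ℕ) : rt p e w ∈ Nt p C w := Algebra.subset_adjoin ⟨e, rfl⟩

/-- every element is a polynomial in one root of `w`. -/
theorem exists_poly (w : D) (f : ℕ) {x : D} (hx : x ∈ Nt p C w) :
    ∃ n, ∃ P : C[X], x = aeval (rt p (n + f) w) P := by
  have up : ∀ n m : ℕ, ∀ P : C[X], n ≤ m → ∃ Q : C[X],
      aeval (rt p (n + f) w) P = aeval (rt p (m + f) w) Q := by
    intro n m P h
    obtain ⟨k, rfl⟩ := Nat.exists_eq_add_of_le h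
    refine ⟨P.comp (X ^ p ^ k), ?_⟩
    rw [aeval_comp, map_pow, aeval_X]
    have : rt p (n + k + f) w = rt p (k + (n + f)) w := by congr 1; omega
    rw [this, rt_add_pow]
  refine Algebra.adjoin_induction (p := fun x _ => ∃ n, ∃ P : C[X],
    x = aeval (rt p (n + f) w) P) ?_ ?_ ?_ ?_ hx
  · rintro _ ⟨e, rfl⟩
    refine ⟨e, X ^ p ^ f, ?_⟩
    rw [map_pow, aeval_X, add_comm e f, rt_add_pow]
  · intro c
    exact ⟨0, Polynomial.C c, by rw [aeval_C]⟩
  · rintro x y _ _ ⟨n, P, rfl⟩ ⟨m, Q, rfl⟩
    obtain ⟨P', h1⟩ := up n (n + m) P (by omega)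
    obtain ⟨Q', h2⟩ := up m (n + m) Q (by omega)
    exact ⟨n + m, P' + Q', by rw [map_add, h1, h2]⟩
  · rintro x y _ _ ⟨n, P, rfl⟩ ⟨m, Q, rfl⟩
    obtain ⟨P', h1⟩ := up n (n + m) P (by omega)
    obtain ⟨Q', h2⟩ := up m (n + m) Q (by omega)
    exact ⟨n + m, P' * Q', by rw [map_mul, h1, h2]⟩

/-- `C^nat` is closed under roots. -/
theorem exists_root_Nt (w : D) {x : D} (hx : x ∈ Nt p C w) : ∃ y ∈ Nt p C w, y ^ p = x := by
  refine Algebra.adjoin_induction (p := fun x _ => ∃ y ∈ Nt p C w, y ^ p = x) ?_ ?_ ?_ ?_ hx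
  · rintro _ ⟨e, rfl⟩
    exact ⟨rt p (e + 1) w, rt_mem_Nt p w _, rt_succ_pow p e w⟩
  · intro c
    refine ⟨algebraMap C D (rt p 1 c), Subalgebra.algebraMap_mem _ _, ?_⟩
    rw [← map_pow]
    have := rt_pow p 1 c
    rw [pow_one] at this
    rw [this]
  · rintro x y _ _ ⟨a, ha, rfl⟩ ⟨b, hb, rfl⟩
    exact ⟨a + b, add_mem ha hb, add_pow_char _ _ _⟩
  · rintro x y _ _ ⟨a, ha, rfl⟩ ⟨b, hb, rfl⟩
    exact ⟨a * b, mul_mem ha hb, mul_pow _ _ _⟩

end gen

section loc

variable (p : ℕ) [hp : Fact p.Prime] {C : Type u} [CommRing C] [CharP C p] [PerfectRing C p]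

/-- the localization `C[1/Θ]`. -/
abbrev Lz (Θ : C) : Type u := Localization.Away Θ

theorem ker_Lz (Θ a : C) (h : algebraMap C (Lz Θ) a = 0) (f : ℕ) : rt p f Θ * a = 0 := by
  haveI := isReduced_of_perfect p C
  rw [IsLocalization.map_eq_zero_iff (Submonoid.powers Θ)] at h
  obtain ⟨⟨_, n, rfl⟩, hn⟩ := h
  have h1 : (rt p f Θ * a) ^ (p ^ f * n + 1) = 0 := by
    rw [mul_pow, pow_succ (rt p f Θ), pow_mul, rt_pow, pow_succ a]
    have : Θ ^ n * a = 0 := hn
    linear_combination (rt p f Θ * a ^ (p ^ f * n)) * this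
  exact pow_eq_zero_iff (by omega) |>.1 h1

include p in
theorem isReduced_Lz (Θ : C) : IsReduced (Lz Θ) := by
  haveI := isReduced_of_perfect p C
  exact isReduced_localizationPreserves (Submonoid.powers Θ) (Lz Θ) inferInstance

include p in
theorem nontrivial_Lz {Θ : C} (hΘ : Θ ≠ 0) : Nontrivial (Lz Θ) := by
  haveI := isReduced_of_perfect p C
  refine ⟨⟨0, 1, fun h => hΘ ?_⟩⟩
  have h1 : algebraMap C (Lz Θ) 1 = 0 := by rw [map_one]; exact h.symm
  rw [IsLocalization.map_eq_zero_iff (Submonoid.powers Θ)] at h1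
  obtain ⟨⟨_, n, rfl⟩, hn⟩ := h1
  have h2 : Θ ^ n = 0 := by simpa using hn
  exact eq_zero_of_pow_eq_zero h2

theorem charP_Lz {Θ : C} (hΘ : Θ ≠ 0) : CharP (Lz Θ) p := by
  haveI := nontrivial_Lz p hΘ
  rw [CharP.charP_iff_prime_eq_zero hp.out]
  rw [← map_natCast (algebraMap C (Lz Θ)), CharP.cast_eq_zero, map_zero]

theorem perfect_Lz {Θ : C} (hΘ : Θ ≠ 0) :
    haveI := charP_Lz p hΘ
    PerfectRing (Lz Θ) p := by
  haveI := charP_Lz p hΘ
  haveI := isReduced_Lz p Θ
  refine PerfectRing.ofSurjective (Lz Θ) p ?_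
  intro x
  obtain ⟨⟨a, s⟩, h⟩ := IsLocalization.surj (Submonoid.powers Θ) x
  obtain ⟨n, hn⟩ := s.2
  have hu : IsUnit (algebraMap C (Lz Θ) Θ) := IsLocalization.Away.algebraMap_isUnit Θ
  obtain ⟨v, hv⟩ := hu.exists_right_inv
  have h' : x * algebraMap C (Lz Θ) Θ ^ n = algebraMap C (Lz Θ) a := by
    rw [← map_pow]
    rw [← hn] at h
    exact h
  obtain ⟨q, hq⟩ : ∃ q, p = q + 1 := ⟨p - 1, by have := hp.out.pos; omega⟩
  have hr : ∀ b : C, rt p 1 b ^ p = b := fun b => by
    have := rt_pow p 1 b
    rwa [pow_one] at this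
  refine ⟨algebraMap C (Lz Θ) (rt p 1 (a * Θ ^ (q * n))) * v ^ n, ?_⟩
  rw [frobenius_def, mul_pow, ← map_pow, hr, map_mul, ← h', map_pow]
  have h3 : algebraMap C (Lz Θ) Θ ^ n * algebraMap C (Lz Θ) Θ ^ (q * n) * (v ^ n) ^ p = 1 := by
    have h4 : algebraMap C (Lz Θ) Θ ^ n * algebraMap C (Lz Θ) Θ ^ (q * n) =
        (algebraMap C (Lz Θ) Θ ^ n) ^ p := by
      rw [← pow_add, ← pow_mul, hq]
      congr 1
      ring
    rw [h4, ← mul_pow, ← mul_pow, hv, one_pow, one_pow]
  calc x * algebraMap C (Lz Θ) Θ ^ n * algebraMap C (Lz Θ) Θ ^ (q * n) * (v ^ n) ^ p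
      = x * (algebraMap C (Lz Θ) Θ ^ n * algebraMap C (Lz Θ) Θ ^ (q * n) * (v ^ n) ^ p) := by ring
    _ = x := by rw [h3, mul_one]

/-- the ring `C^nat` with its properties (N0), (N1), (N2). -/
structure NatExt (p : ℕ) [hp : Fact p.Prime] (C : Type u) [CommRing C] [CharP C p]
    [PerfectRing C p] (t Θ : C) (c : ℕ) where
  N : Type u
  [commRing : CommRing N]
  [charP : CharP N p]
  [perfect : PerfectRing N p]
  [algebra : Algebra C N]
  w : N
  hw : algebraMap C N Θ * w = algebraMap C N t ^ c
  reg : algebraMap C N t ∈ nonZeroDivisors N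
  regΘ : algebraMap C N Θ ∈ nonZeroDivisors N
  ker : ∀ a : C, algebraMap C N a = 0 → ∀ f, rt p f Θ * a = 0
  n1 : ∀ (f : ℕ) (x : N), ∃ (a : C) (y : N),
    algebraMap C N (rt p f Θ) * x = algebraMap C N a + algebraMap C N (rt p f t) ^ c * y
  n2 : ∀ f ν : ℕ, ν * p ^ f ≤ c → ∀ (x : C) (y : N),
    algebraMap C N x = algebraMap C N t ^ ν * y → ∃ x' : C, rt p f Θ ^ 3 * x = t ^ ν * x'

attribute [instance] NatExt.commRing NatExt.charP NatExt.perfect NatExt.algebra

end loc

section maps

variable {p : ℕ} [hp : Fact p.Prime] {C : Type u} [CommRing C] [CharP C p] [PerfectRing C p]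
  {t Θ : C} {c : ℕ}

end maps

end Vale.Agent.P177.CN
end

section

/-!
# P177, block NAT-A, general form: `C^nat = C[(T/Θ)^(1/p^∞)] ⊆ C[1/Θ]` and perfect ideals

`C` perfect of characteristic `p`, `T, Θ ∈ C`, `Θ ≠ 0`. `NatE p C T Θ` packs the ring; for an ideal
`J` with `SP p J` (closed under `p^m`-th roots of elements of `J^(p^m)`), `J C^nat` has the same
property, `θ J C^nat ⊆ J + T^(1/p^f) J C^nat` and `θ^3 (J ∩ s J C^nat) ⊆ s J` for
`s ∣ T^(1/p^f)`, `θ = Θ^(1/p^f)`.
-/

set_option linter.all false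

namespace Vale.Agent.P177.CN

open Polynomial Vale.Agent.P177.PI

universe u

/-- closed under `p^m`-th roots of elements of `J^(p^m)`. -/
def SP (p : ℕ) [hp : Fact p.Prime] {C : Type u} [CommRing C] [CharP C p] [PerfectRing C p]
    (J : Ideal C) : Prop :=
  ∀ m, ∀ b ∈ J ^ p ^ m, rt p m b ∈ J

/-- the ring `C^nat`. -/
structure NatE (p : ℕ) [hp : Fact p.Prime] (C : Type u) [CommRing C] [CharP C p]
    [PerfectRing C p] (T Θ : C) where
  N : Type u
  [commRing : CommRing N]
  [charP : CharP N p]
  [perfect : PerfectRing N p]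
  [algebra : Algebra C N]
  w : N
  hw : algebraMap C N Θ * w = algebraMap C N T
  reg : ∀ a ∈ nonZeroDivisors C, algebraMap C N a ∈ nonZeroDivisors N
  regΘ : algebraMap C N Θ ∈ nonZeroDivisors N
  ker : ∀ a : C, algebraMap C N a = 0 → ∀ f, rt p f Θ * a = 0
  gen : ∀ (f : ℕ) (x : N), ∃ (n : ℕ) (P : C[X]), x = aeval (rt p (n + f) w) P

attribute [instance] NatE.commRing NatE.charP NatE.perfect NatE.algebra

section ex

variable (p : ℕ) [hp : Fact p.Prime] {C : Type u} [CommRing C] [CharP C p] [PerfectRing C p]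

theorem nonempty_natE (T : C) {Θ : C} (hΘ : Θ ≠ 0) : Nonempty (NatE p C T Θ) := by
  haveI := isReduced_of_perfect p C
  haveI := nontrivial_Lz p hΘ
  haveI := charP_Lz p hΘ
  haveI := perfect_Lz p hΘ
  haveI := isReduced_Lz p Θ
  have hu : IsUnit (algebraMap C (Lz Θ) Θ) := IsLocalization.Away.algebraMap_isUnit Θ
  obtain ⟨v, hv⟩ := hu.exists_right_inv
  set w : Lz Θ := algebraMap C (Lz Θ) T * v with hw
  have hΘw : algebraMap C (Lz Θ) Θ * w = algebraMap C (Lz Θ) T := by
    rw [hw]
    linear_combination algebraMap C (Lz Θ) T * hv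
  have htD : ∀ t ∈ nonZeroDivisors C, algebraMap C (Lz Θ) t ∈ nonZeroDivisors (Lz Θ) :=
    fun t ht => IsLocalization.map_nonZeroDivisors_le (Submonoid.powers Θ) (Lz Θ) ⟨t, ht, rfl⟩
  have hsub : ∀ {a : C}, algebraMap C (Lz Θ) a ∈ nonZeroDivisors (Lz Θ) →
      algebraMap C (Nt p C w) a ∈ nonZeroDivisors (Nt p C w) := by
    intro a ha
    rw [mem_nonZeroDivisors_iff_right] at ha ⊢
    intro x hx
    apply Subtype.ext
    apply ha
    exact congrArg Subtype.val hx
  haveI hc : CharP (Nt p C w) p := by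
    haveI : Nontrivial (Nt p C w) := inferInstance
    rw [CharP.charP_iff_prime_eq_zero hp.out]
    rw [← map_natCast (algebraMap C (Nt p C w)), CharP.cast_eq_zero, map_zero]
  haveI : IsReduced (Nt p C w) :=
    isReduced_of_injective (Nt p C w).val Subtype.val_injective
  haveI hperf : PerfectRing (Nt p C w) p := by
    refine PerfectRing.ofSurjective (Nt p C w) p ?_
    rintro ⟨x, hx⟩
    obtain ⟨y, hy, rfl⟩ := exists_root_Nt p w hx
    exact ⟨⟨y, hy⟩, Subtype.ext rfl⟩
  have hwm : w ∈ Nt p C w := by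
    have := rt_mem_Nt (C := C) p w 0
    have h0 : rt p 0 w = w := by
      have := rt_pow p 0 w
      rwa [pow_zero, pow_one] at this
    rwa [h0] at this
  exact ⟨{
    N := Nt p C w
    w := ⟨w, hwm⟩
    hw := Subtype.ext hΘw
    reg := fun a ha => hsub (htD a ha)
    regΘ := hsub hu.mem_nonZeroDivisors
    ker := fun a ha f => ker_Lz p Θ a (congrArg Subtype.val ha) f
    gen := fun f x => by
      obtain ⟨n, P, h⟩ := exists_poly p w f x.2
      refine ⟨n, P, Subtype.ext ?_⟩
      have h1 : ((rt p (n + f) (⟨w, hwm⟩ : Nt p C w) : Nt p C w) : Lz Θ) = rt p (n + f) w := by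
        apply pow_pow_inj p (n + f)
        rw [rt_pow]
        have h2 := congrArg Subtype.val (rt_pow p (n + f) (⟨w, hwm⟩ : Nt p C w))
        exact h2
      rw [h, ← h1]
      exact (Polynomial.aeval_subalgebra_coe P (Nt p C w) _).symm }⟩

theorem SP.isPerf {J : Ideal C} (hJ : SP p J) : IsPerf p J := by
  intro a ha b hb i hi c hc
  have h1 : a ^ i * b ^ (p - i) ∈ J ^ p ^ 1 := by
    rw [pow_one]
    have h2 : J ^ p = J ^ i * J ^ (p - i) := by rw [← pow_add, Nat.add_sub_of_le hi]
    rw [h2]
    exact Ideal.mul_mem_mul (Ideal.pow_mem_pow ha i) (Ideal.pow_mem_pow hb _)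
  have h3 := hJ 1 _ h1
  have h4 : rt p 1 (a ^ i * b ^ (p - i)) = c := by
    apply pow_pow_inj p 1
    rw [rt_pow, pow_one, hc]
  rwa [h4] at h3

theorem SP_top : SP p (⊤ : Ideal C) := fun _ _ _ => Submodule.mem_top

end ex

section thms

variable {p : ℕ} [hp : Fact p.Prime] {C : Type u} [CommRing C] [CharP C p] [PerfectRing C p]
  {T Θ : C} (E : NatE p C T Θ)

theorem NatE.hrt (e : ℕ) :
    algebraMap C E.N (rt p e Θ) * rt p e E.w = algebraMap C E.N (rt p e T) := by
  rw [map_rt, ← rt_mul, E.hw, map_rt]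

/-- elements of `J C^nat` as polynomials with coefficients in `J`. -/
theorem NatE.genJ (J : Ideal C) (f : ℕ) {x : E.N} (hx : x ∈ J.map (algebraMap C E.N)) :
    ∃ (n : ℕ) (P : C[X]), (∀ i, P.coeff i ∈ J) ∧ x = aeval (rt p (n + f) E.w) P := by
  have up : ∀ n m : ℕ, ∀ P : C[X], n ≤ m → ∃ Q : C[X],
      aeval (rt p (n + f) E.w) P = aeval (rt p (m + f) E.w) Q ∧
        ((∀ i, P.coeff i ∈ J) → ∀ i, Q.coeff i ∈ J) := by
    intro n m P h
    obtain ⟨k, rfl⟩ := Nat.exists_eq_add_of_le h
    refine ⟨expand C (p ^ k) P, ?_, ?_⟩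
    · rw [expand_aeval]
      have : rt p (n + k + f) E.w = rt p (k + (n + f)) E.w := by congr 1; omega
      rw [this, rt_add_pow]
    · intro hP i
      rw [coeff_expand (Nat.pow_pos hp.out.pos)]
      split_ifs
      · exact hP _
      · exact zero_mem _
  refine Submodule.span_induction (p := fun x _ => ∃ (n : ℕ) (P : C[X]),
    (∀ i, P.coeff i ∈ J) ∧ x = aeval (rt p (n + f) E.w) P) ?_ ?_ ?_ ?_ hx
  · rintro _ ⟨a, ha, rfl⟩
    refine ⟨0, Polynomial.C a, fun i => ?_, by rw [aeval_C]⟩
    rw [coeff_C]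
    split_ifs
    · exact ha
    · exact zero_mem _
  · exact ⟨0, 0, fun i => by rw [coeff_zero]; exact zero_mem _, by rw [map_zero]⟩
  · rintro x y _ _ ⟨n, P, hP, rfl⟩ ⟨m, Q, hQ, rfl⟩
    obtain ⟨P', h1, h1'⟩ := up n (n + m) P (by omega)
    obtain ⟨Q', h2, h2'⟩ := up m (n + m) Q (by omega)
    refine ⟨n + m, P' + Q', fun i => ?_, by rw [map_add, h1, h2]⟩
    rw [coeff_add]
    exact add_mem (h1' hP i) (h2' hQ i)
  · rintro r y _ ⟨m, Q, hQ, rfl⟩
    obtain ⟨n, P, rfl⟩ := E.gen f r
    obtain ⟨P', h1, _⟩ := up n (n + m) P (by omega)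
    obtain ⟨Q', h2, h2'⟩ := up m (n + m) Q (by omega)
    refine ⟨n + m, P' * Q', fun i => ?_, by rw [smul_eq_mul, map_mul, h1, h2]⟩
    rw [coeff_mul]
    exact Ideal.sum_mem _ fun x _ => Ideal.mul_mem_left _ _ (h2' hQ _)

/-- **(N1J)** -/
theorem NatE.n1J (J : Ideal C) (f : ℕ) {x : E.N} (hx : x ∈ J.map (algebraMap C E.N)) :
    ∃ a ∈ J, ∃ y ∈ J.map (algebraMap C E.N),
      algebraMap C E.N (rt p f Θ) * x = algebraMap C E.N a + algebraMap C E.N (rt p f T) * y := by
  obtain ⟨n, P, hPJ, rfl⟩ := E.genJ J f hx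
  set v := rt p (n + f) E.w with hv
  have hvK : v ^ p ^ n = rt p f E.w := rt_add_pow p f n E.w
  have hTK : rt p (n + f) Θ ^ p ^ n = rt p f Θ := rt_add_pow p f n Θ
  have hi : ∀ i : ℕ, ∃ a ∈ J, ∃ y ∈ J.map (algebraMap C E.N),
      algebraMap C E.N (rt p f Θ) * (P.coeff i • v ^ i) =
        algebraMap C E.N a + algebraMap C E.N (rt p f T) * y := by
    intro i
    rw [Algebra.smul_def]
    rcases le_or_gt (p ^ n) i with h | h
    · obtain ⟨j, hj⟩ := Nat.exists_eq_add_of_le h
      refine ⟨0, zero_mem _, algebraMap C E.N (P.coeff i) * v ^ j,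
        Ideal.mul_mem_right _ _ (Ideal.mem_map_of_mem _ (hPJ i)), ?_⟩
      rw [map_zero, zero_add, ← E.hrt f, hj, pow_add, hvK]
      ring
    · obtain ⟨j, hj⟩ := Nat.exists_eq_add_of_le h.le
      refine ⟨P.coeff i * (rt p (n + f) Θ ^ j * rt p (n + f) T ^ i),
        Ideal.mul_mem_right _ _ (hPJ i), 0, zero_mem _, ?_⟩
      rw [mul_zero, add_zero, ← hTK, hj, map_mul, map_mul, map_pow, map_pow, map_pow,
        ← E.hrt (n + f), pow_add]
      ring
  choose a haJ y hy h using hi
  refine ⟨∑ i ∈ Finset.range (P.natDegree + 1), a i, Ideal.sum_mem _ fun i _ => haJ i,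
    ∑ i ∈ Finset.range (P.natDegree + 1), y i, Ideal.sum_mem _ fun i _ => hy i, ?_⟩
  rw [aeval_eq_sum_range, Finset.mul_sum, Finset.sum_congr rfl fun i _ => h i,
    Finset.sum_add_distrib, map_sum, Finset.mul_sum]

/-- **(N2J)** -/
theorem NatE.n2J {J : Ideal C} (hJ : SP p J) (f : ℕ) (s : C) (hs : s ∣ rt p f T) {x : C}
    (hx : x ∈ J) {y : E.N} (hy : y ∈ J.map (algebraMap C E.N))
    (hxy : algebraMap C E.N x = algebraMap C E.N s * y) :
    ∃ x' ∈ J, rt p f Θ ^ 3 * x = s * x' := by
  obtain ⟨n, P, hPJ, hP⟩ := E.genJ J f hy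
  set e := n + f with he
  set v := rt p e E.w with hv
  set M := P.natDegree with hM
  set K := p ^ n with hK
  have hvK : v ^ K = rt p f E.w := rt_add_pow p f n E.w
  obtain ⟨τ', hτ'⟩ := hs
  set z : E.N := algebraMap C E.N (rt p f Θ) * y with hz
  -- the modules
  set NN : ℕ → Submodule C E.N := fun m =>
    Submodule.span C {u | ∃ j ≤ M + K, ∃ a ∈ J ^ m, u = algebraMap C E.N a * v ^ j} with hNN
  have hmem : ∀ m j, j ≤ M + K → ∀ a ∈ J ^ m, algebraMap C E.N a * v ^ j ∈ NN m :=
    fun m j hj a ha => Submodule.subset_span ⟨j, hj, a, ha, rfl⟩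
  have hzNN : ∀ m, ∀ s ∈ NN m, z * s ∈ NN (m + 1) := by
    intro m s' hs'
    refine Submodule.span_induction (p := fun s _ => z * s ∈ NN (m + 1)) ?_ ?_ ?_ ?_ hs'
    · rintro _ ⟨j, hj, a, ha, rfl⟩
      rcases le_or_gt K j with h | h
      · obtain ⟨i, rfl⟩ := Nat.exists_eq_add_of_le h
        have h1 : z * (algebraMap C E.N a * v ^ (K + i)) =
            algebraMap C E.N (τ' * (x * a)) * v ^ i := by
          rw [map_mul, map_mul, hxy, pow_add, hvK, hz]
          have h2 := E.hrt f
          rw [hτ', map_mul] at h2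
          linear_combination (y * v ^ i * algebraMap C E.N a) * h2
        rw [h1]
        refine hmem _ _ (by omega) _ (Ideal.mul_mem_left _ _ ?_)
        rw [pow_succ']
        exact Ideal.mul_mem_mul hx ha
      · have h1 : z * (algebraMap C E.N a * v ^ j) = ∑ i ∈ Finset.range (M + 1),
            algebraMap C E.N (rt p f Θ * (P.coeff i * a)) * v ^ (i + j) := by
          rw [hz, hP, aeval_eq_sum_range, Finset.mul_sum, Finset.sum_mul]
          refine Finset.sum_congr rfl fun i _ => ?_
          rw [Algebra.smul_def, map_mul, map_mul, pow_add]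
          ring
        rw [h1]
        refine Submodule.sum_mem _ fun i hi => hmem _ _ ?_ _ (Ideal.mul_mem_left _ _ ?_)
        · rw [Finset.mem_range] at hi
          omega
        · rw [pow_succ']
          exact Ideal.mul_mem_mul (hPJ i) ha
    · rw [mul_zero]; exact zero_mem _
    · intro a b _ _ ha hb
      rw [mul_add]; exact add_mem ha hb
    · intro a b _ hb
      rw [mul_smul_comm]; exact Submodule.smul_mem _ _ hb
  have hzm : ∀ m, z ^ m ∈ NN m := by
    intro m
    induction m with
    | zero =>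
      have := hmem 0 0 (by omega) 1 (by rw [pow_zero, Ideal.one_eq_top]; trivial)
      rw [map_one, one_mul, pow_zero] at this
      rw [pow_zero]
      exact this
    | succ m ih => rw [pow_succ']; exact hzNN _ _ ih
  have hbar : ∀ m, ∀ s ∈ NN m, ∃ b ∈ J ^ m,
      algebraMap C E.N (rt p e Θ) ^ (M + K) * s = algebraMap C E.N b := by
    intro m s' hs'
    refine Submodule.span_induction (p := fun s _ => ∃ b ∈ J ^ m,
      algebraMap C E.N (rt p e Θ) ^ (M + K) * s = algebraMap C E.N b) ?_ ?_ ?_ ?_ hs'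
    · rintro _ ⟨j, hj, a, ha, rfl⟩
      obtain ⟨i, hi⟩ := Nat.exists_eq_add_of_le hj
      refine ⟨rt p e Θ ^ i * rt p e T ^ j * a, Ideal.mul_mem_left _ _ ha, ?_⟩
      rw [hi, map_mul, map_mul, map_pow, map_pow, ← E.hrt e, pow_add]
      ring
    · exact ⟨0, zero_mem _, by rw [mul_zero, map_zero]⟩
    · rintro a b _ _ ⟨a', ha', ha⟩ ⟨b', hb', hb⟩
      exact ⟨a' + b', add_mem ha' hb', by rw [mul_add, ha, hb, map_add]⟩
    · rintro a b _ ⟨b', hb', hb⟩
      exact ⟨a * b', Ideal.mul_mem_left _ _ hb', by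
        rw [mul_smul_comm, hb, Algebra.smul_def, map_mul]⟩
  -- the roots
  obtain ⟨m, hm⟩ : ∃ m, M + K ≤ p ^ m := ⟨M + K, (Nat.lt_pow_self hp.out.one_lt).le⟩
  obtain ⟨b, hbJ, hb⟩ := hbar _ _ (hzm (p ^ m))
  have hroot : algebraMap C E.N (rt p (m + e) Θ ^ (M + K)) * z =
      algebraMap C E.N (rt p m b) := by
    apply pow_pow_inj p m
    rw [← map_pow, rt_pow, ← hb, mul_pow, ← map_pow, ← pow_mul, mul_comm (M + K), pow_mul,
      rt_add_pow, map_pow]
  have hθ : rt p (m + e) Θ ^ p ^ (m + n) = rt p f Θ := by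
    have := rt_add_pow p f (m + n) Θ
    rw [← this, he, add_assoc]
  obtain ⟨i, hi⟩ : ∃ i, p ^ (m + n) = (M + K) + i := by
    refine Nat.exists_eq_add_of_le (hm.trans ?_)
    exact Nat.pow_le_pow_right hp.out.pos (by omega)
  set x' : C := rt p (m + e) Θ ^ i * rt p m b with hx'
  have hx'J : x' ∈ J := Ideal.mul_mem_left _ _ (hJ m b hbJ)
  have h2 : algebraMap C E.N (rt p f Θ) * z = algebraMap C E.N x' := by
    rw [hx', map_mul, ← hroot, ← hθ, hi, pow_add, map_mul]
    ring
  have h3 : algebraMap C E.N (rt p f Θ ^ 2 * x - s * x') = 0 := by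
    rw [map_sub, map_mul (algebraMap C E.N) s, ← h2, map_mul, map_pow, hxy, hz]
    ring
  have h4 := E.ker _ h3 f
  exact ⟨rt p f Θ * x', Ideal.mul_mem_left _ _ hx'J, by linear_combination h4⟩

end thms

end Vale.Agent.P177.CN
end

section

/-!
Thickening of modules: base change to an `S`-algebra `T` followed by restriction of scalars along
a second ring homomorphism `Θ : S → T`.
-/

namespace Vale.Agent.P177.SL

open Vale.Agent.P202.Mix Function TensorProduct
open scoped ENNReal

universe u

section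

variable {S T : Type u} [CommRing S] [CommRing T] [Algebra S T]

/-- `Q ⊗_S N` with the structure of `S`-module through `Θ : S → T` on `Q`. -/
def Th (_ : S →+* T) (Q : Type u) [AddCommGroup Q] [Module S Q] (N : Type u)
    [AddCommGroup N] [Module S N] : Type u := Q ⊗[S] N

variable (Θ : S →+* T) (Q Q' Q'' : Type u) [AddCommGroup Q] [Module S Q] [Module T Q]
  [IsScalarTower S T Q] [AddCommGroup Q'] [Module S Q'] [Module T Q'] [IsScalarTower S T Q']
  [AddCommGroup Q''] [Module S Q''] [Module T Q''] [IsScalarTower S T Q'']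
  (N N' N'' : Type u) [AddCommGroup N] [Module S N] [AddCommGroup N'] [Module S N']
  [AddCommGroup N''] [Module S N'']

noncomputable instance : AddCommGroup (Th Θ Q N) := inferInstanceAs (AddCommGroup (Q ⊗[S] N))

noncomputable instance : Module T (Th Θ Q N) := inferInstanceAs (Module T (Q ⊗[S] N))

noncomputable instance : Module S (Th Θ Q N) := Module.compHom (Th Θ Q N) Θ

/-- the identity, to the tensor product. -/
def toTen : Th Θ Q N → Q ⊗[S] N := id

variable {Q Q' Q'' N N' N''}

theorem th_smul (s : S) (x : Th Θ Q N) : s • x = Θ s • x := rfl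

/-- a `T`-linear map of the tensor products as a map of thickenings. -/
noncomputable def thRes (f : Q ⊗[S] N →ₗ[T] Q' ⊗[S] N') : Th Θ Q N →ₗ[S] Th Θ Q' N' where
  toFun := f
  map_add' := f.map_add
  map_smul' s x := f.map_smul (Θ s) x

variable (Q) in
/-- functoriality in `N`. -/
noncomputable def thMap (f : N →ₗ[S] N') : Th Θ Q N →ₗ[S] Th Θ Q N' :=
  thRes Θ (AlgebraTensorModule.lTensor T Q f)

theorem thMap_apply (f : N →ₗ[S] N') (x : Th Θ Q N) : thMap Θ Q f x = f.lTensor Q x := rfl

theorem thMap_comp (f : N →ₗ[S] N') (g : N' →ₗ[S] N'') (x : Th Θ Q N) :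
    thMap Θ Q (g ∘ₗ f) x = thMap Θ Q g (thMap Θ Q f x) := by
  rw [thMap_apply, thMap_apply, thMap_apply, LinearMap.lTensor_comp]
  rfl

variable (N) in
/-- functoriality in `Q`. -/
noncomputable def thMapQ (f : Q →ₗ[T] Q') : Th Θ Q N →ₗ[S] Th Θ Q' N :=
  thRes Θ (AlgebraTensorModule.rTensor S N f)

theorem th_ses [Module.Flat S Q] (f : N' →ₗ[S] N) (g : N →ₗ[S] N'') (hf : Injective f)
    (hg : Surjective g) (h : Exact f g) :
    Injective (thMap Θ Q f) ∧ Surjective (thMap Θ Q g) ∧ Exact (thMap Θ Q f) (thMap Θ Q g) :=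
  ⟨Module.Flat.lTensor_preserves_injective_linearMap f hf, LinearMap.lTensor_surjective Q hg,
    lTensor_exact Q h hg⟩

theorem th_sesQ [Module.Flat S Q''] (f : Q' →ₗ[T] Q) (g : Q →ₗ[T] Q'') (hf : Injective f)
    (hg : Surjective g) (h : Exact f g) :
    Injective (thMapQ Θ N f) ∧ Surjective (thMapQ Θ N g) ∧
      Exact (thMapQ Θ N f) (thMapQ Θ N g) := by
  let f' : Q' →ₗ[S] Q := f.restrictScalars S
  let g' : Q →ₗ[S] Q'' := g.restrictScalars S
  have hf' : Injective f' := hf
  have hg' : Surjective g' := hg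
  have h' : Exact f' g' := h
  have k1 : Injective (f'.rTensor N) := by
    rw [← LinearMap.lTensor_inj_iff_rTensor_inj]
    exact LinearMap.lTensor_injective_of_exact_of_flat g' hg' f' hf' h' N
  have k2 : Surjective (g'.rTensor N) := LinearMap.rTensor_surjective N hg'
  have k3 : Exact (f'.rTensor N) (g'.rTensor N) := rTensor_exact N h' hg'
  exact ⟨k1, k2, k3⟩

/-- multiplication by an element of `T`. -/
noncomputable def thMul (a : T) : Th Θ Q N →ₗ[S] Th Θ Q N where
  toFun x := a • x
  map_add' := smul_add a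
  map_smul' s x := by
    rw [th_smul, th_smul, smul_smul, smul_smul, mul_comm]
    rfl

theorem thMul_apply (a : T) (x : Th Θ Q N) : thMul Θ a x = a • x := rfl

theorem thMap_smul (s : S) (f : N →ₗ[S] N) (hf : ∀ n, f n = s • n) (x : Th Θ Q N) :
    thMap Θ Q f x = algebraMap S T s • x := by
  rw [thMap_apply]
  change (f.lTensor Q : Q ⊗[S] N →ₗ[S] Q ⊗[S] N) x =
    (algebraMap S T s • (show Q ⊗[S] N from x) : Q ⊗[S] N)
  generalize (show Q ⊗[S] N from x) = y
  induction y using TensorProduct.induction_on with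
  | zero => simp
  | tmul b m =>
    rw [LinearMap.lTensor_tmul, hf, TensorProduct.tmul_smul, TensorProduct.smul_tmul',
      TensorProduct.smul_tmul', algebraMap_smul]
  | add y z hy hz => rw [map_add, smul_add, hy, hz]

end

end Vale.Agent.P177.SL
end

section

/-!
Block CHOICE, general part: finiteness over power series rings with coefficients in a complete
ring, and systems of parameters.
-/

namespace Vale.Agent.P177

open IsLocalRing MvPowerSeries

/-- finite free modules over precomplete rings are precomplete. -/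
theorem ch_isPrecomplete_pi {L : Type*} [CommRing L] (I : Ideal L) [IsPrecomplete I L] (n : ℕ) :
    IsPrecomplete I (Fin n → L) := by
  have key : ∀ (m : ℕ) (v : Fin n → L),
      v ∈ (I ^ m • (⊤ : Submodule L (Fin n → L))) ↔ ∀ i, v i ∈ I ^ m := by
    intro m v
    constructor
    · intro h i
      have h2 : (LinearMap.proj i : (Fin n → L) →ₗ[L] L) v ∈
          Submodule.map (LinearMap.proj i : (Fin n → L) →ₗ[L] L)
            (I ^ m • (⊤ : Submodule L (Fin n → L))) := Submodule.mem_map_of_mem h
      rw [Submodule.map_smul''] at h2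
      have h3 := Submodule.smul_mono (le_refl (I ^ m)) (le_top : Submodule.map (LinearMap.proj i :
        (Fin n → L) →ₗ[L] L) (⊤ : Submodule L (Fin n → L)) ≤ ⊤) h2
      simpa using h3
    · intro h
      have h2 : v = ∑ i, v i • (Pi.single i (1 : L) : Fin n → L) := by
        ext j
        simp [Finset.sum_apply, Pi.single_apply]
      rw [h2]
      exact Submodule.sum_mem _ fun i _ => Submodule.smul_mem_smul (h i) trivial
  refine ⟨fun f hf => ?_⟩
  have h1 : ∀ i, ∃ l : L, ∀ m, f m i ≡ l [SMOD (I ^ m • ⊤ : Submodule L L)] := by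
    intro i
    refine IsPrecomplete.prec ‹_› (f := fun m => f m i) fun {m m'} hm => ?_
    have h2 := hf hm
    rw [SModEq.sub_mem, key] at h2
    rw [SModEq.sub_mem, smul_eq_mul, Ideal.mul_top]
    exact h2 i
  choose l hl using h1
  refine ⟨l, fun m => ?_⟩
  rw [SModEq.sub_mem, key]
  intro i
  have h2 := hl i m
  rw [SModEq.sub_mem, smul_eq_mul, Ideal.mul_top] at h2
  exact h2

/-- approximation by combinations with coefficients in `K`. -/
theorem ch_approx {K S : Type*} [CommRing K] [CommRing S] [IsLocalRing S] [IsNoetherianRing S]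
    (τ : K →+* S) (hK : ∀ z : S, ∃ a : K, z - τ a ∈ maximalIdeal S) (m : ℕ) :
    ∃ (n : ℕ) (g : Fin n → S), ∀ z : S, ∃ c : Fin n → K,
      z - ∑ i, τ (c i) * g i ∈ maximalIdeal S ^ m := by
  induction m with
  | zero => exact ⟨0, Fin.elim0, fun z => ⟨Fin.elim0, by simp⟩⟩
  | succ m ih =>
    obtain ⟨n, g, h⟩ := ih
    obtain ⟨t, e, he⟩ := Submodule.fg_iff_exists_fin_generating_family.1
      (IsNoetherian.noetherian (maximalIdeal S ^ m) : (maximalIdeal S ^ m).FG)
    choose a ha using hK
    refine ⟨n + t, Fin.append g e, fun z => ?_⟩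
    obtain ⟨c, hc⟩ := h z
    rw [← he, Submodule.mem_span_range_iff_exists_fun] at hc
    obtain ⟨b, hb⟩ := hc
    refine ⟨Fin.append c fun i => a (b i), ?_⟩
    rw [Fin.sum_univ_add]
    simp only [Fin.append_left, Fin.append_right]
    have h2 : z - (∑ i, τ (c i) * g i + ∑ i, τ (a (b i)) * e i) =
        ∑ i, (b i - τ (a (b i))) * e i := by
      rw [← sub_sub, ← hb, ← Finset.sum_sub_distrib]
      refine Finset.sum_congr rfl fun i _ => ?_
      rw [smul_eq_mul, sub_mul]
    rw [h2, pow_succ']
    refine Ideal.sum_mem _ fun i _ => Ideal.mul_mem_mul (ha _) ?_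
    rw [← he]
    exact Submodule.subset_span ⟨i, rfl⟩

/-- finiteness over the power series ring over a complete coefficient ring. -/
theorem ch_finite {K S : Type*} [CommRing K] [CommRing S] [IsLocalRing S] [IsNoetherianRing S]
    (ϖ : K) [IsPrecomplete (Ideal.span {ϖ}) K] {r : ℕ} (φ : MvPowerSeries (Fin r) K →+* S)
    (hK : ∀ z : S, ∃ a : K, z - φ (C a) ∈ maximalIdeal S)
    (hϖ : φ (C ϖ) ∈ maximalIdeal S) (hx : ∀ i, φ (X i) ∈ maximalIdeal S)
    {M : ℕ} (hM : maximalIdeal S ^ M ≤
      Ideal.span ({φ (C ϖ)} ∪ Set.range fun i => φ (X i))) : φ.Finite := by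
  set τ : K →+* S := φ.comp C with hτ
  set J : Ideal S := Ideal.span (Set.range fun i => φ (X i)) with hJ
  obtain ⟨n, g, hg⟩ := ch_approx τ hK M
  -- step 1: modulo the variables
  have step1 : ∀ z : S, ∃ c : Fin n → K, z - ∑ i, τ (c i) * g i ∈ J := by
    let _ : Algebra K S := τ.toAlgebra
    have hτa : ∀ c, algebraMap K S c = τ c := fun c => rfl
    have h1 : (Ideal.span {ϖ}).map (algebraMap K S) ≤ maximalIdeal S := by
      rw [Ideal.map_span, Set.image_singleton, Ideal.span_singleton_le_iff_mem]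
      exact hϖ
    have h2 : IsHausdorff (Ideal.span {ϖ}) (S ⧸ J) := IsHausdorff.of_map h1
    have h3 := ch_isPrecomplete_pi (Ideal.span {ϖ}) n
    let f : (Fin n → K) →ₗ[K] (S ⧸ J) :=
      Fintype.linearCombination K fun i => Ideal.Quotient.mk J (g i)
    have hf : ∀ c : Fin n → K, f c = Ideal.Quotient.mk J (∑ i, τ (c i) * g i) := by
      intro c
      rw [Fintype.linearCombination_apply, map_sum]
      refine Finset.sum_congr rfl fun i _ => ?_
      rw [Algebra.smul_def, map_mul]
      rfl
    have hsurj : Function.Surjective f := by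
      apply surjective_of_mkQ_comp_surjective (I := Ideal.span {ϖ})
      intro z
      obtain ⟨z, rfl⟩ := Submodule.mkQ_surjective _ z
      obtain ⟨z, rfl⟩ := Ideal.Quotient.mk_surjective z
      obtain ⟨c, hc⟩ := hg z
      refine ⟨c, ?_⟩
      rw [LinearMap.comp_apply, hf, ← sub_eq_zero, ← map_sub, Submodule.mkQ_apply,
        Submodule.Quotient.mk_eq_zero, ← neg_mem_iff, neg_sub, ← map_sub]
      have h4 := hM hc
      rw [Ideal.span_union, Submodule.mem_sup] at h4
      obtain ⟨y, hy, w, hw, hyw⟩ := h4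
      obtain ⟨y', rfl⟩ := Ideal.mem_span_singleton'.1 hy
      have h5 : Ideal.Quotient.mk J (z - ∑ i, τ (c i) * g i) =
          ϖ • Ideal.Quotient.mk J y' := by
        rw [← hyw, map_add, Ideal.Quotient.eq_zero_iff_mem.2 hw, add_zero, Algebra.smul_def,
          mul_comm, map_mul]
        rfl
      rw [h5]
      exact Submodule.smul_mem_smul (Ideal.mem_span_singleton_self _) trivial
    intro z
    obtain ⟨c, hc⟩ := hsurj (Ideal.Quotient.mk J z)
    refine ⟨c, ?_⟩
    rw [← Ideal.Quotient.eq, ← hc, hf]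
  -- step 2
  let _ : Algebra (MvPowerSeries (Fin r) K) S := φ.toAlgebra
  have hφa : ∀ c, algebraMap (MvPowerSeries (Fin r) K) S c = φ c := fun c => rfl
  set I : Ideal (MvPowerSeries (Fin r) K) := Ideal.span (Set.range X) with hI
  have hIS : I.map (algebraMap (MvPowerSeries (Fin r) K) S) = J := by
    rw [hI, Ideal.map_span, ← Set.range_comp]
    rfl
  have hJm : J ≤ maximalIdeal S := by
    rw [hJ, Ideal.span_le]
    rintro _ ⟨i, rfl⟩
    exact hx i
  have hH : IsHausdorff I S := IsHausdorff.of_map (hIS.trans_le hJm)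
  have hP := ch_isPrecomplete_pi I n
  have hsurj : Function.Surjective (Fintype.linearCombination (MvPowerSeries (Fin r) K) g) := by
    apply surjective_of_mkQ_comp_surjective (I := I)
    intro z
    obtain ⟨z, rfl⟩ := Submodule.mkQ_surjective _ z
    obtain ⟨c, hc⟩ := step1 z
    refine ⟨fun i => C (c i), ?_⟩
    rw [LinearMap.comp_apply, ← sub_eq_zero, ← map_sub, Submodule.mkQ_apply,
      Submodule.Quotient.mk_eq_zero, Ideal.smul_top_eq_map, Submodule.restrictScalars_mem, hIS,
      ← neg_mem_iff, neg_sub, Fintype.linearCombination_apply]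
    exact hc
  exact Module.Finite.of_surjective _ hsurj

theorem ch_height_le_iff {R : Type*} [CommRing R] [IsLocalRing R] {d : ℕ} :
    (maximalIdeal R).height ≤ (d : ℕ∞) ↔ ringKrullDim R ≤ (d : ℕ) := by
  rw [← IsLocalRing.maximalIdeal_height_eq_ringKrullDim]
  exact (WithBot.coe_le_coe (a := (maximalIdeal R).height) (b := (d : ℕ∞))).symm

/-- parameters of a Noetherian local ring. -/
theorem ch_params {R : Type*} [CommRing R] [IsLocalRing R] [IsNoetherianRing R] {d : ℕ}
    (hd : ringKrullDim R ≤ (d : ℕ)) : ∃ x : Fin d → R, (∀ i, x i ∈ maximalIdeal R) ∧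
      ∃ M : ℕ, maximalIdeal R ^ M ≤ Ideal.span (Set.range x) := by
  classical
  obtain ⟨s, hs, hcard⟩ := (maximalIdeal R).exists_finset_card_eq_height_of_isNoetherianRing
  rw [← ch_height_le_iff, ← hcard] at hd
  have hd' : s.card ≤ d := by exact_mod_cast hd
  have hsm : ∀ a ∈ s, a ∈ maximalIdeal R := fun a ha => hs.1.2 (Ideal.subset_span ha)
  refine ⟨fun i => if h : (i : ℕ) < s.card then (s.equivFin.symm ⟨i, h⟩ : R) else 0, ?_, ?_⟩
  · intro i
    by_cases h : (i : ℕ) < s.card
    · simp only [h, dif_pos]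
      exact hsm _ (s.equivFin.symm ⟨i, h⟩).2
    · simp only [h, dif_neg, not_false_eq_true]
      exact zero_mem _
  · have hrad : maximalIdeal R ≤ (Ideal.span (s : Set R)).radical := by
      rw [Ideal.radical_eq_sInf]
      refine le_sInf ?_
      rintro P ⟨hP, hPp⟩
      exact hs.2 ⟨hPp, hP⟩ (le_maximalIdeal hPp.ne_top)
    obtain ⟨M, hM⟩ := Ideal.exists_pow_le_of_le_radical_of_fg hrad
      (IsNoetherian.noetherian (maximalIdeal R))
    refine ⟨M, hM.trans (Ideal.span_mono ?_)⟩
    intro a ha
    refine ⟨⟨s.equivFin ⟨a, ha⟩, (s.equivFin ⟨a, ha⟩).2.trans_le hd'⟩, ?_⟩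
    simp

/-- The dimension of the quotient by a regular element. -/
theorem ch_dim_quot {A : Type*} [CommRing A] [IsLocalRing A] [IsNoetherianRing A] (x : A)
    (hx : x ∈ nonZeroDivisors A) (hxm : x ∈ maximalIdeal A) {r : ℕ}
    (hdim : ringKrullDim A ≤ (r + 1 : ℕ)) :
    ∃ _ : IsLocalRing (A ⧸ Ideal.span {x}), ringKrullDim (A ⧸ Ideal.span {x}) ≤ (r : ℕ) := by
  have hne : Ideal.span {x} ≠ ⊤ := by
    intro h
    have h1 : Ideal.span {x} ≤ maximalIdeal A := by
      rw [Ideal.span_singleton_le_iff_mem]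
      exact hxm
    rw [h, top_le_iff] at h1
    exact (maximalIdeal.isMaximal A).ne_top h1
  have : Nontrivial (A ⧸ Ideal.span {x}) := Ideal.Quotient.nontrivial_iff.2 hne
  have : IsLocalRing (A ⧸ Ideal.span {x}) :=
    IsLocalRing.of_surjective' (Ideal.Quotient.mk _) Ideal.Quotient.mk_surjective
  refine ⟨inferInstance, ?_⟩
  have h3 := (ringKrullDim_quotient_succ_le_of_nonZeroDivisor hx).trans hdim
  rw [← IsLocalRing.maximalIdeal_height_eq_ringKrullDim] at h3
  rw [← IsLocalRing.maximalIdeal_height_eq_ringKrullDim]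
  have h4 : (maximalIdeal (A ⧸ Ideal.span {x})).height + 1 ≤ (r : ℕ∞) + 1 := by
    exact_mod_cast h3
  have h5 := (ENat.add_le_add_iff_right (by simp)).1 h4
  exact_mod_cast h5

end Vale.Agent.P177
end

section

/-!
P177, block LEV: length estimates over towers, modulo a maximal ideal (after P202 UnitLenB).
-/

namespace Vale.Agent.P177.Lev

open Vale.Agent.P202.Mix
open scoped ENNReal

universe u v w

section len

variable {S : Type u} [CommRing S] (𝔪 : Ideal S) [h𝔪 : 𝔪.IsMaximal] {N : Type v} [AddCommGroup N] [Module S N]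

theorem length_residue : Module.length S (S ⧸ 𝔪) = 1 := by
  have h : IsSimpleModule S (S ⧸ 𝔪) :=
    isSimpleModule_iff_isCoatom.mpr h𝔪.out
  exact Module.length_eq_one S _

/-- lower bound by linearly independent elements. -/
theorem length_ge {J : Type*} [Fintype J] (w : J → N) (Y : Submodule S N) (hw : ∀ j, w j ∈ Y)
    (h : ∀ c : J → S, ∑ j, c j • w j = 0 → ∀ j, c j ∈ 𝔪) :
    (Fintype.card J : ℕ∞) ≤ Module.length S Y := by
  let φ : (J → S) →ₗ[S] N := ∑ j, (LinearMap.toSpanSingleton S N (w j)) ∘ₗ LinearMap.proj j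
  have hφ : ∀ c, φ c = ∑ j, c j • w j := by
    intro c
    simp [φ]
  let ψ : (J → S) →ₗ[S] (J → S ⧸ 𝔪) :=
    LinearMap.pi fun j => (𝔪).mkQ ∘ₗ LinearMap.proj j
  have hψs : Function.Surjective ψ := by
    intro c
    choose y hy using fun j => (𝔪).mkQ_surjective (c j)
    exact ⟨y, funext hy⟩
  have hker : LinearMap.ker φ ≤ LinearMap.ker ψ := by
    intro c hc
    rw [LinearMap.mem_ker, hφ] at hc
    rw [LinearMap.mem_ker]
    funext j
    exact (Submodule.Quotient.mk_eq_zero _).mpr (h c hc j)
  have hle : LinearMap.range φ ≤ Y := by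
    rintro _ ⟨c, rfl⟩
    rw [hφ]
    exact sum_mem fun j _ => Y.smul_mem _ (hw j)
  have e1 := φ.quotKerEquivRange.length_eq
  have e2 := (ψ.quotKerEquivOfSurjective hψs).length_eq
  have h3 : Module.length S (J → S ⧸ 𝔪) ≤ Module.length S (LinearMap.range φ) := by
    rw [← e1, ← e2]
    exact Module.length_le_of_surjective (Submodule.factor hker) (Submodule.factor_surjective hker)
  rw [Module.length_pi_of_fintype, Finset.sum_const, Finset.card_univ, length_residue 𝔪,
    nsmul_eq_mul, mul_one] at h3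
  exact h3.trans (len_mono hle)

/-- upper bound by generators. -/
theorem length_le (hN : ∀ s ∈ 𝔪, ∀ x : N, s • x = 0) {J : Type*} [Fintype J]
    (g : J → N) (Y : Submodule S N) (hY : Y ≤ Submodule.span S (Set.range g)) :
    Module.length S Y ≤ Fintype.card J := by
  classical
  let f : (J → S ⧸ 𝔪) →ₗ[S] N := ∑ j, ((𝔪).liftQ
    (LinearMap.toSpanSingleton S N (g j)) (fun a ha => by
      rw [LinearMap.mem_ker, LinearMap.toSpanSingleton_apply]
      exact hN a ha _)) ∘ₗ LinearMap.proj j
  have hf : ∀ z, f z = ∑ j, ((𝔪).liftQ (LinearMap.toSpanSingleton S N (g j))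
    (fun a ha => by
      rw [LinearMap.mem_ker, LinearMap.toSpanSingleton_apply]
      exact hN a ha _)) (z j) := by
    intro z
    simp [f]
  have hle : Y ≤ LinearMap.range f := by
    refine hY.trans (Submodule.span_le.mpr ?_)
    rintro _ ⟨j, rfl⟩
    refine ⟨Pi.single j (Ideal.Quotient.mk _ 1), ?_⟩
    rw [hf, Finset.sum_eq_single j]
    · rw [Pi.single_eq_same]
      exact one_smul S (g j)
    · intro b _ hb
      rw [Pi.single_eq_of_ne hb, map_zero]
    · intro h'
      exact absurd (Finset.mem_univ _) h'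
  refine (len_mono hle).trans ((Module.length_le_of_surjective f.rangeRestrict
    f.surjective_rangeRestrict).trans (le_of_eq ?_))
  rw [Module.length_pi_of_fintype, Finset.sum_const, Finset.card_univ, length_residue 𝔪,
    nsmul_eq_mul, mul_one]

end len

section tower

variable {S : Type u} [CommRing S] (𝔪 : Ideal S) [h𝔪 : 𝔪.IsMaximal] {R : Type v} [CommRing R] [Algebra S R]
  {I : Type*} [Preorder I] [IsDirectedOrder I] (T : Tower S R I)
  {N : Type w} [AddCommGroup N] [Module S N] [Module R N] [IsScalarTower S R N]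

omit [IsDirectedOrder I] in
/-- the normalized length of a module generated by `m` elements over the algebra of the tower. -/
theorem nlen_le (hN : ∀ s ∈ 𝔪, ∀ x : N, s • x = 0) (i0 : I) (h0 : ∀ i, i0 ≤ i)
    (hb : T.sub i0 = ⊥) (hr : T.rank i0 = 1) {m : ℕ} (v : Fin m → N) (i : I) :
    T.nlen i (Submodule.span S (Set.range v)) ≤ m := by
  obtain ⟨n, e, hn, he, hg⟩ := T.gen i0 i (h0 i)
  rw [hr, mul_one] at hn
  have h1 : ext (T.sub i) (Submodule.span S (Set.range v)) ≤
      Submodule.span S (Set.range fun x : Fin n × Fin m => e x.1 • v x.2) := by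
    refine ext_le fun b hb' x hx => ?_
    obtain ⟨c, hc, rfl⟩ := hg b hb'
    have hc' : ∀ k, ∃ s : S, algebraMap S R s = c k := fun k => by
      have := hc k
      rwa [hb, Algebra.mem_bot] at this
    choose s hs using hc'
    induction hx using Submodule.span_induction with
    | mem x hx =>
      obtain ⟨j, rfl⟩ := hx
      rw [Finset.sum_smul]
      refine sum_mem fun k _ => ?_
      rw [← hs k, mul_comm, mul_smul, algebraMap_smul]
      exact Submodule.smul_mem _ _ (Submodule.subset_span ⟨(k, j), rfl⟩)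
    | zero => rw [smul_zero]; exact zero_mem _
    | add x y _ _ hx hy => rw [smul_add]; exact add_mem hx hy
    | smul a x _ hx =>
      rw [← algebraMap_smul R a x, smul_comm, algebraMap_smul]
      exact Submodule.smul_mem _ _ hx
  have h2 : T.len i (Submodule.span S (Set.range v)) ≤ (n * m : ℕ) := by
    have := length_le 𝔪 hN _ _ h1
    rwa [Fintype.card_prod, Fintype.card_fin, Fintype.card_fin] at this
  rw [Tower.nlen, ← hn]
  have h3 : ((T.len i (Submodule.span S (Set.range v)) : ℕ∞) : ENNReal) ≤ ((n * m : ℕ) : ENNReal) := by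
    have := (ENat.toENNReal_le).mpr h2
    rwa [ENat.toENNReal_coe] at this
  have hn0 : (n : ENNReal) ≠ 0 := by
    rw [hn]
    exact T.rank_ne_zero i
  rw [ENNReal.div_le_iff hn0 (ENNReal.natCast_ne_top n)]
  refine h3.trans (le_of_eq ?_)
  rw [Nat.cast_mul, mul_comm]

/-- upper bound for `lam`. -/
theorem lam_le_of_cover (hN : ∀ s ∈ 𝔪, ∀ x : N, s • x = 0) (i0 : I)
    (h0 : ∀ i, i0 ≤ i) (hb : T.sub i0 = ⊥) (hr : T.rank i0 = 1) (m : ℕ)
    (H : ∀ X : Submodule S N, X.FG → ∃ v : Fin m → N,
      X ≤ (Submodule.span R (Set.range v)).restrictScalars S) : T.lam N ≤ m := by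
  refine T.lam_le fun X hX => ?_
  obtain ⟨v, hv⟩ := H X hX
  have key : ∀ x ∈ Submodule.span R (Set.range v), ∃ i,
      x ∈ ext (T.sub i) (Submodule.span S (Set.range v)) := by
    intro x hx
    induction hx using Submodule.span_induction with
    | mem x hx => exact ⟨i0, le_ext _ _ (Submodule.subset_span hx)⟩
    | zero => exact ⟨i0, zero_mem _⟩
    | add x y _ _ hx hy =>
      obtain ⟨i, hi⟩ := hx
      obtain ⟨j, hj⟩ := hy
      obtain ⟨l, hil, hjl⟩ := exists_ge_ge i j
      exact ⟨l, add_mem (ext_mono (T.mono hil) le_rfl hi) (ext_mono (T.mono hjl) le_rfl hj)⟩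
    | smul a x _ hx =>
      obtain ⟨i, hi⟩ := hx
      obtain ⟨j, hj⟩ := T.cover a
      obtain ⟨l, hil, hjl⟩ := exists_ge_ge i j
      exact ⟨l, smul_ext_mem (T.mono hjl hj) (ext_mono (T.mono hil) le_rfl hi)⟩
  obtain ⟨i, hi⟩ : ∃ i, X ≤ ext (T.sub i) (Submodule.span S (Set.range v)) := by
    classical
    obtain ⟨s, rfl⟩ := hX
    have h1 : ∀ x ∈ s, ∃ i, x ∈ ext (T.sub i) (Submodule.span S (Set.range v)) :=
      fun x hx => key x (hv (Submodule.subset_span hx))
    have h2 : ∃ i, ∀ x ∈ s, x ∈ ext (T.sub i) (Submodule.span S (Set.range v)) := by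
      clear hv
      induction s using Finset.induction_on with
      | empty => exact ⟨i0, by simp⟩
      | insert x s _ ih =>
        obtain ⟨i, hi⟩ := ih fun y hy => h1 y (Finset.mem_insert_of_mem hy)
        obtain ⟨j, hj⟩ := h1 x (Finset.mem_insert_self x s)
        obtain ⟨l, hil, hjl⟩ := exists_ge_ge i j
        refine ⟨l, fun y hy => ?_⟩
        rcases Finset.mem_insert.mp hy with rfl | hy
        · exact ext_mono (T.mono hjl) le_rfl hj
        · exact ext_mono (T.mono hil) le_rfl (hi y hy)
    obtain ⟨i, hi⟩ := h2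
    exact ⟨i, Submodule.span_le.mpr hi⟩
  refine (T.lamX_le_nlen i X).trans ?_
  have h3 : T.nlen i X ≤ T.nlen i (Submodule.span S (Set.range v)) := by
    refine ENNReal.div_le_div_right ?_ _
    rw [ENat.toENNReal_le, Tower.len, Tower.len, ← ext_ext (le_refl (T.sub i))
      (Submodule.span S (Set.range v))]
    exact len_mono (ext_mono le_rfl hi)
  exact h3.trans (nlen_le 𝔪 T hN i0 h0 hb hr v i)

omit [IsDirectedOrder I] in
/-- lower bound for `lam`. -/
theorem one_le_lam (x : N) (H : ∀ i : I, ∃ (J : Type u) (_ : Fintype J) (w : J → R),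
    Fintype.card J = T.rank i ∧ (∀ j, w j ∈ T.sub i) ∧
      ∀ c : J → S, ∑ j, c j • w j • x = 0 → ∀ j, c j ∈ 𝔪) : 1 ≤ T.lam N := by
  refine le_trans ?_ (T.lamX_le_lam (X := Submodule.span S {x}) (Submodule.fg_span_singleton x))
  refine le_iInf fun i => ?_
  obtain ⟨J, _, w, hJ, hw, h⟩ := H i
  have h1 := length_ge 𝔪 (fun j => w j • x) (ext (T.sub i) (Submodule.span S {x}))
    (fun j => smul_mem_ext (hw j) (Submodule.mem_span_singleton_self x)) h
  rw [Tower.nlen, ENNReal.le_div_iff_mul_le (Or.inl (T.rank_ne_zero i))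
    (Or.inl (ENNReal.natCast_ne_top _)), one_mul, ← hJ]
  have := (ENat.toENNReal_le).mpr h1
  rwa [ENat.toENNReal_coe] at this

end tower

end Vale.Agent.P177.Lev
end
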