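import Mathlib
import Vale.Agent.P177.Bd4.B5
import Vale.Agent.P177.Bd4.B6
import Vale.Agent.P177.Bd4.B2
import Vale.Agent.P177.Bd4.B1
import Vale.Agent.P177.Bd4.B4
import Vale.Agent.P177.Bd4.B8
attribute [-instance] DenselyNormedField.toNontriviallyNormedField DenselyNormedField.toNormedField NontriviallyNormedField.toNormedField RCLike.toDenselyNormedField NormedField.toNormedDivisionRing littleWedderburn Field.toDivisionRing NormedDivisionRing.toDivisionRing NormedField.toField IdemCommSemiring.toCommSemiring Semifield.toCommSemiring DivisionRing.toDivisionSemiring Semifield.toDivisionSemiring IdemCommSemiring.toIdemSemiring KleeneAlgebra.toIdemSemiring DivisionSemiring.toSemiring BooleanRing.toRing DivisionRing.toRing SemiRingCat.instSemiringObjForgetRingHomCarrier CommCStarAlgebra.toNormedCommRing NormedField.toNormedCommRing CommCStarAlgebra.toCStarAlgebra CStarAlgebra.toNormedRing NormedCommRing.toNormedRing NormedDivisionRing.toNormedRing NormedCommRing.toSeminormedCommRing NormedRing.toSeminormedRing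 SeminormedCommRing.toSeminormedRing Field.toEuclideanDomain BooleanRing.toCommRing EuclideanDomain.toCommRing Field.toCommRing NormedCommRing.toCommRing SeminormedCommRing.toCommRing NormedRing.toRing SeminormedRing.toRing LeftPreLieRing.instLieAdmissibleRing RightPreLieRing.instLieAdmissibleRing CommSemiring.toNonAssocCommSemiring NonAssocCommRing.toNonAssocCommSemiring NonAssocCommSemiring.toNonAssocSemiring NonAssocRing.toNonAssocSemiring CommSemiRingCat.FilteredColimits.colimitCommSemiring CommRing.toAddCommGroupWithOne AddCommGroupWithOne.toAddCommMonoidWithOne CommCStarAlgebra.toNonUnitalCommCStarAlgebra NonUnitalCommCStarAlgebra.toNonUnitalNormedCommRing NormedCommRing.toNonUnitalNormedCommRing CStarAlgebra.toNonUnitalCStarAlgebra NonUnitalCommCStarAlgebra.toNonUnitalCStarAlgebra NonUnitalCStarAlgebra.toNonUnitalNormedRing NonUnitalNormedCommRing.toNonUnitalNormedRing NormedRing.toNonUnitalNormedRing LinearOrderedAddCommGroupWithTop.instLinearOrderedAddCommMonoidWithTop LinearOrderedAddCommGroupWithTop.toAddCommMonoid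 LeftPreLieRing.toNonUnitalNonAssocRing LieAdmissibleRing.toNonUnitalNonAssocRing RightPreLieRing.toNonUnitalNonAssocRing NonUnitalNormedCommRing.toNonUnitalSeminormedCommRing SeminormedCommRing.toNonUnitalSeminormedCommRing NonUnitalNormedRing.toNonUnitalSeminormedRing NonUnitalSeminormedCommRing.toNonUnitalSeminormedRing SeminormedRing.toNonUnitalSeminormedRing NonUnitalNormedCommRing.toNonUnitalCommRing NonUnitalSeminormedCommRing.toNonUnitalCommRing NonUnitalNormedRing.toNonUnitalRing NonUnitalSeminormedRing.toNonUnitalRing Ring.toNonUnitalRing NonAssocCommRing.toNonUnitalNonAssocCommRing NonUnitalRing.toNonUnitalNonAssocRing NonUnitalRing.toNonUnitalSemiring NonAssocCommSemiring.toNonUnitalNonAssocCommSemiring NonUnitalCommSemiring.toNonUnitalNonAssocCommSemiring NonUnitalNonAssocCommSemiring.toNonUnitalNonAssocSemiring NonUnitalSemiring.toNonUnitalNonAssocSemiring AddCommMonoidWithOne.toAddCommMonoid NormedAlgebra.toAlgebra AddCommMonCat.FilteredColimits.colimitAddCommMonoid GradedMonoid.GradeZero.smul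 Bialgebra.toAlgebra CommSemiring.toBialgebra CommSemiring.toHopfAlgebra HopfAlgebra.toHopfAlgebraStruct HopfAlgebraStruct.toBialgebra CategoryTheory.CommGrpObj.mk CategoryTheory.CommGrpObj.toGrpObj CategoryTheory.Preadditive.instGrpObj CategoryTheory.instBraidedCategoryType CategoryTheory.Abelian.toPreadditive SSet.stdSimplex.instFunLikeObjOppositeSimplexCategoryMkOpFinHAddNatOfNat CategoryTheory.BimonObj.toMonObj CategoryTheory.CommRingObj.toRingObj CategoryTheory.GrpObj.toMonObj CategoryTheory.HopfObj.toBimonObj CategoryTheory.RingObj.toMonObj MonTypeEquivalenceMon.monMonoid MulSemiringAction.toDistribMulAction AddCommGroupWithOne.toAddGroupWithOne LinearOrderedAddCommGroupWithTop.toSubNegMonoid LieAdmissibleRing.instLieRing NormedCommGroup.toNormedGroup NormedCommGroup.toSeminormedCommGroup NormedGroup.toSeminormedGroup SeminormedCommGroup.toSeminormedGroup Pi.nonUnitalNonAssocSemiring instCommGroupOfIsSimpleGroupOfIsNilpotent CommGroup.toGroup CommGrpTypeEquivalenceCommGrp.commGrpCommGroup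 GrpTypeEquivalenceGrp.grpGroup NormedCommGroup.toCommGroup NormedGroup.toGroup SeminormedCommGroup.toCommGroup SeminormedGroup.toGroup instDistribSMul NonUnitalNonAssocSemiring.toDistribSMul SemiNormedGrp.str instSMulZeroClass instNonUnitalCStarAlgebraForall NormedAlgebra.id Pi.nonAssocSemiring LieRing.toAddCommGroup LieAdmissibleAlgebra.toModule LeftPreLieAlgebra.toModule LieAlgebra.toModule NormedSpace.toModule RightPreLieAlgebra.toModule NonUnitalNormedRing.toNormedAddCommGroup RightPreLieAlgebra.instLieAdmissibleAlgebra instCoeT AlgebraicGeometry.Scheme.instPreorderCarrierCarrierCommRingCat Complex.instRCLike ContDiffMapSupportedInClass.toDFunLike RKHS.instFunLike TestFunctionClass.toDFunLike Real.instRCLike LinearOrderedCommGroupWithZero.toLinearOrderedCommMonoidWithZero CommGroupWithZero.toGroupWithZero DivisionSemiring.toGroupWithZero LinearOrderedCommGroupWithZero.toCommGroupWithZero Semifield.toCommGroupWithZero Pi.nonUnitalSemiring AddMonCat.addMonoidObj CommGroupWithZero.toCommMonoidWithZero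 CommMonoidWithZero.toMonoidWithZero CommSemiring.toCommMonoidWithZero GroupWithZero.toMonoidWithZero LinearOrderedCommMonoidWithZero.toCommMonoidWithZero MonoidWithZero.toMulZeroOneClass MonoidWithZero.toSemigroupWithZero MulZeroOneClass.toMulZeroClass NonUnitalNonAssocSemiring.toMulZeroClass SemigroupWithZero.toMulZeroClass RingCat.FilteredColimits.colimitRing TensorProduct.instModuleFstSnd AddOpposite.instAddZero instCoeTOfCoeDep Action.instMulAction Torsor.toMulAction Action.FintypeCat.instMulActionObjFiniteOf GradedMonoid.GradeZero.mulAction TopologicalSpace.Compacts.instSetLike Pi.addZeroClass TwoSidedIdeal.instIsTwoSidedCoeOrderHomIdealAsIdeal instCoeTC instCoeTCOfCoe LeftPreLieAlgebra.toSMulCommClass LieAdmissibleAlgebra.toSMulCommClass RightPreLieAlgebra.toSMulCommClass Pi.instZero NonUnitalSeminormedRing.toSeminormedAddCommGroup NormedAddCommGroup.toSeminormedAddCommGroup instCoeHTC instCoeHTCT OrderDual.instDivisionSemiring Quaternion.instDivisionRing boolToProp ContinuousAddMonoidHom.instCoeOutOfAddMonoidHomClassOfContinuousMapClass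 ContinuousMonoidHom.instCoeOutOfMonoidHomClassOfContinuousMapClass HomeomorphClass.instCoeOutHomeomorph IsometryClass.instCoeOutIsometryEquiv MonCat.monoidObj NormedAddCommGroup.toNormedAddGroup instNonUnitalAlgHomClassOfNonUnitalAlgEquivClass Pi.normedRing Pi.mulZeroOneClass NormedAddGroup.toSeminormedAddGroup SeminormedAddCommGroup.toSeminormedAddGroup BialgEquivClass.toBialgHomClass AddHom.addHomClass CategoryTheory.Limits.Concrete.instUniqueToTypeTerminal BoxIntegral.Box.instMembershipForallReal AddCommGroupWithOne.toAddCommGroup NormedAddCommGroup.toAddCommGroup SeminormedAddCommGroup.toAddCommGroup Std.DTreeMap.Raw.instSingletonSigma MulOpposite.instMulOne Pi.instOne MonoidWithZero.toMulActionWithZero PadicComplex.normedField Pi.commMagma EMetricSpace.toPseudoEMetricSpace IsValuativeTopology.instValuedValueGroupWithZeroOfIsUniformAddGroup MetricSpace.toEMetricSpace MetricSpace.toPseudoMetricSpace NonUnitalNormedRing.toMetricSpace NonUnitalSeminormedRing.toPseudoMetricSpace NormedAddCommGroup.toMetricSpace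 NormedAddGroup.toMetricSpace NormedCommGroup.toMetricSpace NormedDivisionRing.toMetricSpace NormedField.toMetricSpace NormedGroup.toMetricSpace NormedRing.toMetricSpace PseudoEMetricSpace.toUniformSpace PseudoMetricSpace.toPseudoEMetricSpace PseudoMetricSpace.toUniformSpace SeminormedAddCommGroup.toPseudoMetricSpace SeminormedAddGroup.toPseudoMetricSpace SeminormedCommGroup.toPseudoMetricSpace SeminormedGroup.toPseudoMetricSpace SeminormedRing.toPseudoMetricSpace ValuationClass.toMonoidWithZeroHomClass Valued.toUniformSpace WithIdeal.instUniformSpace TopologicalSpace.UpgradedIsCompletelyMetrizableSpace.toMetricSpace TopologicalSpace.UpgradedIsCompletelyPseudoMetrizableSpace.toPseudoMetricSpace UniformSpace.toTopologicalSpace UpgradedStandardBorel.toTopologicalSpace WithIdeal.instTopologicalSpace NormedAddGroup.toAddGroup SeminormedAddGroup.toAddGroup AbsoluteValue.zeroHomClass CentroidHomClass.toAddMonoidHomClass MulSemiringActionSemiHomClass.toDistribMulActionSemiHomClass NonUnitalAlgSemiHomClass.toDistribMulActionSemiHomClass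 Pi.distribMulAction' AlgHom.instContinuousLinearMapClassOfAlgHomClass BialgHomClass.toCoalgHomClass CoalgEquivClass.toCoalgHomClass CoalgHomClass.toSemilinearMapClass ContinuousSemilinearEquivClass.continuousSemilinearMapClass ContinuousSemilinearMapClass.toSemilinearMapClass PositiveLinearMap.instContinuousLinearMapClassComplexOfLinearMapClassOfOrderHomClass RingHomClass.toLinearMapClassNNRat RingHomClass.toLinearMapClassRat SemilinearIsometryClass.toContinuousSemilinearMapClass SemilinearIsometryClass.toSemilinearMapClass TensorProduct.instDistribMulAction AlgHomClass.linearMapClass NonUnitalAlgHomClass.instSemilinearMapClassOfNonUnitalAlgSemiHomClassToMonoidHomRingHom AddMonoidAlgebra.instBialgebra AddMonoidAlgebra.instHopfAlgebra AddMonoidAlgebra.instHopfAlgebraStruct instSubsingleton Group.IsPerfect.subsingleton_of_isMulCommutative ProfiniteAddGrp.addGroup LeftPreLieAlgebra.toIsScalarTower LieAdmissibleAlgebra.toIsScalarTower LieRinehartAlgebra.toIsScalarTower RightPreLieAlgebra.toIsScalarTower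 LinearOrderedAddCommGroupWithTop.toSubtractionMonoid SubNegZeroMonoid.toSubNegMonoid AddMonoidAlgebra.instModule MvPolynomial.instModule IsEmpty.instSubsingleton Algebra.TensorProduct.instNonAssocRing instMulActionSemiHomClassMulActionHom Ideal.Quotient.normedCommRing AddCancelCommMonoid.toAddCommMonoid ESeminormedAddCommMonoid.toAddCommMonoid TensorProduct.instNormedAddCommGroup TopRep.hV1 Ideal.Quotient.semiNormedCommRing AddGroup.toAddCancelMonoid Pi.instTopForall NonUnitalNonAssocRing.int_isScalarTower MulActionWithZero.toMulAction MulDistribMulAction.toMulAction MulSemiringAction.toMulDistribMulAction BialgEquivClass.toCoalgEquivClass AbsoluteValue.mulHomClass CategoryTheory.instFinCategoryOfFintypeOfIsThin FinEnum.instFintype SetLike.instFintype Unique.fintype CategoryTheory.FinCategory.fintypeObj OneHom.oneHomClass AddCancelMonoid.toAddLeftCancelMonoid AddLeftCancelMonoid.toAddMonoid AddRightCancelMonoid.toAddMonoid ENormedAddCommMonoid.toENormedAddMonoid ENormedAddCommMonoid.toESeminormedAddCommMonoid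 ENormedAddMonoid.toESeminormedAddMonoid ESeminormedAddCommMonoid.toESeminormedAddMonoid ESeminormedAddMonoid.toAddMonoid NormedAddCommGroup.toENormedAddCommMonoid NormedAddGroup.toENormedAddMonoid MulZeroClass.toSMulWithZero MulEquivClass.toMonoidWithZeroHomClass MulRingSeminormClass.toMonoidWithZeroHomClass AlgEquivClass.toAlgHomClass BialgHomClass.toAlgHomClass SemilinearIsometryEquivClass.toSemilinearIsometryClass AddMonoidAlgebra.distribMulAction Algebra.TensorProduct.right_isScalarTower Pi.mulOneClass LeftPreLieAlgebra.instLieAdmissibleAlgebra LieAdmissibleAlgebra.instLieAlgebra LieAlgebra.ofAssociativeAlgebra CompleteLinearOrder.toConditionallyCompleteLinearOrderBot CompleteLinearOrder.toLinearOrder ConditionallyCompleteLinearOrder.toLinearOrder ConditionallyCompleteLinearOrderBot.toConditionallyCompleteLinearOrder LinearOrderedAddCommGroupWithTop.toLinearOrder LinearOrderedCommMonoidWithZero.toLinearOrder Pi.distribSMul' CommMonTypeEquivalenceCommMon.commMonCommMonoid TensorProduct.isScalarTower_right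 Algebra.TensorProduct.instSMulCommClassTensorProduct Algebra.TensorProduct.instSMulCommClassTensorProduct_1 CompleteAtomicBooleanAlgebra.toCompleteBooleanAlgebra CompleteAtomicBooleanAlgebra.toCompletelyDistribLattice CompleteBooleanAlgebra.toCompleteLattice BialgHomClass.toMonoidHomClass MulCharClass.toMonoidHomClass MulDistribMulActionSemiHomClass.toMonoidHomClass OrderRingHom.instRingHomClass Pi.smulZeroClass' CategoryTheory.instCategoryObj OrderDual.instPow_1 instRingHomSurjectiveForallEvalRingHom Ideal.instIsTwoSided OrderAddMonoidHom.instAddMonoidHomClass Pi.instBotForall Pi.mulZeroClass AddCommGroup.toGrindIntModule CommRing.toGrindCommRing Field.toGrindField Ring.toGrindRing decidableEq_of_subsingleton FinEnum.decEq FunLike.toDecidableEq LinearOrder.toDecidableEq RCLike.toDecidableEq FirstOrder.Language.instDecidableEqFunctions FirstOrder.Language.instDecidableEqRelations Module.End.instDivisionRing NumberField.instFiniteDimensional Pi.normedAddCommGroup PositiveLinearMap.instInnerProductSpaceComplexPreGNS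 RCLike.toInnerProductSpaceReal NonUnitalAlgHomClass.toNonUnitalRingHomClass RingEquivClass.toNonUnitalRingHomClass SubfieldClass.toNormedField CompleteBooleanAlgebra.toCompleteDistribLattice CompleteDistribLattice.toCoframe CompleteDistribLattice.toFrame CompleteLinearOrder.toCompleteLattice CompletelyDistribLattice.toCompleteDistribLattice Order.Coframe.toCompleteLattice Order.Frame.toCompleteLattice AddQuantale.instAddLeftMono Pi.addMonoidWithOne StarSubalgebra.commCStarAlgebra SubfieldClass.toDivisionRing SubfieldClass.toField SubringClass.toCommRing SubringClass.toNormedCommRing SubringClass.toSeminormedCommRing SetLike.GradeZero.instCommRing FiniteDimensional.finiteDimensional_quotient Submodule.Quotient.distribMulAction' Pi.instMaxForall_mathlib SubfieldClass.toSubringClass Algebra.TensorProduct.instNonUnitalNonAssocRing Algebra.TensorProduct.instNonUnitalRing LinOrd.str SemiNormedGrp.instPreadditive OrderDual.instRightDistribClass Pi.subtractionMonoid IsScalarTower.of_algHom Semigroup.isScalarTower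 Monoid.End.instMonoidHomClass AddMonoidAlgebra.distribSMul AddMonoidAlgebra.smulZeroClass instFiniteProp instConditionallyCompletePartialOrderSup BiheytingAlgebra.toCoheytingAlgebra BiheytingAlgebra.toHeytingAlgebra BooleanAlgebra.toBiheytingAlgebra BooleanAlgebra.toDistribLattice BooleanAlgebra.toGeneralizedBooleanAlgebra ChainCompletePartialOrder.instOfCompleteLattice ChainCompletePartialOrder.instOmegaCompletePartialOrder ChainCompletePartialOrder.toPartialOrder CoheytingAlgebra.toGeneralizedCoheytingAlgebra CompleteBooleanAlgebra.toBooleanAlgebra CompleteDistribLattice.toBiheytingAlgebra CompleteLattice.toCompleteSemilatticeInf CompleteLattice.toPartialOrder' CompleteLinearOrder.toBiheytingAlgebra CompletePartialOrder.toOmegaCompletePartialOrder CompletePartialOrder.toPartialOrder CompleteSemilatticeInf.toPartialOrder CompleteSemilatticeSup.toPartialOrder CompletelyDistribLattice.toBiheytingAlgebra ConditionallyCompleteLinearOrder.toConditionallyCompleteLattice ConditionallyCompletePartialOrder.toConditionallyCompletePartialOrderInf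 ConditionallyCompletePartialOrderInf.toPartialOrder ConditionallyCompletePartialOrderSup.toPartialOrder GeneralizedBooleanAlgebra.toDistribLattice GeneralizedBooleanAlgebra.toGeneralizedCoheytingAlgebra GeneralizedCoheytingAlgebra.toDistribLattice GeneralizedCoheytingAlgebra.toLattice GeneralizedHeytingAlgebra.toDistribLattice GeneralizedHeytingAlgebra.toLattice HeytingAlgebra.toGeneralizedHeytingAlgebra LinearOrder.toLattice OmegaCompletePartialOrder.toPartialOrder Order.Coframe.toCoheytingAlgebra Order.Coframe.toDistribLattice Order.Frame.toDistribLattice Order.Frame.toHeytingAlgebra instCoeHTCOfCoeHeadOfCoeOTC instCoeHTCTOfCoeTailOfCoeHTC instCoeOutOfCoeFun instCoeTailIntOfIntCast instCoeTailNatOfNatCast instCoeTailRatOfRatCast AddGroupWithOne.toIntCast BialgEquivClass.instCoeToBialgEquiv BialgHomClass.instCoeToBialgHom CoalgEquivClass.instCoeToCoalgEquiv CoalgHomClass.instCoeToCoalgHom CompletelyPositiveMapClass.instCoeToCompletelyPositiveMap DivisionRing.toNNRatCast DivisionRing.toRatCast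 DivisionSemiring.toNNRatCast LinearMapClass.instCoeToLinearMap NNRatCast.toCoeTail NonUnitalStarRingHomClass.instCoeHeadNonUnitalStarRingHom SemilinearMapClass.instCoeToSemilinearMap StarAlgEquivClass.instCoeHead StarRingEquivClass.instCoeHead TensorProduct.CompatibleSMul.int SubsemiringClass.toCommSemiring SetLike.GradeZero.instCommSemiring StarSubalgebra.cstarAlgebra SubalgebraClass.normedRing SubalgebraClass.seminormedRing SubringClass.toNormedRing SubringClass.toRing SubringClass.toSeminormedRing SetLike.GradeZero.instRing AddCommMonoid.toGrindNatModule CommSemiring.toGrindCommSemiring Semiring.toGrindSemiring WithTop.linearOrderedAddCommMonoidWithTop NumberField.to_charZero Pi.isOrderedRing Submodule.Quotient.normedAddCommGroup Submodule.Quotient.seminormedAddCommGroup Quantale.instMulLeftMono SubringClass.toNegMemClass LinearMap.uniqueOfLeft LinearMap.uniqueOfRight TensorProduct.uniqueLeft SubsemiringClass.toSemiring SetLike.GradeZero.instSemiring instIsDedekindDomainOfIsDomainOfIsDedekindRing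 instIsDomain DivisionRing.isDomain EuclideanDomain.instIsDomain Field.isDomain IsDedekindDomain.toIsDomain IsDedekindDomainDvr.isDedekindDomain IsDomain.of_isSimpleRing IsPrincipalIdealRing.isDedekindDomain IsStrictOrderedRing.isDomain AddQuantale.instAddRightMono Quantale.instMulRightMono Set.instAddLeftMono CategoryTheory.NonPreadditiveAbelian.toHasZeroMorphisms -- iprune

set_option linter.all false

section

/-!
P177, block TH: supply of modules for the hypersurface `B = D / a`: for a finite `R`-module `K`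
killed by `a`, `B ⊗[R] K` is finitely presented to all orders, and its syzygies eventually have a
matrix factorisation.
-/

namespace Vale.Agent.P177.TH

open TensorProduct Function

universe u

section Congr

variable {D B : Type u} [CommRing D] [CommRing B] [Algebra D B]

theorem FPn.congr {n : ℕ} {A A' : Type u} [AddCommGroup A] [Module B A] [AddCommGroup A']
    [Module B A'] (h : FPn B n A) (e : A ≃ₗ[B] A') : FPn B n A' := by
  cases n with
  | zero =>
    obtain ⟨k, f, hf⟩ := h
    exact ⟨k, e.toLinearMap ∘ₗ f, e.surjective.comp hf⟩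
  | succ n =>
    obtain ⟨k, f, hf, hK⟩ := h
    refine ⟨k, e.toLinearMap ∘ₗ f, e.surjective.comp hf, ?_⟩
    have h1 : LinearMap.ker (e.toLinearMap ∘ₗ f) = LinearMap.ker f := LinearEquiv.ker_comp e f
    rw [h1]
    exact hK

theorem MF.congr {A A' : Type u} [AddCommGroup A] [Module D A] [AddCommGroup A'] [Module D A']
    (h : MF D A) (e : A ≃ₗ[D] A') : MF D A' := by
  obtain ⟨Q1, Q0, _, _, _, _, φ, q, h1, h0, hp1, hp0, hφ, hq, hex⟩ := h
  refine ⟨Q1, Q0, inferInstance, inferInstance, inferInstance, inferInstance, φ,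
    e.toLinearMap ∘ₗ q, h1, h0, hp1, hp0, hφ, e.surjective.comp hq, ?_⟩
  intro y
  rw [← hex y]
  constructor
  · intro h
    exact e.injective (by rw [map_zero]; exact h)
  · intro h
    change e (q y) = 0
    rw [h, map_zero]

theorem Vn.congr {n : ℕ} {A A' : Type u} [AddCommGroup A] [Module D A] [Module B A]
    [IsScalarTower D B A] [AddCommGroup A'] [Module D A'] [Module B A'] [IsScalarTower D B A']
    (h : Vn D B n A) (e : A ≃ₗ[B] A') : Vn D B n A' := by
  induction n generalizing A A' with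
  | zero =>
    exact MF.congr (D := D) h (e.restrictScalars D)
  | succ n ih =>
    obtain ⟨k, f, hf, hK⟩ := h
    exact ⟨k, e.toLinearMap ∘ₗ f, e.surjective.comp hf,
      ih hK (LinearEquiv.ofEq _ _ (LinearEquiv.ker_comp e f).symm)⟩

end Congr

section Supply

variable {R D B : Type u} [CommRing R] [CommRing D] [CommRing B] [Algebra R D] [Algebra D B]
  [Algebra R B] [IsScalarTower R D B] {a : R}

/-- `D ⊗ K → B ⊗ K`. -/
noncomputable def toB (B : Type u) [CommRing B] [Algebra D B] [Algebra R B] [IsScalarTower R D B]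
    (K : Type u) [AddCommGroup K] [Module R K] : D ⊗[R] K →ₗ[D] B ⊗[R] K :=
  AlgebraTensorModule.map (Algebra.linearMap D B) LinearMap.id

theorem toB_surj (H : IsHypersurface D B (algebraMap R D a)) (K : Type u) [AddCommGroup K]
    [Module R K] : Surjective (toB (R := R) (D := D) B K) := by
  intro z
  induction z using TensorProduct.induction_on with
  | zero => exact ⟨0, map_zero _⟩
  | tmul b x =>
    obtain ⟨d, rfl⟩ := H.surj b
    exact ⟨d ⊗ₜ x, rfl⟩
  | add y z hy hz =>
    obtain ⟨y, rfl⟩ := hy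
    obtain ⟨z, rfl⟩ := hz
    exact ⟨y + z, map_add _ _ _⟩

theorem toB_inj (H : IsHypersurface D B (algebraMap R D a)) (K : Type u) [AddCommGroup K]
    [Module R K] (hK : ∀ x : K, a • x = 0) : Injective (toB (R := R) (D := D) B K) := by
  rw [injective_iff_map_eq_zero]
  intro z hz
  have hex : Exact (LinearMap.lsmul R D a) (IsScalarTower.toAlgHom R D B).toLinearMap := by
    intro d
    constructor
    · intro hd
      have h1 : d ∈ RingHom.ker (algebraMap D B) := hd
      rw [H.ker, Ideal.mem_span_singleton] at h1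
      obtain ⟨c, rfl⟩ := h1
      exact ⟨c, by rw [LinearMap.lsmul_apply, Algebra.smul_def]⟩
    · rintro ⟨c, rfl⟩
      change algebraMap D B (a • c) = 0
      rw [Algebra.smul_def, map_mul, H.algebraMap_f, zero_mul]
  have h2 := rTensor_exact K hex H.surj
  have h3 : ∀ z : D ⊗[R] K, (IsScalarTower.toAlgHom R D B).toLinearMap.rTensor K z =
      toB B K z := by
    intro z
    induction z using TensorProduct.induction_on with
    | zero => simp
    | tmul d x => rfl
    | add y z hy hz => rw [map_add, map_add, hy, hz]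
  have h4 : ∀ w : D ⊗[R] K, (LinearMap.lsmul R D a).rTensor K w = 0 := by
    intro w
    induction w using TensorProduct.induction_on with
    | zero => simp
    | tmul d x =>
      change (a • d) ⊗ₜ[R] x = 0
      rw [TensorProduct.smul_tmul, hK, TensorProduct.tmul_zero]
    | add y z hy hz => rw [map_add, hy, hz, add_zero]
  obtain ⟨w, rfl⟩ := (h2 _).1 ((h3 z).trans hz)
  exact h4 w

/-- (S1) -/
theorem exists_toB_equiv (H : IsHypersurface D B (algebraMap R D a)) (K : Type u)
    [AddCommGroup K] [Module R K] (hK : ∀ x : K, a • x = 0) :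
    Nonempty (D ⊗[R] K ≃ₗ[D] B ⊗[R] K) :=
  ⟨LinearEquiv.ofBijective (toB B K) ⟨toB_inj H K hK, toB_surj H K⟩⟩

/-- `B ⊗ i` is injective for injective maps of modules killed by `a`. -/
theorem lTensor_inj (H : IsHypersurface D B (algebraMap R D a)) [Module.Flat R D]
    {K K' : Type u} [AddCommGroup K] [Module R K] [AddCommGroup K'] [Module R K']
    (hK : ∀ x : K, a • x = 0) (i : K' →ₗ[R] K) (hi : Injective i) :
    Injective (i.lTensor B) := by
  have h1 : ∀ z : D ⊗[R] K', i.lTensor B (toB B K' z) = toB B K (i.lTensor D z) := by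
    intro z
    induction z using TensorProduct.induction_on with
    | zero => simp
    | tmul d x => rfl
    | add y z hy hz => simp only [map_add, hy, hz]
  rw [injective_iff_map_eq_zero]
  intro z hz
  obtain ⟨z, rfl⟩ := toB_surj H K' z
  rw [h1] at hz
  have h2 : i.lTensor D z = 0 := toB_inj H K hK (hz.trans (map_zero _).symm)
  have h3 : z = 0 := Module.Flat.lTensor_preserves_injective_linearMap (M := D) i hi
    (h2.trans (map_zero _).symm)
  rw [h3, map_zero]

/-- `B ⊗ P ≃ B ⊗ P/aP`. -/
theorem lTensor_bij (ha : algebraMap R B a = 0) {P P' : Type u} [AddCommGroup P] [Module R P]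
    [AddCommGroup P'] [Module R P'] (π : P →ₗ[R] P') (hπ : Surjective π)
    (hk : ∀ x, π x = 0 → ∃ y, x = a • y) : Bijective (π.lTensor B) := by
  refine ⟨?_, LinearMap.lTensor_surjective B hπ⟩
  rw [injective_iff_map_eq_zero]
  intro z hz
  have hex : Exact (LinearMap.ker π).subtype π := by
    rw [LinearMap.exact_iff, Submodule.range_subtype]
  obtain ⟨w, rfl⟩ := (lTensor_exact B hex hπ _).1 hz
  have h4 : ∀ w : B ⊗[R] (LinearMap.ker π), (LinearMap.ker π).subtype.lTensor B w = 0 := by
    intro w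
    induction w using TensorProduct.induction_on with
    | zero => simp
    | tmul b x =>
      obtain ⟨y, hy⟩ := hk x.1 x.2
      change b ⊗ₜ[R] (x.1) = 0
      rw [hy, TensorProduct.tmul_smul, TensorProduct.smul_tmul', Algebra.smul_def, ha, zero_mul,
        TensorProduct.zero_tmul]
    | add y z hy hz => rw [map_add, hy, hz, add_zero]
  exact h4 w

/-- the syzygy step over `B`. -/
theorem supply_step (H : IsHypersurface D B (algebraMap R D a)) [Module.Flat R D]
    [IsNoetherianRing R] (K : Type u) [AddCommGroup K] [Module R K] [Module.Finite R K]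
    (hK : ∀ x : K, a • x = 0) :
    ∃ (k : ℕ) (P' K' : Type u) (_ : AddCommGroup P') (_ : Module R P') (_ : AddCommGroup K')
      (_ : Module R K') (i : K' →ₗ[R] P') (g : P' →ₗ[R] K), Module.Finite R K' ∧
      (∀ x : K', a • x = 0) ∧ Injective i ∧ Surjective g ∧ Exact i g ∧
      (IsSMulRegular R a → ∀ (N : Type u) [AddCommGroup N] [Module R N] (j : ℕ), 2 ≤ j →
        Subsingleton (TorM R j P' N)) ∧
      ∃ f : (Fin k → B) →ₗ[B] B ⊗[R] K, Surjective f ∧
        Nonempty (B ⊗[R] K' ≃ₗ[B] LinearMap.ker f) := by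
  obtain ⟨k, g0, hg0⟩ := Module.Finite.exists_fin' R K
  let P := Fin k → R
  let P' := QuotSMulTop a P
  let π : P →ₗ[R] P' := Submodule.mkQ _
  have hπ : Surjective π := Submodule.mkQ_surjective _
  have hπ0 : ∀ x, π x = 0 → ∃ y, x = a • y := by
    intro x hx
    rw [Submodule.mkQ_apply, Submodule.Quotient.mk_eq_zero,
      Submodule.mem_smul_pointwise_iff_exists] at hx
    obtain ⟨y, -, hy⟩ := hx
    exact ⟨y, hy.symm⟩
  have hP' : ∀ x : P', a • x = 0 := by
    intro x
    obtain ⟨x, rfl⟩ := hπ x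
    rw [← map_smul, Submodule.mkQ_apply, Submodule.Quotient.mk_eq_zero,
      Submodule.mem_smul_pointwise_iff_exists]
    exact ⟨x, trivial, rfl⟩
  let g : P' →ₗ[R] K := Submodule.liftQ _ g0 (by
    intro x hx
    rw [Submodule.mem_smul_pointwise_iff_exists] at hx
    obtain ⟨y, -, rfl⟩ := hx
    rw [LinearMap.mem_ker, map_smul, hK])
  have hg : Surjective g := by
    intro x
    obtain ⟨y, rfl⟩ := hg0 x
    exact ⟨π y, rfl⟩
  have hfin : Module.Finite R P' := Module.Finite.of_surjective π hπ
  have hexg : Exact (LinearMap.ker g).subtype g := by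
    rw [LinearMap.exact_iff, Submodule.range_subtype]
  have hKk : ∀ x : LinearMap.ker g, a • x = 0 := fun x => Subtype.ext (hP' _)
  have haB : algebraMap R B a = 0 := by
    rw [IsScalarTower.algebraMap_apply R D B, H.algebraMap_f]
  let e1 : B ⊗[R] P ≃ₗ[B] B ⊗[R] P' :=
    LinearEquiv.ofBijective (AlgebraTensorModule.map LinearMap.id π)
      (lTensor_bij haB π hπ hπ0)
  let e : (Fin k → B) ≃ₗ[B] B ⊗[R] P' := (TensorProduct.piScalarRight R B B (Fin k)).symm ≪≫ₗ e1
  let gB : B ⊗[R] P' →ₗ[B] B ⊗[R] K := AlgebraTensorModule.map LinearMap.id g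
  have hgB : Surjective gB := LinearMap.lTensor_surjective B hg
  let iB : B ⊗[R] (LinearMap.ker g) →ₗ[B] B ⊗[R] P' :=
    AlgebraTensorModule.map LinearMap.id (LinearMap.ker g).subtype
  have hiB : Injective iB := lTensor_inj H hP' _ (Submodule.injective_subtype _)
  have hexB : ∀ z, gB z = 0 ↔ ∃ w, iB w = z := lTensor_exact B hexg hg
  refine ⟨k, P', LinearMap.ker g, inferInstance, inferInstance, inferInstance, inferInstance,
    (LinearMap.ker g).subtype, g, inferInstance, hKk, Submodule.injective_subtype _, hg, hexg,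
    ?_, gB ∘ₗ e.toLinearMap, hgB.comp e.surjective, ⟨?_⟩⟩
  · intro ha N _ _ j hj
    obtain ⟨j, rfl⟩ : ∃ i, j = i + 1 + 1 := ⟨j - 2, by omega⟩
    have hreg : IsSMulRegular P a := by
      intro x y hxy
      funext l
      exact ha (congrFun hxy l)
    exact tor_subsingleton_step P a hreg N (j + 1) (tor_subsingleton_of_flat _)
      (tor_subsingleton_of_flat _)
  · -- the kernel
    have h1 : ∀ w, e.symm (iB w) ∈ LinearMap.ker (gB ∘ₗ e.toLinearMap) := by
      intro w
      rw [LinearMap.mem_ker]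
      change gB (e (e.symm (iB w))) = 0
      rw [LinearEquiv.apply_symm_apply]
      exact (hexB _).2 ⟨w, rfl⟩
    refine LinearEquiv.ofBijective (LinearMap.codRestrict _ (e.symm.toLinearMap ∘ₗ iB) h1)
      ⟨?_, ?_⟩
    · intro x y hxy
      apply hiB
      apply e.symm.injective
      exact congrArg Subtype.val hxy
    · rintro ⟨z, hz⟩
      obtain ⟨w, hw⟩ := (hexB _).1 hz
      refine ⟨w, Subtype.ext ?_⟩
      change e.symm (iB w) = z
      rw [hw]
      exact e.symm_apply_apply z

/-- (S2) -/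
theorem supply_fpn (H : IsHypersurface D B (algebraMap R D a)) [Module.Flat R D]
    [IsNoetherianRing R] (n : ℕ) (K : Type u) [AddCommGroup K] [Module R K] [Module.Finite R K]
    (hK : ∀ x : K, a • x = 0) : FPn B n (B ⊗[R] K) := by
  induction n generalizing K with
  | zero =>
    obtain ⟨k, P', K', _, _, _, _, i, g, hfin, hK', hi, hg, hex, -, f, hf, -⟩ :=
      supply_step H K hK
    exact ⟨k, f, hf⟩
  | succ n ih =>
    obtain ⟨k, P', K', _, _, _, _, i, g, hfin, hK', hi, hg, hex, -, f, hf, ⟨e⟩⟩ :=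
      supply_step H K hK
    exact ⟨k, f, hf, (ih K' hK').congr e⟩

/-- the case `n = 0` of (S3). -/
theorem supply_mf (H : IsHypersurface D B (algebraMap R D a)) [Module.Flat R D]
    [IsNoetherianRing R] (K : Type u) [AddCommGroup K] [Module R K] [Module.Finite R K]
    (hK : ∀ x : K, a • x = 0)
    (hT : ∀ j, 2 ≤ j → ∀ I : Ideal R, Subsingleton (TorM R j K (R ⧸ I))) :
    MF D (B ⊗[R] K) := by
  obtain ⟨k, g, hg⟩ := Module.Finite.exists_fin' R K
  have hex : Exact (LinearMap.ker g).subtype g := by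
    rw [LinearMap.exact_iff, Submodule.range_subtype]
  have hflat : Module.Flat R (LinearMap.ker g) := by
    refine flat_of_tor_one _ fun I => tor_symm_subsingleton _ _ _ ?_
    obtain ⟨e⟩ := tor_shift (LinearMap.ker g).subtype g (Submodule.injective_subtype _) hg hex
      (R ⧸ I) 0
    have h1 := hT 2 le_rfl I
    exact e.symm.toEquiv.subsingleton
  obtain ⟨l, q1, hq1⟩ := Module.Finite.exists_fin' R (LinearMap.ker g)
  have hfree : ∀ (m : ℕ) (Q : Type u) [AddCommGroup Q] [Module R Q] (q : (Fin m → R) →ₗ[R] Q),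
      Surjective q → FPn D 0 (D ⊗[R] Q) := by
    intro m Q _ _ q hq
    refine ⟨m, (AlgebraTensorModule.map LinearMap.id q) ∘ₗ
      (TensorProduct.piScalarRight R D D (Fin m)).symm.toLinearMap, ?_⟩
    exact (LinearMap.lTensor_surjective D hq).comp (LinearEquiv.surjective _)
  refine MF.congr (D := D) (A := D ⊗[R] K) ?_
    (LinearEquiv.ofBijective (toB B K) ⟨toB_inj H K hK, toB_surj H K⟩)
  refine ⟨D ⊗[R] (LinearMap.ker g), D ⊗[R] (Fin k → R), inferInstance, inferInstance,
    inferInstance, inferInstance, AlgebraTensorModule.map LinearMap.id (LinearMap.ker g).subtype,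
    AlgebraTensorModule.map LinearMap.id g, inferInstance, inferInstance, hfree l _ q1 hq1,
    hfree k _ LinearMap.id surjective_id, ?_, LinearMap.lTensor_surjective D hg,
    lTensor_exact D hex hg⟩
  exact Module.Flat.lTensor_preserves_injective_linearMap (M := D) _
    (Submodule.injective_subtype _)

/-- (S3) -/
theorem supply_vn (H : IsHypersurface D B (algebraMap R D a)) [Module.Flat R D]
    [IsNoetherianRing R] (ha : IsSMulRegular R a) (n : ℕ) (K : Type u) [AddCommGroup K]
    [Module R K] [Module.Finite R K] (hK : ∀ x : K, a • x = 0)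
    (hT : ∀ j, n + 2 ≤ j → ∀ I : Ideal R, Subsingleton (TorM R j K (R ⧸ I))) :
    Vn D B n (B ⊗[R] K) := by
  induction n generalizing K with
  | zero => exact supply_mf H K hK hT
  | succ n ih =>
    obtain ⟨k, P', K', _, _, _, _, i, g, hfin, hK', hi, hg, hex, hP, f, hf, ⟨e⟩⟩ :=
      supply_step H K hK
    refine ⟨k, f, hf, (ih K' hK' ?_).congr e⟩
    intro j hj I
    obtain ⟨δ, -, h2, -⟩ := exists_torDelta i g hi hg hex (R ⧸ I)
    have h3 : Subsingleton (TorM R j P' (R ⧸ I)) := hP ha (R ⧸ I) j (by omega)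
    have h4 := hT (j + 1) (by omega) I
    refine subsingleton_of_forall_eq 0 fun x => ?_
    obtain ⟨y, rfl⟩ := (h2 j x).1 (Subsingleton.elim _ _)
    rw [Subsingleton.elim y 0, map_zero]

/-- (S4) -/
theorem supply_vn_regular [IsRegularLocalRing R] (H : IsHypersurface D B (algebraMap R D a))
    [Module.Flat R D] (ha : IsSMulRegular R a) (d n : ℕ) (hd : ringKrullDim R = d)
    (hn : d ≤ n + 1) (K : Type u) [AddCommGroup K]
    [Module R K] [Module.Finite R K] (hK : ∀ x : K, a • x = 0) :
    Vn D B n (B ⊗[R] K) :=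
  supply_vn H ha n K hK fun j hj I => regular_tor_vanish R d hd K (R ⧸ I) j (by omega)

end Supply

end Vale.Agent.P177.TH
end

section

/-!
# Change of the flat base ring in Tor (block GC of P177, Nat/Glue)

`S → B → B'`, `B` and `B'` flat over `S`, `N` a `B'`-module:
`Tor^B(B ⊗ K, N) = Tor^{B'}(B' ⊗ K, N)` as `B`-modules.
-/

namespace Vale.Agent.P177

open TensorProduct Function Vale.Agent.P202.Mix

universe u

set_option linter.all false

section

variable {S B B' : Type u} [CommRing S] [CommRing B] [CommRing B'] [Algebra S B] [Algebra S B']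
  [Algebra B B'] [IsScalarTower S B B']

theorem exists_tor_bc₂ [Module.Flat S B] [Module.Flat S B'] (n : ℕ) {K X X' : Type u}
    [AddCommGroup K] [Module S K]
    [AddCommGroup X] [Module S X] [Module B X] [IsScalarTower S B X]
    [AddCommGroup X'] [Module S X'] [Module B' X'] [IsScalarTower S B' X']
    {φ : K →ₗ[S] X} (hφ : IsBaseChange B φ) {φ' : K →ₗ[S] X'} (hφ' : IsBaseChange B' φ')
    (N : Type u) [AddCommGroup N] [Module S N] [Module B N] [Module B' N]
    [IsScalarTower S B N] [IsScalarTower S B' N] [IsScalarTower B B' N] :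
    ∃ e : TorM B n X N ≃+ TorM B' n X' N, ∀ (b : B) (x : TorM B n X N),
      e (b • x) = algebraMap B B' b • e x := by
  have hsm : ∀ (K : Type u) [AddCommGroup K] [Module S K] (b : B) (z : N ⊗[S] K),
      b • z = algebraMap B B' b • z := by
    intro K _ _ b z
    induction z using TensorProduct.induction_on with
    | zero => rw [smul_zero, smul_zero]
    | tmul x y => rw [TensorProduct.smul_tmul', TensorProduct.smul_tmul', algebraMap_smul]
    | add x y hx hy => rw [smul_add, smul_add, hx, hy]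
  induction n generalizing K X X' with
  | zero =>
    obtain ⟨eX, -⟩ := exists_cancel hφ N
    obtain ⟨eX', -⟩ := exists_cancel hφ' N
    let e1 : TorM B 0 X N ≃ₗ[B] N ⊗[S] K := torZero X N ≪≫ₗ TensorProduct.comm B X N ≪≫ₗ eX
    let e2 : TorM B' 0 X' N ≃ₗ[B'] N ⊗[S] K :=
      torZero X' N ≪≫ₗ TensorProduct.comm B' X' N ≪≫ₗ eX'
    refine ⟨e1.toAddEquiv.trans e2.symm.toAddEquiv, fun b x => ?_⟩
    change e2.symm (e1 (b • x)) = algebraMap B B' b • e2.symm (e1 x)
    rw [map_smul, hsm, map_smul]
  | succ n ih =>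
    obtain ⟨F, K1, _, _, _, _, i, g, hF, hi, hg, h⟩ := exists_cover S K
    obtain ⟨Y, _, _, _, _, ψ, hψ⟩ := exists_baseChange (R := S) B F
    obtain ⟨X1, _, _, _, _, φ1, hφ1⟩ := exists_baseChange (R := S) B K1
    obtain ⟨Y', _, _, _, _, ψ', hψ'⟩ := exists_baseChange (R := S) B' F
    obtain ⟨X1', _, _, _, _, φ1', hφ1'⟩ := exists_baseChange (R := S) B' K1
    let j : X1 →ₗ[B] Y := hφ1.lift (ψ ∘ₗ i)
    have hj : ∀ k, j (φ1 k) = ψ (i k) := fun k => hφ1.lift_eq _ k
    let q : Y →ₗ[B] X := hψ.lift (φ ∘ₗ g)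
    have hq : ∀ y, q (ψ y) = φ (g y) := fun y => hψ.lift_eq _ y
    have hjinj : Injective j := bc_injective hφ1 hψ i j hj hi
    have hqs : Surjective q := bc_surjective hψ hφ g q hq hg
    have hex : Exact j q := bc_exact hφ1 hψ hφ i j hj g q hq hg h
    have hYflat : Module.Flat B Y := Module.Flat.isBaseChange S B F Y hψ
    let j' : X1' →ₗ[B'] Y' := hφ1'.lift (ψ' ∘ₗ i)
    have hj' : ∀ k, j' (φ1' k) = ψ' (i k) := fun k => hφ1'.lift_eq _ k
    let q' : Y' →ₗ[B'] X' := hψ'.lift (φ' ∘ₗ g)
    have hq' : ∀ y, q' (ψ' y) = φ' (g y) := fun y => hψ'.lift_eq _ y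
    have hjinj' : Injective j' := bc_injective hφ1' hψ' i j' hj' hi
    have hqs' : Surjective q' := bc_surjective hψ' hφ' g q' hq' hg
    have hex' : Exact j' q' := bc_exact hφ1' hψ' hφ' i j' hj' g q' hq' hg h
    have hYflat' : Module.Flat B' Y' := Module.Flat.isBaseChange S B' F Y' hψ'
    cases n with
    | zero =>
      obtain ⟨e1⟩ := tor_one j q hjinj hqs hex N
      obtain ⟨e2⟩ := tor_one j' q' hjinj' hqs' hex' N
      obtain ⟨θ, hθ, ⟨e3⟩⟩ := exists_ker_bc hφ1 hψ i j hj N
      obtain ⟨θ', hθ', ⟨e4⟩⟩ := exists_ker_bc hφ1' hψ' i j' hj' N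
      let e5 : LinearMap.ker θ ≃+ LinearMap.ker θ' :=
        { toFun := fun x => ⟨x.1, by
            have := x.2
            rw [LinearMap.mem_ker, hθ] at this
            rw [LinearMap.mem_ker, hθ']
            exact this⟩
          invFun := fun x => ⟨x.1, by
            have := x.2
            rw [LinearMap.mem_ker, hθ'] at this
            rw [LinearMap.mem_ker, hθ]
            exact this⟩
          left_inv := fun x => rfl
          right_inv := fun x => rfl
          map_add' := fun x y => rfl }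
      let f1 : TorM B 1 X N ≃ₗ[B] LinearMap.ker θ := e1 ≪≫ₗ e3.symm
      let f2 : TorM B' 1 X' N ≃ₗ[B'] LinearMap.ker θ' := e2 ≪≫ₗ e4.symm
      refine ⟨(f1.toAddEquiv.trans e5).trans f2.symm.toAddEquiv, fun b x => ?_⟩
      change f2.symm (e5 (f1 (b • x))) = algebraMap B B' b • f2.symm (e5 (f1 x))
      rw [map_smul]
      have h5 : e5 (b • f1 x) = algebraMap B B' b • e5 (f1 x) := Subtype.ext (hsm K1 b _)
      rw [h5, map_smul]
    | succ n =>
      obtain ⟨e1⟩ := tor_shift j q hjinj hqs hex N n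
      obtain ⟨e2⟩ := tor_shift j' q' hjinj' hqs' hex' N n
      obtain ⟨e3, he3⟩ := ih hφ1 hφ1'
      refine ⟨(e1.toAddEquiv.trans e3).trans e2.symm.toAddEquiv, fun b x => ?_⟩
      change e2.symm (e3 (e1 (b • x))) = algebraMap B B' b • e2.symm (e3 (e1 x))
      rw [map_smul, he3, map_smul]

/-- The lengths of Tor over two flat base rings. -/
theorem len_tor_bc₂ [Module.Flat S B] [Module.Flat S B'] (L : AddLen B) (n : ℕ) {K X X' : Type u}
    [AddCommGroup K] [Module S K]
    [AddCommGroup X] [Module S X] [Module B X] [IsScalarTower S B X]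
    [AddCommGroup X'] [Module S X'] [Module B' X'] [IsScalarTower S B' X']
    {φ : K →ₗ[S] X} (hφ : IsBaseChange B φ) {φ' : K →ₗ[S] X'} (hφ' : IsBaseChange B' φ')
    (N : Type u) [AddCommGroup N] [Module S N] [Module B N] [Module B' N]
    [IsScalarTower S B N] [IsScalarTower S B' N] [IsScalarTower B B' N] :
    L.len (TorM B n X N) = (L.restrict (algebraMap B B')).len (TorM B' n X' N) := by
  obtain ⟨e, he⟩ := exists_tor_bc₂ n hφ hφ' N
  letI : Module B (TorM B' n X' N) := Module.compHom _ (algebraMap B B')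
  let e' : TorM B n X N ≃ₗ[B] TorM B' n X' N :=
    { e with map_smul' := fun b x => he b x }
  exact len_congr L e'

/-- The same with the big module in the first place. -/
theorem len_tor_bc₂' [Module.Flat S B] [Module.Flat S B'] (L : AddLen B) (n : ℕ) (K : Type u)
    [AddCommGroup K] [Module S K]
    (N : Type u) [AddCommGroup N] [Module S N] [Module B N] [Module B' N]
    [IsScalarTower S B N] [IsScalarTower S B' N] [IsScalarTower B B' N] :
    L.len (TorM B n N (B ⊗[S] K)) =
      (L.restrict (algebraMap B B')).len (TorM B' n N (B' ⊗[S] K)) := by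
  obtain ⟨e1⟩ := tor_symm n N (B ⊗[S] K) (R := B)
  obtain ⟨e2⟩ := tor_symm n N (B' ⊗[S] K) (R := B')
  rw [len_congr L e1, len_congr (L.restrict (algebraMap B B')) e2]
  exact len_tor_bc₂ L n (TensorProduct.isBaseChange S K B) (TensorProduct.isBaseChange S K B') N

end

end Vale.Agent.P177
end

section

/-!
# The honest modules `H = WI J' / E' WI J'` with their module structures (P177)

`Φ : S → R` surjective with kernel `(E)`, `ψ : S → W(C')`, `F : V → W(C')` (`V = W(C)` or
`V = W(C')`).  `R ⊗ V` acts on `H` through `R ⊗ V → W(C') / ψ E`.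
-/

namespace Vale.Agent.P177.NatG

open Vale.Agent.P177.PI Vale.Agent.P177.NatC WittVector TensorProduct Function
  Vale.Agent.P202.Mix

set_option linter.all false

universe u

section rho

variable {S R W' V : Type u} [CommRing S] [CommRing R] [CommRing W'] [CommRing V]

/-- `R = S / E → W' / ψ E`. -/
noncomputable def rhoR (Φ : S →+* R) (hΦ : Surjective Φ) (E : S)
    (hE : RingHom.ker Φ = Ideal.span {E}) (ψ : S →+* W') : R →+* W' ⧸ Ideal.span {ψ E} :=
  RingHom.liftOfSurjective Φ hΦ ⟨(Ideal.Quotient.mk (Ideal.span {ψ E})).comp ψ, by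
    rw [hE, Ideal.span_singleton_le_iff_mem, RingHom.mem_ker, RingHom.comp_apply,
      Ideal.Quotient.eq_zero_iff_mem]
    exact Ideal.mem_span_singleton_self _⟩

theorem rhoR_apply (Φ : S →+* R) (hΦ : Surjective Φ) (E : S)
    (hE : RingHom.ker Φ = Ideal.span {E}) (ψ : S →+* W') (s : S) :
    rhoR Φ hΦ E hE ψ (Φ s) = Ideal.Quotient.mk _ (ψ s) :=
  RingHom.liftOfRightInverse_comp_apply _ _ _ _ s

/-- `R ⊗ V → W' / ψ E`. -/
noncomputable def rhoD (Φ : S →+* R) (hΦ : Surjective Φ) (E : S)
    (hE : RingHom.ker Φ = Ideal.span {E}) (ψ : S →+* W') (F : V →+* W') :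
    R ⊗[ℤ] V →+* W' ⧸ Ideal.span {ψ E} :=
  (Algebra.TensorProduct.productMap (rhoR Φ hΦ E hE ψ).toIntAlgHom
    ((Ideal.Quotient.mk (Ideal.span {ψ E})).comp F).toIntAlgHom).toRingHom

theorem rhoD_tmul (Φ : S →+* R) (hΦ : Surjective Φ) (E : S)
    (hE : RingHom.ker Φ = Ideal.span {E}) (ψ : S →+* W') (F : V →+* W') (r : R) (v : V) :
    rhoD Φ hΦ E hE ψ F (r ⊗ₜ v) = rhoR Φ hΦ E hE ψ r * Ideal.Quotient.mk _ (F v) := by
  unfold rhoD
  change (Algebra.TensorProduct.productMap (rhoR Φ hΦ E hE ψ).toIntAlgHom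
    ((Ideal.Quotient.mk (Ideal.span {ψ E})).comp F).toIntAlgHom) (r ⊗ₜ v) = _
  rw [Algebra.TensorProduct.productMap_apply_tmul]
  rfl

theorem rhoD_left (Φ : S →+* R) (hΦ : Surjective Φ) (E : S)
    (hE : RingHom.ker Φ = Ideal.span {E}) (ψ : S →+* W') (F : V →+* W') (s : S) :
    rhoD Φ hΦ E hE ψ F ((Φ s) ⊗ₜ 1) = Ideal.Quotient.mk _ (ψ s) := by
  rw [rhoD_tmul, rhoR_apply, map_one, map_one, mul_one]

theorem rhoD_right (Φ : S →+* R) (hΦ : Surjective Φ) (E : S)
    (hE : RingHom.ker Φ = Ideal.span {E}) (ψ : S →+* W') (F : V →+* W') (v : V) :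
    rhoD Φ hΦ E hE ψ F (1 ⊗ₜ v) = Ideal.Quotient.mk _ (F v) := by
  rw [rhoD_tmul, map_one, one_mul]

end rho

section HMod

variable (p : ℕ) [hp : Fact p.Prime] {C' : Type u} [CommRing C'] {D : Type u} [CommRing D]

/-- the honest module of `J'`, on which `D` acts through `ρ : D → W(C') / E'`. -/
def HMod (J' : Ideal C') (E' : WittVector p C') (ρ : D →+* WittVector p C' ⧸ Ideal.span {E'}) :
    Type u := HM p J' E'

variable {p} (J' : Ideal C') (E' : WittVector p C')
  (ρ : D →+* WittVector p C' ⧸ Ideal.span {E'})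

noncomputable instance : AddCommGroup (HMod p J' E' ρ) := inferInstanceAs (AddCommGroup (HM p J' E'))

noncomputable instance : Module (WittVector p C') (HMod p J' E' ρ) :=
  inferInstanceAs (Module (WittVector p C') (HM p J' E'))

noncomputable instance : Module D (HMod p J' E' ρ) :=
  Module.compHom (HM p J' E') ρ

variable {J' E' ρ}

theorem hmod_smul (d : D) (w : WittVector p C') (h : ρ d = Ideal.Quotient.mk _ w)
    (x : HMod p J' E' ρ) : d • x = w • x := by
  obtain ⟨y, rfl⟩ := Submodule.Quotient.mk_surjective _ x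
  change ρ d • (Submodule.Quotient.mk y : HM p J' E') = w • (Submodule.Quotient.mk y : HM p J' E')
  rw [h]
  rfl

/-- the class of an element of `WI J'`. -/
noncomputable def hcl (ρ : D →+* WittVector p C' ⧸ Ideal.span {E'}) (x : WI p J') : HMod p J' E' ρ :=
  (Submodule.Quotient.mk x : HM p J' E')

theorem hcl_surj (y : HMod p J' E' ρ) : ∃ x, hcl ρ x = y := Submodule.Quotient.mk_surjective _ y

theorem hcl_eq_zero (x : WI p J') : hcl ρ x = 0 ↔ ∃ y ∈ WI p J', (x : WittVector p C') = E' * y :=
  hm_mk_eq_zero x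

theorem hcl_smul (w : WittVector p C') (x : WI p J') : hcl ρ (w • x) = w • hcl ρ x := rfl

variable {D' : Type u} [CommRing D'] [Algebra D D']

/-- the same module over two rings. -/
noncomputable def hmodEquiv (ρ' : D' →+* WittVector p C' ⧸ Ideal.span {E'})
    (hρ : ∀ d, ρ d = ρ' (algebraMap D D' d)) :
    HMod p J' E' ρ ≃+ HMod p J' E' ρ' := AddEquiv.refl _

theorem hmodEquiv_smul (ρ' : D' →+* WittVector p C' ⧸ Ideal.span {E'})
    (hρ : ∀ d, ρ d = ρ' (algebraMap D D' d)) (d : D) (x : HMod p J' E' ρ) :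
    hmodEquiv ρ' hρ (d • x) = algebraMap D D' d • hmodEquiv ρ' hρ x := by
  obtain ⟨w, hw⟩ := Ideal.Quotient.mk_surjective (ρ d)
  rw [hmod_smul d w hw.symm]
  rw [hmod_smul (algebraMap D D' d) w (by rw [← hρ, hw])]
  rfl

/-- **Tor of the honest module over two rings flat over `R`.** -/
theorem len_tor_hmod {R : Type u} [CommRing R] [Algebra R D] [Algebra R D'] [IsScalarTower R D D']
    [Module.Flat R D] [Module.Flat R D'] (L : AddLen D)
    (ρ' : D' →+* WittVector p C' ⧸ Ideal.span {E'}) (hρ : ∀ d, ρ d = ρ' (algebraMap D D' d))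
    (n : ℕ) (K : Type u) [AddCommGroup K] [Module R K] :
    L.len (TorM D n (HMod p J' E' ρ) (D ⊗[R] K)) =
      (L.restrict (algebraMap D D')).len (TorM D' n (HMod p J' E' ρ') (D' ⊗[R] K)) := by
  let iD : Module D (HMod p J' E' ρ') := Module.compHom _ (algebraMap D D')
  let iR : Module R (HMod p J' E' ρ') := Module.compHom _ (algebraMap R D')
  have h1 : IsScalarTower D D' (HMod p J' E' ρ') := IsScalarTower.of_algebraMap_smul fun _ _ => rfl
  have h2 : IsScalarTower R D' (HMod p J' E' ρ') := IsScalarTower.of_algebraMap_smul fun _ _ => rfl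
  have h3 : IsScalarTower R D (HMod p J' E' ρ') := IsScalarTower.of_algebraMap_smul fun r x => by
    change algebraMap D D' (algebraMap R D r) • x = algebraMap R D' r • x
    rw [← IsScalarTower.algebraMap_apply R D D']
  let e : HMod p J' E' ρ ≃ₗ[D] HMod p J' E' ρ' :=
    { hmodEquiv ρ' hρ with map_smul' := fun d x => hmodEquiv_smul ρ' hρ d x }
  rw [len_congr L (torCongrLeft n e (D ⊗[R] K))]
  exact len_tor_bc₂' L n K (HMod p J' E' ρ')

end HMod

end Vale.Agent.P177.NatG
end

section

/-!
Lengths of the Tor modules `Tor^D(D ⊗_S N, X)` for an additive length over a flat algebra `D / S`.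
-/

namespace Vale.Agent.P177.SL

open Vale.Agent.P202.Mix Function TensorProduct
open scoped ENNReal

universe u

section

variable (S D : Type u) [CommRing S] [CommRing D] [Algebra S D]

/-- the Tor modules of the base change of `N` with `X`. -/
noncomputable abbrev TT (i : ℕ) (N : Type u) [AddCommGroup N] [Module S N] (X : Type u)
    [AddCommGroup X] [Module D X] : ModuleCat.{u} D := TorM D i (D ⊗[S] N) X

variable {D}

/-- the lengths of the Tor modules. -/
noncomputable def tau (L : AddLen D) (i : ℕ) (N : Type u) [AddCommGroup N] [Module S N]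
    (X : Type u) [AddCommGroup X] [Module D X] : ℝ≥0∞ := L.len (TT S D i N X)

end

section

variable {S D : Type u} [CommRing S] [CommRing D] [Algebra S D] (L : AddLen D)
  {N N' N'' K : Type u} [AddCommGroup N] [Module S N] [AddCommGroup N'] [Module S N']
  [AddCommGroup N''] [Module S N''] [AddCommGroup K] [Module S K]
  {X X' X'' : Type u} [AddCommGroup X] [Module D X] [AddCommGroup X'] [Module D X']
  [AddCommGroup X''] [Module D X'']

variable (D X) in
/-- functoriality in the first variable. -/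
noncomputable def ttMap (i : ℕ) (f : N →ₗ[S] N') : TT S D i N X →ₗ[D] TT S D i N' X :=
  torMap i (f.baseChange D) X

theorem ttMap_comp (i : ℕ) (f : N →ₗ[S] N') (g : N' →ₗ[S] N'') (x : TT S D i N X) :
    ttMap D X i (g ∘ₗ f) x = ttMap D X i g (ttMap D X i f x) := by
  rw [ttMap, LinearMap.baseChange_comp, torMap_comp]
  rfl

theorem ttMap_smul (i : ℕ) (s : S) (f : N →ₗ[S] N) (hf : ∀ n, f n = s • n)
    (x : TT S D i N X) : ttMap D X i f x = algebraMap S D s • x :=
  torMap_smul_id i (algebraMap S D s) _ (baseChange_smul_eq s f hf) x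

theorem exists_ttDelta [Module.Flat S D] (f : N' →ₗ[S] N) (g : N →ₗ[S] N'') (hf : Injective f)
    (hg : Surjective g) (h : Exact f g) (X : Type u) [AddCommGroup X] [Module D X] :
    ∃ δ : ∀ n, TT S D (n + 1) N'' X →ₗ[D] TT S D n N' X,
      (∀ n, Exact (ttMap D X (n + 1) g) (δ n)) ∧
      (∀ n, Exact (δ n) (ttMap D X n f)) ∧
      (∀ n, Exact (ttMap D X n f) (ttMap D X n g)) := by
  obtain ⟨k1, k2, k3⟩ := baseChange_ses (B := D) f g hf hg h
  exact exists_torDelta _ _ k1 k2 k3 X

theorem tau_congr (i : ℕ) (e : N ≃ₗ[S] N') : tau S L i N X = tau S L i N' X :=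
  len_congr L (torCongrLeft i (e.baseChange S D _ _) X)

variable (N) in
theorem tt_subsingleton (i : ℕ) [Subsingleton N] : Subsingleton (TT S D i N X) := by
  have : Subsingleton (D ⊗[S] N) := inferInstance
  have h1 := tor_smul_eq_zero_left (R := D) (M := D ⊗[S] N) 1 (fun m => Subsingleton.elim _ _) i X
  exact ⟨fun x y => by rw [← one_smul D x, ← one_smul D y, h1, h1]⟩

theorem tau_subsingleton (i : ℕ) [Subsingleton N] : tau S L i N X = 0 := by
  have := tt_subsingleton (S := S) (D := D) (X := X) N i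
  exact len_subsingleton L

variable (X) in
theorem tau_le [Module.Flat S D] (i : ℕ) (f : N' →ₗ[S] N) (g : N →ₗ[S] N'') (hf : Injective f)
    (hg : Surjective g) (h : Exact f g) : tau S L i N X ≤ tau S L i N' X + tau S L i N'' X := by
  obtain ⟨δ, -, -, h3⟩ := exists_ttDelta (D := D) f g hf hg h X
  exact len_le_of_exact L _ _ (h3 i)

variable (X) in
/-- the step for the positivity: the endomorphism `f` factors through `K`. -/
theorem tau_factor [Module.Flat S D] (i : ℕ) (f : N →ₗ[S] N) (g : N →ₗ[S] N'')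
    (hf : Injective f) (hg : Surjective g) (h : Exact f g)
    (a : N →ₗ[S] K) (b : K →ₗ[S] N) (hab : ∀ n, b (a n) = f n) :
    tau S L i N X ≤ tau S L i K X + tau S L i N'' X := by
  obtain ⟨δ, -, -, h3⟩ := exists_ttDelta (D := D) f g hf hg h X
  have h1 := len_eq_of_exact L _ _ (h3 i)
  have h2 : L.len (LinearMap.range (ttMap D X i f)) ≤ L.len (LinearMap.range (ttMap D X i b)) := by
    apply Vale.Agent.P177.SL.len_mono
    rintro _ ⟨y, rfl⟩
    refine ⟨ttMap D X i a y, ?_⟩
    rw [← ttMap_comp]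
    congr 1
    have : b ∘ₗ a = f := by
      ext n
      rw [← hab]
      rfl
    rw [this]
  rw [tau, h1]
  exact add_le_add (h2.trans (len_range_le L _)) (len_range_le' L _)

end

end Vale.Agent.P177.SL
end

section

/-!
The Euler characteristic for an additive length.
-/

namespace Vale.Agent.P177.SL

open Vale.Agent.P202.Mix Function TensorProduct
open scoped ENNReal

universe u

/-- the truncated Euler characteristic of the Tor modules. -/
noncomputable def chi (S : Type u) {D : Type u} [CommRing S] [CommRing D] [Algebra S D]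
    (L : AddLen D) (n : ℕ) (N : Type u) [AddCommGroup N] [Module S N]
    (X : Type u) [AddCommGroup X] [Module D X] : ℝ :=
  ∑ i ∈ Finset.range n, (-1 : ℝ) ^ i * (tau S L i N X).toReal

variable {S D : Type u} [CommRing S] [CommRing D] [Algebra S D] (L : AddLen D)
  {N N' N'' K : Type u} [AddCommGroup N] [Module S N] [AddCommGroup N'] [Module S N']
  [AddCommGroup N''] [Module S N''] [AddCommGroup K] [Module S K]
  {X X' X'' : Type u} [AddCommGroup X] [Module D X] [AddCommGroup X'] [Module D X']
  [AddCommGroup X''] [Module D X'']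

theorem chi_congr (n : ℕ) (e : N ≃ₗ[S] N') : chi S L n N X = chi S L n N' X :=
  Finset.sum_congr rfl fun i _ => by rw [tau_congr L i e]

theorem chi_subsingleton (n : ℕ) [Subsingleton N] : chi S L n N X = 0 :=
  Finset.sum_eq_zero fun i _ => by rw [tau_subsingleton L i]; simp

theorem chi_add [Module.Flat S D] (f : N' →ₗ[S] N) (g : N →ₗ[S] N'') (hf : Injective f)
    (hg : Surjective g) (h : Exact f g) (h1 : ∀ i, tau S L i N' X ≠ ⊤)
    (h2 : ∀ i, tau S L i N X ≠ ⊤) (n : ℕ) (hn : tau S L n N'' X = 0) :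
    chi S L n N X = chi S L n N' X + chi S L n N'' X := by
  obtain ⟨δ, k1, k2, k3⟩ := exists_ttDelta (D := D) f g hf hg h X
  let a : ℕ → ℝ≥0∞ := fun i => L.len (LinearMap.range (δ i))
  let b : ℕ → ℝ≥0∞ := fun i => L.len (LinearMap.range (ttMap D X i f))
  let c : ℕ → ℝ≥0∞ := fun i => L.len (LinearMap.range (ttMap D X i g))
  have l1 : ∀ i, tau S L i N' X = a i + b i := fun i => len_eq_of_exact L _ _ (k2 i)
  have l2 : ∀ i, tau S L i N X = b i + c i := fun i => len_eq_of_exact L _ _ (k3 i)
  have l3 : ∀ i, tau S L (i + 1) N'' X = c (i + 1) + a i := fun i => len_eq_of_exact L _ _ (k1 i)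
  have l4 : tau S L 0 N'' X = c 0 := by
    have hs : Surjective (ttMap D X 0 g) := torMap_zero_surjective _
      (baseChange_ses (B := D) f g hf hg h).2.1 X
    exact len_congr L (LinearEquiv.ofTop _ (LinearMap.range_eq_top.2 hs)).symm
  have f1 : ∀ i, a i ≠ ⊤ := fun i hi => h1 i (by rw [l1, hi, top_add])
  have f2 : ∀ i, b i ≠ ⊤ := fun i hi => h1 i (by rw [l1, hi, add_top])
  have f3 : ∀ i, c i ≠ ⊤ := fun i hi => h2 i (by rw [l2, hi, add_top])
  have m1 : ∀ i, (tau S L i N' X).toReal = (a i).toReal + (b i).toReal := fun i => by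
    rw [l1, ENNReal.toReal_add (f1 i) (f2 i)]
  have m2 : ∀ i, (tau S L i N X).toReal = (b i).toReal + (c i).toReal := fun i => by
    rw [l2, ENNReal.toReal_add (f2 i) (f3 i)]
  have m3 : ∀ i, (tau S L (i + 1) N'' X).toReal = (c (i + 1)).toReal + (a i).toReal := fun i => by
    rw [l3, ENNReal.toReal_add (f3 _) (f1 i)]
  have key : ∀ n, chi S L (n + 1) N' X + chi S L (n + 1) N'' X - chi S L (n + 1) N X =
      (-1) ^ n * (a n).toReal := by
    intro n
    unfold chi
    induction n with
    | zero =>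
      simp only [zero_add, Finset.sum_range_one, pow_zero, one_mul]
      rw [m1, m2, l4]
      ring
    | succ n ih =>
      rw [Finset.sum_range_succ, Finset.sum_range_succ _ (n + 1), Finset.sum_range_succ _ (n + 1)]
      rw [m1, m2, m3, pow_succ]
      linear_combination ih
  cases n with
  | zero => simp [chi]
  | succ n =>
    have h5 : a n = 0 := by
      have h6 := l3 n
      rw [hn] at h6
      exact (add_eq_zero.1 h6.symm).2
    have h7 := key n
    rw [h5, ENNReal.toReal_zero, mul_zero] at h7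
    linarith

/-- the Euler characteristic is at most the sum of the lengths. -/
theorem abs_chi_le (n : ℕ) : |chi S L n N X| ≤ ∑ i ∈ Finset.range n, (tau S L i N X).toReal := by
  refine (Finset.abs_sum_le_sum_abs _ _).trans (Finset.sum_le_sum fun i _ => ?_)
  rw [abs_mul, abs_pow, abs_neg, abs_one, one_pow, one_mul, abs_of_nonneg ENNReal.toReal_nonneg]

theorem le_chi (n : ℕ) : (tau S L 0 N X).toReal -
    ∑ i ∈ Finset.range n, (tau S L (i + 1) N X).toReal ≤ chi S L (n + 1) N X := by
  unfold chi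
  rw [Finset.sum_range_succ']
  have h1 : - ∑ i ∈ Finset.range n, (tau S L (i + 1) N X).toReal ≤
      ∑ i ∈ Finset.range n, (-1 : ℝ) ^ (i + 1) * (tau S L (i + 1) N X).toReal := by
    rw [← Finset.sum_neg_distrib]
    refine Finset.sum_le_sum fun i _ => ?_
    rw [← neg_one_mul]
    refine mul_le_mul_of_nonneg_right ?_ ENNReal.toReal_nonneg
    rcases neg_one_pow_eq_or ℝ (i + 1) with h | h <;> rw [h] <;> norm_num
  simp only [pow_zero, one_mul]
  linarith

end Vale.Agent.P177.SL
end

section

/-!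
Additivity of the Tor maps.
-/

namespace Vale.Agent.P177.SL

open CategoryTheory MonoidalCategory Limits TensorProduct Function

universe u

variable {R : Type u} [CommRing R]

theorem tensorComplex_map_add (K : ChainComplex (ModuleCat.{u} R) ℕ) {M M' : ModuleCat.{u} R}
    (f g : M ⟶ M') : (tensorComplex R K).map (f + g) =
      (tensorComplex R K).map f + (tensorComplex R K).map g := by
  ext i : 1
  rw [HomologicalComplex.add_f_apply, tensorComplex_map_f, tensorComplex_map_f,
    tensorComplex_map_f]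
  exact MonoidalPreadditive.add_whiskerRight f g

variable {M M' N : Type u} [AddCommGroup M] [Module R M] [AddCommGroup M'] [Module R M']
  [AddCommGroup N] [Module R N]

theorem torMap_add (n : ℕ) (f g : M →ₗ[R] M') :
    torMap n (f + g) N = torMap n f N + torMap n g N := by
  let P := projectiveResolution (ModuleCat.of R N)
  have h : ∀ f : M →ₗ[R] M', ((Tor (ModuleCat.{u} R) n).map (ModuleCat.ofHom f)).app
      (ModuleCat.of R N) = (torIso R n (ModuleCat.of R M) P).hom ≫
        HomologicalComplex.homologyMap ((tensorComplex R P.complex).map (ModuleCat.ofHom f)) n ≫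
          (torIso R n (ModuleCat.of R M') P).inv := by
    intro f
    rw [← Category.assoc, ← torIso_naturality, Category.assoc, Iso.hom_inv_id, Category.comp_id]
  have h2 : ((Tor (ModuleCat.{u} R) n).map (ModuleCat.ofHom (f + g))).app (ModuleCat.of R N) =
      ((Tor (ModuleCat.{u} R) n).map (ModuleCat.ofHom f)).app (ModuleCat.of R N) +
      ((Tor (ModuleCat.{u} R) n).map (ModuleCat.ofHom g)).app (ModuleCat.of R N) := by
    rw [h, h, h, ModuleCat.ofHom_add, tensorComplex_map_add, HomologicalComplex.homologyMap_add,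
      Preadditive.add_comp, Preadditive.comp_add]
  change (((Tor (ModuleCat.{u} R) n).map (ModuleCat.ofHom (f + g))).app _).hom = _
  rw [h2]
  rfl

theorem torMap_zero_map (n : ℕ) : torMap n (0 : M →ₗ[R] M') N = 0 := by
  have := torMap_add (N := N) n (0 : M →ₗ[R] M') 0
  rw [add_zero] at this
  exact left_eq_add.mp this

section

variable {S D : Type u} [CommRing S] [CommRing D] [Algebra S D]
  {N N' : Type u} [AddCommGroup N] [Module S N] [AddCommGroup N'] [Module S N']
  {X : Type u} [AddCommGroup X] [Module D X]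

theorem ttMap_add (i : ℕ) (f g : N →ₗ[S] N') :
    ttMap D X i (f + g) = ttMap D X i f + ttMap D X i g := by
  rw [ttMap, LinearMap.baseChange_add, torMap_add]
  rfl

theorem ttMap_zero (i : ℕ) : ttMap D X i (0 : N →ₗ[S] N') = 0 := by
  rw [ttMap, LinearMap.baseChange_zero, torMap_zero_map]

end

end Vale.Agent.P177.SL
end

section

/-!
Growth of subadditive functions with a step bound.
-/

namespace Vale.Agent.P177.SL

open Function IsLocalRing Pointwise
open scoped ENNReal

universe u

/-- A subadditive function on modules over `S`, with the growth step `τ N ≤ m * τ (N / s N)` for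
finite modules `N` killed by `I` and `s` in the maximal ideal, regular on `N`. -/
structure GrowthFn (S : Type u) [CommRing S] [IsLocalRing S] (I : Ideal S) (m : ℝ≥0∞) where
  τ : ∀ (N : Type u) [AddCommGroup N] [Module S N], ℝ≥0∞
  zero : ∀ (N : Type u) [AddCommGroup N] [Module S N] [Subsingleton N], τ N = 0
  sub : ∀ {N' N N'' : Type u} [AddCommGroup N'] [Module S N'] [AddCommGroup N] [Module S N]
    [AddCommGroup N''] [Module S N''] [Module.Finite S N'] [Module.Finite S N]
    [Module.Finite S N''] (f : N' →ₗ[S] N) (g : N →ₗ[S] N''), Injective f → Surjective g →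
      Exact f g → I ≤ Module.annihilator S N → τ N ≤ τ N' + τ N''
  step : ∀ {N N'' : Type u} [AddCommGroup N] [Module S N] [AddCommGroup N''] [Module S N'']
    [Module.Finite S N] [Module.Finite S N''] (s : S) (f : N →ₗ[S] N) (g : N →ₗ[S] N''),
      s ∈ maximalIdeal S → (∀ n, f n = s • n) → Injective f → Surjective g → Exact f g →
      I ≤ Module.annihilator S N → τ N ≤ m * τ N''

theorem GrowthFn.congr_le {S : Type u} [CommRing S] [IsLocalRing S] {I : Ideal S} {m : ℝ≥0∞} (G : GrowthFn S I m) {N N' : Type u}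
    [AddCommGroup N] [Module S N] [AddCommGroup N'] [Module S N'] [Module.Finite S N]
    [Module.Finite S N'] (e : N ≃ₗ[S] N') (h : I ≤ Module.annihilator S N') :
    G.τ N' ≤ G.τ N := by
  have h1 := G.sub (e : N →ₗ[S] N') (0 : N' →ₗ[S] PUnit.{u + 1}) e.injective
    (fun y => ⟨0, Subsingleton.elim _ _⟩)
    (fun y => ⟨fun _ => ⟨e.symm y, by simp⟩, fun _ => Subsingleton.elim _ _⟩) h
  rwa [G.zero PUnit, add_zero] at h1

variable {S : Type u} [CommRing S]

/-- multiplication by an element outside of a prime, as a short exact sequence. -/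
theorem ses_quot_prime (P : Ideal S) [P.IsPrime] (s : S) (hs : s ∉ P) :
    Injective (LinearMap.lsmul S (S ⧸ P) s) ∧
      Surjective (Submodule.mkQ (s • (⊤ : Submodule S (S ⧸ P)))) ∧
      Exact (LinearMap.lsmul S (S ⧸ P) s) (Submodule.mkQ (s • (⊤ : Submodule S (S ⧸ P)))) := by
  refine ⟨?_, Submodule.mkQ_surjective _, ?_⟩
  · rw [injective_iff_map_eq_zero]
    intro a ha
    obtain ⟨a, rfl⟩ := Ideal.Quotient.mk_surjective a
    have h1 : Ideal.Quotient.mk P (s * a) = 0 := ha
    rw [Ideal.Quotient.eq_zero_iff_mem] at h1 ⊢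
    exact (Ideal.IsPrime.mem_or_mem ‹_› h1).resolve_left hs
  · intro y
    rw [Submodule.mkQ_apply, Submodule.Quotient.mk_eq_zero,
      Submodule.mem_smul_pointwise_iff_exists]
    simp

theorem le_of_equiv_quot {I : Ideal S} {N : Type u} [AddCommGroup N] [Module S N]
    (hI : I ≤ Module.annihilator S N) (P : Ideal S) (e : N ≃ₗ[S] S ⧸ P) : I ≤ P := by
  intro a ha
  have h1 := Module.mem_annihilator.1 (hI ha) (e.symm (Ideal.Quotient.mk P 1))
  rw [← map_smul, LinearEquiv.map_eq_zero_iff] at h1
  rw [← Ideal.Quotient.eq_zero_iff_mem, ← h1, Algebra.smul_def, map_one, mul_one]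
  rfl

theorem le_annihilator_quot {I P : Ideal S} (h : I ≤ P) : I ≤ Module.annihilator S (S ⧸ P) := by
  rwa [Ideal.annihilator_quotient]

theorem dim_quot [IsLocalRing S] [IsNoetherianRing S] (P : Ideal S) [P.IsPrime] (s : S) (hs : s ∉ P)
    (hsm : s ∈ maximalIdeal S) : Module.supportDim S (QuotSMulTop s (S ⧸ P)) + 1 =
      Module.supportDim S (S ⧸ P) := by
  refine Module.supportDim_quotSMulTop_succ_eq_supportDim ?_ hsm
  exact (ses_quot_prime P s hs).1

/-- The growth lemma: the constant only depends on `N`. -/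
theorem growth [IsLocalRing S] [IsNoetherianRing S] (I : Ideal S) (D : ℕ) (N : Type u) [AddCommGroup N]
    [Module S N] [hN : Module.Finite S N] (hI : I ≤ Module.annihilator S N)
    (hD : Module.supportDim S N ≤ D) :
    ∃ C : ℕ, ∀ (m : ℝ≥0∞) (_ : 1 ≤ m) (G : GrowthFn S I m),
      G.τ N ≤ C * m ^ D * G.τ (S ⧸ maximalIdeal S) := by
  induction D generalizing N with
  | zero =>
    induction hN using IsNoetherianRing.induction_on_isQuotientEquivQuotientPrime S with
    | subsingleton N =>
      exact ⟨0, fun m _ G => by rw [G.zero N]; exact zero_le⟩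
    | quotient N P e =>
      have hIP := le_of_equiv_quot hI P.1 e
      by_cases hP : P.1 = maximalIdeal S
      · refine ⟨1, fun m _ G => ?_⟩
        rw [pow_zero, Nat.cast_one, one_mul, one_mul]
        exact G.congr_le (e ≪≫ₗ Submodule.quotEquivOfEq _ _ hP).symm hI
      · exfalso
        have hlt : P.1 < maximalIdeal S := lt_of_le_of_ne (le_maximalIdeal P.2.ne_top) hP
        obtain ⟨x, hxm, hxP⟩ := SetLike.exists_of_lt hlt
        have h1 := dim_quot P.1 x hxP hxm
        rw [Module.supportDim_eq_of_equiv e, ← h1, Nat.cast_zero,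
          ENat.WithBot.add_one_le_zero_iff] at hD
        rw [hD, WithBot.bot_add] at h1
        exact (Module.supportDim_ne_bot_of_nontrivial S (S ⧸ P.1)) h1.symm
    | exact N' N N'' f g hf hg h h1 h2 =>
      obtain ⟨C1, hC1⟩ := h1 (hI.trans (LinearMap.annihilator_le_of_injective f hf))
        ((Module.supportDim_le_of_injective f hf).trans hD)
      obtain ⟨C2, hC2⟩ := h2 (hI.trans (LinearMap.annihilator_le_of_surjective g hg))
        ((Module.supportDim_le_of_surjective g hg).trans hD)
      refine ⟨C1 + C2, fun m hm G => (G.sub f g hf hg h hI).trans ?_⟩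
      rw [Nat.cast_add, add_mul, add_mul]
      exact add_le_add (hC1 m hm G) (hC2 m hm G)
  | succ D ih =>
    induction hN using IsNoetherianRing.induction_on_isQuotientEquivQuotientPrime S with
    | subsingleton N =>
      exact ⟨0, fun m _ G => by rw [G.zero N]; exact zero_le⟩
    | quotient N P e =>
      have hIP := le_of_equiv_quot hI P.1 e
      by_cases hP : P.1 = maximalIdeal S
      · refine ⟨1, fun m hm G => ?_⟩
        rw [Nat.cast_one, one_mul]
        refine (G.congr_le (e ≪≫ₗ Submodule.quotEquivOfEq _ _ hP).symm hI).trans ?_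
        calc G.τ (S ⧸ maximalIdeal S) = 1 * G.τ (S ⧸ maximalIdeal S) := (one_mul _).symm
          _ ≤ m ^ (D + 1) * G.τ (S ⧸ maximalIdeal S) := by
            gcongr
            exact one_le_pow₀ hm
      · have hlt : P.1 < maximalIdeal S := lt_of_le_of_ne (le_maximalIdeal P.2.ne_top) hP
        obtain ⟨x, hxm, hxP⟩ := SetLike.exists_of_lt hlt
        obtain ⟨k1, k2, k3⟩ := ses_quot_prime P.1 x hxP
        have h1 := dim_quot P.1 x hxP hxm
        have h5 : Module.supportDim S (QuotSMulTop x (S ⧸ P.1)) ≤ D := by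
          rw [Module.supportDim_eq_of_equiv e, ← h1] at hD
          have h6 : Module.supportDim S (QuotSMulTop x (S ⧸ P.1)) + 1 ≤
            ((D : WithBot ℕ∞) + 1) := by exact_mod_cast hD
          exact ENat.WithBot.add_le_add_one_right_iff.1 h6
        obtain ⟨C, hC⟩ := ih (QuotSMulTop x (S ⧸ P.1)) ((le_annihilator_quot hIP).trans
          (LinearMap.annihilator_le_of_surjective _ k2)) h5
        refine ⟨C, fun m hm G => ?_⟩
        refine (G.congr_le e.symm hI).trans ?_
        refine (G.step x _ _ hxm (fun n => rfl) k1 k2 k3 (le_annihilator_quot hIP)).trans ?_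
        calc m * G.τ (QuotSMulTop x (S ⧸ P.1)) ≤
            m * (C * m ^ D * G.τ (S ⧸ maximalIdeal S)) := by
              gcongr
              exact hC m hm G
          _ = C * m ^ (D + 1) * G.τ (S ⧸ maximalIdeal S) := by ring
    | exact N' N N'' f g hf hg h h1 h2 =>
      obtain ⟨C1, hC1⟩ := h1 (hI.trans (LinearMap.annihilator_le_of_injective f hf))
        ((Module.supportDim_le_of_injective f hf).trans hD)
      obtain ⟨C2, hC2⟩ := h2 (hI.trans (LinearMap.annihilator_le_of_surjective g hg))
        ((Module.supportDim_le_of_surjective g hg).trans hD)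
      refine ⟨C1 + C2, fun m hm G => (G.sub f g hf hg h hI).trans ?_⟩
      rw [Nat.cast_add, add_mul, add_mul]
      exact add_le_add (hC1 m hm G) (hC2 m hm G)

end Vale.Agent.P177.SL
end

section

/-!
Nilpotency of the multiplication maps on the Tor modules of thickenings, up to `h`-torsion, and
the growth of their lengths.
-/

namespace Vale.Agent.P177.SL

open Vale.Agent.P202.Mix Function TensorProduct IsLocalRing
open scoped ENNReal

universe u

section kills

variable {R : Type u} [CommRing R]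

/-- the length vanishes on modules killed by `h`. -/
def Kills (L : AddLen R) (h : R) : Prop :=
  ∀ (M : Type u) [AddCommGroup M] [Module R M], (∀ x : M, h • x = 0) → L.len M = 0

variable {L : AddLen R} {h : R} (hL : Kills L h)
include hL

theorem Kills.pow (j : ℕ) : ∀ (M : Type u) [AddCommGroup M] [Module R M],
    (∀ x : M, h ^ j • x = 0) → L.len M = 0 := by
  induction j with
  | zero =>
    intro M _ _ hM
    have : Subsingleton M := subsingleton_of_forall_eq 0 fun x => by simpa using hM x
    exact len_subsingleton L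
  | succ j ih =>
    intro M _ _ hM
    let Y : Submodule R M := LinearMap.range (LinearMap.lsmul R M h)
    rw [len_sub_quot L Y, ih Y ?_, hL (M ⧸ Y) ?_, add_zero]
    · intro x
      obtain ⟨x, rfl⟩ := Submodule.Quotient.mk_surjective _ x
      rw [← Submodule.Quotient.mk_smul, Submodule.Quotient.mk_eq_zero]
      exact ⟨x, rfl⟩
    · rintro ⟨_, x, rfl⟩
      apply Subtype.ext
      change h ^ j • (h • x) = 0
      rw [smul_smul, ← pow_succ, hM]

theorem Kills.len_eq (j : ℕ) (M : Type u) [AddCommGroup M] [Module R M] :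
    L.len M = L.len (etaSub (h ^ j) M) := by
  rw [len_sub_quot L (etaSub (h ^ j) M), hL.pow j (M ⧸ etaSub (h ^ j) M), add_zero]
  intro x
  obtain ⟨x, rfl⟩ := Submodule.Quotient.mk_surjective _ x
  rw [← Submodule.Quotient.mk_smul, Submodule.Quotient.mk_eq_zero]
  exact ⟨x, rfl⟩

theorem Kills.len_le_of_pow (j m : ℕ) (T : Type u) [AddCommGroup T] [Module R T]
    (φ : T →ₗ[R] T) (hφ : ∀ x : T, h ^ j • (φ ^ m) x = 0) :
    L.len T ≤ m * L.len (T ⧸ LinearMap.range φ) := by
  rw [hL.len_eq j T]
  let Y := etaSub (h ^ j) T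
  have hst : ∀ x ∈ Y, φ x ∈ Y := by
    rintro _ ⟨x, rfl⟩
    exact ⟨φ x, (map_smul φ _ _).symm⟩
  let ψ : Y →ₗ[R] Y := φ.restrict hst
  have hψ : ∀ n (x : Y), ((ψ ^ n) x : T) = (φ ^ n) x := by
    intro n
    induction n with
    | zero => intro x; rfl
    | succ n ihn =>
      intro x
      rw [pow_succ', pow_succ', Module.End.mul_apply, Module.End.mul_apply, ← ihn]
      rfl
  have h0 : ∀ x : Y, (ψ ^ m) x = 0 := by
    rintro ⟨_, x, rfl⟩
    apply Subtype.ext
    rw [hψ]
    change (φ ^ m) (h ^ j • x) = 0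
    rw [map_smul, hφ]
  refine (len_le_of_pow_eq_zero L m Y ψ h0).trans (mul_le_mul_right ?_ _)
  refine len_le_of_surjective L (Submodule.mapQ (LinearMap.range φ) (LinearMap.range ψ)
    (LinearMap.codRestrict Y (LinearMap.lsmul R T (h ^ j)) fun x => ⟨x, rfl⟩) ?_) ?_
  · rintro _ ⟨y, rfl⟩
    rw [Submodule.mem_comap]
    exact ⟨⟨h ^ j • y, y, rfl⟩, Subtype.ext (map_smul φ _ _)⟩
  · intro z
    obtain ⟨⟨_, y, rfl⟩, rfl⟩ := Submodule.Quotient.mk_surjective _ z
    exact ⟨Submodule.Quotient.mk y, rfl⟩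

end kills

section nil

variable {S T D : Type u} [CommRing S] [CommRing T] [CommRing D] [Algebra S T] [Algebra S D]
  (Θ : S →+* T) {N N' N'' : Type u} [AddCommGroup N] [Module S N] [AddCommGroup N'] [Module S N']
  [AddCommGroup N''] [Module S N''] {X : Type u} [AddCommGroup X] [Module D X]

variable (N X) in
/-- the action of `T` on the Tor modules of the thickening. -/
noncomputable def rho (i : ℕ) (a : T) :
    TT S D i (Th Θ T N) X →ₗ[D] TT S D i (Th Θ T N) X := ttMap D X i (thMul Θ a)

theorem rho_add (i : ℕ) (a b : T) (x : TT S D i (Th Θ T N) X) :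
    rho Θ N X i (a + b) x = rho Θ N X i a x + rho Θ N X i b x := by
  have : (thMul Θ (a + b) : Th Θ T N →ₗ[S] Th Θ T N) = thMul Θ a + thMul Θ b := by
    ext x
    exact add_smul a b x
  rw [rho, this, ttMap_add]
  rfl

theorem rho_mul (i : ℕ) (a b : T) (x : TT S D i (Th Θ T N) X) :
    rho Θ N X i (a * b) x = rho Θ N X i a (rho Θ N X i b x) := by
  have : (thMul Θ (a * b) : Th Θ T N →ₗ[S] Th Θ T N) = thMul Θ a ∘ₗ thMul Θ b := by
    ext x
    exact mul_smul a b x
  rw [rho, rho, rho, this, ttMap_comp]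

theorem rho_zero (i : ℕ) (x : TT S D i (Th Θ T N) X) : rho Θ N X i (0 : T) x = 0 := by
  have : (thMul Θ (0 : T) : Th Θ T N →ₗ[S] Th Θ T N) = 0 := by
    ext x
    exact zero_smul T x
  rw [rho, this, ttMap_zero]
  rfl

theorem rho_theta (i : ℕ) (s : S) (x : TT S D i (Th Θ T N) X) :
    rho Θ N X i (Θ s) x = algebraMap S D s • x :=
  ttMap_smul i s _ (fun _ => rfl) x

theorem rho_algebraMap (i : ℕ) (s : S) (f : N →ₗ[S] N) (hf : ∀ n, f n = s • n)
    (x : TT S D i (Th Θ T N) X) :
    rho Θ N X i (algebraMap S T s) x = ttMap D X i (thMap Θ T f) x := by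
  have : thMap Θ T f = (thMul Θ (algebraMap S T s) : Th Θ T N →ₗ[S] Th Θ T N) := by
    ext x
    exact thMap_smul Θ s f hf x
  rw [rho, this]

theorem rho_ann (i : ℕ) (s : S) (hs : s ∈ Module.annihilator S N)
    (x : TT S D i (Th Θ T N) X) : rho Θ N X i (algebraMap S T s) x = 0 := by
  have : (thMul Θ (algebraMap S T s) : Th Θ T N →ₗ[S] Th Θ T N) = 0 := by
    ext x
    have h1 := thMap_smul (Q := T) Θ s (0 : N →ₗ[S] N) (fun n => by
      rw [Module.mem_annihilator.1 hs n]; rfl) x
    rw [thMul_apply, ← h1, thMap_apply]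
    exact LinearMap.congr_fun (LinearMap.lTensor_zero T) x
  rw [rho, this, ttMap_zero]
  rfl

/-- the submodule generated by the images of the elements of an ideal of `T`. -/
noncomputable def idSub (N X : Type u) [AddCommGroup N] [Module S N] [AddCommGroup X] [Module D X]
    (i : ℕ) (J : Ideal T) : Submodule D (TT S D i (Th Θ T N) X) :=
  ⨆ a : J, LinearMap.range (rho Θ N X i (a : T))

theorem rho_mem_idSub (i : ℕ) (J : Ideal T) {a : T} (ha : a ∈ J)
    (x : TT S D i (Th Θ T N) X) : rho Θ N X i a x ∈ idSub Θ N X i J :=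
  Submodule.mem_iSup_of_mem (⟨a, ha⟩ : J) ⟨x, rfl⟩

theorem rho_mem_idSub_mul (i : ℕ) (J K : Ideal T) {a : T} (ha : a ∈ J)
    {x : TT S D i (Th Θ T N) X} (hx : x ∈ idSub Θ N X i K) :
    rho Θ N X i a x ∈ idSub Θ N X i (J * K) := by
  induction hx using Submodule.iSup_induction' with
  | mem b y hy =>
    obtain ⟨z, rfl⟩ := hy
    rw [← rho_mul]
    exact rho_mem_idSub Θ i _ (Ideal.mul_mem_mul ha b.2) z
  | zero =>
    rw [map_zero]
    exact Submodule.zero_mem _
  | add y z _ _ hy hz =>
    rw [map_add]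
    exact Submodule.add_mem _ hy hz

variable {I : Ideal S} {𝔫 : Ideal T} (h𝔫 : ∀ s, Θ s - algebraMap S T s ∈ 𝔫)
include h𝔫

theorem smul_mem_idSub (i : ℕ) (hI : I ≤ Module.annihilator S N) {d : D}
    (hd : d ∈ I.map (algebraMap S D) ⊔ Module.annihilator D X)
    (x : TT S D i (Th Θ T N) X) : d • x ∈ idSub Θ N X i 𝔫 := by
  obtain ⟨a, ha, b, hb, rfl⟩ := Submodule.mem_sup.1 hd
  rw [add_smul]
  have h2 : b • x = 0 := tor_smul_eq_zero_right b (fun m => Module.mem_annihilator.1 hb m) i _ x
  rw [h2, add_zero]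
  refine Submodule.span_induction (p := fun a _ => a • x ∈ idSub Θ N X i 𝔫) ?_ ?_ ?_ ?_ ha
  · rintro _ ⟨s, hs, rfl⟩
    have h3 : algebraMap S D s • x = rho Θ N X i (Θ s - algebraMap S T s) x := by
      rw [← rho_theta Θ i s x]
      have := rho_add Θ i (Θ s - algebraMap S T s) (algebraMap S T s) x
      rw [sub_add_cancel, rho_ann Θ i s (hI hs), add_zero] at this
      exact this
    rw [h3]
    exact rho_mem_idSub Θ i 𝔫 (h𝔫 s) x
  · rw [zero_smul]
    exact Submodule.zero_mem _
  · intro a b _ _ ha hb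
    rw [add_smul]
    exact Submodule.add_mem _ ha hb
  · intro a b _ hb
    rw [smul_eq_mul, mul_smul]
    exact Submodule.smul_mem _ _ hb

/-- the action of `s` through `N` is nilpotent up to `h`-torsion. -/
theorem pow_rho (i : ℕ) (hI : I ≤ Module.annihilator S N) (h : D) (j : ℕ) (s : S)
    (hs : h ^ j * algebraMap S D s ∈ I.map (algebraMap S D) ⊔ Module.annihilator D X)
    (ℓ : ℕ) (x : TT S D i (Th Θ T N) X) :
    h ^ (j * ℓ) • (rho Θ N X i (algebraMap S T s) ^ ℓ) x ∈ idSub Θ N X i (𝔫 ^ ℓ) := by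
  induction ℓ with
  | zero =>
    rw [mul_zero, pow_zero, pow_zero, one_smul, pow_zero, Ideal.one_eq_top]
    have h1 : rho Θ N X i (1 : T) x = x := by
      have := rho_theta Θ i (1 : S) x
      rwa [map_one, map_one, one_smul] at this
    rw [Module.End.one_apply, ← h1]
    exact rho_mem_idSub Θ i ⊤ Submodule.mem_top x
  | succ ℓ ih =>
    have e0 : h ^ (j * (ℓ + 1)) • (rho Θ N X i (algebraMap S T s) ^ (ℓ + 1)) x =
        h ^ j • rho Θ N X i (algebraMap S T s)
          (h ^ (j * ℓ) • (rho Θ N X i (algebraMap S T s) ^ ℓ) x) := by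
      rw [map_smul, smul_smul, ← pow_add, mul_add, mul_one, add_comm j, pow_succ' (rho _ _ _ _ _),
        Module.End.mul_apply]
    rw [e0]
    generalize h ^ (j * ℓ) • (rho Θ N X i (algebraMap S T s) ^ ℓ) x = y at ih ⊢
    -- `h ^ j • rho s y` for `y` in the submodule of `𝔫 ^ ℓ`
    have key : ∀ z : TT S D i (Th Θ T N) X,
        h ^ j • rho Θ N X i (algebraMap S T s) z ∈ idSub Θ N X i 𝔫 := by
      intro z
      have h1 : rho Θ N X i (algebraMap S T s) z =
          algebraMap S D s • z - rho Θ N X i (Θ s - algebraMap S T s) z := by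
        have := rho_add Θ i (Θ s - algebraMap S T s) (algebraMap S T s) z
        rw [sub_add_cancel, rho_theta] at this
        rw [this]
        abel
      rw [h1, smul_sub, smul_smul]
      exact Submodule.sub_mem _ (smul_mem_idSub Θ h𝔫 i hI hs z)
        (Submodule.smul_mem _ _ (rho_mem_idSub Θ i _ (h𝔫 s) z))
    rw [pow_succ 𝔫]
    induction ih using Submodule.iSup_induction' with
    | mem b y hy =>
      obtain ⟨z, rfl⟩ := hy
      have h2 : rho Θ N X i (algebraMap S T s) (rho Θ N X i (b : T) z) =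
          rho Θ N X i (b : T) (rho Θ N X i (algebraMap S T s) z) := by
        rw [← rho_mul, ← rho_mul, mul_comm]
      rw [h2, ← map_smul]
      exact rho_mem_idSub_mul Θ i _ _ b.2 (key z)
    | zero =>
      rw [map_zero, smul_zero]
      exact Submodule.zero_mem _
    | add y z _ _ hy hz =>
      rw [map_add, smul_add]
      exact Submodule.add_mem _ hy hz

theorem pow_rho_eq_zero (i : ℕ) (hI : I ≤ Module.annihilator S N) (h : D) (j : ℕ) (s : S)
    (hs : h ^ j * algebraMap S D s ∈ I.map (algebraMap S D) ⊔ Module.annihilator D X)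
    (ℓ : ℕ) (hℓ : 𝔫 ^ ℓ = ⊥) (x : TT S D i (Th Θ T N) X) :
    h ^ (j * ℓ) • (rho Θ N X i (algebraMap S T s) ^ ℓ) x = 0 := by
  have h1 := pow_rho Θ h𝔫 i hI h j s hs ℓ x
  rw [hℓ] at h1
  have h2 : idSub (D := D) Θ N X i (⊥ : Ideal T) = ⊥ := by
    rw [idSub, iSup_eq_bot]
    rintro ⟨a, ha⟩
    rw [Ideal.mem_bot] at ha
    subst ha
    rw [LinearMap.range_eq_bot]
    ext x
    exact rho_zero Θ i x
  rw [h2, Submodule.mem_bot] at h1
  exact h1

/-- the growth function of the thickening. -/
theorem tau_th_growth [IsLocalRing S] [IsNoetherianRing S] [Module.Flat S D] [Module.Flat S T]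
    {L : AddLen D} {h : D} (hL : Kills L h) (ℓ : ℕ) (hℓ : 𝔫 ^ ℓ = ⊥) (j c : ℕ)
    (hc : ∀ s ∈ maximalIdeal S, h ^ j * algebraMap S D (s ^ c) ∈
      I.map (algebraMap S D) ⊔ Module.annihilator D X) (i : ℕ) :
    Nonempty {G : GrowthFn S I ((c * ℓ : ℕ) : ℝ≥0∞) // ∀ (N : Type u) [AddCommGroup N]
      [Module S N], G.τ N = tau S L i (Th Θ T N) X} := by
  refine ⟨⟨⟨fun N _ _ => tau S L i (Th Θ T N) X, ?_, ?_, ?_⟩, fun N _ _ => rfl⟩⟩
  · intro N _ _ _
    have : Subsingleton (Th Θ T N) := inferInstanceAs (Subsingleton (T ⊗[S] N))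
    exact tau_subsingleton L i
  · intro N' N N'' _ _ _ _ _ _ _ _ _ f g hf hg hfg _
    obtain ⟨k1, k2, k3⟩ := th_ses (Q := T) Θ f g hf hg hfg
    exact tau_le (D := D) L X i _ _ k1 k2 k3
  · intro N N'' _ _ _ _ _ _ s f g hs hfs hf hg hfg hI
    obtain ⟨k1, k2, k3⟩ := th_ses (Q := T) Θ f g hf hg hfg
    obtain ⟨δ, -, -, h3⟩ := exists_ttDelta (D := D) _ _ k1 k2 k3 X
    have hφ : ∀ x : TT S D i (Th Θ T N) X,
        h ^ (j * ℓ) • ((ttMap D X i (thMap Θ T f)) ^ (c * ℓ)) x = 0 := by
      intro x
      have e1 : ttMap D X i (thMap Θ T f) = rho Θ N X i (algebraMap S T s) := by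
        ext x
        exact (rho_algebraMap Θ i s f hfs x).symm
      have e2 : ∀ c' : ℕ, (rho Θ N X i (algebraMap S T s) : TT S D i (Th Θ T N) X →ₗ[D] _) ^ c' =
          rho Θ N X i (algebraMap S T (s ^ c')) := by
        intro c'
        induction c' with
        | zero =>
          ext x
          rw [pow_zero, pow_zero, map_one, Module.End.one_apply]
          have := rho_theta (D := D) Θ (X := X) (N := N) i (1 : S) x
          rw [map_one, map_one, one_smul] at this
          exact this.symm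
        | succ c' ih =>
          ext x
          rw [pow_succ, pow_succ, map_mul, Module.End.mul_apply, ih, rho_mul]
      rw [e1, pow_mul (rho Θ N X i (algebraMap S T s)) c ℓ, e2]
      exact pow_rho_eq_zero Θ h𝔫 i hI h j (s ^ c) (hc s hs) ℓ hℓ x
    refine (hL.len_le_of_pow (j * ℓ) (c * ℓ) _ (ttMap D X i (thMap Θ T f)) hφ).trans
      (mul_le_mul_right ?_ _)
    rw [len_congr L (Submodule.quotEquivOfEq _ (LinearMap.ker (ttMap D X i (thMap Θ T g))) ?_),
      len_congr L (ttMap D X i (thMap Θ T g)).quotKerEquivRange]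
    · exact len_range_le' L _
    · rw [(h3 i).linearMap_ker_eq]

end nil

end Vale.Agent.P177.SL
end

section

/-!
The data used in the proof of vanishing and positivity: thickenings of a local ring with
parameters `π, z_1, .., z_d`, and the growth of the Tor modules of `S / (π, z^t)`.
-/

namespace Vale.Agent.P177.SL

open Vale.Agent.P202.Mix Function TensorProduct IsLocalRing
open scoped ENNReal

universe u

/-- the ring `S[X_1, .., X_d] / (X_1 ^ t, .., X_d ^ t)`. -/
abbrev TB (S : Type u) [CommRing S] (d t : ℕ) : Type u :=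
  MvPolynomial (Fin d) S ⧸ boxI S (fun _ : Fin d => t)

/-- the list `π, z_1 ^ t, .., z_d ^ t`. -/
def pz {S : Type u} [CommRing S] {d : ℕ} (π : S) (z : Fin d → S) (t : ℕ) : List S :=
  π :: List.ofFn fun i => z i ^ t

/-- translations `z ↦ z + X`. -/
structure Thick (S : Type u) [CommRing S] [IsLocalRing S] (d : ℕ) (π : S) (z : Fin d → S) where
  Θ : ∀ t : ℕ, S →+* TB S d t
  var : ∀ t i, Θ t (z i) = algebraMap S (TB S d t) (z i) + Ideal.Quotient.mk _ (MvPolynomial.X i)
  near : ∀ t s, Θ t s - algebraMap S (TB S d t) s ∈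
    Ideal.span (Set.range fun i : Fin d =>
      (Ideal.Quotient.mk _ (MvPolynomial.X i) : TB S d t))
  res : ∀ t, 1 ≤ t → Nonempty (Th (Θ t) (TB S d t) (S ⧸ maximalIdeal S) ≃ₗ[S]
    (S ⧸ Ideal.ofList (pz π z t)))

/-- the Tor modules of `S / (π, z ^ t)` with `X` have length `O(t ^ m)`. -/
def BaseGrowth {S D : Type u} [CommRing S] [CommRing D] [Algebra S D] (L : AddLen D) {d : ℕ}
    (π : S) (z : Fin d → S) (m : ℕ) (X : Type u) [AddCommGroup X] [Module D X] : Prop :=
  ∃ B : ℝ≥0∞, B < ⊤ ∧ ∀ t : ℕ, 1 ≤ t → ∀ i,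
    tau S L i (S ⧸ Ideal.ofList (pz π z t)) X ≤ B * (t : ℝ≥0∞) ^ m

/-- some power of the maximal ideal acts on `X` through `I`. -/
def Nilp {S : Type u} (D : Type u) [CommRing S] [IsLocalRing S] [CommRing D] [Algebra S D]
    (I : Ideal S) (X : Type u) [AddCommGroup X] [Module D X] : Prop :=
  ∃ c : ℕ, ∀ s ∈ maximalIdeal S, algebraMap S D (s ^ c) ∈
    I.map (algebraMap S D) ⊔ Module.annihilator D X

end Vale.Agent.P177.SL
end

section

/-! P177, block LIFT: completeness of finite algebras, comparison of adic topologies. -/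

namespace Vale.Agent.P177.Lf

open TensorProduct

universe u

theorem isPrecomplete_of_finite {R : Type u} [CommRing R] (I : Ideal R) [IsPrecomplete I R]
    (M : Type u) [AddCommGroup M] [Module R M] [Module.Finite R M] : IsPrecomplete I M := by
  rw [← AdicCompletion.of_surjective_iff]
  intro x
  obtain ⟨y, rfl⟩ := AdicCompletion.ofTensorProduct_surjective_of_finite I M x
  induction y using TensorProduct.induction_on with
  | zero => exact ⟨0, by rw [map_zero, map_zero]⟩
  | tmul a m =>
    obtain ⟨r, rfl⟩ := AdicCompletion.of_surjective I R a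
    refine ⟨r • m, ?_⟩
    rw [AdicCompletion.ofTensorProduct_tmul, map_smul]
    exact (algebraMap_smul (AdicCompletion I R) r (AdicCompletion.of I M m)).symm
  | add x y hx hy =>
    obtain ⟨a, ha⟩ := hx
    obtain ⟨b, hb⟩ := hy
    exact ⟨a + b, by rw [map_add, map_add, ha, hb]⟩

/-- a ring which is complete for `I` is complete for every `J ⊇ I` with `J ^ N ⊆ I`. -/
theorem isAdicComplete_of_le {A : Type*} [CommRing A] {I J : Ideal A} [hI : IsAdicComplete I A]
    (h1 : I ≤ J) {N : ℕ} (h2 : J ^ N ≤ I) : IsAdicComplete J A := by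
  have h3 : ∀ n, J ^ (N * n) ≤ I ^ n := fun n => by
    rw [pow_mul]
    exact Ideal.pow_right_mono h2 n
  refine { haus' := ?_, prec' := ?_ }
  · intro x hx
    apply IsHausdorff.haus (I := I) inferInstance
    intro n
    have := hx (N * n)
    rw [SModEq.zero, smul_eq_mul, Ideal.mul_top] at this ⊢
    exact h3 n this
  · intro f hf
    have hf' : ∀ {m n : ℕ}, m ≤ n → f n - f m ∈ J ^ m := fun {m n} hmn => by
      have := hf hmn
      rw [SModEq.sub_mem, smul_eq_mul, Ideal.mul_top] at this
      rwa [← neg_mem_iff, neg_sub]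
    obtain ⟨L, hL⟩ := IsPrecomplete.prec (I := I) (M := A) inferInstance
      (f := fun n => f (N * n)) (fun {m n} hmn => by
        rw [SModEq.sub_mem, smul_eq_mul, Ideal.mul_top, ← neg_mem_iff, neg_sub]
        exact h3 m (hf' (Nat.mul_le_mul_left N hmn)))
    refine ⟨L, fun n => ?_⟩
    rw [SModEq.sub_mem, smul_eq_mul, Ideal.mul_top]
    have h4 : f (N * n) - L ∈ J ^ n := by
      have := hL n
      rw [SModEq.sub_mem, smul_eq_mul, Ideal.mul_top] at this
      exact Ideal.pow_right_mono h1 n this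
    rcases Nat.eq_zero_or_pos N with hN | hN
    · subst hN
      rw [pow_zero] at h2
      have h5 : J = ⊤ := top_le_iff.1 (by
        have : (⊤ : Ideal A) ≤ J := by
          rw [← Ideal.one_eq_top]
          exact h2.trans h1
        exact this)
      rw [h5, Ideal.top_pow]
      trivial
    · have h6 : f (N * n) - f n ∈ J ^ n := hf' (Nat.le_mul_of_pos_left n hN)
      have h7 := sub_mem h4 h6
      rw [sub_sub_sub_cancel_left] at h7
      exact h7

/-- finite algebras over complete noetherian local rings are complete, also for all ideals with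
the same radical. -/
theorem isAdicComplete_finite {R A : Type u} [CommRing R] [IsLocalRing R] [IsNoetherianRing R]
    (I : Ideal R) (hI : I ≠ ⊤) [IsAdicComplete I R] [CommRing A] [Algebra R A] [Module.Finite R A]
    {J : Ideal A} (h1 : I.map (algebraMap R A) ≤ J)
    (h2 : J ≤ (I.map (algebraMap R A)).radical) : IsAdicComplete J A := by
  have hprec : IsPrecomplete I A := isPrecomplete_of_finite I A
  have hhaus : IsHausdorff I A := IsHausdorff.of_isLocalRing I A hI
  have hcomp : IsAdicComplete I A := { hprec, hhaus with }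
  have hJc : IsAdicComplete (I.map (algebraMap R A)) A :=
    (IsAdicComplete.map_algebraMap_iff _ _).2 hcomp
  have hN : IsNoetherianRing A := IsNoetherianRing.of_finite R A
  obtain ⟨N, hN⟩ := Ideal.exists_pow_le_of_le_radical_of_fg h2 (IsNoetherian.noetherian J)
  exact isAdicComplete_of_le h1 hN

end Vale.Agent.P177.Lf
end

section

/-!
# Euler characteristics over `R = S / E` from Euler characteristics over `S`

`D → B = D / E` a hypersurface, `D` an `S`-algebra, `B` an `R`-algebra, `X` a `D`-module on which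
`E` is regular, `Z = X / E X`, `A` an `R`-module: `Tor^D(X, D ⊗[S] A) = Tor^B(Z, B ⊗[R] A)`.
-/

namespace Vale.Agent.P177.SL

open Vale.Agent.P202.Mix Function TensorProduct Vale.Agent.P177.TH
open scoped ENNReal

universe u

section general

variable {S R D B : Type u} [CommRing S] [CommRing R] [CommRing D] [CommRing B]

/-- `X → X / α X` is a base change along `D → D / α`. -/
theorem hyper_isBaseChange [Algebra D B] {α : D} (H : IsHypersurface D B α) {X Z : Type u}
    [AddCommGroup X] [Module D X] [AddCommGroup Z] [Module D Z] [Module B Z] [IsScalarTower D B Z]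
    (χ : X →ₗ[D] Z) (hs : Surjective χ) (hk : ∀ x, χ x = 0 → ∃ y, x = α • y) :
    IsBaseChange B χ := by
  let g : B ⊗[D] X →ₗ[B] Z := χ.liftBaseChange B
  have hg : ∀ x : X, g ((1 : B) ⊗ₜ[D] x) = χ x := fun x => by
    rw [LinearMap.liftBaseChange_tmul, one_smul]
  have hb : Bijective g := by
    constructor
    · rw [injective_iff_map_eq_zero]
      intro z hz
      obtain ⟨x, rfl⟩ := H.one_tmul_surj z
      rw [hg] at hz
      obtain ⟨y, rfl⟩ := hk x hz
      exact H.smul_tmul_one y
    · intro z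
      obtain ⟨x, rfl⟩ := hs z
      exact ⟨(1 : B) ⊗ₜ[D] x, hg x⟩
  exact IsBaseChange.of_equiv (LinearEquiv.ofBijective g hb) hg

variable [Algebra S R] [Algebra S D] [Algebra D B] [Algebra S B] [Algebra R B]
  [IsScalarTower S D B] [IsScalarTower S R B] {E : S}

/-- `D ⊗[S] A = B ⊗[R] A`. -/
theorem hyper_tensor_equiv (H : IsHypersurface D B (algebraMap S D E))
    (hR : Surjective (algebraMap S R)) (hE : algebraMap S R E = 0)
    (A : Type u) [AddCommGroup A] [Module S A] [Module R A] [IsScalarTower S R A] :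
    ∃ e : D ⊗[S] A ≃+ B ⊗[R] A, ∀ (d : D) (x : D ⊗[S] A), e (d • x) = algebraMap D B d • e x := by
  obtain ⟨e1⟩ := exists_toB_equiv H A (fun x => by rw [← algebraMap_smul R, hE, zero_smul])
  have c1 : TensorProduct.CompatibleSMul S R B A :=
    TensorProduct.CompatibleSMul.of_algebraMap_surjective B A hR
  let e2 : B ⊗[R] A ≃ₗ[B] B ⊗[S] A := TensorProduct.equivOfCompatibleSMul S R B B A
  refine ⟨e1.toAddEquiv.trans e2.symm.toAddEquiv, fun d x => ?_⟩
  change e2.symm (e1 (d • x)) = algebraMap D B d • e2.symm (e1 x)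
  (first
      | rw [LinearMap.map_smul, ← LinearMap.map_smul e2.symm, algebraMap_smul]
      | rw [map_smul, ← map_smul e2.symm, algebraMap_smul])

/-- **Tor over `S` and over `R = S / E`**, with an opaque module. -/
theorem len_tor_hyper_aux (L : AddLen D) (H : IsHypersurface D B (algebraMap S D E))
    (hR : Surjective (algebraMap S R)) (hE : algebraMap S R E = 0)
    {X Z : Type u} [AddCommGroup X] [Module D X] [AddCommGroup Z] [Module D Z] [Module B Z]
    [IsScalarTower D B Z] (χ : X →ₗ[D] Z) (hs : Surjective χ)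
    (hk : ∀ x, χ x = 0 → ∃ y, x = algebraMap S D E • y)
    (hX : IsSMulRegular X (algebraMap S D E)) (n : ℕ)
    (A : Type u) [AddCommGroup A] [Module S A] [Module R A] [IsScalarTower S R A]
    (N : Type u) [AddCommGroup N] [Module B N] (eN : B ⊗[R] A ≃ₗ[B] N) :
    L.len (TorM D n X (D ⊗[S] A)) =
      (L.restrict (algebraMap D B)).len (TorM B n Z N) := by
  obtain ⟨e, he⟩ := hyper_tensor_equiv H hR hE A
  let iD : Module D N := Module.compHom N (algebraMap D B)
  have tD : IsScalarTower D B N := IsScalarTower.of_algebraMap_smul fun _ _ => rfl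
  let e' : D ⊗[S] A ≃ₗ[D] N :=
    { e.trans eN.toAddEquiv with
      map_smul' := fun d x => by
        change eN (e (d • x)) = algebraMap D B d • eN (e x)
        rw [he, map_smul] }
  have h1 := len_tor_baseChange L H n (hyper_isBaseChange H χ hs hk) hX N
  have h2 : L.len (TorM D n X (D ⊗[S] A)) = L.len (TorM D n X N) :=
    Vale.Agent.P202.Mix.len_congr L (torCongrRight n X e')
  exact h2.trans h1

/-- **Tor over `S` and over `R = S / E`**. -/
theorem len_tor_hyper (L : AddLen D) (H : IsHypersurface D B (algebraMap S D E))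
    (hR : Surjective (algebraMap S R)) (hE : algebraMap S R E = 0)
    {X Z : Type u} [AddCommGroup X] [Module D X] [AddCommGroup Z] [Module D Z] [Module B Z]
    [IsScalarTower D B Z] (χ : X →ₗ[D] Z) (hs : Surjective χ)
    (hk : ∀ x, χ x = 0 → ∃ y, x = algebraMap S D E • y)
    (hX : IsSMulRegular X (algebraMap S D E)) (n : ℕ)
    (A : Type u) [AddCommGroup A] [Module S A] [Module R A] [IsScalarTower S R A] :
    L.len (TorM D n X (D ⊗[S] A)) =
      (L.restrict (algebraMap D B)).len (TorM B n Z (B ⊗[R] A)) :=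
  len_tor_hyper_aux L H hR hE χ hs hk hX n A (B ⊗[R] A) (LinearEquiv.refl B _)

end general

section tensor

variable {S R V : Type u} [CommRing S] [CommRing R] [CommRing V]

variable (V) in
/-- `S ⊗ V → R ⊗ V`. -/
noncomputable def mapSR (Φ : S →+* R) : S ⊗[ℤ] V →+* R ⊗[ℤ] V :=
  (Algebra.TensorProduct.map Φ.toIntAlgHom (AlgHom.id ℤ V)).toRingHom

theorem mapSR_tmul (Φ : S →+* R) (s : S) (v : V) : mapSR V Φ (s ⊗ₜ v) = Φ s ⊗ₜ v :=
  Algebra.TensorProduct.map_tmul _ _ _ _

theorem mapSR_eq (Φ : S →+* R) (x : S ⊗[ℤ] V) :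
    mapSR V Φ x = (Φ.toAddMonoidHom.toIntLinearMap).rTensor V x := by
  induction x using TensorProduct.induction_on with
  | zero => (first
      | rw [RingHom.map_zero, RingHom.map_zero]
      | rw [LinearMap.map_zero, LinearMap.map_zero]
      | rw [map_zero, map_zero])
  | tmul s v => rw [mapSR_tmul]; rfl
  | add x y hx hy => (first
      | rw [RingHom.map_add, RingHom.map_add, hx, hy]
      | rw [LinearMap.map_add, LinearMap.map_add, hx, hy]
      | rw [map_add, map_add, hx, hy])

theorem mapSR_surj {Φ : S →+* R} (hΦ : Surjective Φ) : Surjective (mapSR V Φ) := by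
  intro x
  obtain ⟨y, hy⟩ := LinearMap.rTensor_surjective V
    (g := Φ.toAddMonoidHom.toIntLinearMap) hΦ x
  exact ⟨y, (mapSR_eq Φ y).trans hy⟩

theorem rTensor_mul_eq (E : S) (x : S ⊗[ℤ] V) :
    ((AddMonoidHom.mulLeft E).toIntLinearMap).rTensor V x = (E ⊗ₜ (1 : V) : S ⊗[ℤ] V) * x := by
  induction x using TensorProduct.induction_on with
  | zero => (first
      | rw [RingHom.map_zero, mul_zero]
      | rw [LinearMap.map_zero, mul_zero]
      | rw [map_zero, mul_zero])
  | tmul s v =>
    rw [Algebra.TensorProduct.tmul_mul_tmul, one_mul]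
    rfl
  | add x y hx hy => rw [map_add, mul_add, hx, hy]

theorem mapSR_ker {Φ : S →+* R} (hΦ : Surjective Φ) {E : S}
    (hE : RingHom.ker Φ = Ideal.span {E}) :
    RingHom.ker (mapSR V Φ) = Ideal.span {(E ⊗ₜ (1 : V) : S ⊗[ℤ] V)} := by
  have hex : Exact (AddMonoidHom.mulLeft E).toIntLinearMap Φ.toAddMonoidHom.toIntLinearMap := by
    intro s
    have h1 : Φ.toAddMonoidHom.toIntLinearMap s = 0 ↔ s ∈ RingHom.ker Φ := Iff.rfl
    rw [h1, hE, Ideal.mem_span_singleton']
    constructor
    · rintro ⟨a, rfl⟩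
      exact ⟨a, mul_comm E a⟩
    · rintro ⟨a, rfl⟩
      exact ⟨a, mul_comm a E⟩
  have h2 := rTensor_exact V hex hΦ
  ext x
  rw [RingHom.mem_ker, mapSR_eq, h2 x, Ideal.mem_span_singleton']
  constructor
  · rintro ⟨y, rfl⟩
    exact ⟨y, by rw [rTensor_mul_eq, mul_comm]⟩
  · rintro ⟨y, rfl⟩
    exact ⟨y, by rw [rTensor_mul_eq, mul_comm]⟩

theorem tmul_one_regular [Module.Flat ℤ V] {E : S} (hE : IsSMulRegular S E) :
    IsSMulRegular (S ⊗[ℤ] V) (E ⊗ₜ (1 : V) : S ⊗[ℤ] V) := by
  have h1 : Injective ((AddMonoidHom.mulLeft E).toIntLinearMap) := hE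
  have h2 := Module.Flat.rTensor_preserves_injective_linearMap (M := V) _ h1
  intro x y hxy
  refine h2 ?_
  rw [rTensor_mul_eq, rTensor_mul_eq]
  exact hxy

/-- `R ⊗ V` is a hypersurface in `S ⊗ V`. -/
theorem isHypersurface_mapSR [Module.Flat ℤ V] {Φ : S →+* R} (hΦ : Surjective Φ) {E : S}
    (hE : RingHom.ker Φ = Ideal.span {E}) (hreg : IsSMulRegular S E) :
    @IsHypersurface (S ⊗[ℤ] V) (R ⊗[ℤ] V) _ _ (mapSR V Φ).toAlgebra
      (E ⊗ₜ (1 : V) : S ⊗[ℤ] V) := by
  let _ := (mapSR V Φ).toAlgebra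
  exact ⟨tmul_one_regular hreg, mapSR_surj hΦ, mapSR_ker hΦ hE⟩

end tensor

section mod

open Vale.Agent.P177.PI Vale.Agent.P177.NatG Vale.Agent.P177.NatC

variable (p : ℕ) [hp : Fact p.Prime] {C' : Type u} [CommRing C'] {D : Type u} [CommRing D]

/-- `WI J'`, on which `D` acts through `ρ : D → W(C')`. -/
def XMod (J' : Ideal C') (_ : D →+* WittVector p C') : Type u := WI p J'

variable {p} {J' : Ideal C'} {ρ : D →+* WittVector p C'}

noncomputable instance : AddCommGroup (XMod p J' ρ) := inferInstanceAs (AddCommGroup (WI p J'))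

noncomputable instance : Module (WittVector p C') (XMod p J' ρ) :=
  inferInstanceAs (Module (WittVector p C') (WI p J'))

noncomputable instance : Module D (XMod p J' ρ) := Module.compHom (WI p J') ρ

theorem xmod_smul (d : D) (x : XMod p J' ρ) : d • x = ρ d • x := rfl

variable {S R V : Type u} [CommRing S] [CommRing R] [CommRing V]

/-- `S ⊗ V → W'`. -/
noncomputable def rhoS {W' : Type u} [CommRing W'] (ψ : S →+* W') (F : V →+* W') :
    S ⊗[ℤ] V →+* W' :=
  (Algebra.TensorProduct.productMap ψ.toIntAlgHom F.toIntAlgHom).toRingHom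

theorem rhoS_tmul {W' : Type u} [CommRing W'] (ψ : S →+* W') (F : V →+* W') (s : S) (v : V) :
    rhoS ψ F (s ⊗ₜ v) = ψ s * F v :=
  Algebra.TensorProduct.productMap_apply_tmul _ _ _ _

theorem rhoD_mapSR {W' : Type u} [CommRing W'] (Φ : S →+* R) (hΦ : Surjective Φ) (E : S)
    (hE : RingHom.ker Φ = Ideal.span {E}) (ψ : S →+* W') (F : V →+* W') (d : S ⊗[ℤ] V) :
    rhoD Φ hΦ E hE ψ F (mapSR V Φ d) = Ideal.Quotient.mk _ (rhoS ψ F d) := by
  induction d using TensorProduct.induction_on with
  | zero => (first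
      | rw [RingHom.map_zero, RingHom.map_zero, RingHom.map_zero, RingHom.map_zero]
      | rw [LinearMap.map_zero, LinearMap.map_zero, LinearMap.map_zero, LinearMap.map_zero]
      | rw [map_zero, map_zero, map_zero, map_zero])
  | tmul s v => rw [mapSR_tmul, rhoD_tmul, rhoR_apply, rhoS_tmul, map_mul]
  | add x y hx hy => (first
      | rw [RingHom.map_add, RingHom.map_add, RingHom.map_add, RingHom.map_add, hx, hy]
      | rw [LinearMap.map_add, LinearMap.map_add, LinearMap.map_add, LinearMap.map_add, hx, hy]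
      | rw [map_add, map_add, map_add, map_add, hx, hy])

/-- **Tor over `R ⊗ V` of the honest module `WI J' / ψ E` from Tor over `S ⊗ V` of `WI J'`.** -/
theorem len_tor_xmod [Module.Flat ℤ V] (L : AddLen (S ⊗[ℤ] V)) (Φ : S →+* R)
    (hΦ : Surjective Φ) (E : S) (hE : RingHom.ker Φ = Ideal.span {E}) (hreg : IsSMulRegular S E)
    (ψ : S →+* WittVector p C') (F : V →+* WittVector p C')
    (hψ : ∀ x ∈ WI p J', ψ E * x = 0 → x = 0) (n : ℕ)
    (A : Type u) [AddCommGroup A] [Module S A] [Module R A] (hA : ∀ (s : S) (a : A), s • a = Φ s • a) :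
    L.len (TorM (S ⊗[ℤ] V) n (XMod p J' (rhoS ψ F)) ((S ⊗[ℤ] V) ⊗[S] A)) =
      (L.restrict (mapSR V Φ)).len (TorM (R ⊗[ℤ] V) n (HMod p J' (ψ E) (rhoD Φ hΦ E hE ψ F))
        ((R ⊗[ℤ] V) ⊗[R] A)) := by
  let i1 : Algebra S R := Φ.toAlgebra
  let i2 : Algebra (S ⊗[ℤ] V) (R ⊗[ℤ] V) := (mapSR V Φ).toAlgebra
  have t2 : IsScalarTower S (S ⊗[ℤ] V) (R ⊗[ℤ] V) := ⟨fun s d r => by
    have h : ∀ x : S ⊗[ℤ] V, mapSR V Φ (s • x) = s • mapSR V Φ x := by
      intro x
      induction x using TensorProduct.induction_on with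
      | zero => (first
          | rw [smul_zero, RingHom.map_zero, smul_zero]
          | rw [smul_zero, LinearMap.map_zero, smul_zero]
          | rw [smul_zero, map_zero, smul_zero])
      | tmul a v =>
        rw [TensorProduct.smul_tmul', mapSR_tmul, mapSR_tmul, TensorProduct.smul_tmul',
          smul_eq_mul, map_mul]
        rfl
      | add x y hx hy => (first
          | rw [smul_add, RingHom.map_add, RingHom.map_add, smul_add, hx, hy]
          | rw [smul_add, LinearMap.map_add, LinearMap.map_add, smul_add, hx, hy]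
          | rw [smul_add, map_add, map_add, smul_add, hx, hy])
    change mapSR V Φ (s • d) * r = s • (mapSR V Φ d * r)
    rw [h, smul_mul_assoc]⟩
  have t3 : IsScalarTower S R A := IsScalarTower.of_algebraMap_smul fun s a => (hA s a).symm
  let m1 : Module (S ⊗[ℤ] V) (HMod p J' (ψ E) (rhoD Φ hΦ E hE ψ F)) :=
    Module.compHom _ (mapSR V Φ)
  have t4 : IsScalarTower (S ⊗[ℤ] V) (R ⊗[ℤ] V) (HMod p J' (ψ E) (rhoD Φ hΦ E hE ψ F)) :=
    IsScalarTower.of_algebraMap_smul fun _ _ => rfl
  have H : IsHypersurface (S ⊗[ℤ] V) (R ⊗[ℤ] V) (algebraMap S (S ⊗[ℤ] V) E) :=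
    isHypersurface_mapSR hΦ hE hreg
  have e0 : ∀ x : XMod p J' (rhoS ψ F), algebraMap S (S ⊗[ℤ] V) E • x = ψ E • x := fun x => by
    have h1 : rhoS ψ F (algebraMap S (S ⊗[ℤ] V) E) = ψ E := by
      have h2 : algebraMap S (S ⊗[ℤ] V) E = E ⊗ₜ (1 : V) := rfl
      rw [h2, rhoS_tmul, map_one, mul_one]
    rw [xmod_smul, h1]
  let χ : XMod p J' (rhoS ψ F) →ₗ[S ⊗[ℤ] V] HMod p J' (ψ E) (rhoD Φ hΦ E hE ψ F) :=
    { toFun := fun x => hcl (rhoD Φ hΦ E hE ψ F) (show WI p J' from x)
      map_add' := fun x y => rfl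
      map_smul' := fun d x => by
        change hcl (rhoD Φ hΦ E hE ψ F) (rhoS ψ F d • (show WI p J' from x)) =
          mapSR V Φ d • hcl (rhoD Φ hΦ E hE ψ F) (show WI p J' from x)
        rw [hmod_smul _ _ (rhoD_mapSR Φ hΦ E hE ψ F d), hcl_smul] }
  refine len_tor_hyper L H hΦ ?_ χ (fun y => hcl_surj y) ?_ ?_ n A
  · have : E ∈ RingHom.ker Φ := by
      rw [hE]
      exact Ideal.mem_span_singleton_self E
    exact this
  · intro x hx
    obtain ⟨y, hy, hxy⟩ := (hcl_eq_zero (ρ := rhoD Φ hΦ E hE ψ F) (show WI p J' from x)).1 hx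
    refine ⟨(show XMod p J' (rhoS ψ F) from ⟨y, hy⟩), ?_⟩
    rw [e0]
    exact Subtype.ext hxy
  · intro x y hxy
    have hxy' : ψ E • x = ψ E • y := by
      rw [← e0, ← e0]
      exact hxy
    have h1 : ψ E • (x - y) = 0 := by rw [smul_sub, hxy', sub_self]
    have h2 : ψ E * ((show WI p J' from (x - y)) : WittVector p C') = 0 :=
      congrArg (Subtype.val : WI p J' → WittVector p C') h1
    have h3 := hψ _ (show WI p J' from (x - y)).2 h2
    have h4 : x - y = 0 := Subtype.ext h3
    exact sub_eq_zero.1 h4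

theorem mapSR_comp_right (V : Type u) [CommRing V] (Φ : S →+* R) :
    (mapSR V Φ).comp (Algebra.TensorProduct.includeRight : V →ₐ[ℤ] S ⊗[ℤ] V).toRingHom =
      (Algebra.TensorProduct.includeRight : V →ₐ[ℤ] R ⊗[ℤ] V).toRingHom := by
  ext v
  have h1 : mapSR V Φ ((1 : S) ⊗ₜ v) = Φ 1 ⊗ₜ v := mapSR_tmul Φ 1 v
  rw [map_one] at h1
  exact h1

/-- lengths pulled back from `V`. -/
theorem restrict_mapSR_len (L' : AddLen V) (Φ : S →+* R) (M : Type u) [AddCommGroup M]
    [Module (R ⊗[ℤ] V) M] :
    ((L'.restrict (Algebra.TensorProduct.includeRight : V →ₐ[ℤ] S ⊗[ℤ] V).toRingHom).restrict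
      (mapSR V Φ)).len M =
      (L'.restrict (Algebra.TensorProduct.includeRight : V →ₐ[ℤ] R ⊗[ℤ] V).toRingHom).len M := by
  have h1 : ((L'.restrict
      (Algebra.TensorProduct.includeRight : V →ₐ[ℤ] S ⊗[ℤ] V).toRingHom).restrict
      (mapSR V Φ)).len M = (L'.restrict ((mapSR V Φ).comp
        (Algebra.TensorProduct.includeRight : V →ₐ[ℤ] S ⊗[ℤ] V).toRingHom)).len M := rfl
  rw [h1, mapSR_comp_right]

/-- **Tor over `R ⊗ V` of the honest module `WI J' / ψ E` is `tau` of `WI J'` over `S ⊗ V`**,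
lengths pulled back from `V`. -/
theorem len_tor_hmod_eq_tau [Module.Flat ℤ V] (L' : AddLen V) (Φ : S →+* R)
    (hΦ : Surjective Φ) (E : S) (hE : RingHom.ker Φ = Ideal.span {E}) (hreg : IsSMulRegular S E)
    (ψ : S →+* WittVector p C') (F : V →+* WittVector p C')
    (hψ : ∀ x ∈ WI p J', ψ E * x = 0 → x = 0) (n : ℕ)
    (A : Type u) [AddCommGroup A] [Module S A] [Module R A] (hA : ∀ (s : S) (a : A), s • a = Φ s • a) :
    (L'.restrict (Algebra.TensorProduct.includeRight : V →ₐ[ℤ] R ⊗[ℤ] V).toRingHom).len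
      (TorM (R ⊗[ℤ] V) n (HMod p J' (ψ E) (rhoD Φ hΦ E hE ψ F)) ((R ⊗[ℤ] V) ⊗[R] A)) =
      tau S (L'.restrict (Algebra.TensorProduct.includeRight : V →ₐ[ℤ] S ⊗[ℤ] V).toRingHom) n A
        (XMod p J' (rhoS ψ F)) := by
  obtain ⟨e1⟩ := tor_symm (R := S ⊗[ℤ] V) n ((S ⊗[ℤ] V) ⊗[S] A) (XMod p J' (rhoS ψ F))
  rw [← restrict_mapSR_len L' Φ, ← len_tor_xmod _ Φ hΦ E hE hreg ψ F hψ n A hA]
  exact (Vale.Agent.P202.Mix.len_congr _ e1).symm

end mod

end Vale.Agent.P177.SL
end

section

/-!
P177, B7, L3: lower bounds for the zeroth Tor module of a thickening.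
-/

set_option linter.all false

namespace Vale.Agent.P177.SL

open Vale.Agent.P202.Mix Function TensorProduct IsLocalRing
open scoped ENNReal

universe u

section zero

variable {S D : Type u} [CommRing S] [CommRing D] [Algebra S D] (L : AddLen D) {d t : ℕ}
  (Θ : S →+* TB S d t)

/-- the zeroth Tor module. -/
noncomputable def ttZero (N : Type u) [AddCommGroup N] [Module S N] (X : Type u) [AddCommGroup X]
    [Module D X] : TT S D 0 N X ≃ₗ[D] (D ⊗[S] N) ⊗[D] X := torZero (D ⊗[S] N) X

theorem tau_zero_eq (N : Type u) [AddCommGroup N] [Module S N] (X : Type u) [AddCommGroup X]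
    [Module D X] : tau S L 0 N X = L.len ((D ⊗[S] N) ⊗[D] X) :=
  len_congr L (ttZero N X)

theorem tau_zero_le {N N' : Type u} [AddCommGroup N] [Module S N] [AddCommGroup N'] [Module S N']
    {X X' : Type u} [AddCommGroup X] [Module D X] [AddCommGroup X'] [Module D X']
    (f : N →ₗ[S] N') (hf : Surjective f) (g : X →ₗ[D] X') (hg : Surjective g) :
    tau S L 0 (Th Θ (TB S d t) N') X' ≤ tau S L 0 (Th Θ (TB S d t) N) X := by
  rw [tau_zero_eq, tau_zero_eq]
  have h1 : Surjective (thMap Θ (TB S d t) f) := LinearMap.lTensor_surjective _ hf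
  have h2 : Surjective ((thMap Θ (TB S d t) f).baseChange D) :=
    LinearMap.lTensor_surjective D h1
  exact len_le_of_surjective L (TensorProduct.map ((thMap Θ (TB S d t) f).baseChange D) g)
    (TensorProduct.map_surjective h2 hg)

end zero

section act

theorem ind_zero {T D X X' : Type*} [CommRing T] [CommRing D] [AddCommGroup X] [AddCommGroup X']
    [Module T X] [Module D X'] (f : X →+ X') (c : T) (c' : D) : f (c • (0 : X)) = c' • f 0 := by
  rw [smul_zero, map_zero, smul_zero]

theorem ind_add {T D X X' : Type*} [CommRing T] [CommRing D] [AddCommGroup X] [AddCommGroup X']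
    [Module T X] [Module D X'] (f : X →+ X') (c : T) (c' : D) {x x' : X}
    (hx : f (c • x) = c' • f x) (hx' : f (c • x') = c' • f x') :
    f (c • (x + x')) = c' • f (x + x') := by
  rw [smul_add, map_add, hx, hx', map_add, smul_add]

variable {W₀ S D : Type u} [CommRing W₀] [CommRing S] [CommRing D] [Algebra W₀ S] [Algebra W₀ D]
  (N Y : Type u) [AddCommGroup N] [Module S N] [Module W₀ N] [IsScalarTower W₀ S N]
  [AddCommGroup Y] [Module D Y] [Module W₀ Y] [IsScalarTower W₀ D Y]

/-- the action of `D ⊗ S` on `Y ⊗ N`. -/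
noncomputable def actE : D ⊗[W₀] S →ₐ[W₀] Module.End W₀ (Y ⊗[W₀] N) :=
  (Module.endTensorEndAlgHom (R := W₀) (S := W₀) (A := W₀) (M := Y) (N := N)).comp
    (Algebra.TensorProduct.map (Algebra.lsmul W₀ W₀ Y) (Algebra.lsmul W₀ W₀ N))

theorem actE_tmul (a : D) (s : S) (y : Y) (n : N) :
    actE (W₀ := W₀) N Y (a ⊗ₜ s) (y ⊗ₜ n) = (a • y) ⊗ₜ (s • n) := rfl

theorem actE_left (a : D) (m : Y ⊗[W₀] N) : actE (W₀ := W₀) (S := S) N Y (a ⊗ₜ 1) m = a • m := by
  induction m using TensorProduct.induction_on with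
  | zero => exact (LinearMap.map_zero _).trans (smul_zero _).symm
  | tmul y n => rw [actE_tmul, one_smul, TensorProduct.smul_tmul']
  | add x y hx hy => rw [LinearMap.map_add, hx, hy, smul_add]

/-- the ring of operators. -/
abbrev opE (W₀ : Type u) (S D : Type u) [CommRing W₀] [CommRing S] [CommRing D] [Algebra W₀ S]
    [Algebra W₀ D] (N Y : Type u) [AddCommGroup N] [Module S N] [Module W₀ N]
    [IsScalarTower W₀ S N] [AddCommGroup Y] [Module D Y] [Module W₀ Y] [IsScalarTower W₀ D Y] :
    Type u :=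
  (D ⊗[W₀] S) ⧸ RingHom.ker ((actE (W₀ := W₀) (S := S) (D := D) N Y) :
    D ⊗[W₀] S →+* Module.End W₀ (Y ⊗[W₀] N))

/-- the action of the ring of operators. -/
noncomputable def opA : opE W₀ S D N Y →+* Module.End W₀ (Y ⊗[W₀] N) :=
  RingHom.kerLift _

/-- the class of an operator. -/
noncomputable def opM : D ⊗[W₀] S →+* opE W₀ S D N Y := Ideal.Quotient.mk _

theorem opA_opM (x : D ⊗[W₀] S) (m : Y ⊗[W₀] N) :
    opA N Y (opM N Y x) m = actE (W₀ := W₀) N Y x m := rfl

theorem opM_eq_zero {x : D ⊗[W₀] S} (h : ∀ (y : Y) (n : N), actE (W₀ := W₀) N Y x (y ⊗ₜ n) = 0) :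
    opM N Y x = 0 := by
  refine Ideal.Quotient.eq_zero_iff_mem.2 ?_
  rw [RingHom.mem_ker]
  apply LinearMap.ext
  intro m
  induction m using TensorProduct.induction_on with
  | zero => rw [LinearMap.map_zero, LinearMap.map_zero]
  | tmul y n => exact h y n
  | add x y hx hy => rw [LinearMap.map_add, hx, hy, LinearMap.map_add]

variable {N Y} in
theorem opA_comm (a : D) (x : opE W₀ S D N Y) (m : Y ⊗[W₀] N) :
    opA N Y x (a • m) = a • opA N Y x m := by
  rw [← actE_left (S := S) N Y, ← actE_left (S := S) N Y, ← opA_opM, ← opA_opM,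
    ← Module.End.mul_apply, ← Module.End.mul_apply, ← RingHom.map_mul, ← RingHom.map_mul,
    mul_comm]

end act

section main

variable {W₀ S D : Type u} [CommRing W₀] [CommRing S] [CommRing D] [Algebra W₀ S] [Algebra S D]
  [Algebra W₀ D] [IsScalarTower W₀ S D] (L : AddLen D) {d t : ℕ} (z : Fin d → S)
  (Θ : S →+* TB S d t)
  (N : Type u) [AddCommGroup N] [Module S N] [Module W₀ N] [IsScalarTower W₀ S N]
  (Y : Type u) [AddCommGroup Y] [Module D Y] [Module W₀ Y] [IsScalarTower W₀ D Y]
  (t1 t2 : ℕ) (hN : ∀ i (m : N), z i ^ t1 • m = 0)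
  (hY : ∀ i (y : Y), (algebraMap S D (z i)) ^ t2 • y = 0) (ht : t1 + t2 ≤ t + 1)

/-- `S` acting on `N`. -/
noncomputable def sjR : S →+* opE W₀ S D N Y :=
  (opM N Y).comp (Algebra.TensorProduct.includeRight (R := W₀) (A := D) (B := S) : S →+* D ⊗[W₀] S)

/-- `S` acting on `Y`. -/
noncomputable def sjL : S →+* opE W₀ S D N Y :=
  (opM N Y).comp ((Algebra.TensorProduct.includeLeftRingHom : D →+* D ⊗[W₀] S).comp
    (algebraMap S D))

theorem sjL_apply (s : S) (m : Y ⊗[W₀] N) : opA N Y (sjL (W₀ := W₀) (D := D) N Y s) m =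
    algebraMap S D s • m :=
  actE_left (S := S) N Y _ m

theorem sjR_tmul (s : S) (y : Y) (n : N) : opA N Y (sjR (W₀ := W₀) (D := D) N Y s) (y ⊗ₜ n) =
    y ⊗ₜ (s • n) := by
  change actE (W₀ := W₀) N Y ((1 : D) ⊗ₜ s) (y ⊗ₜ n) = _
  rw [actE_tmul, one_smul]

variable {z N Y t1 t2}

include hN in
theorem sjR_pow (i : Fin d) : sjR (W₀ := W₀) (D := D) N Y (z i) ^ t1 = 0 := by
  rw [← RingHom.map_pow]
  apply opM_eq_zero
  intro y n
  change actE (W₀ := W₀) N Y ((1 : D) ⊗ₜ (z i ^ t1)) (y ⊗ₜ n) = 0
  rw [actE_tmul, hN, TensorProduct.tmul_zero]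

include hY in
theorem sjL_pow (i : Fin d) : sjL (W₀ := W₀) (D := D) N Y (z i) ^ t2 = 0 := by
  rw [← RingHom.map_pow]
  apply opM_eq_zero
  intro y n
  change actE (W₀ := W₀) N Y ((algebraMap S D (z i ^ t2)) ⊗ₜ 1) (y ⊗ₜ n) = 0
  rw [actE_tmul, map_pow, hY, TensorProduct.zero_tmul]

include hN hY ht in
theorem sj_sub_pow (i : Fin d) : (sjL (W₀ := W₀) (D := D) N Y (z i) -
    sjR (W₀ := W₀) (D := D) N Y (z i)) ^ t = 0 := by
  rw [sub_eq_add_neg]
  refine (Commute.all _ _).add_pow_eq_zero_of_add_le_succ_of_pow_eq_zero (sjL_pow hY i) ?_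
    (by omega : t2 + t1 ≤ t + 1)
  rw [neg_pow, sjR_pow hN i, mul_zero]

/-- the action of the thickening. -/
noncomputable def sj : TB S d t →+* opE W₀ S D N Y :=
  Ideal.Quotient.lift (boxI S fun _ : Fin d => t)
    (MvPolynomial.eval₂Hom (sjR (W₀ := W₀) (D := D) N Y)
      fun i => sjL (W₀ := W₀) (D := D) N Y (z i) - sjR (W₀ := W₀) (D := D) N Y (z i)) (by
    intro a ha
    have h : boxI S (fun _ : Fin d => t) ≤ RingHom.ker
        (MvPolynomial.eval₂Hom (sjR (W₀ := W₀) (D := D) N Y)
      fun i => sjL (W₀ := W₀) (D := D) N Y (z i) - sjR (W₀ := W₀) (D := D) N Y (z i)) := by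
      rw [boxI, Ideal.span_le]
      rintro _ ⟨i, rfl⟩
      rw [SetLike.mem_coe, RingHom.mem_ker, map_pow, MvPolynomial.eval₂Hom_X']
      exact sj_sub_pow hN hY ht i
    exact h ha)

theorem sj_algebraMap (s : S) : sj (W₀ := W₀) hN hY ht (algebraMap S (TB S d t) s) =
    sjR (W₀ := W₀) (D := D) N Y s := by
  change MvPolynomial.eval₂Hom (sjR (W₀ := W₀) (D := D) N Y) _ (MvPolynomial.C s) = _
  rw [MvPolynomial.eval₂Hom_C]

theorem sj_X (i : Fin d) : sj (W₀ := W₀) hN hY ht
      (Ideal.Quotient.mk _ (MvPolynomial.X i) : TB S d t) =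
    sjL (W₀ := W₀) (D := D) N Y (z i) - sjR (W₀ := W₀) (D := D) N Y (z i) := by
  change MvPolynomial.eval₂Hom (sjR (W₀ := W₀) (D := D) N Y) _ (MvPolynomial.X i) = _
  rw [MvPolynomial.eval₂Hom_X']

variable {Θ}

theorem sj_theta
    (hvar : ∀ i, Θ (z i) = algebraMap S (TB S d t) (z i) + Ideal.Quotient.mk _ (MvPolynomial.X i))
    (hΘ : ∀ w : W₀, Θ (algebraMap W₀ S w) = algebraMap S (TB S d t) (algebraMap W₀ S w))
    (hgen : ∀ (s : S) (M : ℕ), ∃ q : MvPolynomial (Fin d) W₀,
      s - MvPolynomial.aeval z q ∈ Ideal.span (Set.range z) ^ M) (s : S) :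
    sj (W₀ := W₀) hN hY ht (Θ s) = sjL (W₀ := W₀) (D := D) N Y s := by
  set φ1 : S →+* opE W₀ S D N Y := (sj (W₀ := W₀) hN hY ht).comp Θ with hφ1
  set φ2 : S →+* opE W₀ S D N Y := sjL (W₀ := W₀) (D := D) N Y with hφ2
  have h1 : ∀ i, φ1 (z i) = φ2 (z i) := by
    intro i
    rw [hφ1, RingHom.comp_apply, hvar, RingHom.map_add, sj_algebraMap, sj_X]
    ring
  have h2 : ∀ w : W₀, φ1 (algebraMap W₀ S w) = φ2 (algebraMap W₀ S w) := by
    intro w
    rw [hφ1, RingHom.comp_apply, hΘ, sj_algebraMap]
    change opM N Y ((1 : D) ⊗ₜ (algebraMap W₀ S w)) =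
      opM N Y ((algebraMap S D (algebraMap W₀ S w)) ⊗ₜ 1)
    rw [← IsScalarTower.algebraMap_apply W₀ S D, Algebra.algebraMap_eq_smul_one,
      Algebra.algebraMap_eq_smul_one, TensorProduct.tmul_smul, TensorProduct.smul_tmul']
  have h3 : ∀ q : MvPolynomial (Fin d) W₀,
      φ1 (MvPolynomial.aeval z q) = φ2 (MvPolynomial.aeval z q) := by
    intro q
    induction q using MvPolynomial.induction_on with
    | C w => rw [MvPolynomial.aeval_C]; exact h2 w
    | add p q hp hq =>
      rw [map_add (MvPolynomial.aeval z), RingHom.map_add, RingHom.map_add, hp, hq]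
    | mul_X p i hp =>
      rw [map_mul (MvPolynomial.aeval z), RingHom.map_mul, RingHom.map_mul,
        MvPolynomial.aeval_X, hp, h1]
  -- the ideal `(z)` is nilpotent
  obtain ⟨M, hM⟩ : ∃ M : ℕ, Ideal.span (Set.range fun i => φ2 (z i)) ^ M = ⊥ := by
    have h4 : Ideal.span (Set.range fun i => φ2 (z i)) ≤ (⊥ : Ideal (opE W₀ S D N Y)).radical := by
      rw [Ideal.span_le]
      rintro _ ⟨i, rfl⟩
      exact ⟨t2, by rw [sjL_pow hY i]; exact Ideal.zero_mem _⟩
    obtain ⟨M, hM⟩ := Ideal.exists_pow_le_of_le_radical_of_fg h4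
      (Submodule.fg_span (Set.finite_range _))
    exact ⟨M, le_bot_iff.1 hM⟩
  have h5 : ∀ x ∈ Ideal.span (Set.range z) ^ M, φ1 x = 0 ∧ φ2 x = 0 := by
    intro x hx
    constructor
    · have h6 := Ideal.mem_map_of_mem φ1 hx
      rw [Ideal.map_pow, Ideal.map_span, ← Set.range_comp] at h6
      have h7 : φ1 ∘ z = fun i => φ2 (z i) := funext h1
      rw [h7, hM] at h6
      exact h6
    · have h6 := Ideal.mem_map_of_mem φ2 hx
      rw [Ideal.map_pow, Ideal.map_span, ← Set.range_comp] at h6
      have h7 : φ2 ∘ z = fun i => φ2 (z i) := rfl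
      rw [h7, hM] at h6
      exact h6
  obtain ⟨q, hq⟩ := hgen s M
  obtain ⟨h6, h7⟩ := h5 _ hq
  rw [RingHom.map_sub, sub_eq_zero] at h6 h7
  change φ1 s = φ2 s
  rw [h6, h7, h3]

/-- `y ↦ x (y ⊗ n)`. -/
noncomputable def ellA (x : opE W₀ S D N Y) (n : N) : Y →ₗ[D] Y ⊗[W₀] N where
  toFun y := opA N Y x (y ⊗ₜ n)
  map_add' a b := by rw [TensorProduct.add_tmul, map_add]
  map_smul' a y := by
    rw [← TensorProduct.smul_tmul', opA_comm]
    rfl

theorem ellA_apply (x : opE W₀ S D N Y) (n : N) (y : Y) :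
    ellA x n y = opA N Y x (y ⊗ₜ n) := rfl

/-- `ellA` as a biadditive map. -/
noncomputable def ellB : opE W₀ S D N Y →+ N →+ (Y →ₗ[D] Y ⊗[W₀] N) :=
  AddMonoidHom.mk' (fun x => AddMonoidHom.mk' (fun n => ellA x n) (fun a b => by
      apply LinearMap.ext
      intro y
      rw [LinearMap.add_apply, ellA_apply, ellA_apply, ellA_apply, TensorProduct.tmul_add,
        map_add]))
    (fun a b => by
      apply AddMonoidHom.ext
      intro n
      apply LinearMap.ext
      intro y
      exact congrArg (fun f : Module.End W₀ (Y ⊗[W₀] N) => f (y ⊗ₜ n))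
        (RingHom.map_add (opA N Y) a b))

/-- the map `T ⊗ N → Hom_D (Y, Y ⊗ N)`. -/
noncomputable def ell0 : (TB S d t) ⊗[S] N →+ (Y →ₗ[D] Y ⊗[W₀] N) :=
  TensorProduct.liftAddHom
    ((ellB (W₀ := W₀) (S := S) (D := D) (N := N) (Y := Y)).comp
      (sj (W₀ := W₀) hN hY ht : TB S d t →+* opE W₀ S D N Y).toAddMonoidHom)
    (by
      intro s τ n
      apply LinearMap.ext
      intro y
      change opA N Y (sj (W₀ := W₀) hN hY ht (s • τ)) (y ⊗ₜ n) =
        opA N Y (sj (W₀ := W₀) hN hY ht τ) (y ⊗ₜ (s • n))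
      have h1 : (s • τ : TB S d t) = τ * algebraMap S (TB S d t) s := by
        rw [mul_comm]; exact Algebra.smul_def s τ
      rw [h1, RingHom.map_mul, RingHom.map_mul, Module.End.mul_apply, sj_algebraMap, sjR_tmul])

theorem ell0_tmul (τ : TB S d t) (n : N) (y : Y) :
    ell0 (W₀ := W₀) hN hY ht (τ ⊗ₜ n) y =
      opA N Y (sj (W₀ := W₀) hN hY ht τ) (y ⊗ₜ n) := rfl

theorem ell0_theta
    (hvar : ∀ i, Θ (z i) = algebraMap S (TB S d t) (z i) + Ideal.Quotient.mk _ (MvPolynomial.X i))
    (hΘ : ∀ w : W₀, Θ (algebraMap W₀ S w) = algebraMap S (TB S d t) (algebraMap W₀ S w))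
    (hgen : ∀ (s : S) (M : ℕ), ∃ q : MvPolynomial (Fin d) W₀,
      s - MvPolynomial.aeval z q ∈ Ideal.span (Set.range z) ^ M) (s : S)
    (x : (TB S d t) ⊗[S] N) :
    ell0 (W₀ := W₀) hN hY ht (Θ s • x) = algebraMap S D s • ell0 (W₀ := W₀) hN hY ht x := by
  induction x using TensorProduct.induction_on with
  | zero =>
    exact ind_zero (T := TB S d t) (X := (TB S d t) ⊗[S] N) (ell0 (W₀ := W₀) hN hY ht) (Θ s)
      (algebraMap S D s)
  | tmul τ n =>
    apply LinearMap.ext
    intro y
    have h1 : (Θ s • (τ ⊗ₜ[S] n) : (TB S d t) ⊗[S] N) = (Θ s * τ) ⊗ₜ[S] n :=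
      TensorProduct.smul_tmul' _ _ _
    rw [h1, ell0_tmul, RingHom.map_mul, RingHom.map_mul, Module.End.mul_apply,
      sj_theta (W₀ := W₀) hN hY ht hvar hΘ hgen s, sjL_apply, LinearMap.smul_apply, ell0_tmul]
  | add a b ha hb =>
    exact ind_add (T := TB S d t) (X := (TB S d t) ⊗[S] N) (ell0 (W₀ := W₀) hN hY ht) (Θ s)
      (algebraMap S D s) ha hb

variable (N Y) in
theorem len_ten_le_tau
    (hvar : ∀ i, Θ (z i) = algebraMap S (TB S d t) (z i) + Ideal.Quotient.mk _ (MvPolynomial.X i))
    (hΘ : ∀ w : W₀, Θ (algebraMap W₀ S w) = algebraMap S (TB S d t) (algebraMap W₀ S w))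
    (hgen : ∀ (s : S) (M : ℕ), ∃ q : MvPolynomial (Fin d) W₀,
      s - MvPolynomial.aeval z q ∈ Ideal.span (Set.range z) ^ M) (t1 t2 : ℕ)
    (hN : ∀ i (m : N), z i ^ t1 • m = 0)
    (hY : ∀ i (y : Y), (algebraMap S D (z i)) ^ t2 • y = 0) (ht : t1 + t2 ≤ t + 1) :
    L.len (Y ⊗[W₀] N) ≤ tau S L 0 (Th Θ (TB S d t) N) Y := by
  rw [tau_zero_eq]
  letI : Module S (Y →ₗ[D] Y ⊗[W₀] N) := Module.compHom _ (algebraMap S D)
  haveI : IsScalarTower S D (Y →ₗ[D] Y ⊗[W₀] N) :=
    IsScalarTower.of_algebraMap_smul fun _ _ => rfl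
  let e1 : Th Θ (TB S d t) N →ₗ[S] (Y →ₗ[D] Y ⊗[W₀] N) :=
    { toFun := fun x => ell0 (W₀ := W₀) hN hY ht (toTen Θ _ _ x)
      map_add' := fun a b => map_add (ell0 (W₀ := W₀) hN hY ht) _ _
      map_smul' := fun s x => ell0_theta (W₀ := W₀) hN hY ht hvar hΘ hgen s (toTen Θ _ _ x) }
  let e2 : (D ⊗[S] Th Θ (TB S d t) N) →ₗ[D] (Y →ₗ[D] Y ⊗[W₀] N) := e1.liftBaseChange D
  let e3 : (D ⊗[S] Th Θ (TB S d t) N) ⊗[D] Y →ₗ[D] Y ⊗[W₀] N := TensorProduct.lift e2
  have he3 : ∀ (a : D) (x : Th Θ (TB S d t) N) (y : Y), e3 ((a ⊗ₜ x) ⊗ₜ y) =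
      a • ell0 (W₀ := W₀) hN hY ht (toTen Θ _ _ x) y := fun a x y => rfl
  refine len_le_of_surjective L e3 ?_
  have hr : ∀ m : Y ⊗[W₀] N, m ∈ LinearMap.range e3 := by
    intro m
    induction m using TensorProduct.induction_on with
    | zero => exact Submodule.zero_mem _
    | tmul y n =>
      let x : Th Θ (TB S d t) N := (show (TB S d t) ⊗[S] N from (1 : TB S d t) ⊗ₜ[S] n)
      refine ⟨(1 ⊗ₜ x) ⊗ₜ y, ?_⟩
      rw [he3, one_smul]
      change ell0 (W₀ := W₀) hN hY ht ((1 : TB S d t) ⊗ₜ[S] n) y = _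
      rw [ell0_tmul, map_one, map_one]
      rfl
    | add a b ha hb => exact Submodule.add_mem _ ha hb
  exact hr

end main

end Vale.Agent.P177.SL
end
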