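import Mathlib
import Vale.Agent.P177.Bd4.B5
import Vale.Agent.P177.Bd4.B8
import Vale.Agent.P177.Bd4.B1
import Vale.Agent.P177.Bd4.B6
import Vale.Agent.P177.Bd4.B2
import Vale.Agent.P177.Bd4.B3
import Vale.Agent.P177.Bd4.B4
attribute [-instance] DenselyNormedField.toNontriviallyNormedField RCLike.toDenselyNormedField DenselyNormedField.toNormedField NontriviallyNormedField.toNormedField NormedField.toNormedDivisionRing littleWedderburn NormedDivisionRing.toDivisionRing NormedField.toField IdemCommSemiring.toCommSemiring Semifield.toCommSemiring IdemCommSemiring.toIdemSemiring KleeneAlgebra.toIdemSemiring IdemSemiring.toSemiring DivisionRing.toDivisionSemiring CommCStarAlgebra.toCStarAlgebra CommCStarAlgebra.toNormedCommRing NormedField.toNormedCommRing BooleanRing.toRing CStarAlgebra.toNormedRing NormedCommRing.toNormedRing NormedDivisionRing.toNormedRing NormedCommRing.toSeminormedCommRing NormedRing.toSeminormedRing SeminormedCommRing.toSeminormedRing SemiRingCat.instSemiringObjForgetRingHomCarrier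 Field.toEuclideanDomain BooleanRing.toCommRing EuclideanDomain.toCommRing NormedCommRing.toCommRing SeminormedCommRing.toCommRing NormedRing.toRing SeminormedRing.toRing LeftPreLieRing.instLieAdmissibleRing RightPreLieRing.instLieAdmissibleRing CommSemiring.toNonAssocCommSemiring NonAssocCommRing.toNonAssocCommSemiring NonAssocCommSemiring.toNonAssocSemiring NonAssocRing.toNonAssocSemiring CommRing.toAddCommGroupWithOne NonAssocRing.toAddCommGroupWithOne CommSemiRingCat.FilteredColimits.colimitCommSemiring AddCommGroupWithOne.toAddCommMonoidWithOne CommCStarAlgebra.toNonUnitalCommCStarAlgebra CStarAlgebra.toNonUnitalCStarAlgebra NonUnitalCommCStarAlgebra.toNonUnitalCStarAlgebra NonUnitalCommCStarAlgebra.toNonUnitalNormedCommRing NormedCommRing.toNonUnitalNormedCommRing NonUnitalCStarAlgebra.toNonUnitalNormedRing NonUnitalNormedCommRing.toNonUnitalNormedRing NormedRing.toNonUnitalNormedRing LeftPreLieRing.toNonUnitalNonAssocRing LieAdmissibleRing.toNonUnitalNonAssocRing RightPreLieRing.toNonUnitalNonAssocRing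 NonUnitalNormedCommRing.toNonUnitalSeminormedCommRing SeminormedCommRing.toNonUnitalSeminormedCommRing NonUnitalNormedRing.toNonUnitalSeminormedRing NonUnitalSeminormedCommRing.toNonUnitalSeminormedRing SeminormedRing.toNonUnitalSeminormedRing LinearOrderedAddCommGroupWithTop.instLinearOrderedAddCommMonoidWithTop NonUnitalNormedCommRing.toNonUnitalCommRing NonUnitalSeminormedCommRing.toNonUnitalCommRing NonUnitalCommRing.toNonUnitalRing NonUnitalNormedRing.toNonUnitalRing NonUnitalSeminormedRing.toNonUnitalRing Ring.toNonUnitalRing NonAssocCommRing.toNonUnitalNonAssocCommRing NonUnitalRing.toNonUnitalNonAssocRing NonUnitalRing.toNonUnitalSemiring Semiring.toNonUnitalSemiring LinearOrderedAddCommGroupWithTop.toAddCommMonoid NonAssocCommSemiring.toNonUnitalNonAssocCommSemiring NonUnitalCommSemiring.toNonUnitalNonAssocCommSemiring NonUnitalNonAssocCommSemiring.toNonUnitalNonAssocSemiring NonUnitalSemiring.toNonUnitalNonAssocSemiring AddCommMonoidWithOne.toAddCommMonoid NonUnitalNonAssocSemiring.toAddCommMonoid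 AddCommMonCat.FilteredColimits.colimitAddCommMonoid AddCommGroupWithOne.toAddGroupWithOne Pi.nonUnitalNonAssocSemiring LinearOrderedAddCommGroupWithTop.toSubNegMonoid CategoryTheory.CommGrpObj.mk CategoryTheory.CommGrpObj.toGrpObj CategoryTheory.Preadditive.instGrpObj CategoryTheory.instBraidedCategoryType CategoryTheory.Abelian.toPreadditive AlgebraicGeometry.Scheme.instPreorderCarrierCarrierCommRingCat NormedCommGroup.toNormedGroup CategoryTheory.BimonObj.toMonObj CategoryTheory.CommRingObj.toRingObj CategoryTheory.GrpObj.toMonObj CategoryTheory.HopfObj.toBimonObj CategoryTheory.RingObj.toMonObj NormedCommGroup.toSeminormedCommGroup NormedGroup.toSeminormedGroup SeminormedCommGroup.toSeminormedGroup MonTypeEquivalenceMon.monMonoid MulSemiringAction.toDistribMulAction GradedMonoid.GradeZero.smul CommGroup.toGroup GrpTypeEquivalenceGrp.grpGroup NormedGroup.toGroup SeminormedGroup.toGroup instCommGroupOfIsSimpleGroupOfIsNilpotent CommGrpTypeEquivalenceCommGrp.commGrpCommGroup NormedCommGroup.toCommGroup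 SeminormedCommGroup.toCommGroup LieAdmissibleRing.instLieRing instDistribSMul NonUnitalNonAssocSemiring.toDistribSMul instCoeT instSMulZeroClass Bialgebra.toAlgebra CommSemiring.toBialgebra CommSemiring.toHopfAlgebra HopfAlgebra.toHopfAlgebraStruct HopfAlgebraStruct.toBialgebra NormedAlgebra.toAlgebra NonUnitalNormedRing.toNormedAddCommGroup NormedAlgebra.id Invertible.toNeZero NeZero.of_gt' Nat.AtLeastTwo.toNeZero SemiNormedGrp.str LinearOrderedCommGroupWithZero.toLinearOrderedCommMonoidWithZero Pi.nonAssocSemiring CompleteAtomicBooleanAlgebra.toCompleteBooleanAlgebra LieRing.toAddCommGroup SSet.stdSimplex.instFunLikeObjOppositeSimplexCategoryMkOpFinHAddNatOfNat ContDiffMapSupportedInClass.toDFunLike RKHS.instFunLike TestFunctionClass.toDFunLike CompleteAtomicBooleanAlgebra.toCompletelyDistribLattice instNonUnitalCStarAlgebraForall instCoeTOfCoeDep Complex.instRCLike CompleteBooleanAlgebra.toCompleteDistribLattice CompletelyDistribLattice.toCompleteDistribLattice RingCat.FilteredColimits.colimitRing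 CommGroupWithZero.toGroupWithZero LinearOrderedCommGroupWithZero.toCommGroupWithZero Semifield.toCommGroupWithZero CommGroupWithZero.toCommMonoidWithZero CommMonoidWithZero.toMonoidWithZero CommSemiring.toCommMonoidWithZero LinearOrderedCommMonoidWithZero.toCommMonoidWithZero Nat.instNontrivial Nat.Prime.one_lt' MonoidWithZero.toSemigroupWithZero SemigroupWithZero.toMulZeroClass CompleteBooleanAlgebra.toBooleanAlgebra Pi.instTopForall Fin.completeLinearOrder CompleteDistribLattice.toCoframe CompleteDistribLattice.toFrame LieAdmissibleAlgebra.toModule TensorProduct.instModuleFstSnd CompleteBooleanAlgebra.toCompleteLattice BooleanAlgebra.toBiheytingAlgebra CompleteDistribLattice.toBiheytingAlgebra CompleteLinearOrder.toBiheytingAlgebra CompletelyDistribLattice.toBiheytingAlgebra NonUnitalSeminormedRing.toSeminormedAddCommGroup NormedAddCommGroup.toSeminormedAddCommGroup CompleteLinearOrder.toCompleteLattice Order.Coframe.toCompleteLattice Order.Frame.toCompleteLattice LeftPreLieAlgebra.toModule LieAlgebra.toModule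 NormedSpace.toModule RightPreLieAlgebra.toModule NormedAddCommGroup.toNormedAddGroup Fin.instBiheytingAlgebra Pi.addMonoidWithOne BoxIntegral.Box.instMembershipForallReal BiheytingAlgebra.toCoheytingAlgebra BiheytingAlgebra.toHeytingAlgebra BooleanAlgebra.toGeneralizedBooleanAlgebra Order.Coframe.toCoheytingAlgebra Order.Frame.toHeytingAlgebra Pi.addZeroClass AddOpposite.instAddZero instCoeTC TwoSidedIdeal.instIsTwoSidedCoeOrderHomIdealAsIdeal CompleteLinearOrder.toConditionallyCompleteLinearOrderBot Monoid.toMulAction instCoeTCOfCoe instCoeHTC instCoeHTCT Action.instMulAction Torsor.toMulAction Action.FintypeCat.instMulActionObjFiniteOf GradedMonoid.GradeZero.mulAction ContinuousAddMonoidHom.instCoeOutOfAddMonoidHomClassOfContinuousMapClass ContinuousMonoidHom.instCoeOutOfMonoidHomClassOfContinuousMapClass HomeomorphClass.instCoeOutHomeomorph IsometryClass.instCoeOutIsometryEquiv CategoryTheory.Limits.Concrete.instUniqueToTypeTerminal Pi.nonUnitalSemiring instNonUnitalAlgHomClassOfNonUnitalAlgEquivClass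 AlgHom.instNonUnitalAlgHomClassOfAlgHomClass ProfiniteAddGrp.addGroup MonCat.monoidObj NormedAddGroup.toSeminormedAddGroup SeminormedAddCommGroup.toSeminormedAddGroup CoheytingAlgebra.toGeneralizedCoheytingAlgebra GeneralizedBooleanAlgebra.toGeneralizedCoheytingAlgebra HeytingAlgebra.toGeneralizedHeytingAlgebra ConditionallyCompleteLinearOrderBot.toConditionallyCompleteLinearOrder boolToProp NonUnitalNormedRing.toMetricSpace NormedAddCommGroup.toMetricSpace NormedAddGroup.toMetricSpace NormedCommGroup.toMetricSpace NormedDivisionRing.toMetricSpace NormedField.toMetricSpace NormedGroup.toMetricSpace NormedRing.toMetricSpace TopologicalSpace.UpgradedIsCompletelyMetrizableSpace.toMetricSpace Pi.nonAssocRing Pi.nonUnitalNonAssocRing Fin.instCoheytingAlgebra Fin.instHeytingAlgebra AddCommGroupWithOne.toAddCommGroup NonUnitalNonAssocRing.toAddCommGroup NormedAddCommGroup.toAddCommGroup SeminormedAddCommGroup.toAddCommGroup ENormedAddCommMonoid.toESeminormedAddCommMonoid NormedAddCommGroup.toENormedAddCommMonoid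 AddQuantale.instAddLeftMono NormedAddGroup.toAddGroup SeminormedAddGroup.toAddGroup instConditionallyCompletePartialOrderSup CompleteLattice.toCompleteSemilatticeInf CompleteLattice.toCompleteSemilatticeSup ConditionallyCompletePartialOrder.toConditionallyCompletePartialOrderInf LinearOrderedAddCommGroupWithTop.toSubtractionMonoid TopRep.hV1 AbsoluteValue.zeroHomClass CompleteLinearOrder.toLinearOrder ConditionallyCompleteLinearOrder.toLinearOrder LinearOrderedAddCommGroupWithTop.toLinearOrder LinearOrderedAddCommMonoidWithTop.toLinearOrder LinearOrderedCommMonoidWithZero.toLinearOrder Pi.normedAddCommGroup CentroidHomClass.toAddMonoidHomClass MulSemiringActionSemiHomClass.toDistribMulActionSemiHomClass NonUnitalAlgSemiHomClass.toDistribMulActionSemiHomClass AddCancelCommMonoid.toAddCommMonoid AddCommGroup.toAddCancelCommMonoid ESeminormedAddCommMonoid.toAddCommMonoid BialgEquivClass.toBialgHomClass ChainCompletePartialOrder.instOfCompleteLattice ChainCompletePartialOrder.instOmegaCompletePartialOrder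 ChainCompletePartialOrder.toPartialOrder CompletePartialOrder.toOmegaCompletePartialOrder OmegaCompletePartialOrder.toPartialOrder CategoryTheory.Mat_.fintype EMetricSpace.toPseudoEMetricSpace IsValuativeTopology.instValuedValueGroupWithZeroOfIsUniformAddGroup MetricSpace.toEMetricSpace MetricSpace.toPseudoMetricSpace NonUnitalSeminormedRing.toPseudoMetricSpace PseudoEMetricSpace.toUniformSpace PseudoMetricSpace.toPseudoEMetricSpace PseudoMetricSpace.toUniformSpace SeminormedAddCommGroup.toPseudoMetricSpace SeminormedAddGroup.toPseudoMetricSpace SeminormedCommGroup.toPseudoMetricSpace SeminormedGroup.toPseudoMetricSpace SeminormedRing.toPseudoMetricSpace UniformSpace.toTopologicalSpace UpgradedStandardBorel.toTopologicalSpace Valued.toUniformSpace WithIdeal.instTopologicalSpace WithIdeal.instUniformSpace TopologicalSpace.UpgradedIsCompletelyPseudoMetrizableSpace.toPseudoMetricSpace ENormedCommMonoid.toESeminormedCommMonoid NormedCommGroup.toENormedCommMonoid AddCancelCommMonoid.toAddCancelMonoid AddCancelMonoid.toAddLeftCancelMonoid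 AddLeftCancelMonoid.toAddMonoid AddRightCancelMonoid.toAddMonoid ENormedAddCommMonoid.toENormedAddMonoid ENormedAddMonoid.toESeminormedAddMonoid ESeminormedAddCommMonoid.toESeminormedAddMonoid ESeminormedAddMonoid.toAddMonoid NormedAddGroup.toENormedAddMonoid OrderAddMonoidHom.instAddMonoidHomClass OrderDual.instDivisionSemiring Quaternion.instDivisionRing SubfieldClass.toSubringClass LeftPreLieAlgebra.toIsScalarTower LieAdmissibleAlgebra.toIsScalarTower LieRinehartAlgebra.toIsScalarTower RightPreLieAlgebra.toIsScalarTower AlgHom.instContinuousLinearMapClassOfAlgHomClass AlgHomClass.linearMapClass BialgHomClass.toCoalgHomClass CoalgEquivClass.toCoalgHomClass CoalgHomClass.toSemilinearMapClass ContinuousSemilinearEquivClass.continuousSemilinearMapClass ContinuousSemilinearMapClass.toSemilinearMapClass NonUnitalAlgHomClass.instLinearMapClass NonUnitalAlgHomClass.instSemilinearMapClassOfNonUnitalAlgSemiHomClassToMonoidHomRingHom PositiveLinearMap.instContinuousLinearMapClassComplexOfLinearMapClassOfOrderHomClass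 RingHomClass.toLinearMapClassNNRat RingHomClass.toLinearMapClassRat SemilinearIsometryClass.toContinuousSemilinearMapClass SemilinearIsometryClass.toSemilinearMapClass Preorder.smallCategory CategoryTheory.Groupoid.toCategory CategoryTheory.StrictBicategory.category Turing.FinTM2.decidableEqK PartOrdEmb.str ValuationClass.toMonoidWithZeroHomClass instIsDedekindDomainOfIsDomainOfIsDedekindRing instIsDomain DivisionRing.isDomain EuclideanDomain.instIsDomain Field.isDomain IsDedekindDomain.toIsDomain IsDedekindDomainDvr.isDedekindDomain IsPrincipalIdealRing.isDedekindDomain IsStrictOrderedRing.isDomain Std.DTreeMap.Raw.instSingletonSigma AddCommGroup.toGrindIntModule CommRing.toGrindCommRing Field.toGrindField Ring.toGrindRing instSubsingleton Group.IsPerfect.subsingleton_of_isMulCommutative RingConeClass.toSubsemiringClass SubringClass.nonUnitalSubringClass SubringClass.toSubsemiringClass instMulActionSemiHomClassMulActionHom Pi.normedRing BooleanAlgebra.toDistribLattice CompleteLattice.toLattice CompleteLattice.toPartialOrder'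 CompleteSemilatticeInf.toPartialOrder CompleteSemilatticeSup.toPartialOrder ConditionallyCompletePartialOrderInf.toPartialOrder GeneralizedBooleanAlgebra.toDistribLattice GeneralizedCoheytingAlgebra.toDistribLattice GeneralizedCoheytingAlgebra.toLattice GeneralizedHeytingAlgebra.toDistribLattice GeneralizedHeytingAlgebra.toLattice LinearOrder.toLattice Order.Coframe.toDistribLattice Order.Frame.toDistribLattice AlgEquivClass.toAlgHomClass BialgHomClass.toAlgHomClass OrderRingHom.instRingHomClass AddCommMonoid.toGrindNatModule CommSemiring.toGrindCommSemiring Semiring.toGrindSemiring CommMonTypeEquivalenceCommMon.commMonCommMonoid TopologicalSpace.Compacts.instSetLike MulZeroClass.negZeroClass instInfiniteOfUncountable instNontrivialOfCharZero CharZero.infinite Denumerable.instInfinite DivisionRing.toNontrivial EuclideanDomain.toNontrivial Field.instIsLocalRing GroupWithZero.toNontrivial Infinite.instNontrivial IsAlgClosed.instInfinite IsDiscreteValuationRing.toIsLocalRing IsDomain.toNontrivial IsOrderedRing.toIsStrictOrderedRing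 IsSimpleAddGroup.toNontrivial IsSimpleGroup.toNontrivial IsSimpleOrder.toNontrivial IsSimpleRing.instNontrivial IsStrictOrderedRing.toNontrivial LinearOrderedAddCommGroupWithTop.toNontrivial NoMaxOrder.infinite NoMinOrder.infinite NontriviallyNormedField.infinite ValuationRing.isLocalRing FirstOrder.Language.instInfiniteOfModelDloOrderOfNonempty instRingHomSurjectiveForallEvalRingHom Pi.subtractionMonoid SemilatSupCat.isSemilatticeSup IsEmpty.instSubsingleton AddHom.addHomClass CategoryTheory.instFinCategoryOfFintypeOfIsThin FinEnum.instFintype SetLike.instFintype Unique.fintype CategoryTheory.FinCategory.fintypeObj WittVector.inv_pair₁ Pi.mulZeroOneClass LinOrd.str IdemSemiring.toCanonicallyOrderedAdd MonoidWithZero.toMulActionWithZero Std.DTreeMap.Raw.instInsertSigma bot_nonempty infSet_to_nonempty instInhabitedOfMonad instNonemptyOfInhabited instNonemptyOfMonad instTopologicalSpaceFin supSet_to_nonempty top_nonempty AddGroup.instAddTorsor AddMonCat.addMonoidObj AddTorsor.nonempty BooleanAlgebra.toBot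 BooleanAlgebra.toBoundedOrder BooleanAlgebra.toTop BoundedOrder.toOrderBot BoundedOrder.toOrderTop CancelCommMonoid.toCancelMonoid CancelCommMonoid.toCommMonoid CancelCommMonoid.toLeftCancelMonoid CancelMonoid.toLeftCancelMonoid CancelMonoid.toRightCancelMonoid CategoryTheory.isConnected_of_nonempty_and_subsingleton CoheytingAlgebra.toBoundedOrder CoheytingAlgebra.toOrderTop CommGroup.toCancelCommMonoid CommGroup.toCommMonoid CommGroup.toDivisionCommMonoid CommGroupWithZero.toDivisionCommMonoid CommMonoidWithZero.toCommMonoid CompleteLattice.toBoundedOrder CompletePartialOrder.toOrderBot CompletePartialOrder.toSupSet CompleteSemilatticeInf.toInfSet CompleteSemilatticeSup.toSupSet ConditionallyCompleteLattice.toInfSet ConditionallyCompleteLattice.toSupSet ConditionallyCompleteLinearOrderBot.toOrderBot ConditionallyCompletePartialOrderInf.toInfSet ConditionallyCompletePartialOrderSup.toSupSet ConnectedSpace.toNonempty ContractibleSpace.instOfNonemptyOfIndiscreteTopology ContractibleSpace.instOfNonemptyOfSubsingleton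 ContractibleSpace.instPathConnectedSpace Convex.instPathConnectedSpace DivInvMonoid.toMonoid DivInvOneMonoid.toDivInvMonoid DivInvOneMonoid.toInvOneClass DivisionCommMonoid.toCommMonoid DivisionCommMonoid.toDivisionMonoid DivisionMonoid.toDivInvMonoid DivisionMonoid.toDivInvOneMonoid DivisionRing.toDivInvMonoid ENormedCommMonoid.toENormedMonoid ENormedMonoid.toESeminormedMonoid ESeminormedCommMonoid.toCommMonoid ESeminormedCommMonoid.toESeminormedMonoid ESeminormedMonoid.toMonoid Fin.addCommGroup Fin.addCommMonoid Fin.instBoundedOrder Fin.instCommMonoid Fin.instInhabited Fin.instNontrivial GeneralizedBooleanAlgebra.toBot GeneralizedBooleanAlgebra.toOrderBot GeneralizedCoheytingAlgebra.toOrderBot GeneralizedHeytingAlgebra.toOrderTop Group.instTorsor Group.toCancelMonoid Group.toDivInvMonoid Group.toDivisionMonoid GroupWithZero.toDivisionMonoid HeytingAlgebra.toBoundedOrder HeytingAlgebra.toOrderBot IdemSemiring.toOrderBot InvOneClass.toOne IrreducibleSpace.connectedSpace IrreducibleSpace.toNonempty LeftCancelMonoid.toMonoid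 LinearOrderedAddCommGroupWithTop.toOrderTop LinearOrderedAddCommMonoidWithTop.toOrderTop LinearOrderedCommMonoidWithZero.toOrderBot Nontrivial.to_nonempty NormedAddTorsor.toAddTorsor NormedAddTorsor.toAddTorsor' NormedGroup.toENormedMonoid NormedSpace.instPathConnectedSpace One.instNonempty One.ofOfNat1 PathConnectedSpace.connectedSpace RealTopologicalVectorSpace.contractibleSpace RightCancelMonoid.toMonoid SeminormedAddCommGroup.toNormedAddTorsor SimplyConnectedSpace.instPathConnectedSpace SimplyConnectedSpace.ofContractible Torsor.nonempty Unique.instInhabited UnitalShelf.toOne Zero.instNonempty CategoryTheory.IsConnected.is_nonempty CategoryTheory.IsSifted.instIsConnected CategoryTheory.IsSifted.isSifted_of_hasBinaryCoproducts_and_nonempty GradedMonoid.GradeZero.commMonoid GradedMonoid.GradeZero.monoid RCLike.innerProductSpace NumberField.to_charZero AddQuantale.instAddRightMono Quantale.instMulRightMono BialgEquivClass.toCoalgEquivClass PadicComplex.normedField MulEquivClass.toMonoidWithZeroHomClass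 MulRingSeminormClass.toMonoidWithZeroHomClass SimpleGraph.TripartiteFromTriangles.graph.instDecidableRelAdj MulZeroClass.toSMulWithZero NonUnitalSubringClass.addSubgroupClass SubringClass.addSubgroupClass PerfectClosure.instDivisionRing PerfectClosure.instField RCLike.toInnerProductSpaceReal SubringClass.toNegMemClass AbsoluteValue.mulHomClass AddGroupConeClass.toAddSubmonoidClass AddSubgroupClass.toAddSubmonoidClass AddSubmonoidClass.toZeroMemClass AddSubmonoidWithOneClass.toAddSubmonoidClass NonUnitalSubringClass.toNonUnitalSubsemiringClass NonUnitalSubsemiringClass.toAddSubmonoidClass RingConeClass.toAddGroupConeClass SubsemiringClass.addSubmonoidWithOneClass SubsemiringClass.nonUnitalSubsemiringClass SubsemiringClass.toAddSubmonoidClass AlgHom.instRingHomCompTripleComp Pi.smulZeroClass' Pi.distribMulAction' Pi.isOrderedRing Pi.mulZeroClass CategoryTheory.instCategoryObj LinearMap.instLoewnerPartialOrder TensorProduct.instDistribMulAction Pi.mulOneClass RCLike.algebraMapCoe ValuationSubring.instSubringClass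 decidableEq_of_subsingleton FinEnum.decEq FunLike.toDecidableEq LinearOrder.toDecidableEq RCLike.toDecidableEq FirstOrder.Language.instDecidableEqFunctions FirstOrder.Language.instDecidableEqRelations Pi.instMaxForall_mathlib SemilinearIsometryEquivClass.toSemilinearIsometryClass instCoeOutOfCoeFun CanonicallyOrderedAdd.toMulLeftMono CanonicallyOrderedMul.toMulLeftMono IdemSemiring.toMulLeftMono IsOrderedCancelMonoid.toIsOrderedMonoid IsOrderedMonoid.toIsOrderedCancelMonoid IsOrderedMonoid.toMulLeftMono LinearOrderedCommMonoidWithZero.toIsOrderedMonoid Quantale.instMulLeftMono Real.normedAddCommGroup -- iprune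

set_option linter.all false

section

/-!
Power series rings over a regular local ring of small dimension.
-/

namespace Vale.Agent.P177

open CategoryTheory TensorProduct Function IsLocalRing RingTheory.Sequence Pointwise

section general

/-- Kernel of a retraction. -/
theorem ker_le_of_retraction_ideal {S B : Type*} [CommRing S] (I : Ideal S)
    [IsAdicComplete I S] [CommRing B] [IsLocalRing B] [IsNoetherianRing B]
    (i : S →+* B) (π : B →+* S) (hπ : π.comp i = RingHom.id S) (J J' : Ideal B)
    (hJ : J ≤ RingHom.ker π) (hJ' : J' ≤ maximalIdeal B) (hm : I.map i ⊔ J = J')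
    (hres : ∀ b : B, ∃ s : S, b - i s ∈ J') : RingHom.ker π = J := by
  apply le_antisymm _ hJ
  have hJm : J ≤ maximalIdeal B := le_sup_right.trans (hm.le.trans hJ')
  have hnt : Nontrivial (B ⧸ J) :=
    Ideal.Quotient.nontrivial_iff.mpr (fun h => (maximalIdeal.isMaximal B).ne_top
      (top_le_iff.mp (h ▸ hJm)))
  have hloc : IsLocalRing (B ⧸ J) :=
    IsLocalRing.of_surjective' (Ideal.Quotient.mk J) Ideal.Quotient.mk_surjective
  let f : S →+* B ⧸ J := (Ideal.Quotient.mk J).comp i
  have hmap : I.map f = J'.map (Ideal.Quotient.mk J) := by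
    rw [← Ideal.map_map, ← hm, Ideal.map_sup, Ideal.map_quotient_self, sup_bot_eq]
  have hle : (maximalIdeal B).map (Ideal.Quotient.mk J) ≤ maximalIdeal (B ⧸ J) :=
    (map_maximalIdeal_of_surjective _ Ideal.Quotient.mk_surjective).le
  have hH : IsHausdorff (I.map f) (B ⧸ J) := by
    rw [hmap]
    refine IsHausdorff.of_isLocalRing _ _ (fun h => ?_)
    have h1 : (⊤ : Ideal (B ⧸ J)) ≤ maximalIdeal (B ⧸ J) :=
      h ▸ (Ideal.map_mono hJ').trans hle
    exact (maximalIdeal.isMaximal (B ⧸ J)).ne_top (top_le_iff.mp h1)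
  have hsurj : Function.Surjective f := by
    apply surjective_of_mk_map_comp_surjective (I := I) f
    intro y
    obtain ⟨y, rfl⟩ := Ideal.Quotient.mk_surjective y
    obtain ⟨b, rfl⟩ := Ideal.Quotient.mk_surjective y
    obtain ⟨s, hs⟩ := hres b
    refine ⟨s, ?_⟩
    rw [RingHom.comp_apply, Ideal.Quotient.mk_eq_mk_iff_sub_mem, hmap, ← neg_mem_iff, neg_sub]
    exact Ideal.mem_map_of_mem _ hs
  intro b hb
  obtain ⟨s, hs⟩ := hsurj (Ideal.Quotient.mk J b)
  have h1 : i s - b ∈ J := by
    rw [← Ideal.Quotient.mk_eq_mk_iff_sub_mem]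
    exact hs
  have h2 : π (i s - b) = 0 := hJ h1
  have h3 : π (i s) = s := RingHom.congr_fun hπ s
  rw [map_sub, h3, RingHom.mem_ker.mp hb, sub_zero] at h2
  rw [h2, map_zero, zero_sub, neg_mem_iff] at h1
  exact h1

/-- A criterion for regularity. -/
theorem isRegularLocalRing_of_list {B : Type*} [CommRing B] [IsLocalRing B] [IsNoetherianRing B]
    (rs : List B) (h : Ideal.ofList rs = maximalIdeal B)
    (hle : (rs.length : WithBot ℕ∞) ≤ ringKrullDim B) :
    IsRegularLocalRing B ∧ ringKrullDim B = rs.length := by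
  classical
  have h1 : (maximalIdeal B).spanFinrank ≤ rs.length := by
    rw [← h, Ideal.ofList]
    have h2 : {r | r ∈ rs} = (rs.toFinset : Set B) := by
      ext x
      simp
    rw [h2]
    refine (Submodule.spanFinrank_span_le_ncard_of_finite (Finset.finite_toSet _)).trans ?_
    rw [Set.ncard_coe_finset]
    exact List.toFinset_card_le rs
  have h3 : ((maximalIdeal B).spanFinrank : WithBot ℕ∞) ≤ rs.length := by exact_mod_cast h1
  exact ⟨IsRegularLocalRing.of_spanFinrank_maximalIdeal_le B (h3.trans hle),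
    le_antisymm ((ringKrullDim_le_spanFinrank_maximalIdeal B).trans h3) hle⟩

variable {σ A : Type*} [Finite σ] [CommRing A] [IsLocalRing A]

theorem mvPowerSeries_maximalIdeal_gen : maximalIdeal (MvPowerSeries σ A) =
    (maximalIdeal A).map (MvPowerSeries.C (σ := σ)) ⊔
      Ideal.span (Set.range MvPowerSeries.X) := by
  apply le_antisymm
  · intro p hp
    have h1 : MvPowerSeries.constantCoeff p ∈ maximalIdeal A := by
      by_contra hne
      rw [mem_maximalIdeal, mem_nonunits_iff, not_not] at hne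
      exact (mem_maximalIdeal p).mp hp (MvPowerSeries.isUnit_iff_constantCoeff.mpr hne)
    have h2 := mem_span_X_of_constantCoeff_eq_zero
      (p - MvPowerSeries.C (MvPowerSeries.constantCoeff p)) (by simp)
    have h3 := Ideal.add_mem _ (Ideal.mem_sup_right h2) (Ideal.mem_sup_left
      (Ideal.mem_map_of_mem (MvPowerSeries.C (σ := σ)) h1))
    rwa [sub_add_cancel] at h3
  · refine sup_le ?_ ?_
    · rw [Ideal.map_le_iff_le_comap]
      intro x hx
      rw [Ideal.mem_comap, mem_maximalIdeal, mem_nonunits_iff,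
        MvPowerSeries.isUnit_iff_constantCoeff, MvPowerSeries.constantCoeff_C]
      exact hx
    · rw [Ideal.span_le]
      rintro _ ⟨i, rfl⟩
      rw [SetLike.mem_coe, mem_maximalIdeal, mem_nonunits_iff,
        MvPowerSeries.isUnit_iff_constantCoeff]
      simp

omit [IsLocalRing A] in
theorem le_ringKrullDim_mvPowerSeries_fin_gen (n : ℕ) [Nontrivial A] :
    ringKrullDim A + n ≤ ringKrullDim (MvPowerSeries (Fin n) A) := by
  induction n with
  | zero =>
    rw [ringKrullDim_eq_of_ringEquiv (MvPowerSeries.isEmptyEquiv (Fin 0) A).toRingEquiv]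
    simp
  | succ n ih =>
    rw [ringKrullDim_eq_of_ringEquiv (MvPowerSeries.finSuccEquiv A n).toRingEquiv]
    refine le_trans ?_ ringKrullDim_succ_le_ringKrullDim_powerseries
    push_cast
    rw [← add_assoc]
    gcongr

omit [IsLocalRing A] in
theorem mvPowerSeries_regular (n : ℕ) (e : σ ≃ Fin n) [IsRegularLocalRing A] {a : ℕ}
    (ha : ringKrullDim A = a) : IsRegularLocalRing (MvPowerSeries σ A) ∧
      ringKrullDim (MvPowerSeries σ A) = ((a + n : ℕ) : WithBot ℕ∞) := by
  obtain ⟨rs, hrs, hlen⟩ := exists_list_maximalIdeal A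
  have hlen' : rs.length = a := by
    rw [ha] at hlen
    exact_mod_cast hlen
  have h1 := isRegularLocalRing_of_list (B := MvPowerSeries σ A)
    (rs.map (MvPowerSeries.C (σ := σ)) ++ List.ofFn (fun j : Fin n => MvPowerSeries.X (e.symm j)))
    (by
      rw [Ideal.ofList_append, ← Ideal.map_ofList, hrs, mvPowerSeries_maximalIdeal_gen]
      congr 1
      rw [Ideal.ofList]
      congr 1
      ext x
      simp only [List.mem_ofFn, Set.mem_ofPred_eq, Set.mem_range]
      constructor
      · rintro ⟨j, rfl⟩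
        exact ⟨_, rfl⟩
      · rintro ⟨j, rfl⟩
        exact ⟨e j, by simp⟩)
    (by
      rw [ringKrullDim_eq_of_ringEquiv (MvPowerSeries.renameEquiv A e).toRingEquiv]
      refine le_trans ?_ (le_ringKrullDim_mvPowerSeries_fin_gen n)
      rw [ha]
      simp [hlen'])
  refine ⟨h1.1, ?_⟩
  rw [h1.2]
  simp [hlen']

end general

end Vale.Agent.P177
end

section

/-!
The extended Rees algebra of the maximal ideal of a regular local ring.
-/

namespace Vale.Agent.P177

open MvPolynomial IsLocalRing RingTheory.Sequence Function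

universe u

section defs

variable {A : Type u} [CommRing A] {d : ℕ} (x : Fin d → A)

variable {x}

end defs

section res

variable {A : Type u} [CommRing A] [IsLocalRing A] {d : ℕ} {x : Fin d → A}
  (hx : Ideal.span (Set.range x) = maximalIdeal A)

end res

section loc

end loc

section regular

variable {A : Type u} [CommRing A] [IsRegularLocalRing A] {d : ℕ} (hd : ringKrullDim A = d)
  {x : Fin d → A} (hx : Ideal.span (Set.range x) = maximalIdeal A)

theorem weakReg_aux {R : Type u} [CommRing R] (l : List R) (I : Ideal R)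
    (hl : Ideal.ofList l = I) (hI : I.IsPrime) {a : R} (ha : a ∉ I) :
    IsWeaklyRegular (R ⧸ (Ideal.ofList l • (⊤ : Submodule R R))) [a] := by
  subst hl
  rw [isWeaklyRegular_singleton_iff, smul_eq_mul, Ideal.mul_top,
    isSMulRegular_iff_right_eq_zero_of_smul]
  intro y hy
  obtain ⟨b, rfl⟩ := Submodule.mkQ_surjective _ y
  change Submodule.Quotient.mk (_ • b) = 0 at hy
  rw [Submodule.Quotient.mk_eq_zero] at hy
  change Submodule.Quotient.mk b = 0
  rw [Submodule.Quotient.mk_eq_zero]
  exact (hI.mem_or_mem hy).resolve_left ha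

end regular

end Vale.Agent.P177
end

section

/-!
A chart of the blow-up and the extended Rees algebra.
-/

namespace Vale.Agent.P177

open IsLocalRing Function

universe u

section chart

variable {A : Type u} [CommRing A] {d : ℕ} (x c : Fin d → A)

variable {x c}

variable (x c)

end chart

end Vale.Agent.P177
end

section

/-!
Every stably filtered module over a regular local ring has a finite strict free resolution.
-/

namespace Vale.Agent.P177

open IsLocalRing Function Pointwise

universe u

end Vale.Agent.P177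
end

section

/-!
Strict free resolutions of filtered modules, indexed by the natural numbers.
-/

namespace Vale.Agent.P177

open Function IsLocalRing

universe u

/-- A strict resolution of a filtered module by finite free filtered modules, of length `r`. -/
structure FRes {A : Type u} [CommRing A] (I : Ideal A) {M : Type u} [AddCommGroup M] [Module A M]
    (F : ℕ → Submodule A M) (r : ℕ) extends FR A M where
  /-- weights -/
  a : ∀ i, Fin (b i) → ℕ
  strict_ε : ∀ n, (wfil (fun k => (I ^ k : Ideal A)) (a 0) n).map ε = F n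
  strict_zero : ∀ n, (wfil (fun k => (I ^ k : Ideal A)) (a 1) n).map (δ 0) =
    LinearMap.ker ε ⊓ wfil (fun k => (I ^ k : Ideal A)) (a 0) n
  strict_succ : ∀ i n, (wfil (fun k => (I ^ k : Ideal A)) (a (i + 2)) n).map (δ (i + 1)) =
    LinearMap.ker (δ i) ⊓ wfil (fun k => (I ^ k : Ideal A)) (a (i + 1)) n
  bound : ∀ i, r < i → b i = 0

variable {A : Type u} [CommRing A] {I : Ideal A}

end Vale.Agent.P177
end

section

/-!
Action of strict resolutions on filtered modules, and filtered homotopies.
-/

namespace Vale.Agent.P177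

open Function IsLocalRing

universe u

section act

variable {A : Type*} [CommRing A] {I : Ideal A} {p q : ℕ} {N : Type*} [AddCommGroup N]
  [Module A N] {G : ℕ → Submodule A N}

end act

section fres

variable {A : Type u} [CommRing A] {I : Ideal A} {M : Type u} [AddCommGroup M] [Module A M]
  {F : ℕ → Submodule A M} {r : ℕ} (X : FRes I F r)

variable (N : Type u) [AddCommGroup N] [Module A N]

variable {N} {G : ℕ → Submodule A N}

end fres

end Vale.Agent.P177
end

section

/-!
Base change of extended Rees algebras.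
-/

namespace Vale.Agent.P177

open IsLocalRing Function TensorProduct

universe u

section gen

end gen

section bc

variable {R A : Type u} [CommRing R] [CommRing A] [Algebra R A] {d : ℕ} {x' : Fin d → R}
  {x : Fin d → A} (θ : Fin d → Fin d → A)
  (hθ : ∀ i, algebraMap R A (x' i) = ∑ l, θ i l * x l)

end bc

section res

variable {R A : Type u} [CommRing R] [CommRing A] [Algebra R A] [IsLocalRing R] [IsLocalRing A]
  [IsLocalHom (algebraMap R A)] {d : ℕ} {x' : Fin d → R}
  {x : Fin d → A} (θ : Fin d → Fin d → A)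
  (hθ : ∀ i, algebraMap R A (x' i) = ∑ l, θ i l * x l)

end res

end Vale.Agent.P177
end

section

/-!
The ring `T` attached to a quadratic hypersurface.
-/

namespace Vale.Agent.P177

open TensorProduct IsLocalRing MvPolynomial RingTheory.Sequence

universe u

/-- The data attached to a hypersurface `G` in a regular local ring `B`. -/
structure QData (d : ℕ) (B Γ : Type u) [CommRing B] [IsRegularLocalRing B] [CommRing Γ]
    [IsRegularLocalRing Γ] where
  a₁ : B →+* Γ
  a₂ : B →+* Γ
  μ : Γ →+* B
  μ₁ : ∀ b, μ (a₁ b) = b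
  μ₂ : ∀ b, μ (a₂ b) = b
  x : Fin d → B
  G : B
  u : Fin d → Γ
  β : Matrix (Fin d) (Fin d) Γ
  γ : Matrix (Fin d) (Fin d) Γ
  dimB : ringKrullDim B = ((d + 1 : ℕ) : WithBot ℕ∞)
  dimΓ : ringKrullDim Γ = ((2 * d + 1 : ℕ) : WithBot ℕ∞)
  maxB : maximalIdeal B = Ideal.span {G} ⊔ Ideal.span (Set.range x)
  maxΓ : maximalIdeal Γ = Ideal.span {a₁ G} ⊔ Ideal.span (Set.range fun i => a₁ (x i)) ⊔
    Ideal.span (Set.range fun i => a₂ (x i) - a₁ (x i))
  hG : a₂ G = a₁ G - ∑ i, (a₂ (x i) - a₁ (x i)) * u i
  hu : ∀ i, u i = ∑ m, β i m * a₁ (x m) + ∑ m, γ i m * (a₂ (x m) - a₁ (x m))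
  diag : ∀ b, a₂ b - a₁ b ∈ Ideal.span (Set.range fun i => a₂ (x i) - a₁ (x i))

namespace QData

variable {d : ℕ} {B Γ : Type u} [CommRing B] [IsRegularLocalRing B] [CommRing Γ]
  [IsRegularLocalRing Γ] (D : QData d B Γ)

/-- The elements generating the diagonal ideal. -/
def h (i : Fin d) : Γ := D.a₂ (D.x i) - D.a₁ (D.x i)

/-- The data of the ring `T`. -/
structure TD (T : Type u) [CommRing T] [IsRegularLocalRing T] where
  f : MvPolynomial (Fin d × Fin d) Γ →+* T
  hE : ∀ i, f (altElt D.h D.u i) = 0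
  hG : f (C (D.a₁ D.G)) = 0
  maxT : maximalIdeal T = Ideal.span (Set.range fun i => f (C (D.a₁ (D.x i)))) ⊔
    Ideal.span (Set.range fun p => f (X p))
  dimT : ringKrullDim T = ((d + d * d : ℕ) : WithBot ℕ∞)
  ht : ∀ Q : Ideal T, Q.IsPrime → (Q.comap f).height ≤ Q.height + ((d + 1 : ℕ) : ℕ∞)
  ν : T →+* B ⧸ Ideal.span {D.G}
  hν : ∀ y, ν (f (C y)) = Ideal.Quotient.mk _ (D.μ y)
  hνX : ∀ p, ν (f (X p)) = 0

theorem h_eq {T : Type*} [CommRing T] (f : MvPolynomial (Fin d × Fin d) Γ →+* T)
    (hE : ∀ i, f (altElt D.h D.u i) = 0) (i : Fin d) :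
    f (C (D.h i)) = ∑ l, (f (X (i, l)) - f (X (l, i))) * f (C (D.u l)) := by
  have h1 := hE i
  rw [altElt, map_sub, sub_eq_zero, map_sum] at h1
  rw [h1]
  refine Finset.sum_congr rfl fun l _ => ?_
  rw [map_mul, map_sub]

theorem exists_nat_ringKrullDim (T : Type*) [CommRing T] [IsLocalRing T] [IsNoetherianRing T] :
    ∃ t : ℕ, ringKrullDim T = (t : WithBot ℕ∞) := by
  have h1 := Ideal.height_ne_top_of_isPrime (I := maximalIdeal T)
  lift (maximalIdeal T).height to ℕ using h1 with t ht
  refine ⟨t, ?_⟩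
  rw [← IsLocalRing.maximalIdeal_height_eq_ringKrullDim, ← ht]
  rfl

end QData

end Vale.Agent.P177
end

section

/-!
P177: the Koszul homology `(KC V ys).H i` and the Koszul homology of the `kz` complex of P202.
-/

namespace Vale.Agent.P177.KG

open Vale.Agent.P202.Mix
open scoped ENNReal

universe u

/-! ### additive lengths and restriction of scalars -/

section Res

variable {R : Type u} [CommRing R]

/-- an `AddLen` as an `ALen`. -/
def ALen.of (L : AddLen R) : ALen R := ⟨L.len, L.zero, L.add⟩

/-- restriction of scalars along `R → C`. -/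
def Rs (R C : Type u) [CommRing R] [CommRing C] [Algebra R C] (M : Type u) : Type u := M

section

variable (C : Type u) [CommRing C] [Algebra R C] (M : Type u) [AddCommGroup M] [Module C M]

instance : AddCommGroup (Rs R C M) := inferInstanceAs (AddCommGroup M)

instance : Module R (Rs R C M) :=
  letI : AddCommGroup (Rs R C M) := inferInstanceAs (AddCommGroup M)
  Module.compHom M (algebraMap R C)

end

/-- a linear map over `C` as a linear map over `R`. -/
def Rs.map {C : Type u} [CommRing C] [Algebra R C] {M N : Type u} [AddCommGroup M] [Module C M]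
    [AddCommGroup N] [Module C N] (f : M →ₗ[C] N) : Rs R C M →ₗ[R] Rs R C N where
  toFun x := f x
  map_add' x y := f.map_add x y
  map_smul' r x := f.map_smul (algebraMap R C r) x

/-- an additive length over `R` as an additive length over the `R`-algebra `C`. -/
noncomputable def ALen.res (L : ALen R) (C : Type u) [CommRing C] [Algebra R C] : ALen C where
  len := fun M [AddCommGroup M] [Module C M] => L.len (Rs R C M)
  zero := by
    have : Subsingleton (Rs R C PUnit.{u + 1}) :=
      inferInstanceAs (Subsingleton PUnit.{u + 1})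
    exact len_subsingleton L
  add f g hf hg hfg := L.add (Rs.map f) (Rs.map g) hf hg hfg

theorem ALen.res_len (L : ALen R) {C : Type u} [CommRing C] [Algebra R C] (M : Type u)
    [AddCommGroup M] [Module C M] [Module R M] [IsScalarTower R C M] :
    (L.res C).len M = L.len M := by
  let e : Rs R C M ≃ₗ[R] M :=
    { toFun := fun x => x
      map_add' := fun _ _ => rfl
      map_smul' := fun r x => algebraMap_smul C r (show M from x)
      invFun := fun x => x
      left_inv := fun _ => rfl
      right_inv := fun _ => rfl }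
  exact Vale.Agent.P177.KG.len_congr L e

end Res

/-! ### splitting off the first element -/

section Split

variable {V : Type u} {n : ℕ}

/-- restriction to the sets without `0`. -/
def ra (v : Finset (Fin (n + 1)) → V) : Finset (Fin n) → V := fun J => v (J.map (Fin.succEmb n))

/-- restriction to the sets with `0`. -/
def rb (v : Finset (Fin (n + 1)) → V) : Finset (Fin n) → V :=
  fun J => v (insert 0 (J.map (Fin.succEmb n)))

/-- the preimage under `succ`. -/
def pre (J : Finset (Fin (n + 1))) : Finset (Fin n) := Finset.univ.filter fun k => k.succ ∈ J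

/-- glueing. -/
def glue (a b : Finset (Fin n) → V) : Finset (Fin (n + 1)) → V :=
  fun J => if 0 ∈ J then b (pre J) else a (pre J)

theorem zero_notMem_map (J : Finset (Fin n)) : (0 : Fin (n + 1)) ∉ J.map (Fin.succEmb n) := by
  simp

theorem succ_mem_map {J : Finset (Fin n)} {k : Fin n} : k.succ ∈ J.map (Fin.succEmb n) ↔ k ∈ J := by
  simp

theorem pre_map (J : Finset (Fin n)) : pre (J.map (Fin.succEmb n)) = J := by
  ext k
  simp [pre]

theorem pre_insert (J : Finset (Fin n)) : pre (insert 0 (J.map (Fin.succEmb n))) = J := by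
  ext k
  simp [pre, Fin.succ_ne_zero]

theorem map_pre {J : Finset (Fin (n + 1))} (h : 0 ∉ J) : (pre J).map (Fin.succEmb n) = J := by
  ext k
  refine Fin.cases ?_ (fun k => ?_) k
  · simp [h]
  · simp [pre]

theorem insert_map_pre {J : Finset (Fin (n + 1))} (h : 0 ∈ J) :
    insert 0 ((pre J).map (Fin.succEmb n)) = J := by
  ext k
  refine Fin.cases ?_ (fun k => ?_) k
  · simp [h]
  · simp [pre, Fin.succ_ne_zero]

theorem ra_glue (a b : Finset (Fin n) → V) : ra (glue a b) = a := by
  funext J
  rw [ra, glue, if_neg (zero_notMem_map J), pre_map]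

theorem rb_glue (a b : Finset (Fin n) → V) : rb (glue a b) = b := by
  funext J
  rw [rb, glue, if_pos (Finset.mem_insert_self _ _), pre_insert]

theorem glue_ra_rb (v : Finset (Fin (n + 1)) → V) : glue (ra v) (rb v) = v := by
  funext J
  by_cases h : 0 ∈ J
  · rw [glue, if_pos h, rb, insert_map_pre h]
  · rw [glue, if_neg h, ra, map_pre h]

theorem card_pre {J : Finset (Fin (n + 1))} (h : 0 ∉ J) : (pre J).card = J.card := by
  conv_rhs => rw [← map_pre h, Finset.card_map]

theorem card_pre' {J : Finset (Fin (n + 1))} (h : 0 ∈ J) : (pre J).card + 1 = J.card := by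
  conv_rhs => rw [← insert_map_pre h, Finset.card_insert_of_notMem (zero_notMem_map _),
    Finset.card_map]

end Split

section Main

variable {C : Type u} [CommRing C] {V : Type u} [AddCommGroup V] [Module C V] {n : ℕ}

/-- the Koszul differential as a function. -/
def kzf (y : Fin n → C) (v : Finset (Fin n) → V) : Finset (Fin n) → V :=
  fun J => ∑ l ∈ Jᶜ, ksg l J • y l • v (insert l J)

theorem kzf_eq (y : Fin n → C) (v : Finset (Fin n) → V) (J : Finset (Fin n)) :
    kzf y v J = ∑ l, if l ∈ J then 0 else ksg l J • y l • v (insert l J) := by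
  rw [kzf]
  rw [Finset.sum_ite, Finset.sum_const_zero, zero_add]
  refine Finset.sum_congr ?_ fun _ _ => rfl
  ext l
  simp

theorem ksg_zero (J : Finset (Fin (n + 1))) : ksg 0 J = 1 := by
  rw [ksg, Finset.filter_false_of_mem (fun k _ => by simp), Finset.card_empty, pow_zero]

theorem filter_map_succ (J : Finset (Fin n)) (k : Fin n) :
    (J.map (Fin.succEmb n)).filter (· < k.succ) = (J.filter (· < k)).map (Fin.succEmb n) := by
  ext l
  refine Fin.cases ?_ (fun l => ?_) l
  · simp
  · simp [Fin.succ_lt_succ_iff]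

theorem ksg_succ (k : Fin n) (J : Finset (Fin n)) :
    ksg k.succ (J.map (Fin.succEmb n)) = ksg k J := by
  rw [ksg, ksg, filter_map_succ, Finset.card_map]

theorem ksg_succ_insert (k : Fin n) (J : Finset (Fin n)) :
    ksg k.succ (insert 0 (J.map (Fin.succEmb n))) = - ksg k J := by
  rw [ksg, ksg, Finset.filter_insert, if_pos (Fin.succ_pos k), filter_map_succ,
    Finset.card_insert_of_notMem (zero_notMem_map _), Finset.card_map, pow_succ, mul_neg_one]

theorem ra_kzf (y : Fin (n + 1) → C) (v : Finset (Fin (n + 1)) → V) :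
    ra (kzf y v) = kzf (fun k => y k.succ) (ra v) + y 0 • rb v := by
  funext J
  rw [ra, kzf_eq, Fin.sum_univ_succ, if_neg (zero_notMem_map J), ksg_zero, one_smul, add_comm]
  refine congrArg₂ (· + ·) ?_ rfl
  rw [kzf_eq]
  refine Finset.sum_congr rfl fun k _ => ?_
  by_cases h : k ∈ J
  · rw [if_pos h, if_pos (succ_mem_map.2 h)]
  · rw [if_neg h, if_neg (fun h' => h (succ_mem_map.1 h')), ksg_succ]
    have e : insert k.succ (J.map (Fin.succEmb n)) = (insert k J).map (Fin.succEmb n) := by
      rw [Finset.map_insert]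
      rfl
    rw [e]
    rfl

theorem rb_kzf (y : Fin (n + 1) → C) (v : Finset (Fin (n + 1)) → V) :
    rb (kzf y v) = - kzf (fun k => y k.succ) (rb v) := by
  funext J
  rw [rb, kzf_eq, Fin.sum_univ_succ, if_pos (Finset.mem_insert_self _ _), zero_add]
  show _ = - kzf (fun k => y k.succ) (rb v) J
  rw [kzf_eq, ← Finset.sum_neg_distrib]
  refine Finset.sum_congr rfl fun k _ => ?_
  have h0 : k.succ ∈ insert 0 (J.map (Fin.succEmb n)) ↔ k ∈ J := by
    rw [Finset.mem_insert, succ_mem_map]
    exact ⟨fun h => h.resolve_left (Fin.succ_ne_zero k), Or.inr⟩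
  by_cases h : k ∈ J
  · rw [if_pos h, if_pos (h0.2 h), neg_zero]
  · rw [if_neg h, if_neg (fun h' => h (h0.1 h')), ksg_succ_insert, neg_smul]
    have e : insert k.succ (insert 0 (J.map (Fin.succEmb n))) =
        insert 0 ((insert k J).map (Fin.succEmb n)) := by
      rw [Finset.map_insert, Finset.insert_comm]
      rfl
    rw [e]
    rfl

/-- the list of a tuple. -/
def lof : ∀ {n : ℕ}, (Fin n → C) → List C
  | 0, _ => []
  | _ + 1, y => y 0 :: lof fun k => y k.succ

omit [CommRing C] in
theorem lof_eq : ∀ {n : ℕ} (y : Fin n → C), lof y = List.ofFn y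
  | 0, y => by rw [List.ofFn_zero]; rfl
  | n + 1, y => by
    rw [List.ofFn_succ, ← lof_eq]
    rfl

/-- the comparison map in degree `i`. -/
def Phi : ∀ {n : ℕ} (y : Fin n → C) (i : ℕ), (Finset (Fin n) → V) → (KC V (lof y)).X i
  | 0, _, 0, v => (v ∅ : V)
  | 0, _, _ + 1, _ => PUnit.unit
  | _ + 1, y, 0, v => Phi (fun k => y k.succ) 0 (ra v)
  | _ + 1, y, i + 1, v => (KC V (lof fun k => y k.succ)).pr (y 0) i
      (Phi (fun k => y k.succ) (i + 1) (ra v)) (Phi (fun k => y k.succ) i (rb v))

theorem Phi_add : ∀ {n : ℕ} (y : Fin n → C) (i : ℕ) (v w : Finset (Fin n) → V),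
    Phi y i (v + w) = Phi y i v + Phi y i w
  | 0, _, 0, _, _ => rfl
  | 0, _, _ + 1, _, _ => rfl
  | _ + 1, y, 0, v, w => Phi_add (fun k => y k.succ) 0 (ra v) (ra w)
  | _ + 1, y, i + 1, v, w => by
    show (KC V (lof fun k => y k.succ)).pr (y 0) i _ _ =
      (KC V (lof fun k => y k.succ)).pr (y 0) i _ _ + (KC V (lof fun k => y k.succ)).pr (y 0) i _ _
    have h1 := Phi_add (fun k => y k.succ) (i + 1) (ra v) (ra w)
    have h2 := Phi_add (fun k => y k.succ) i (rb v) (rb w)
    have h3 : ra (v + w) = ra v + ra w := rfl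
    have h4 : rb (v + w) = rb v + rb w := rfl
    rw [h3, h4, h1, h2]
    rfl

theorem Phi_smul (c : C) : ∀ {n : ℕ} (y : Fin n → C) (i : ℕ) (v : Finset (Fin n) → V),
    Phi y i (c • v) = c • Phi y i v
  | 0, _, 0, _ => rfl
  | 0, _, _ + 1, _ => rfl
  | _ + 1, y, 0, v => Phi_smul c (fun k => y k.succ) 0 (ra v)
  | _ + 1, y, i + 1, v => by
    show (KC V (lof fun k => y k.succ)).pr (y 0) i _ _ =
      c • (KC V (lof fun k => y k.succ)).pr (y 0) i _ _
    have h1 := Phi_smul c (fun k => y k.succ) (i + 1) (ra v)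
    have h2 := Phi_smul c (fun k => y k.succ) i (rb v)
    have h3 : ra (c • v) = c • ra v := rfl
    have h4 : rb (c • v) = c • rb v := rfl
    rw [h3, h4, h1, h2]
    rfl

theorem Phi_neg {n : ℕ} (y : Fin n → C) (i : ℕ) (v : Finset (Fin n) → V) :
    Phi y i (- v) = - Phi y i v := by
  have h := Phi_smul (-1 : C) y i v
  rwa [neg_one_smul, neg_one_smul] at h

theorem Phi_kzf : ∀ {n : ℕ} (y : Fin n → C) (i : ℕ) (v : Finset (Fin n) → V),
    Phi y i (kzf y v) = (KC V (lof y)).d i (Phi y (i + 1) v)
  | 0, y, 0, v => by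
    show kzf y v ∅ = 0
    rw [kzf_eq]
    simp
  | 0, _, _ + 1, _ => rfl
  | n + 1, y, 0, v => by
    have h := (KC V (lof fun k => y k.succ)).d_pr_zero (y 0)
      (Phi (fun k => y k.succ) 1 (ra v)) (Phi (fun k => y k.succ) 0 (rb v))
    refine Eq.trans ?_ h.symm
    show Phi (fun k => y k.succ) 0 (ra (kzf y v)) = (_ : (KC V (lof fun k => y k.succ)).X 0)
    rw [ra_kzf, Phi_add, Phi_smul, Phi_kzf]
    rfl
  | n + 1, y, i + 1, v => by
    have h := (KC V (lof fun k => y k.succ)).d_pr_succ (y 0) i
      (Phi (fun k => y k.succ) (i + 2) (ra v)) (Phi (fun k => y k.succ) (i + 1) (rb v))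
    refine Eq.trans ?_ h.symm
    show (KC V (lof fun k => y k.succ)).pr (y 0) i (Phi (fun k => y k.succ) (i + 1) (ra (kzf y v)))
      (Phi (fun k => y k.succ) i (rb (kzf y v))) = _
    rw [ra_kzf, rb_kzf, Phi_add, Phi_smul, Phi_neg, Phi_kzf, Phi_kzf]

/-- homogeneous functions. -/
def Hg {n : ℕ} (i : ℕ) (v : Finset (Fin n) → V) : Prop := ∀ J, v J ≠ 0 → J.card = i

theorem Phi_surj : ∀ {n : ℕ} (y : Fin n → C) (i : ℕ) (x : (KC V (lof y)).X i),
    ∃ v : Finset (Fin n) → V, Hg i v ∧ Phi y i v = x
  | 0, _, 0, x => ⟨fun _ => (x : V), fun J _ => by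
      rw [Finset.eq_empty_of_isEmpty J, Finset.card_empty], rfl⟩
  | 0, _, _ + 1, _ => ⟨0, fun _ h => absurd rfl h, rfl⟩
  | n + 1, y, 0, x => by
    obtain ⟨v, hv, hx⟩ := Phi_surj (fun k => y k.succ) 0 x
    refine ⟨glue v 0, ?_, ?_⟩
    · intro J hJ
      rw [glue] at hJ
      by_cases h : 0 ∈ J
      · rw [if_pos h] at hJ
        exact absurd rfl hJ
      · rw [if_neg h] at hJ
        rw [← card_pre h]
        exact hv _ hJ
    · show Phi (fun k => y k.succ) 0 (ra (glue v 0)) = x
      rw [ra_glue]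
      exact hx
  | n + 1, y, i + 1, x => by
    obtain ⟨a, b, rfl⟩ := (KC V (lof fun k => y k.succ)).exists_pr (y 0) i x
    obtain ⟨va, hva, ha⟩ := Phi_surj (fun k => y k.succ) (i + 1) a
    obtain ⟨vb, hvb, hb⟩ := Phi_surj (fun k => y k.succ) i b
    refine ⟨glue va vb, ?_, ?_⟩
    · intro J hJ
      rw [glue] at hJ
      by_cases h : 0 ∈ J
      · rw [if_pos h] at hJ
        rw [← card_pre' h, hvb _ hJ]
      · rw [if_neg h] at hJ
        rw [← card_pre h]
        exact hva _ hJ
    · show (KC V (lof fun k => y k.succ)).pr (y 0) i (Phi (fun k => y k.succ) (i + 1)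
        (ra (glue va vb))) (Phi (fun k => y k.succ) i (rb (glue va vb))) = _
      rw [ra_glue, rb_glue, ha, hb]

theorem Hg.ra {n : ℕ} {i : ℕ} {v : Finset (Fin (n + 1)) → V} (hv : Hg i v) : Hg i (ra v) := by
  intro J hJ
  rw [← Finset.card_map (Fin.succEmb n)]
  exact hv _ hJ

theorem Hg.rb {n : ℕ} {i : ℕ} {v : Finset (Fin (n + 1)) → V} (hv : Hg (i + 1) v) :
    Hg i (rb v) := by
  intro J hJ
  have h := hv _ hJ
  rw [Finset.card_insert_of_notMem (zero_notMem_map _), Finset.card_map] at h
  exact Nat.succ_injective h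

theorem Hg.rb_zero {n : ℕ} {v : Finset (Fin (n + 1)) → V} (hv : Hg 0 v) : KG.rb v = 0 := by
  funext J
  by_contra h
  have h1 := hv _ h
  rw [Finset.card_insert_of_notMem (zero_notMem_map _)] at h1
  exact absurd h1 (Nat.succ_ne_zero _)

theorem Phi_inj : ∀ {n : ℕ} (y : Fin n → C) (i : ℕ) (v : Finset (Fin n) → V), Hg i v →
    Phi y i v = 0 → v = 0
  | 0, _, 0, v, _, h => by
    funext J
    rw [Finset.eq_empty_of_isEmpty J]
    exact h
  | 0, _, i + 1, v, hv, _ => by
    funext J
    by_contra h
    have h1 := hv J h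
    rw [Finset.eq_empty_of_isEmpty J, Finset.card_empty] at h1
    exact absurd h1.symm (Nat.succ_ne_zero _)
  | n + 1, y, 0, v, hv, h => by
    have h1 := Phi_inj (fun k => y k.succ) 0 (ra v) hv.ra h
    rw [← glue_ra_rb v, h1, hv.rb_zero]
    funext J
    simp [glue]
  | n + 1, y, i + 1, v, hv, h => by
    have h' : (KC V (lof fun k => y k.succ)).pr (y 0) i (Phi (fun k => y k.succ) (i + 1) (ra v))
      (Phi (fun k => y k.succ) i (rb v)) = 0 := h
    obtain ⟨ha, hb⟩ := (KC V (lof fun k => y k.succ)).pr_eq_zero.1 h'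
    have h1 := Phi_inj (fun k => y k.succ) (i + 1) (ra v) hv.ra ha
    have h2 := Phi_inj (fun k => y k.succ) i (rb v) hv.rb hb
    rw [← glue_ra_rb v, h1, h2]
    funext J
    simp [glue]

end Main

section Final

variable {R C : Type u} [CommRing R] [CommRing C] [Algebra R C] {V : Type u} [AddCommGroup V]
  [Module R V] [Module C V] [IsScalarTower R C V] {n : ℕ}

omit [Algebra R C] [IsScalarTower R C V] in
theorem kz_eq_kzf {T : Fin n → V →ₗ[R] V} {y : Fin n → C} (hT : ∀ l v, T l v = y l • v)
    (v : Finset (Fin n) → V) : kz T v = kzf y v := by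
  funext J
  show ∑ l ∈ Jᶜ, ksg l J • T l (v (insert l J)) = _
  rw [kzf]
  exact Finset.sum_congr rfl fun l _ => by rw [hT]

theorem mem_kgr_iff {i : ℕ} {v : Finset (Fin n) → V} : v ∈ kgr R V n (i : ℤ) ↔ Hg i v := by
  constructor
  · intro h J hJ
    exact_mod_cast h J hJ
  · intro h J hJ
    exact_mod_cast h J hJ

omit [Algebra R C] [IsScalarTower R C V] in
theorem Phi_mem_Z {T : Fin n → V →ₗ[R] V} {y : Fin n → C} (hT : ∀ l v, T l v = y l • v) :
    ∀ (i : ℕ) (v : Finset (Fin n) → V), v ∈ kcyc T (i : ℤ) → Phi y i v ∈ (KC V (lof y)).Z i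
  | 0, v, _ => Cx.mem_Z_zero _ _
  | i + 1, v, hv => by
    rw [Cx.mem_Z_succ, ← Phi_kzf, ← kz_eq_kzf hT]
    have h : kz T v = 0 := hv.2
    rw [h]
    have := Phi_smul (0 : C) y i (0 : Finset (Fin n) → V)
    rwa [zero_smul, zero_smul] at this

/-- the comparison map on cycles. -/
noncomputable def PhiH {T : Fin n → V →ₗ[R] V} {y : Fin n → C} (hT : ∀ l v, T l v = y l • v)
    (i : ℕ) : ↥(kcyc T (i : ℤ)) →ₗ[R] Rs R C ((KC V (lof y)).H i) where
  toFun v := (KC V (lof y)).cl i ⟨Phi y i v.1, Phi_mem_Z hT i v.1 v.2⟩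
  map_add' v w := by
    have h : (⟨Phi y i (v.1 + w.1), Phi_mem_Z hT i (v.1 + w.1) (v + w).2⟩ :
        ↥((KC V (lof y)).Z i)) = ⟨Phi y i v.1, Phi_mem_Z hT i v.1 v.2⟩ +
          ⟨Phi y i w.1, Phi_mem_Z hT i w.1 w.2⟩ := Subtype.ext (Phi_add y i v.1 w.1)
    show (KC V (lof y)).cl i ⟨Phi y i (v.1 + w.1), Phi_mem_Z hT i (v.1 + w.1) (v + w).2⟩ = _
    rw [h, map_add]
    rfl
  map_smul' r v := by
    have h0 : (r • v).1 = (algebraMap R C r) • v.1 := by
      funext J
      show r • v.1 J = (algebraMap R C r) • v.1 J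
      rw [algebraMap_smul]
    have h : (⟨Phi y i (r • v).1, Phi_mem_Z hT i (r • v).1 (r • v).2⟩ :
        ↥((KC V (lof y)).Z i)) = (algebraMap R C r) •
          ⟨Phi y i v.1, Phi_mem_Z hT i v.1 v.2⟩ := by
      refine Subtype.ext ?_
      show Phi y i (r • v).1 = (algebraMap R C r) • Phi y i v.1
      rw [h0, Phi_smul]
    show (KC V (lof y)).cl i ⟨Phi y i (r • v).1, Phi_mem_Z hT i (r • v).1 (r • v).2⟩ = _
    rw [h, map_smul]
    rfl

theorem PhiH_surjective {T : Fin n → V →ₗ[R] V} {y : Fin n → C}
    (hT : ∀ l v, T l v = y l • v) (i : ℕ) : Function.Surjective (PhiH hT i) := by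
  intro z
  obtain ⟨x, hx, hz⟩ := (KC V (lof y)).cl_surj i z
  obtain ⟨v, hv, hvx⟩ := Phi_surj y i x
  have hc : v ∈ kcyc T (i : ℤ) := by
    refine ⟨mem_kgr_iff.2 hv, ?_⟩
    show kz T v = 0
    cases i with
    | zero =>
      have h1 := kz_kgr T (-1) v (by
        have := (mem_kgr_iff (R := R)).2 hv
        simpa using this)
      funext J
      by_contra h
      have h2 := h1 J h
      omega
    | succ i =>
      have h1 := kz_kgr T (i : ℤ) v (by
        have := (mem_kgr_iff (R := R)).2 hv
        simpa using this)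
      refine Phi_inj y i _ (mem_kgr_iff.1 h1) ?_
      rw [kz_eq_kzf hT, Phi_kzf, hvx]
      exact hx
  refine ⟨⟨v, hc⟩, ?_⟩
  rw [← hz]
  show (KC V (lof y)).cl i ⟨Phi y i v, _⟩ = _
  congr 1
  exact Subtype.ext hvx

theorem ker_PhiH {T : Fin n → V →ₗ[R] V} {y : Fin n → C} (hT : ∀ l v, T l v = y l • v)
    (i : ℕ) : LinearMap.ker (PhiH hT i) = (kbd T (i : ℤ)).submoduleOf (kcyc T (i : ℤ)) := by
  ext ⟨v, hv⟩
  rw [LinearMap.mem_ker]
  show (KC V (lof y)).cl i ⟨Phi y i v, _⟩ = 0 ↔ v ∈ kbd T (i : ℤ)
  rw [Cx.cl_eq_zero, Cx.mem_B]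
  constructor
  · rintro ⟨x, hx⟩
    obtain ⟨w, hw, rfl⟩ := Phi_surj y (i + 1) x
    have hw1 : w ∈ kgr R V n ((i : ℤ) + 1) := by
      have := (mem_kgr_iff (R := R)).2 hw
      simpa using this
    refine ⟨w, hw1, ?_⟩
    have h1 : kz T w ∈ kgr R V n (i : ℤ) := kz_kgr T (i : ℤ) w hw1
    have h2 : v - kz T w ∈ kgr R V n (i : ℤ) := Submodule.sub_mem _ hv.1 h1
    have h3 : Phi y i (v - kz T w) = 0 := by
      rw [sub_eq_add_neg, Phi_add, Phi_neg, kz_eq_kzf hT, Phi_kzf, hx, add_neg_cancel]
    exact (sub_eq_zero.1 (Phi_inj y i _ (mem_kgr_iff.1 h2) h3)).symm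
  · rintro ⟨w, hw, rfl⟩
    exact ⟨Phi y (i + 1) w, by rw [kz_eq_kzf hT, Phi_kzf]⟩

/-- **comparison**: the `kz` Koszul homology of P202 and `KC` have the same length. -/
theorem len_KH_eq (L : ALen R) (T : Fin n → V →ₗ[R] V) (y : Fin n → C)
    (hT : ∀ l v, T l v = y l • v) (i : ℕ) :
    L.len (KM.KH T i) = (L.res C).len ((KC V (List.ofFn y)).H i) := by
  rw [← lof_eq]
  have h1 := Vale.Agent.P177.KG.len_congr L ((PhiH hT i).quotKerEquivOfSurjective (PhiH_surjective hT i))
  have h2 : L.len (Rs R C ((KC V (lof y)).H i)) =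
      (L.res C).len ((KC V (lof y)).H i) := rfl
  rw [← h2, ← h1, ker_PhiH]

/-- finiteness for `ys` gives finiteness for every list `cs` with `ys ^ l` in the ideal of `cs`. -/
theorem KC_len_lt_top (L : ALen C) {cs ys : List C} {l : ℕ}
    (h : ∀ y ∈ ys, y ^ l ∈ Ideal.ofList cs) (hf : ∀ q, L.len ((KC V ys).H q) < ⊤) (i : ℕ) :
    L.len ((KC V cs).H i) < ⊤ := by
  have h1 : ∀ y ∈ ys.map (· ^ l), y ∈ Ideal.ofList cs := by
    intro y' hy'
    obtain ⟨y, hy, rfl⟩ := List.mem_map.1 hy'
    exact h y hy
  refine lt_of_le_of_lt ((kfam V).growth1' L h1 i) ?_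
  refine ENNReal.sum_lt_top.2 fun jq _ => ENNReal.mul_lt_top (ENNReal.natCast_lt_top _) ?_
  refine lt_of_le_of_lt ((kfam V).growth2 L ys l jq.2) ?_
  exact ENNReal.mul_lt_top (ENNReal.pow_lt_top (ENNReal.natCast_lt_top _)) (hf _)

end Final

end Vale.Agent.P177.KG
end

section

/-!
P177: `Tor_i(X, A/(xs)) ≃ H_i(xs; X)` for `xs` weakly regular on the ring `A`.
-/

namespace Vale.Agent.P177.KG

open RingTheory.Sequence TensorProduct Pointwise

universe u

section Zero

variable {R : Type u} [CommRing R] (M : Type u) [AddCommGroup M] [Module R M]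

/-- the identification of `M` with the degree zero part. -/
def e0 : ∀ xs : List R, M ≃ₗ[R] (KC M xs).X 0
  | [] => (LinearEquiv.refl R M : M ≃ₗ[R] M)
  | _ :: xs => e0 xs

theorem e0_mem_B (xs : List R) : ∀ m : M,
    e0 M xs m ∈ (KC M xs).B 0 ↔ m ∈ (Ideal.ofList xs • (⊤ : Submodule R M)) := by
  induction xs with
  | nil =>
    intro m
    rw [Ideal.ofList_nil, Submodule.bot_smul, Submodule.mem_bot]
    constructor
    · rintro ⟨y, hy⟩
      exact hy.symm
    · rintro rfl
      rw [map_zero]
      exact Submodule.zero_mem _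
  | cons x xs ih =>
    intro m
    rw [Ideal.ofList_cons, Submodule.sup_smul, Submodule.mem_sup]
    have h1 : e0 M (x :: xs) m = (KC M xs).p0 x (e0 M xs m) := rfl
    rw [h1]
    refine (KC M xs).mem_B_cone_zero.trans ?_
    constructor
    · rintro ⟨a, b, hab⟩
      obtain ⟨m', rfl⟩ := (e0 M xs).surjective b
      have h2 : e0 M xs (m - x • m') ∈ (KC M xs).B 0 := by
        rw [map_sub, map_smul, ← hab, add_sub_cancel_right]
        exact ⟨a, rfl⟩
      refine ⟨x • m', ?_, m - x • m', (ih _).1 h2, add_sub_cancel _ _⟩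
      exact Submodule.smul_mem_smul (Ideal.mem_span_singleton_self x) trivial
    · rintro ⟨u, hu, v, hv, rfl⟩
      rw [Submodule.ideal_span_singleton_smul] at hu
      obtain ⟨m', -, rfl⟩ := hu
      obtain ⟨a, ha⟩ := (ih v).2 hv
      refine ⟨a, e0 M xs m', ?_⟩
      rw [ha, map_add, add_comm, ← map_smul]
      rfl

theorem e0_nat {N : Type u} [AddCommGroup N] [Module R N] (f : M →ₗ[R] N) (xs : List R) :
    ∀ m : M, (KCmap f xs).f 0 (e0 M xs m) = e0 N xs (f m) := by
  induction xs with
  | nil => exact fun m => rfl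
  | cons x xs ih => exact fun m => ih m

/-- the surjection `M → H_0(xs; M)`. -/
def u0 (xs : List R) : M →ₗ[R] (KC M xs).H 0 :=
  (KC M xs).cl 0 ∘ₗ (e0 M xs).toLinearMap.codRestrict ((KC M xs).Z 0) (fun _ => Cx.mem_Z_zero _ _)

theorem u0_surjective (xs : List R) : Function.Surjective (u0 M xs) := by
  intro z
  obtain ⟨x, hx, rfl⟩ := (KC M xs).cl_surj 0 z
  obtain ⟨m, rfl⟩ := (e0 M xs).surjective x
  exact ⟨m, rfl⟩

theorem ker_u0 (xs : List R) : LinearMap.ker (u0 M xs) = Ideal.ofList xs • (⊤ : Submodule R M) := by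
  ext m
  rw [LinearMap.mem_ker, ← e0_mem_B]
  exact (KC M xs).cl_eq_zero

theorem u0_nat {N : Type u} [AddCommGroup N] [Module R N] (f : M →ₗ[R] N) (xs : List R) (m : M) :
    (KCmap f xs).H 0 (u0 M xs m) = u0 N xs (f m) := by
  have h : u0 M xs m = (KC M xs).cl 0 ⟨e0 M xs m, Cx.mem_Z_zero _ _⟩ := rfl
  have h' : u0 N xs (f m) = (KC N xs).cl 0 ⟨e0 N xs (f m), Cx.mem_Z_zero _ _⟩ := rfl
  rw [h, h', Cx.Hom.H_cl, Cx.cl_eq_cl, e0_nat, sub_self]
  exact Submodule.zero_mem _

/-- `H_0(xs; M) ≃ M ⊗ R/(xs)`. -/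
noncomputable def E0 (xs : List R) : (KC M xs).H 0 ≃ₗ[R] M ⊗[R] (R ⧸ Ideal.ofList xs) :=
  ((u0 M xs).quotKerEquivOfSurjective (u0_surjective M xs)).symm.trans
    ((Submodule.quotEquivOfEq _ _ (ker_u0 M xs)).trans
      (tensorQuotEquivQuotSMul M (Ideal.ofList xs)).symm)

theorem E0_u0 (xs : List R) (m : M) :
    E0 M xs (u0 M xs m) = m ⊗ₜ[R] (1 : R ⧸ Ideal.ofList xs) := by
  have h1 : ((u0 M xs).quotKerEquivOfSurjective (u0_surjective M xs)).symm (u0 M xs m) =
      (LinearMap.ker (u0 M xs)).mkQ m := by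
    rw [LinearEquiv.symm_apply_eq]
    rfl
  rw [E0, LinearEquiv.trans_apply, LinearEquiv.trans_apply, h1, LinearEquiv.symm_apply_eq]
  have h2 := tensorQuotEquivQuotSMul_tmul_mk (M := M) (Ideal.ofList xs) m (1 : R)
  rw [one_smul] at h2
  exact h2.symm

theorem E0_nat {N : Type u} [AddCommGroup N] [Module R N] (f : M →ₗ[R] N) (xs : List R)
    (z : (KC M xs).H 0) :
    E0 N xs ((KCmap f xs).H 0 z) = f.rTensor (R ⧸ Ideal.ofList xs) (E0 M xs z) := by
  obtain ⟨m, rfl⟩ := u0_surjective M xs z
  rw [u0_nat, E0_u0, E0_u0, LinearMap.rTensor_tmul]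

end Zero

section Van

variable {R : Type u} [CommRing R]

/-- Koszul homology of a weakly regular sequence vanishes in positive degrees. -/
theorem KC_H_succ_subsingleton (xs : List R) : ∀ (M : Type u) [AddCommGroup M] [Module R M],
    IsWeaklyRegular M xs → ∀ i, Subsingleton ((KC M xs).H (i + 1)) := by
  induction xs with
  | nil =>
    intro M _ _ _ i
    exact KC_H_subsingleton M [] (Nat.succ_pos i)
  | cons x xs ih =>
    intro M _ _ h i
    rw [isWeaklyRegular_cons_iff] at h
    have h1 := ih (QuotSMulTop x M) h.2 i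
    have e := KC_cons_equiv (M := M) (K := QuotSMulTop x M) x
      (fun m hm => h.1 (show x • m = x • (0 : M) by rw [smul_zero]; exact hm))
      (Submodule.mkQ (x • (⊤ : Submodule R M))) (Submodule.mkQ_surjective _)
      (fun m => by
        rw [Submodule.mkQ_apply, Submodule.Quotient.mk_eq_zero]
        constructor
        · rintro ⟨m', -, h'⟩
          exact ⟨m', h'⟩
        · rintro ⟨m', h'⟩
          exact ⟨m', trivial, h'⟩) xs (i + 1)
    exact e.toEquiv.subsingleton

theorem isWeaklyRegular_of_flat {xs : List R} (h : IsWeaklyRegular R xs) (F : Type u)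
    [AddCommGroup F] [Module R F] [Module.Flat R F] : IsWeaklyRegular F xs :=
  ((TensorProduct.rid R F).isWeaklyRegular_congr xs).1 h.isWeaklyRegular_lTensor

end Van

section Tor

variable {R : Type u} [CommRing R]

theorem tor_equiv_zero (xs : List R) (M : Type u) [AddCommGroup M] [Module R M] :
    Nonempty (TorM R 0 M (R ⧸ Ideal.ofList xs) ≃ₗ[R] (KC M xs).H 0) :=
  ⟨(torZero M (R ⧸ Ideal.ofList xs)).trans (E0 M xs).symm⟩

theorem delta_bijective {xs : List R} {K F M : Type u} [AddCommGroup K] [Module R K]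
    [AddCommGroup F] [Module R F] [AddCommGroup M] [Module R M] {f : K →ₗ[R] F} {g : F →ₗ[R] M}
    (hf : Function.Injective f) (hg : Function.Surjective g) (hfg : Function.Exact f g) (i : ℕ)
    (h1 : Subsingleton ((KC F xs).H (i + 1))) (h0 : Subsingleton ((KC F xs).H i)) :
    Function.Bijective ((KCses hf hg hfg xs).delta i) := by
  constructor
  · rw [injective_iff_map_eq_zero]
    intro z hz
    obtain ⟨w, rfl⟩ := ((KCses hf hg hfg xs).exact₃ i z).1 hz
    rw [Subsingleton.elim w 0, map_zero]
  · intro z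
    exact ((KCses hf hg hfg xs).exact₁ i z).1 (Subsingleton.elim _ _)

/-- **Tor and Koszul homology**: for `xs` weakly regular on `R`,
`Tor_i(M, R/(xs)) ≃ H_i(xs; M)`. -/
theorem tor_equiv {xs : List R} (hreg : IsWeaklyRegular R xs) : ∀ (i : ℕ) (M : Type u)
    [AddCommGroup M] [Module R M],
    Nonempty (TorM R i M (R ⧸ Ideal.ofList xs) ≃ₗ[R] (KC M xs).H i)
  | 0, M, _, _ => tor_equiv_zero xs M
  | 1, M, _, _ => by
    obtain ⟨F, K, _, _, _, _, f, g, hF, hf, hg, hfg⟩ := exists_cover R M
    obtain ⟨e1⟩ := tor_one f g hf hg hfg (R ⧸ Ideal.ofList xs)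
    have hv := KC_H_succ_subsingleton xs F (isWeaklyRegular_of_flat hreg F) 0
    have h := KCses hf hg hfg xs
    have hinj : Function.Injective (h.delta 0) := by
      rw [injective_iff_map_eq_zero]
      intro z hz
      obtain ⟨w, rfl⟩ := (h.exact₃ 0 z).1 hz
      rw [Subsingleton.elim w 0, map_zero]
    have hr : LinearMap.range (h.delta 0) = LinearMap.ker ((KCmap f xs).H 0) :=
      (LinearMap.exact_iff.1 (h.exact₁ 0)).symm
    have e2 : (KC M xs).H 1 ≃ₗ[R] LinearMap.ker ((KCmap f xs).H 0) :=
      (LinearEquiv.ofInjective (h.delta 0) hinj).trans (LinearEquiv.ofEq _ _ hr)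
    have hk : (LinearMap.ker ((KCmap f xs).H 0)).map (E0 K xs).toLinearMap =
        LinearMap.ker (f.rTensor (R ⧸ Ideal.ofList xs)) := by
      ext z
      constructor
      · rintro ⟨w, hw, rfl⟩
        rw [LinearMap.mem_ker]
        have h3 := E0_nat K f xs w
        have h4 : (KCmap f xs).H 0 w = 0 := hw
        rw [h4, map_zero] at h3
        exact h3.symm
      · intro hz
        refine ⟨(E0 K xs).symm z, ?_, (E0 K xs).apply_symm_apply z⟩
        show (KCmap f xs).H 0 ((E0 K xs).symm z) = 0
        apply (E0 F xs).injective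
        rw [E0_nat K f xs, LinearEquiv.apply_symm_apply, map_zero]
        exact hz
    have e3 : LinearMap.ker ((KCmap f xs).H 0) ≃ₗ[R]
        LinearMap.ker (f.rTensor (R ⧸ Ideal.ofList xs)) :=
      ((E0 K xs).submoduleMap (LinearMap.ker ((KCmap f xs).H 0))).trans (LinearEquiv.ofEq _ _ hk)
    exact ⟨e1.trans (e2.trans e3).symm⟩
  | i + 2, M, _, _ => by
    obtain ⟨F, K, _, _, _, _, f, g, hF, hf, hg, hfg⟩ := exists_cover R M
    obtain ⟨e1⟩ := tor_shift f g hf hg hfg (R ⧸ Ideal.ofList xs) i
    obtain ⟨e2⟩ := tor_equiv hreg (i + 1) K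
    have hv := KC_H_succ_subsingleton xs F (isWeaklyRegular_of_flat hreg F)
    have e3 := LinearEquiv.ofBijective _
      (delta_bijective (xs := xs) hf hg hfg (i + 1) (hv (i + 1)) (hv i))
    exact ⟨(e1.trans e2).trans e3.symm⟩

end Tor

section Flat

variable {A D : Type u} [CommRing A] [CommRing D] [Algebra A D] [Module.Flat A D]

/-- **flat version**: `xs` weakly regular on `A`, `D` flat over `A`, `M` a `D`-module. -/
theorem tor_equiv_flat {xs : List A} (hreg : IsWeaklyRegular A xs) (i : ℕ) (M : Type u)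
    [AddCommGroup M] [Module D M] :
    Nonempty (TorM D i M (D ⊗[A] (A ⧸ Ideal.ofList xs)) ≃ₗ[D]
      (KC M (xs.map (algebraMap A D))).H i) := by
  obtain ⟨e⟩ := tor_equiv (IsWeaklyRegular.of_flat (S := D) hreg) i M
  have h : (Ideal.ofList xs).map (algebraMap A D) = Ideal.ofList (xs.map (algebraMap A D)) :=
    Ideal.map_ofList _ _
  let e1 : (D ⊗[A] (A ⧸ Ideal.ofList xs)) ≃ₗ[D] (D ⧸ Ideal.ofList (xs.map (algebraMap A D))) :=
    ((Algebra.TensorProduct.quotIdealMapEquivTensorQuot D
      (Ideal.ofList xs)).toLinearEquiv.symm).trans (Submodule.quotEquivOfEq _ _ h)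
  exact ⟨(torCongrRight i M e1).trans e⟩

theorem len_tor_flat_eq (L : ALen D) {xs : List A} (hreg : IsWeaklyRegular A xs) (i : ℕ)
    (M : Type u) [AddCommGroup M] [Module D M] :
    L.len (TorM D i M (D ⊗[A] (A ⧸ Ideal.ofList xs))) =
      L.len ((KC M (xs.map (algebraMap A D))).H i) := by
  obtain ⟨e⟩ := tor_equiv_flat (D := D) hreg i M
  exact len_congr L e

/-- **finiteness of Tor from Koszul finiteness**: `xs` weakly regular on `A`, `D` flat over `A`,
`ys` elements of `D` with `ys ^ l` in the ideal of `xs` and finite Koszul homology on `M`. -/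
theorem len_tor_flat_lt_top (L : ALen D) {xs : List A} (hreg : IsWeaklyRegular A xs) (M : Type u)
    [AddCommGroup M] [Module D M] {ys : List D} {l : ℕ}
    (h : ∀ y ∈ ys, y ^ l ∈ Ideal.ofList (xs.map (algebraMap A D)))
    (hf : ∀ q, L.len ((KC (R := D) M ys).H q) < ⊤) (i : ℕ) :
    L.len (TorM D i M (D ⊗[A] (A ⧸ Ideal.ofList xs))) < ⊤ := by
  rw [len_tor_flat_eq L hreg i M]
  exact KC_len_lt_top L h hf i

end Flat

/-! ### change of the base ring of a Koszul complex -/

section Change

variable {C D : Type u} [CommRing C] [CommRing D] [Algebra C D] {M : Type u} [AddCommGroup M]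
  [Module C M] [Module D M] [IsScalarTower C D M]

/-- the Koszul complex over `C` and the one over `D` have the same terms. -/
def cX : ∀ (xs : List C) (i : ℕ), (KC (R := C) M xs).X i → (KC (R := D) M
    (xs.map (algebraMap C D))).X i
  | [], 0, m => (m : M)
  | [], _ + 1, _ => PUnit.unit
  | _ :: xs, 0, m => cX xs 0 m
  | x :: xs, i + 1, m => (KC (R := D) M (xs.map (algebraMap C D))).pr (algebraMap C D x) i
      (cX xs (i + 1) m.1) (cX xs i m.2)

omit [IsScalarTower C D M] in
theorem cX_add : ∀ (xs : List C) (i : ℕ) (m m' : (KC (R := C) M xs).X i),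
    cX (D := D) xs i (m + m') = cX xs i m + cX xs i m'
  | [], 0, _, _ => rfl
  | [], _ + 1, _, _ => rfl
  | _ :: xs, 0, m, m' => cX_add xs 0 m m'
  | x :: xs, i + 1, m, m' => by
    have h1 := cX_add xs (i + 1) m.1 m'.1
    have h2 := cX_add xs i m.2 m'.2
    show (KC (R := D) M (xs.map (algebraMap C D))).pr (algebraMap C D x) i
      (cX xs (i + 1) (m.1 + m'.1)) (cX xs i (m.2 + m'.2)) = _
    rw [h1, h2]
    rfl

theorem cX_smul (c : C) : ∀ (xs : List C) (i : ℕ) (m : (KC (R := C) M xs).X i),
    cX (D := D) xs i (c • m) = algebraMap C D c • cX xs i m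
  | [], 0, m => (algebraMap_smul D c (show M from m)).symm
  | [], _ + 1, _ => rfl
  | _ :: xs, 0, m => cX_smul c xs 0 m
  | x :: xs, i + 1, m => by
    have h1 := cX_smul c xs (i + 1) m.1
    have h2 := cX_smul c xs i m.2
    show (KC (R := D) M (xs.map (algebraMap C D))).pr (algebraMap C D x) i
      (cX xs (i + 1) (c • m.1)) (cX xs i (c • m.2)) = _
    rw [h1, h2]
    rfl

omit [IsScalarTower C D M] in
theorem cX_bij : ∀ (xs : List C) (i : ℕ), Function.Bijective (cX (D := D) (M := M) xs i)
  | [], 0 => Function.bijective_id (α := M)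
  | [], _ + 1 => ⟨fun _ _ _ => rfl, fun _ => ⟨PUnit.unit, rfl⟩⟩
  | _ :: xs, 0 => cX_bij xs 0
  | x :: xs, i + 1 => by
    have h1 := cX_bij xs (i + 1)
    have h2 := cX_bij xs i
    constructor
    · intro m m' h
      obtain ⟨ha, hb⟩ := (KC (R := D) M (xs.map (algebraMap C D))).pr_inj.1 h
      exact Prod.ext (h1.1 ha) (h2.1 hb)
    · intro z
      obtain ⟨a, b, rfl⟩ := (KC (R := D) M (xs.map (algebraMap C D))).exists_pr _ i z
      obtain ⟨a', rfl⟩ := h1.2 a
      obtain ⟨b', rfl⟩ := h2.2 b
      exact ⟨((a', b') : (KC (R := C) M xs).X (i + 1) × (KC (R := C) M xs).X i), rfl⟩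

theorem cX_zero (xs : List C) (i : ℕ) : cX (D := D) (M := M) xs i 0 = 0 := by
  have h := cX_smul (D := D) (M := M) 0 xs i 0
  rwa [zero_smul, map_zero, zero_smul] at h

theorem cX_neg (xs : List C) (i : ℕ) (m : (KC (R := C) M xs).X i) :
    cX (D := D) xs i (-m) = - cX xs i m := by
  have h := cX_smul (D := D) (-1) xs i m
  rwa [neg_one_smul, map_neg, map_one, neg_one_smul] at h

theorem cX_d : ∀ (xs : List C) (i : ℕ) (m : (KC (R := C) M xs).X (i + 1)),
    cX (D := D) xs i ((KC (R := C) M xs).d i m) =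
      (KC (R := D) M (xs.map (algebraMap C D))).d i (cX xs (i + 1) m)
  | [], 0, _ => rfl
  | [], _ + 1, _ => rfl
  | x :: xs, 0, m => by
    obtain ⟨a, b, rfl⟩ := (KC (R := C) M xs).exists_pr x 0 m
    have h := (KC (R := D) M (xs.map (algebraMap C D))).d_pr_zero (algebraMap C D x)
      (cX xs 1 a) (cX xs 0 b)
    refine Eq.trans ?_ h.symm
    show cX xs 0 ((KC (R := C) M xs).d 0 a + x • b) =
      (_ : (KC (R := D) M (xs.map (algebraMap C D))).X 0)
    rw [cX_add, cX_smul, cX_d]
    rfl
  | x :: xs, i + 1, m => by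
    obtain ⟨a, b, rfl⟩ := (KC (R := C) M xs).exists_pr x (i + 1) m
    have h := (KC (R := D) M (xs.map (algebraMap C D))).d_pr_succ (algebraMap C D x) i
      (cX xs (i + 2) a) (cX xs (i + 1) b)
    refine Eq.trans ?_ h.symm
    show (KC (R := D) M (xs.map (algebraMap C D))).pr (algebraMap C D x) i
      (cX xs (i + 1) ((KC (R := C) M xs).d (i + 1) a + x • b))
      (cX xs i (-(KC (R := C) M xs).d i b)) = _
    rw [cX_add, cX_smul, cX_neg, cX_d, cX_d]

theorem cX_mem_Z (xs : List C) (i : ℕ) (m : (KC (R := C) M xs).X i) :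
    m ∈ (KC (R := C) M xs).Z i ↔ cX (D := D) xs i m ∈
      (KC (R := D) M (xs.map (algebraMap C D))).Z i := by
  cases i with
  | zero => exact ⟨fun _ => Cx.mem_Z_zero _ _, fun _ => Cx.mem_Z_zero _ _⟩
  | succ i =>
    rw [Cx.mem_Z_succ, Cx.mem_Z_succ, ← cX_d]
    constructor
    · intro h
      rw [h, cX_zero]
    · intro h
      exact (cX_bij xs i).1 (by rw [h, cX_zero])

theorem cX_mem_B (xs : List C) (i : ℕ) (m : (KC (R := C) M xs).X i) :
    m ∈ (KC (R := C) M xs).B i ↔ cX (D := D) xs i m ∈
      (KC (R := D) M (xs.map (algebraMap C D))).B i := by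
  constructor
  · rintro ⟨z, rfl⟩
    exact ⟨cX xs (i + 1) z, (cX_d xs i z).symm⟩
  · rintro ⟨z, hz⟩
    obtain ⟨w, rfl⟩ := (cX_bij xs (i + 1)).2 z
    exact ⟨w, (cX_bij (D := D) xs i).1 (by rw [cX_d, hz])⟩

/-- the comparison of the Koszul homology over `C` and over `D`. -/
noncomputable def cH (xs : List C) (i : ℕ) : (KC (R := C) M xs).H i ≃ₗ[C]
    Rs C D ((KC (R := D) M (xs.map (algebraMap C D))).H i) := by
  let u : ↥((KC (R := C) M xs).Z i) →ₗ[C]
      Rs C D ((KC (R := D) M (xs.map (algebraMap C D))).H i) :=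
    { toFun := fun z => (KC (R := D) M (xs.map (algebraMap C D))).cl i
        ⟨cX xs i z.1, (cX_mem_Z xs i z.1).1 z.2⟩
      map_add' := fun z w => by
        have h : (⟨cX xs i (z.1 + w.1), (cX_mem_Z xs i (z.1 + w.1)).1 (z + w).2⟩ :
            ↥((KC (R := D) M (xs.map (algebraMap C D))).Z i)) =
            ⟨cX xs i z.1, (cX_mem_Z xs i z.1).1 z.2⟩ +
            ⟨cX xs i w.1, (cX_mem_Z xs i w.1).1 w.2⟩ := Subtype.ext (cX_add xs i z.1 w.1)
        show (KC (R := D) M (xs.map (algebraMap C D))).cl i
          ⟨cX xs i (z.1 + w.1), (cX_mem_Z xs i (z.1 + w.1)).1 (z + w).2⟩ = _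
        rw [h, map_add]
        rfl
      map_smul' := fun c z => by
        have h : (⟨cX xs i (c • z.1), (cX_mem_Z xs i (c • z.1)).1 (c • z).2⟩ :
            ↥((KC (R := D) M (xs.map (algebraMap C D))).Z i)) =
            algebraMap C D c • ⟨cX xs i z.1, (cX_mem_Z xs i z.1).1 z.2⟩ :=
          Subtype.ext (cX_smul c xs i z.1)
        show (KC (R := D) M (xs.map (algebraMap C D))).cl i
          ⟨cX xs i (c • z.1), (cX_mem_Z xs i (c • z.1)).1 (c • z).2⟩ = _
        rw [h, map_smul]
        rfl }
  have hu : Function.Surjective u := by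
    intro z
    obtain ⟨x, hx, rfl⟩ := (KC (R := D) M (xs.map (algebraMap C D))).cl_surj i z
    obtain ⟨w, rfl⟩ := (cX_bij xs i).2 x
    exact ⟨⟨w, (cX_mem_Z xs i w).2 hx⟩, rfl⟩
  have hk : LinearMap.ker u = ((KC (R := C) M xs).B i).submoduleOf ((KC (R := C) M xs).Z i) := by
    ext ⟨w, hw⟩
    rw [LinearMap.mem_ker]
    show (KC (R := D) M (xs.map (algebraMap C D))).cl i ⟨cX xs i w, _⟩ = 0 ↔
      w ∈ (KC (R := C) M xs).B i
    rw [Cx.cl_eq_zero]
    exact (cX_mem_B xs i w).symm
  exact (Submodule.quotEquivOfEq _ _ hk.symm).trans (u.quotKerEquivOfSurjective hu)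

/-- **change of rings**: for an additive length `L` over `C`, `len H_i(xs; M)` computed over `C`
or over `D`. -/
theorem len_KC_change (L : ALen C) (xs : List C) (i : ℕ) :
    L.len ((KC (R := C) M xs).H i) =
      (L.res D).len ((KC (R := D) M (xs.map (algebraMap C D))).H i) :=
  len_congr L (cH xs i)

end Change

end Vale.Agent.P177.KG
end

section

/-! P177, block LIFT: the base `ψ : Λ → W(Rp)` factors through `W(k[[t, u]])`; the elements
`t, u` are in the Jacobson radical of a cover; products. -/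

namespace Vale.Agent.P177.Lf

open Vale.Agent.P202 Vale.Agent.P202.Mix Vale.Agent.P177.Lev MvPowerSeries IsLocalRing

universe u

/-- (L1): as `exists_isBase`, with the factorisation of `ψ` through `W(k[[t, u]])`. -/
theorem exists_isBase0 (p : ℕ) [Fact p.Prime] (k : Type u) [Field k] [CharP k p] [PerfectRing k p]
    (r : ℕ) {Cr : Type u} [CommRing Cr] [IsLocalRing Cr]
    (hCr : maximalIdeal Cr = Ideal.span {(p : Cr)}) (κ : Cr →+* WittVector p k) :
    ∃ (ψ0 : MvPowerSeries (Fin r) Cr →+* WittVector p (R0 k r))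
      (red : MvPowerSeries (Fin r) Cr →+* R0 k r ⧸ Ideal.span {(MvPowerSeries.X 0 : R0 k r)}),
      IsBase p k r (MvPowerSeries (Fin r) Cr) (fun i => MvPowerSeries.X i)
        ((WittVector.map (PerfectClosure.of (R0 k r) p)).comp ψ0) red ∧
      (∀ i, ψ0 (MvPowerSeries.X i) = WittVector.teichmuller p (MvPowerSeries.X i.succ)) ∧
      ∀ c : Cr, ψ0 (MvPowerSeries.C c) = WittVector.map MvPowerSeries.C (κ c) := by
  obtain ⟨ψ0, h1, h2, h3, -⟩ := exists_psi0 p k r
  have hX : ∀ i, ψ0 (MvPowerSeries.map κ (MvPowerSeries.X i)) =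
      WittVector.teichmuller p (MvPowerSeries.X i.succ) := fun i => by
    rw [MvPowerSeries.map_X, h1]
  -- elements with image divisible by `p`
  have hκ : ∀ c : Cr, (∃ x, κ c = p * x) → c ∈ Ideal.span {(p : Cr)} := by
    intro c hc
    rw [← hCr, mem_maximalIdeal, mem_nonunits_iff]
    intro hu
    obtain ⟨x, hx⟩ := hc
    have h4 : IsUnit (κ c) := hu.map κ
    have h5 := h4.map (WittVector.constantCoeff : WittVector p k →+* k)
    rw [hx, map_mul, map_natCast, CharP.cast_eq_zero, zero_mul] at h5
    exact not_isUnit_zero h5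
  let red : MvPowerSeries (Fin r) Cr →+* R0 k r ⧸ Ideal.span {(MvPowerSeries.X 0 : R0 k r)} :=
    (Ideal.Quotient.mk _).comp
      ((WittVector.constantCoeff).comp (ψ0.comp (MvPowerSeries.map κ)))
  have hred : ∀ l, red l = Ideal.Quotient.mk _ ((ψ0 (MvPowerSeries.map κ l)).coeff 0) :=
    fun l => rfl
  have hredp : ∀ l ∈ Ideal.span {(p : MvPowerSeries (Fin r) Cr)}, red l = 0 := by
    intro l hl
    obtain ⟨m, rfl⟩ := Ideal.mem_span_singleton.1 hl
    rw [map_mul, map_natCast]
    have h6 : ((p : ℕ) : R0 k r ⧸ Ideal.span {(MvPowerSeries.X 0 : R0 k r)}) = 0 := by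
      rw [← map_natCast (Ideal.Quotient.mk (Ideal.span {(MvPowerSeries.X 0 : R0 k r)})),
        CharP.cast_eq_zero, map_zero]
    rw [h6, zero_mul]
  refine ⟨ψ0.comp (MvPowerSeries.map κ), red, ⟨fun i => ?_, fun l => ?_, hredp, fun l hl => ?_, ?_⟩,
    fun i => hX i, fun c => ?_⟩
  · change WittVector.map _ (ψ0 (MvPowerSeries.map κ (MvPowerSeries.X i))) = _
    rw [hX, WittVector.map_teichmuller]
    rfl
  · refine ⟨(ψ0 (MvPowerSeries.map κ l)).coeff 0, 0, hred l, ?_⟩
    rw [mul_zero, add_zero]
    exact WittVector.map_coeff _ _ _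
  · rw [hred, Ideal.Quotient.eq_zero_iff_mem] at hl
    have h7 := h3 _ hl
    rw [← ibc_ker p r hCr, RingHom.mem_ker]
    obtain ⟨y, hy⟩ := Ideal.mem_span_singleton.1 h7
    ext β
    rw [MvPowerSeries.coeff_map, map_zero, residue_eq_zero_iff, hCr]
    refine hκ _ ⟨MvPowerSeries.coeff β y, ?_⟩
    have h8 := congrArg (MvPowerSeries.coeff β) hy
    have h9 : (p : La p k r) = MvPowerSeries.C (p : WittVector p k) := (map_natCast _ _).symm
    rw [MvPowerSeries.coeff_map, h9, MvPowerSeries.coeff_C_mul] at h8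
    exact h8
  · refine ibc_flat p k r hCr _ fun i => ?_
    rw [Ideal.Quotient.lift_mk, hred, hX, WittVector.teichmuller_coeff_zero]
  · rw [RingHom.comp_apply, MvPowerSeries.map_C, h2]

section

variable {p : ℕ} [hp : Fact p.Prime] {k : Type u} [Field k] [CharP k p] {r : ℕ}

/-- (L6) `t, u_i` are in the Jacobson radical of a cover. -/
theorem xC_mem_jacobson {r0 : ℕ} (d : PExt.{u} p k r r0) (l : Fin (r + 1)) :
    xC p k r d.C l ∈ (⊥ : Ideal d.C).jacobson := by
  rw [Ideal.jacobson, Ideal.mem_sInf]
  rintro M ⟨-, hM⟩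
  have hint := d.integral
  have h1 : (M.comap (algebraMap (Rp p k r) d.C)).IsMaximal :=
    Ideal.isMaximal_comap_of_isIntegral_of_isMaximal M
  have h2 := xp_mem_jacobson p k r l
  rw [Ideal.jacobson, Ideal.mem_sInf] at h2
  exact h2 ⟨bot_le, h1⟩

theorem perfHull_le_radical {C : Type u} [CommRing C] [CharP C p] (P : Ideal C) :
    Perf.perfHull p P ≤ P.radical := by
  rintro x ⟨e, he⟩
  exact ⟨p ^ e, Ideal.pow_le_self (pow_pos hp.out.pos e).ne' he⟩

/-- (L6) values of power series without constant term. -/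
theorem phi_mem_WI {C : Type u} [CommRing C] [CharP C p] {B : Type*} [CommRing B] {n : ℕ}
    (c : Fin n → C) (φ : MvPowerSeries (Fin n) B →+* WittVector p C)
    (hφ : ∀ l, φ (X l) = WittVector.teichmuller p (c l)) {g : MvPowerSeries (Fin n) B}
    (hg : g ∈ Ideal.span (Set.range (X : Fin n → MvPowerSeries (Fin n) B))) :
    φ g ∈ PI.WI p (Perf.perfHull p (Ideal.span (Set.range c))) := by
  have h1 : Ideal.span (Set.range (X : Fin n → MvPowerSeries (Fin n) B)) ≤
      (PI.WI p (Perf.perfHull p (Ideal.span (Set.range c)))).comap φ := by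
    rw [Ideal.span_le]
    rintro _ ⟨l, rfl⟩
    rw [SetLike.mem_coe, Ideal.mem_comap, hφ]
    exact PI.te_mem_WI p (Perf.le_perfHull (Ideal.subset_span ⟨l, rfl⟩))
  exact h1 hg

end

end Vale.Agent.P177.Lf
end

section

/-!
P177, FIN: finiteness (for an additive length) of `Tor_i^D (D ⊗ A, X)` for all finitely generated
`A` killed by `P`, from the finiteness for `A = R / m`.
-/

namespace Vale.Agent.P177.KM

open CategoryTheory TensorProduct Function IsLocalRing
open Vale.Agent.P202.Mix Vale.Agent.P177.Mass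
open scoped ENNReal

universe u

variable (R : Type u) {D : Type u} [CommRing R] [CommRing D] [Algebra R D]
  (L : AddLen D) (X : Type u) [AddCommGroup X] [Module D X]

/-- all `Tor_i^D (D ⊗ A, X)` have finite length. -/
def TF (A : Type u) [AddCommGroup A] [Module R A] : Prop :=
  ∀ i, L.len (TorM D i (D ⊗[R] A) X) < ⊤

variable {R}

variable {A A' A'' : Type u} [AddCommGroup A] [Module R A] [AddCommGroup A'] [Module R A']
  [AddCommGroup A''] [Module R A'']

theorem exact_len_le {M N K : Type u} [AddCommGroup M] [Module D M] [AddCommGroup N] [Module D N]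
    [AddCommGroup K] [Module D K] (L : AddLen D) (f : M →ₗ[D] N) (g : N →ₗ[D] K)
    (h : Exact f g) : L.len N ≤ L.len M + L.len K := by
  rw [len_ker_range L g]
  refine add_le_add ?_ ?_
  · rw [LinearMap.exact_iff.1 h]
    exact len_range_le L f
  · exact len_inj L (LinearMap.range g).subtype (LinearMap.range g).injective_subtype

theorem TF.congr (e : A ≃ₗ[R] A') (h : TF R L X A) : TF R L X A' := by
  intro i
  rw [← Vale.Agent.P177.Mass.len_congr L (torCongrLeft i (e.baseChange R D A A') X)]
  exact h i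

theorem exists_delta_bc [Module.Flat R D] (f : A' →ₗ[R] A) (g : A →ₗ[R] A'') (hf : Injective f)
    (hg : Surjective g) (h : Exact f g) :
    ∃ δ : ∀ n, TorM D (n + 1) (D ⊗[R] A'') X →ₗ[D] TorM D n (D ⊗[R] A') X,
      (∀ n, Exact (torMap (n + 1) (g.baseChange D) X) (δ n)) ∧
      (∀ n, Exact (δ n) (torMap n (f.baseChange D) X)) ∧
      (∀ n, Exact (torMap n (f.baseChange D) X) (torMap n (g.baseChange D) X)) :=
  exists_torDelta (f.baseChange D) (g.baseChange D)
    (Module.Flat.lTensor_preserves_injective_linearMap (M := D) f hf)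
    (LinearMap.lTensor_surjective D hg) (lTensor_exact D h hg) X

theorem TF.of_ses [Module.Flat R D] (f : A' →ₗ[R] A) (g : A →ₗ[R] A'') (hf : Injective f)
    (hg : Surjective g) (h : Exact f g) (h1 : TF R L X A') (h3 : TF R L X A'') : TF R L X A := by
  obtain ⟨δ, -, -, h2⟩ := exists_delta_bc (D := D) X f g hf hg h
  intro i
  exact lt_of_le_of_lt (exact_len_le L _ _ (h2 i)) (ENNReal.add_lt_top.2 ⟨h1 i, h3 i⟩)

theorem TF.of_subsingleton [Subsingleton A] : TF R L X A := by
  intro i
  have h1 : Subsingleton (D ⊗[R] A) := inferInstance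
  have h2 : Subsingleton (TorM D i (D ⊗[R] A) X) := by
    refine ⟨fun a b => ?_⟩
    have h3 : ∀ x : TorM D i (D ⊗[R] A) X, x = 0 := by
      intro x
      have := tor_smul_eq_zero_left (1 : D) (fun m : D ⊗[R] A => Subsingleton.elim _ _) i X x
      rwa [one_smul] at this
    rw [h3 a, h3 b]
  rw [len_subsingleton]
  exact ENNReal.zero_lt_top

/-- if `h` is regular on `A` and kills `X` then finiteness for `A / h A` implies it for `A`. -/
theorem TF.of_regular [Module.Flat R D] (h : R) (hX : ∀ x : X, algebraMap R D h • x = 0)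
    (f : A →ₗ[R] A) (hfh : ∀ a, f a = h • a) (g : A →ₗ[R] A'') (hf : Injective f)
    (hg : Surjective g) (hex : Exact f g) (h3 : TF R L X A'') : TF R L X A := by
  obtain ⟨δ, -, h2, -⟩ := exists_delta_bc (D := D) X f g hf hg hex
  intro i
  have hz : ∀ x : TorM D i (D ⊗[R] A) X, torMap i (f.baseChange D) X x = 0 := by
    intro x
    rw [torMap_smul_id i (algebraMap R D h) (f.baseChange D) ?_ x]
    · exact tor_smul_eq_zero_right _ hX i _ x
    · intro m
      induction m using TensorProduct.induction_on with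
      | zero => simp
      | tmul d a =>
        rw [LinearMap.baseChange_tmul, hfh, TensorProduct.tmul_smul, algebraMap_smul]
      | add y z hy hz => rw [map_add, smul_add, hy, hz]
  have hs : Surjective (δ i) := fun x => (h2 i x).1 (hz x)
  exact lt_of_le_of_lt (len_surj L (δ i) hs) (h3 (i + 1))

/-- **FIN.** -/
theorem TF.of_residue [Module.Flat R D] [IsNoetherianRing R] [IsLocalRing R] (P I : Ideal R)
    (hI : ∀ h ∈ I, ∀ x : X, algebraMap R D h • x = 0)
    (hm : maximalIdeal R ≤ (P ⊔ I).radical) (h0 : TF R L X (R ⧸ maximalIdeal R))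
    (A : Type u) [AddCommGroup A] [Module R A] [Module.Finite R A]
    (hA : ∀ a ∈ P, ∀ x : A, a • x = 0) : TF R L X A := by
  -- devissage: it is enough to treat the primes which contain `K`
  have key : ∀ K : Ideal R, (∀ Q : Ideal R, Q.IsPrime → K ≤ Q → TF R L X (R ⧸ Q)) →
      ∀ (N : Type u) [AddCommGroup N] [Module R N] [Module.Finite R N],
        (∀ a ∈ K, ∀ x : N, a • x = 0) → TF R L X N := by
    intro K hK N _ _ hN
    refine IsNoetherianRing.induction_on_isQuotientEquivQuotientPrime (A := R) (M := N) hN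
      (motive := fun N _ _ _ => (∀ a ∈ K, ∀ x : N, a • x = 0) → TF R L X N) ?_ ?_ ?_
    · intro N _ _ _ _ _
      exact TF.of_subsingleton L X
    · intro N _ _ _ q e hq
      refine TF.congr L X e.symm (hK q.1 q.2 ?_)
      intro a ha
      have h1 := hq a ha (e.symm 1)
      rw [← map_smul, map_eq_zero_iff _ e.symm.injective] at h1
      rw [← Ideal.Quotient.eq_zero_iff_mem]
      rw [Algebra.smul_def, mul_one] at h1
      exact h1
    · intro N₁ _ _ _ N₂ _ _ _ N₃ _ _ _ f g hf hg hex h1 h3 h2
      refine TF.of_ses L X f g hf hg hex (h1 ?_) (h3 ?_)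
      · intro a ha x
        apply hf
        rw [map_smul, h2 a ha, map_zero]
      · intro a ha x
        obtain ⟨y, rfl⟩ := hg x
        rw [← map_smul, h2 a ha, map_zero]
  refine key P ?_ A hA
  -- noetherian induction over the primes
  intro Q
  induction Q using WellFoundedGT.induction with
  | ind Q ih =>
  intro hQ hPQ
  by_cases hQm : Q = maximalIdeal R
  · rw [hQm]; exact h0
  · have h1 : ¬ I ≤ Q := by
      intro h
      apply hQm
      refine le_antisymm (le_maximalIdeal hQ.ne_top) ?_
      refine hm.trans ?_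
      refine (Ideal.radical_mono (sup_le hPQ h)).trans ?_
      rw [hQ.radical]
    obtain ⟨h, hhI, hhQ⟩ := SetLike.not_le_iff_exists.1 h1
    let f : (R ⧸ Q) →ₗ[R] (R ⧸ Q) := LinearMap.lsmul R (R ⧸ Q) h
    let g : (R ⧸ Q) →ₗ[R] (R ⧸ (Q ⊔ Ideal.span {h})) :=
      Submodule.factor (le_sup_left : Q ≤ Q ⊔ Ideal.span {h})
    have hf : Injective f := by
      rw [injective_iff_map_eq_zero]
      intro x hx
      obtain ⟨x, rfl⟩ := Ideal.Quotient.mk_surjective x
      have h2 : Ideal.Quotient.mk Q (h * x) = 0 := hx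
      rw [Ideal.Quotient.eq_zero_iff_mem] at h2 ⊢
      exact (hQ.mem_or_mem h2).resolve_left hhQ
    have hg : Surjective g := Submodule.factor_surjective _
    have hex : Exact f g := by
      intro x
      obtain ⟨x, rfl⟩ := Ideal.Quotient.mk_surjective x
      constructor
      · intro hx
        have h2 : Ideal.Quotient.mk (Q ⊔ Ideal.span {h}) x = 0 := hx
        rw [Ideal.Quotient.eq_zero_iff_mem, Submodule.mem_sup] at h2
        obtain ⟨a, ha, b, hb, rfl⟩ := h2
        obtain ⟨c, rfl⟩ := Ideal.mem_span_singleton'.1 hb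
        refine ⟨Ideal.Quotient.mk Q c, ?_⟩
        show Ideal.Quotient.mk Q (h * c) = _
        rw [Ideal.Quotient.mk_eq_mk_iff_sub_mem]
        have h3 : h * c - (a + c * h) = -a := by ring
        rw [h3]
        exact neg_mem ha
      · rintro ⟨y, hy⟩
        obtain ⟨y, rfl⟩ := Ideal.Quotient.mk_surjective y
        rw [← hy]
        show Ideal.Quotient.mk (Q ⊔ Ideal.span {h}) (h * y) = 0
        rw [Ideal.Quotient.eq_zero_iff_mem]
        exact Ideal.mul_mem_right _ _ (Ideal.mem_sup_right (Ideal.mem_span_singleton_self h))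
    refine TF.of_regular L X h (hI h hhI) f (fun a => rfl) g hf hg hex ?_
    refine key (Q ⊔ Ideal.span {h}) ?_ _ ?_
    · intro Q' hQ' hle
      refine ih Q' ?_ hQ' (hPQ.trans (le_sup_left.trans hle))
      refine lt_of_le_of_ne (le_sup_left.trans hle) ?_
      rintro rfl
      exact hhQ (hle (Ideal.mem_sup_right (Ideal.mem_span_singleton_self h)))
    · intro a ha x
      obtain ⟨x, rfl⟩ := Ideal.Quotient.mk_surjective x
      show Ideal.Quotient.mk _ (a * x) = 0
      rw [Ideal.Quotient.eq_zero_iff_mem]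
      exact Ideal.mul_mem_right _ _ ha

/-- FIN, with the big module in the first variable. -/
theorem TF.len_tor_lt_top (h : TF R L X A) (i : ℕ) :
    L.len (TorM D i X (D ⊗[R] A)) < ⊤ := by
  obtain ⟨e⟩ := tor_symm (R := D) i X (D ⊗[R] A)
  rw [Vale.Agent.P177.Mass.len_congr L e]
  exact h i

theorem TF.of_len_tor_lt_top (h : ∀ i, L.len (TorM D i X (D ⊗[R] A)) < ⊤) :
    TF R L X A := by
  intro i
  obtain ⟨e⟩ := tor_symm (R := D) i X (D ⊗[R] A)
  rw [← Vale.Agent.P177.Mass.len_congr L e]
  exact h i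

end Vale.Agent.P177.KM
end

section

/-!
P177, GD: the lengths of Koszul homology are invariant under maps with null kernel and cokernel,
change of the ring of operators, reduction by regular elements.
-/

namespace Vale.Agent.P177.MN

open Vale.Agent.P177.KG Vale.Agent.P202.Mix
open scoped ENNReal

universe u

section Null

variable {R : Type u} [CommRing R] (L : ALen R) {M N : Type u} [AddCommGroup M] [Module R M]
  [AddCommGroup N] [Module R N]

theorem pt_len_zero (M : Type u) [AddCommGroup M] [Module R M] (h0 : L.len M = 0) (i : ℕ) :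
    L.len ((KC M ([] : List R)).H i) = 0 := by
  cases i with
  | zero =>
    refine le_antisymm ?_ zero_le
    rw [← h0]
    have h1 : L.len ((KC M ([] : List R)).H 0) ≤ L.len ↥((KC M ([] : List R)).Z 0) :=
      len_le_of_surj L ((KC M ([] : List R)).cl 0) (Submodule.mkQ_surjective _)
    refine h1.trans ?_
    exact len_sub_le L (M := M) ((KC M ([] : List R)).Z 0)
  | succ i =>
    have : Subsingleton ((KC M ([] : List R)).H (i + 1)) := KC_H_subsingleton M [] (by simp)
    exact len_subsingleton L

/-- Koszul homology of null modules is null. -/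
theorem KC_null (h0 : L.len M = 0) (xs : List R) (i : ℕ) : L.len ((KC M xs).H i) = 0 := by
  refine le_antisymm ?_ zero_le
  have h1 := (kfam M).len_append_le L xs [] i
  rw [List.append_nil] at h1
  refine h1.trans ?_
  refine le_of_eq ?_
  unfold KFam.bsum
  refine Finset.sum_eq_zero fun jq _ => ?_
  exact mul_eq_zero.2 (Or.inr (pt_len_zero L M h0 jq.2))

theorem KC_len_eq_of_inj (f : M →ₗ[R] N) (hf : Function.Injective f)
    (hc : L.len (N ⧸ LinearMap.range f) = 0) (xs : List R) (i : ℕ) :
    L.len ((KC M xs).H i) = L.len ((KC N xs).H i) := by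
  have hg : Function.Surjective (LinearMap.range f).mkQ := Submodule.mkQ_surjective _
  have hfg : Function.Exact f (LinearMap.range f).mkQ := by
    rw [LinearMap.exact_iff, Submodule.ker_mkQ]
  refine le_antisymm ?_ ?_
  · have h1 := KC_len_left L hf hg hfg xs i
    rwa [KC_null L hc, zero_add] at h1
  · have h1 := KC_len_mid L hf hg hfg xs i
    rwa [KC_null L hc, add_zero] at h1

theorem KC_len_eq_of_surj (f : M →ₗ[R] N) (hf : Function.Surjective f)
    (hk : L.len (LinearMap.ker f) = 0) (xs : List R) (i : ℕ) :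
    L.len ((KC M xs).H i) = L.len ((KC N xs).H i) := by
  have hi : Function.Injective (LinearMap.ker f).subtype := Submodule.injective_subtype _
  have hfg : Function.Exact (LinearMap.ker f).subtype f := by
    rw [LinearMap.exact_iff, Submodule.range_subtype]
  refine le_antisymm ?_ ?_
  · have h1 := KC_len_mid L hi hf hfg xs i
    rwa [KC_null L hk, zero_add] at h1
  · cases i with
    | zero => exact KC_len_right_zero L hi hf hfg xs
    | succ i =>
      have h1 := KC_len_right L hi hf hfg xs i
      rwa [KC_null L hk, add_zero] at h1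

/-- **invariance under maps with null kernel and cokernel.** -/
theorem KC_len_eq_of_null (f : M →ₗ[R] N) (hk : L.len (LinearMap.ker f) = 0)
    (hc : L.len (N ⧸ LinearMap.range f) = 0) (xs : List R) (i : ℕ) :
    L.len ((KC M xs).H i) = L.len ((KC N xs).H i) := by
  rw [KC_len_eq_of_surj L f.rangeRestrict f.surjective_rangeRestrict
    (by rw [LinearMap.ker_rangeRestrict]; exact hk) xs i]
  refine KC_len_eq_of_inj L (LinearMap.range f).subtype (Submodule.injective_subtype _) ?_ xs i
  rw [Submodule.range_subtype]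
  exact hc

/-- a linear equivalence. -/
theorem KC_len_congr (e : M ≃ₗ[R] N) (xs : List R) (i : ℕ) :
    L.len ((KC M xs).H i) = L.len ((KC N xs).H i) := by
  refine KC_len_eq_of_null L (e : M →ₗ[R] N) ?_ ?_ xs i
  · have : Subsingleton (LinearMap.ker (e : M →ₗ[R] N)) := by
      rw [LinearEquiv.ker]; infer_instance
    exact len_subsingleton L
  · have : Subsingleton (N ⧸ LinearMap.range (e : M →ₗ[R] N)) := by
      rw [LinearEquiv.range]; infer_instance
    exact len_subsingleton L

end Null

section Res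

variable {R C C' : Type u} [CommRing R] [CommRing C] [CommRing C'] [Algebra R C] [Algebra R C']
  {V : Type u} [AddCommGroup V] [Module R V] [Module C V] [IsScalarTower R C V]
  [Module C' V] [IsScalarTower R C' V] {n : ℕ}

/-- two rings of operators: only the operators matter. -/
theorem KC_len_ops (L : ALen R) (y : Fin n → C) (y' : Fin n → C')
    (h : ∀ l (v : V), y l • v = y' l • v) (i : ℕ) :
    (L.res C).len ((KC V (List.ofFn y)).H i) = (L.res C').len ((KC V (List.ofFn y')).H i) := by
  let T : Fin n → V →ₗ[R] V := fun l => LinearMap.restrictScalars R (LinearMap.lsmul C V (y l))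
  have h1 := len_KH_eq L T y (fun l v => rfl) i
  have h2 := len_KH_eq L T y' (fun l v => h l v) i
  rw [← h1, h2]

/-- restriction of scalars of the operators. -/
theorem KC_len_res (L : ALen R) (x : Fin n → R) (i : ℕ) :
    (L.res C).len ((KC V (List.ofFn fun l => algebraMap R C (x l))).H i) =
      L.len ((KC V (List.ofFn x)).H i) := by
  rw [KC_len_ops (C' := R) L (fun l => algebraMap R C (x l)) x
    (fun l v => algebraMap_smul C (x l) v) i]
  exact ALen.res_len L _

end Res

section Reg

variable {R : Type u} [CommRing R] (L : ALen R) {M K : Type u} [AddCommGroup M] [Module R M]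
  [AddCommGroup K] [Module R K]

/-- reduction by a regular element. -/
theorem KC_len_cons (x : R) (hx : ∀ m : M, x • m = 0 → m = 0) (g : M →ₗ[R] K)
    (hg : Function.Surjective g) (hk : ∀ m, g m = 0 ↔ ∃ m', x • m' = m) (xs : List R) (i : ℕ) :
    L.len ((KC M (x :: xs)).H i) = L.len ((KC K xs).H i) :=
  Vale.Agent.P177.KG.len_congr L (KC_cons_equiv x hx g hg hk xs i)

end Reg

end Vale.Agent.P177.MN
end

section

/-!
P177, assembly: finiteness of the masses of `Tor_i(H, R / P)` for an honest module `H`.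
-/

namespace Vale.Agent.P177.Full

open TensorProduct IsLocalRing RingTheory.Sequence Function Vale.Agent.P202.Mix
  Vale.Agent.P177.KM Vale.Agent.P177.KG Vale.Agent.P177.Mass
open scoped ENNReal

universe u

variable {R D : Type u} [CommRing R] [CommRing D] [Algebra R D]

/-- finite Koszul masses give finite masses of `Tor(H, R / m)`. -/
theorem fin_residue [IsRegularLocalRing R] [Module.Flat R D] (L : AddLen D) (H : Type u)
    [AddCommGroup H] [Module D H] {n : ℕ} (y z : Fin n → D)
    (hyz : ∀ l (x : H), y l • x = z l • x)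
    (hz : ∀ l, z l ∈ (maximalIdeal R).map (algebraMap R D))
    (hf : ∀ q, (ALen.of L).len ((KC (R := D) H (List.ofFn y)).H q) < ⊤) (i : ℕ) :
    L.len (TorM D i H (D ⊗[R] (R ⧸ maximalIdeal R))) < ⊤ := by
  obtain ⟨rs, hrs, hlen⟩ := exists_list_maximalIdeal R
  have hreg := isRegular_of_ofList_eq_maximalIdeal R rs hrs hlen
  have h1 : ∀ q, (ALen.of L).len ((KC (R := D) H (List.ofFn z)).H q) < ⊤ := by
    intro q
    have h2 := MN.KC_len_ops (C := D) (C' := D) (V := H) (ALen.of L) y z hyz q
    rw [ALen.res_len, ALen.res_len] at h2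
    rw [← h2]
    exact hf q
  have h3 := len_tor_flat_lt_top (ALen.of L) hreg.toIsWeaklyRegular H (ys := List.ofFn z) (l := 1)
    (fun x hx => by
      obtain ⟨l, rfl⟩ := List.mem_ofFn.1 hx
      rw [pow_one, ← Ideal.map_ofList, hrs]
      exact hz l) h1 i
  rw [hrs] at h3
  exact h3

/-- **finiteness for honest modules.** -/
theorem fin_honest [IsRegularLocalRing R] [Module.Flat R D] (L : AddLen D) (P : Ideal R)
    (hs : List R) (hm : maximalIdeal R ≤ (P ⊔ Ideal.ofList hs).radical)
    (H : Type u) [AddCommGroup H] [Module D H] {n : ℕ} (y z : Fin n → D)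
    (hyz : ∀ l (x : H), y l • x = z l • x)
    (hz : ∀ l, z l ∈ (maximalIdeal R).map (algebraMap R D))
    (hf : ∀ q, (ALen.of L).len ((KC (R := D) H (List.ofFn y)).H q) < ⊤)
    (πc : D) (hreg : ∀ x : H, πc • x = 0 → x = 0)
    (hh : ∀ h ∈ hs, ∀ x : H, ∃ x' : H, algebraMap R D h • x = πc • x')
    (α β : R) (hα : α ∈ P) (hαβ : πc = algebraMap R D (α + β))
    (w : D) (hw : IsUnit (1 - w)) (hβ : ∀ x : H, algebraMap R D β • x = (πc * w) • x) (i : ℕ) :
    L.len (TorM D i H (D ⊗[R] (R ⧸ P))) < ⊤ := by
  have hres := fin_residue L H y z hyz hz hf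
  -- the quotient `X = H / πc H`
  let f : H →ₗ[D] H := LinearMap.lsmul D H πc
  have hfi : Injective f := by
    rw [injective_iff_map_eq_zero]
    exact hreg
  let X := H ⧸ LinearMap.range f
  let g : H →ₗ[D] X := (LinearMap.range f).mkQ
  have hg : Surjective g := Submodule.mkQ_surjective _
  have hex : Exact f g := by
    rw [LinearMap.exact_iff, Submodule.ker_mkQ]
  -- `Tor(X, R / m)` is finite
  have hX : TF R L X (R ⧸ maximalIdeal R) := by
    refine TF.of_len_tor_lt_top L X fun i => ?_
    obtain ⟨δ, h1, h2, h3⟩ := exists_torDelta f g hfi hg hex (D ⊗[R] (R ⧸ maximalIdeal R))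
    cases i with
    | zero =>
      exact lt_of_le_of_lt (len_surj L _ (torMap_zero_surjective g hg _)) (hres 0)
    | succ i =>
      exact lt_of_le_of_lt (exact_len_le L _ _ (h1 i)) (ENNReal.add_lt_top.2 ⟨hres _, hres _⟩)
  have hkill : ∀ h ∈ Ideal.ofList hs, ∀ x : X, algebraMap R D h • x = 0 := by
    intro h hh' x
    refine Submodule.span_induction (p := fun h _ => algebraMap R D h • x = 0) ?_ ?_ ?_ ?_ hh'
    · intro h hmem
      obtain ⟨x, rfl⟩ := hg x
      obtain ⟨x', hx'⟩ := hh h hmem x
      rw [← map_smul, hx']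
      exact (hex _).2 ⟨x', rfl⟩
    · rw [map_zero, zero_smul]
    · intro a b _ _ ha hb
      rw [map_add, add_smul, ha, hb, add_zero]
    · intro a b _ hb
      rw [smul_eq_mul, map_mul, mul_smul, hb, smul_zero]
  have hA : ∀ a ∈ P, ∀ x : R ⧸ P, a • x = 0 := by
    intro a ha x
    obtain ⟨x, rfl⟩ := Ideal.Quotient.mk_surjective x
    show Ideal.Quotient.mk _ (a * x) = 0
    rw [Ideal.Quotient.eq_zero_iff_mem]
    exact Ideal.mul_mem_right _ _ ha
  have hXP : TF R L X (R ⧸ P) := TF.of_residue L X P (Ideal.ofList hs) hkill hm hX (R ⧸ P) hA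
  have hXP' := TF.len_tor_lt_top L X hXP
  -- `πc` kills `Tor(H, R / P)`
  have hA' : ∀ x : D ⊗[R] (R ⧸ P), algebraMap R D α • x = 0 := by
    intro x
    induction x using TensorProduct.induction_on with
    | zero => rw [smul_zero]
    | tmul d a =>
      rw [algebraMap_smul, ← TensorProduct.tmul_smul, hA α hα, TensorProduct.tmul_zero]
    | add y z hy hz => rw [smul_add, hy, hz, add_zero]
  have hT : ∀ x : TorM D i H (D ⊗[R] (R ⧸ P)), πc • x = 0 := by
    intro x
    have h1 : algebraMap R D α • x = 0 := tor_smul_eq_zero_right _ hA' i _ x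
    have h2 : (algebraMap R D β - πc * w) • x = 0 := by
      refine tor_smul_eq_zero_left _ (fun m => ?_) i _ x
      rw [sub_smul, hβ, sub_self]
    have h3 : (πc * (1 - w)) • x = 0 := by
      have h4 : πc * (1 - w) = algebraMap R D α + (algebraMap R D β - πc * w) := by
        have h5 := hαβ
        rw [map_add] at h5
        linear_combination h5
      rw [h4, add_smul, h1, h2, add_zero]
    obtain ⟨v, hv⟩ := hw
    rw [← hv, mul_comm, mul_smul] at h3
    have h6 : (↑v⁻¹ : D) • ((v : D) • πc • x) = 0 := by rw [h3, smul_zero]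
    rwa [smul_smul, v.inv_mul, one_smul] at h6
  obtain ⟨δ, h1, h2, h3⟩ := exists_torDelta f g hfi hg hex (D ⊗[R] (R ⧸ P))
  have hs' : Surjective (δ i) := by
    intro x
    refine (h2 i x).1 ?_
    rw [torMap_smul_id i πc f (fun m => rfl)]
    exact hT x
  exact lt_of_le_of_lt (len_surj L (δ i) hs') (hXP' (i + 1))

end Vale.Agent.P177.Full
end

section

/-!
P177: Euler characteristics of Koszul complexes: additivity, powers, vanishing.
-/

namespace Vale.Agent.P177.Rho

open Vale.Agent.P202.Mix Vale.Agent.P177.KG Function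
open scoped ENNReal

universe u

variable {R : Type u} [CommRing R] (L : AddLen R)

theorem kchi_congr {A B : Cx R} (h : ∀ i, L.len (A.H i) = L.len (B.H i)) (n : ℕ) :
    kchi L A n = kchi L B n := Finset.sum_congr rfl fun i _ => by rw [h]

/-- additivity in short exact sequences of complexes -/
theorem kchi_add {A B D : Cx R} {f : Cx.Hom A B} {g : Cx.Hom B D} (h : Cx.SES f g)
    (hA : ∀ i, L.len (A.H i) ≠ ⊤) (hB : ∀ i, L.len (B.H i) ≠ ⊤)
    (n : ℕ) (hn : Subsingleton (A.H n)) :
    kchi L B (n + 1) = kchi L A (n + 1) + kchi L D (n + 1) := by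
  let a : ℕ → ℝ≥0∞ := fun i => L.len (LinearMap.range (f.H i))
  let b : ℕ → ℝ≥0∞ := fun i => L.len (LinearMap.range (g.H i))
  let c : ℕ → ℝ≥0∞ := fun i => L.len (LinearMap.range (h.delta i))
  have h1 : ∀ i, L.len (A.H i) = c i + a i := fun i => SL.len_eq_of_exact L _ _ (h.exact₁ i)
  have h2 : ∀ i, L.len (B.H i) = a i + b i := fun i => SL.len_eq_of_exact L _ _ (h.exact₂ i)
  have h3 : ∀ i, L.len (D.H (i + 1)) = b (i + 1) + c i := fun i =>
    SL.len_eq_of_exact L _ _ (h.exact₃ i)
  have h4 : L.len (D.H 0) = b 0 := by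
    change _ = L.len (LinearMap.range (g.H 0))
    rw [LinearMap.range_eq_top.2 h.surj_zero]
    exact (len_congr L (Submodule.topEquiv (R := R) (M := D.H 0))).symm
  have ha : ∀ i, a i ≠ ⊤ := fun i => by
    have := hA i; rw [h1] at this; exact (ENNReal.add_ne_top.1 this).2
  have hc : ∀ i, c i ≠ ⊤ := fun i => by
    have := hA i; rw [h1] at this; exact (ENNReal.add_ne_top.1 this).1
  have hb : ∀ i, b i ≠ ⊤ := fun i => by
    have := hB i; rw [h2] at this; exact (ENNReal.add_ne_top.1 this).2
  have hcn : c n = 0 := by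
    have h5 : L.len (A.H n) = 0 := SL.len_subsingleton L
    rw [h1] at h5
    exact (add_eq_zero.1 h5).1
  have key : ∀ n, kchi L B (n + 1) = kchi L A (n + 1) + kchi L D (n + 1) -
      (-1 : ℝ) ^ n * (c n).toReal := by
    intro n
    induction n with
    | zero =>
      rw [kchi, kchi, kchi, Finset.sum_range_one, Finset.sum_range_one, Finset.sum_range_one,
        h1, h2, h4, ENNReal.toReal_add (ha 0) (hb 0), ENNReal.toReal_add (hc 0) (ha 0)]
      ring
    | succ n ih =>
      have hs : ∀ X : Cx R, kchi L X (n + 1 + 1) = kchi L X (n + 1) +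
          (-1 : ℝ) ^ (n + 1) * (L.len (X.H (n + 1))).toReal := fun X => by
        rw [kchi, Finset.sum_range_succ, ← kchi]
      rw [hs A, hs B, hs D, ih, h1 (n + 1), h2, h3, ENNReal.toReal_add (ha _) (hb _),
        ENNReal.toReal_add (hc _) (ha _), ENNReal.toReal_add (hb _) (hc _), pow_succ]
      ring
  rw [key, hcn]
  simp

variable (M : Type u) [AddCommGroup M] [Module R M]

theorem len_perm' {xs ys : List R} (h : xs.Perm ys) (i : ℕ) :
    L.len ((KC M xs).H i) = L.len ((KC M ys).H i) := KC_len_perm (ALen.of L) M h i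

/-- powers of a part of the list -/
theorem kchi_append_pow (m n : ℕ) (l1 : List R) : ∀ (l2 : List R) (_ : (l1 ++ l2).length ≤ n)
    (_ : ∀ i, L.len ((KC M (l1 ++ l2)).H i) ≠ ⊤),
    (∀ i, L.len ((KC M (l1.map (· ^ m) ++ l2)).H i) ≠ ⊤) ∧
      kchi L (KC M (l1.map (· ^ m) ++ l2)) (n + 1) =
        (m : ℝ) ^ l1.length * kchi L (KC M (l1 ++ l2)) (n + 1) := by
  induction l1 with
  | nil =>
    intro l2 _ h
    exact ⟨h, by simp⟩
  | cons x l ih =>
    intro l2 hn h
    have hp : (x :: l ++ l2).Perm (l ++ x :: l2) := (List.perm_middle (a := x) (l₁ := l)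
      (l₂ := l2)).symm
    have hn' : (l ++ x :: l2).length ≤ n := by
      rw [← hp.length_eq]
      exact hn
    obtain ⟨h1, h2⟩ := ih (x :: l2) hn' fun i => by
      rw [← len_perm' L M hp]
      exact h i
    have hp' : (x :: (l.map (· ^ m) ++ l2)).Perm (l.map (· ^ m) ++ x :: l2) :=
      (List.perm_middle (a := x) (l₁ := l.map (· ^ m)) (l₂ := l2)).symm
    have h3 : ∀ i, L.len (((KC M (l.map (· ^ m) ++ l2)).cone x).H i) ≠ ⊤ := fun i => by
      change L.len ((KC M (x :: (l.map (· ^ m) ++ l2))).H i) ≠ ⊤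
      rw [len_perm' L M hp']
      exact h1 i
    obtain ⟨h4, h5⟩ := kchi_cone_pow L (KC M (l.map (· ^ m) ++ l2)) h3 m n fun i hi => by
      refine KC_H_subsingleton M _ (lt_of_lt_of_le ?_ hi)
      simp only [List.length_append, List.length_cons, List.length_map] at hn ⊢
      omega
    refine ⟨h4, ?_⟩
    change kchi L ((KC M (l.map (· ^ m) ++ l2)).cone (x ^ m)) (n + 1) = _
    rw [h5]
    have e1 : kchi L ((KC M (l.map (· ^ m) ++ l2)).cone x) (n + 1) =
        kchi L (KC M (l.map (· ^ m) ++ x :: l2)) (n + 1) :=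
      kchi_congr L (A := KC M (x :: (l.map (· ^ m) ++ l2))) (len_perm' L M hp') _
    have e2 : kchi L (KC M (l ++ x :: l2)) (n + 1) = kchi L (KC M (x :: l ++ l2)) (n + 1) :=
      kchi_congr L (fun i => (len_perm' L M hp i).symm) _
    rw [e1, h2, e2, List.length_cons, pow_succ]
    ring

theorem kchi_map_pow (m n : ℕ) (xs : List R) (hn : xs.length ≤ n)
    (h : ∀ i, L.len ((KC M xs).H i) ≠ ⊤) :
    kchi L (KC M (xs.map (· ^ m))) (n + 1) =
        (m : ℝ) ^ xs.length * kchi L (KC M xs) (n + 1) := by
  have := (kchi_append_pow L M m n xs [] (by rwa [List.append_nil])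
    (by rwa [List.append_nil])).2
  rwa [List.append_nil, List.append_nil] at this

theorem abs_kchi_le (A : Cx R) (n : ℕ) :
    |kchi L A n| ≤ ∑ i ∈ Finset.range n, (L.len (A.H i)).toReal := by
  refine (Finset.abs_sum_le_sum_abs _ _).trans (Finset.sum_le_sum fun i _ => ?_)
  rw [abs_mul, abs_pow, abs_neg, abs_one, one_pow, one_mul, abs_of_nonneg ENNReal.toReal_nonneg]

/-- slow growth forces the Euler characteristic to vanish -/
theorem kchi_eq_zero_of_growth (n r : ℕ) (xs : List R) (hn : xs.length ≤ n)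
    (hr : r < xs.length) (h : ∀ i, L.len ((KC M xs).H i) ≠ ⊤) (c : ℝ≥0∞) (hc : c ≠ ⊤)
    (hg : ∀ t i : ℕ, L.len ((KC M (xs.map (· ^ t))).H i) ≤ c * ((t + 1 : ℕ) : ℝ≥0∞) ^ r) :
    kchi L (KC M xs) (n + 1) = 0 := by
  by_contra hne
  set κ := |kchi L (KC M xs) (n + 1)| with hκ
  have hκ0 : 0 < κ := abs_pos.2 hne
  have h1 : ∀ t : ℕ, (t : ℝ) ^ xs.length * κ ≤ (n + 1) * (c.toReal * ((t : ℝ) + 1) ^ r) := by
    intro t
    have h2 := kchi_map_pow L M t n xs hn h
    have h3 := abs_kchi_le L (KC M (xs.map (· ^ t))) (n + 1)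
    rw [h2, abs_mul, abs_of_nonneg (by positivity : (0 : ℝ) ≤ (t : ℝ) ^ xs.length), ← hκ] at h3
    refine h3.trans ?_
    have h4 : ∀ i ∈ Finset.range (n + 1), (L.len ((KC M (xs.map (· ^ t))).H i)).toReal ≤
        c.toReal * ((t : ℝ) + 1) ^ r := by
      intro i _
      have h5 := ENNReal.toReal_mono (ENNReal.mul_ne_top hc (ENNReal.pow_ne_top
        (ENNReal.natCast_ne_top _))) (hg t i)
      rw [ENNReal.toReal_mul, ENNReal.toReal_pow, ENNReal.toReal_natCast] at h5
      push_cast at h5
      exact h5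
    refine (Finset.sum_le_sum h4).trans ?_
    rw [Finset.sum_const, Finset.card_range, nsmul_eq_mul]
    push_cast
    exact le_rfl
  -- choose `t` large
  obtain ⟨t, ht⟩ := exists_nat_gt ((n + 1) * (c.toReal * 2 ^ r) / κ)
  have ht1 : (1 : ℝ) ≤ (t : ℝ) + 1 := by linarith [Nat.cast_nonneg (α := ℝ) t]
  have h2 := h1 (t + 1)
  push_cast at h2
  have h3 : ((t : ℝ) + 1 + 1) ^ r ≤ (2 * ((t : ℝ) + 1)) ^ r := by
    apply pow_le_pow_left₀ (by positivity)
    linarith
  have h4 : ((t : ℝ) + 1) ^ r * ((t : ℝ) + 1) ≤ ((t : ℝ) + 1) ^ xs.length := by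
    rw [← pow_succ]
    exact pow_le_pow_right₀ ht1 hr
  have h5 : (n + 1) * (c.toReal * 2 ^ r) < ((t : ℝ) + 1) * κ := by
    rw [div_lt_iff₀ hκ0] at ht
    nlinarith
  have h6 : ((t : ℝ) + 1) ^ r * ((t : ℝ) + 1) * κ ≤
      (n + 1) * (c.toReal * (2 * ((t : ℝ) + 1)) ^ r) := by
    calc _ ≤ ((t : ℝ) + 1) ^ xs.length * κ := by gcongr
      _ ≤ _ := h2
      _ ≤ _ := by gcongr
  rw [mul_pow] at h6
  have h7 : 0 < ((t : ℝ) + 1) ^ r := by positivity
  have h8 : ((t : ℝ) + 1) ^ r * (((t : ℝ) + 1) * κ) ≤
      ((t : ℝ) + 1) ^ r * ((n + 1) * (c.toReal * 2 ^ r)) := by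
    calc _ = ((t : ℝ) + 1) ^ r * ((t : ℝ) + 1) * κ := by ring
      _ ≤ _ := h6
      _ = _ := by ring
  exact absurd (le_of_mul_le_mul_left h8 h7) (not_le.2 h5)

end Vale.Agent.P177.Rho
end
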