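import Mathlib
import Vale.Agent.P177.Bd4.B1
import Vale.Agent.P177.Bd4.B3
attribute [-instance] DenselyNormedField.toNontriviallyNormedField RCLike.toDenselyNormedField DenselyNormedField.toNormedField NontriviallyNormedField.toNormedField NormedField.toNormedDivisionRing littleWedderburn Field.toDivisionRing NormedDivisionRing.toDivisionRing NormedField.toField KleeneAlgebra.toIdemSemiring DivisionRing.toDivisionSemiring SemiRingCat.instSemiringObjForgetRingHomCarrier CommSemiRingCat.FilteredColimits.colimitCommSemiring BooleanRing.toRing DivisionRing.toRing CommCStarAlgebra.toNormedCommRing NormedField.toNormedCommRing CommCStarAlgebra.toCStarAlgebra CStarAlgebra.toNormedRing NormedCommRing.toNormedRing NormedDivisionRing.toNormedRing NormedCommRing.toSeminormedCommRing NormedRing.toSeminormedRing SeminormedCommRing.toSeminormedRing BooleanRing.toCommRing EuclideanDomain.toCommRing Field.toEuclideanDomain NormedCommRing.toCommRing SeminormedCommRing.toCommRing NormedRing.toRing SeminormedRing.toRing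 LeftPreLieRing.instLieAdmissibleRing RightPreLieRing.instLieAdmissibleRing NonAssocCommRing.toNonAssocCommSemiring CommSemiring.toNonAssocCommSemiring NonAssocCommSemiring.toNonAssocSemiring NonAssocRing.toNonAssocSemiring CommCStarAlgebra.toNonUnitalCommCStarAlgebra CommRing.toAddCommGroupWithOne NonAssocRing.toAddCommGroupWithOne CStarAlgebra.toNonUnitalCStarAlgebra NonUnitalCommCStarAlgebra.toNonUnitalCStarAlgebra NonUnitalCommCStarAlgebra.toNonUnitalNormedCommRing NormedCommRing.toNonUnitalNormedCommRing NonUnitalCStarAlgebra.toNonUnitalNormedRing NonUnitalNormedCommRing.toNonUnitalNormedRing NormedRing.toNonUnitalNormedRing AddCommGroupWithOne.toAddCommMonoidWithOne LinearOrderedAddCommGroupWithTop.instLinearOrderedAddCommMonoidWithTop LeftPreLieRing.toNonUnitalNonAssocRing LieAdmissibleRing.toNonUnitalNonAssocRing RightPreLieRing.toNonUnitalNonAssocRing LinearOrderedAddCommGroupWithTop.toAddCommMonoid LinearOrderedAddCommMonoidWithTop.toAddCommMonoid CategoryTheory.CommGrpObj.mk CategoryTheory.CommGrpObj.toGrpObj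 CategoryTheory.Preadditive.instGrpObj CategoryTheory.Abelian.toPreadditive NonUnitalNormedCommRing.toNonUnitalSeminormedCommRing SeminormedCommRing.toNonUnitalSeminormedCommRing NonUnitalNormedRing.toNonUnitalSeminormedRing NonUnitalSeminormedCommRing.toNonUnitalSeminormedRing SeminormedRing.toNonUnitalSeminormedRing CategoryTheory.BimonObj.toMonObj CategoryTheory.CommRingObj.toRingObj CategoryTheory.GrpObj.toMonObj CategoryTheory.HopfObj.toBimonObj CategoryTheory.RingObj.toMonObj NonUnitalNormedCommRing.toNonUnitalCommRing NonUnitalSeminormedCommRing.toNonUnitalCommRing NonAssocCommRing.toNonUnitalNonAssocCommRing NonUnitalCommRing.toNonUnitalRing NonUnitalNormedRing.toNonUnitalRing NonUnitalSeminormedRing.toNonUnitalRing Ring.toNonUnitalRing NonUnitalRing.toNonUnitalNonAssocRing MonTypeEquivalenceMon.monMonoid NonUnitalRing.toNonUnitalSemiring Semiring.toNonUnitalSemiring NonAssocCommSemiring.toNonUnitalNonAssocCommSemiring NonUnitalNonAssocCommSemiring.toNonUnitalNonAssocSemiring NonUnitalSemiring.toNonUnitalNonAssocSemiring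 Pi.nonUnitalNonAssocSemiring AddCommMonoidWithOne.toAddCommMonoid NormedAlgebra.toAlgebra AddCommMonCat.FilteredColimits.colimitAddCommMonoid Bialgebra.toAlgebra CommSemiring.toBialgebra CommSemiring.toHopfAlgebra HopfAlgebra.toHopfAlgebraStruct HopfAlgebraStruct.toBialgebra SSet.stdSimplex.instFunLikeObjOppositeSimplexCategoryMkOpFinHAddNatOfNat LinearOrderedAddCommGroupWithTop.toSubNegMonoid BoxIntegral.Box.instMembershipForallReal TopologicalSpace.Compacts.instSetLike AddCommGroupWithOne.toAddGroupWithOne MulSemiringAction.toDistribMulAction instCoeT NormedCommGroup.toNormedGroup NormedCommGroup.toSeminormedCommGroup NormedGroup.toSeminormedGroup SeminormedCommGroup.toSeminormedGroup SemiNormedGrp.str GradedMonoid.GradeZero.smul NonUnitalNormedRing.toNormedAddCommGroup instDistribSMul NonUnitalNonAssocSemiring.toDistribSMul instNonUnitalCStarAlgebraForall instCommGroupOfIsSimpleGroupOfIsNilpotent CommGroup.toGroup CommGrpTypeEquivalenceCommGrp.commGrpCommGroup GrpTypeEquivalenceGrp.grpGroup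 NormedCommGroup.toCommGroup NormedGroup.toGroup SeminormedCommGroup.toCommGroup SeminormedGroup.toGroup LieAdmissibleRing.instLieRing instSMulZeroClass MonCat.monoidObj NormedAlgebra.id AddMonCat.addMonoidObj LieRing.toAddCommGroup ModuleCat.isModule CategoryTheory.Mat_.fintype instCoeTOfCoeDep CompleteAtomicBooleanAlgebra.toCompleteBooleanAlgebra instNonUnitalAlgHomClassOfNonUnitalAlgEquivClass CompleteAtomicBooleanAlgebra.toCompletelyDistribLattice CompleteBooleanAlgebra.toCompleteDistribLattice CompleteLinearOrder.toCompletelyDistribLattice CompletelyDistribLattice.toCompleteDistribLattice LinearOrderedCommGroupWithZero.toLinearOrderedCommMonoidWithZero CompleteDistribLattice.toCoframe CompleteDistribLattice.toFrame OrderDual.instPow_1 CompleteBooleanAlgebra.toCompleteLattice CompleteLinearOrder.toCompleteLattice CompletelyDistribLattice.toCompleteLattice Order.Coframe.toCompleteLattice Order.Frame.toCompleteLattice ContDiffMapSupportedInClass.toDFunLike RKHS.instFunLike TestFunctionClass.toDFunLike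 Complex.instRCLike Std.DTreeMap.Raw.instSingletonSigma Real.instRCLike NonUnitalSeminormedRing.toSeminormedAddCommGroup NormedAddCommGroup.toSeminormedAddCommGroup ChainCompletePartialOrder.instOfCompleteLattice ChainCompletePartialOrder.instOmegaCompletePartialOrder ChainCompletePartialOrder.toPartialOrder CompletePartialOrder.toOmegaCompletePartialOrder CompletePartialOrder.toPartialOrder OmegaCompletePartialOrder.toPartialOrder Pi.nonUnitalSemiring NormedAddCommGroup.toNormedAddGroup BialgEquivClass.toBialgHomClass Pi.mulZeroOneClass LinearOrderedCommGroupWithZero.toCommGroupWithZero Semifield.toCommGroupWithZero Turing.FinTM2.decidableEqK ProfiniteAddGrp.addGroup MulOpposite.instMulOne CompleteBooleanAlgebra.toBooleanAlgebra AddOpposite.instAddZero AbsoluteValue.mulHomClass RightPreLieAlgebra.instLieAdmissibleAlgebra CommGroupWithZero.toGroupWithZero DivisionSemiring.toGroupWithZero LeftPreLieAlgebra.toModule LieAdmissibleAlgebra.toModule LieAlgebra.toModule NormedSpace.toModule RightPreLieAlgebra.toModule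 BooleanAlgebra.toBiheytingAlgebra CompleteDistribLattice.toBiheytingAlgebra CompleteLinearOrder.toBiheytingAlgebra CompletelyDistribLattice.toBiheytingAlgebra CommGroupWithZero.toCommMonoidWithZero LinearOrderedCommMonoidWithZero.toCommMonoidWithZero instCoeTC instCoeTCOfCoe instCoeTCOfCoe_1 RingConeClass.toSubsemiringClass SubfieldClass.toSubringClass BiheytingAlgebra.toCoheytingAlgebra BiheytingAlgebra.toHeytingAlgebra BooleanAlgebra.toGeneralizedBooleanAlgebra Order.Coframe.toCoheytingAlgebra Order.Frame.toHeytingAlgebra AlgEquivClass.toAlgHomClass BialgHomClass.toAlgHomClass AddCommGroupWithOne.toAddCommGroup NormedAddCommGroup.toAddCommGroup SeminormedAddCommGroup.toAddCommGroup GroupWithZero.toMonoidWithZero CoheytingAlgebra.toGeneralizedCoheytingAlgebra CompleteLinearOrder.toConditionallyCompleteLinearOrderBot GeneralizedBooleanAlgebra.toGeneralizedCoheytingAlgebra HeytingAlgebra.toGeneralizedHeytingAlgebra MonoidWithZero.toSemigroupWithZero NonUnitalNonAssocSemiring.toMulZeroClass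 SemigroupWithZero.toMulZeroClass TensorProduct.leftDistribMulAction NormedAddGroup.toSeminormedAddGroup SeminormedAddCommGroup.toSeminormedAddGroup instConditionallyCompletePartialOrderSup ConditionallyCompleteLinearOrderBot.toConditionallyCompleteLinearOrder ConditionallyCompletePartialOrder.toConditionallyCompletePartialOrderInf Invertible.toNeZero LinearOrderedCommMonoidWithZero.toIsBotZeroClass NeZero.of_gt' Nat.AtLeastTwo.toNeZero NormedAddGroup.toAddGroup SeminormedAddGroup.toAddGroup instDistribLatticeOfLinearOrder BooleanAlgebra.toDistribLattice CompleteLattice.toLattice CompleteLattice.toPartialOrder' CompleteLinearOrder.toLinearOrder CompleteSemilatticeInf.toPartialOrder ConditionallyCompleteLinearOrder.toLinearOrder ConditionallyCompletePartialOrderInf.toPartialOrder DistribLattice.toLattice GeneralizedBooleanAlgebra.toDistribLattice GeneralizedCoheytingAlgebra.toDistribLattice GeneralizedCoheytingAlgebra.toLattice GeneralizedHeytingAlgebra.toDistribLattice GeneralizedHeytingAlgebra.toLattice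 Lattice.toSemilatticeInf LinearOrder.toLattice LinearOrderedAddCommGroupWithTop.toLinearOrder LinearOrderedAddCommMonoidWithTop.toLinearOrder LinearOrderedCommMonoidWithZero.toLinearOrder SemilatticeInf.toPartialOrder Order.Coframe.toDistribLattice Order.Frame.toDistribLattice OrderAddMonoidHom.instAddMonoidHomClass LinearOrderedAddCommGroupWithTop.toSubtractionMonoid OrderDual.instDivisionSemiring Quaternion.instDivisionRing ENormedAddCommMonoid.toESeminormedAddCommMonoid NormedAddCommGroup.toENormedAddCommMonoid NonUnitalNormedRing.toMetricSpace NormedAddCommGroup.toMetricSpace NormedAddGroup.toMetricSpace NormedCommGroup.toMetricSpace NormedDivisionRing.toMetricSpace NormedField.toMetricSpace NormedGroup.toMetricSpace NormedRing.toMetricSpace TopologicalSpace.UpgradedIsCompletelyMetrizableSpace.toMetricSpace CommMonCat.str AddCancelCommMonoid.toAddCommMonoid ESeminormedAddCommMonoid.toAddCommMonoid SubtractionCommMonoid.toAddCommMonoid Action.instMulAction Action.FintypeCat.instMulActionObjFiniteOf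 Torsor.toMulAction GradedMonoid.GradeZero.mulAction AddCancelCommMonoid.toAddCancelMonoid AddCancelMonoid.toAddLeftCancelMonoid AddLeftCancelMonoid.toAddMonoid AddRightCancelMonoid.toAddMonoid ENormedAddCommMonoid.toENormedAddMonoid ENormedAddMonoid.toESeminormedAddMonoid ESeminormedAddCommMonoid.toESeminormedAddMonoid ESeminormedAddMonoid.toAddMonoid NormedAddGroup.toENormedAddMonoid EMetricSpace.toPseudoEMetricSpace IsValuativeTopology.instValuedValueGroupWithZeroOfIsUniformAddGroup MetricSpace.toEMetricSpace MetricSpace.toPseudoMetricSpace NonUnitalSeminormedRing.toPseudoMetricSpace PseudoEMetricSpace.toUniformSpace PseudoMetricSpace.toPseudoEMetricSpace PseudoMetricSpace.toUniformSpace SeminormedAddCommGroup.toPseudoMetricSpace SeminormedAddGroup.toPseudoMetricSpace SeminormedCommGroup.toPseudoMetricSpace SeminormedGroup.toPseudoMetricSpace SeminormedRing.toPseudoMetricSpace UniformSpace.toTopologicalSpace UpgradedStandardBorel.toTopologicalSpace Valued.toUniformSpace WithIdeal.instTopologicalSpace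 WithIdeal.instUniformSpace TopologicalSpace.UpgradedIsCompletelyPseudoMetrizableSpace.toPseudoMetricSpace Ideal.Quotient.normedCommRing Ideal.Quotient.semiNormedCommRing CentroidHomClass.toAddMonoidHomClass CommMonTypeEquivalenceCommMon.commMonCommMonoid AlgHom.instContinuousLinearMapClassOfAlgHomClass AlgHomClass.linearMapClass BialgHomClass.toCoalgHomClass CoalgEquivClass.toCoalgHomClass CoalgHomClass.toSemilinearMapClass ContinuousSemilinearEquivClass.continuousSemilinearMapClass ContinuousSemilinearMapClass.toSemilinearMapClass NonUnitalAlgHomClass.instLinearMapClass NonUnitalAlgHomClass.instSemilinearMapClassOfNonUnitalAlgSemiHomClassToMonoidHomRingHom PositiveLinearMap.instContinuousLinearMapClassComplexOfLinearMapClassOfOrderHomClass RingHomClass.toLinearMapClassNNRat RingHomClass.toLinearMapClassRat SemilinearEquivClass.instSemilinearMapClass SemilinearIsometryClass.toContinuousSemilinearMapClass SemilinearIsometryClass.toSemilinearMapClass Ideal.Quotient.commSemiring TopRep.hV1 PartOrdEmb.str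 instCharZeroOfIsSemireal FloorSemiring.instCharZero IsStrictOrderedRing.toCharZero NumberField.to_charZero RCLike.charZero_rclike MulSemiringActionSemiHomClass.toDistribMulActionSemiHomClass SubfieldClass.toNormedField instIsSemirealOfIsStrictOrderedRingOfExistsAddOfLE IsRealClosed.toIsSemireal Pi.normedRing Semigrp.str AddHom.addHomClass Pi.instOne Pi.mulOneClass instCoeHTC instCoeHTCT Nat.instNontrivial Nat.instOne Nat.Prime.one_lt' Monoid.End.instMonoidHomClass OrderRingHom.instRingHomClass ValuationClass.toMonoidWithZeroHomClass TensorProduct.instBialgebra TensorProduct.instHopfAlgebra Fin.completeLinearOrder CategoryTheory.Limits.Concrete.instUniqueToTypeTerminal SubfieldClass.toDivisionRing SubfieldClass.toField SetLike.GradeZero.instCommRing Ideal.Quotient.instCoeQuotient NonUnitalAlgHomClass.toNonUnitalRingHomClass RingEquivClass.toNonUnitalRingHomClass StarSubalgebra.commCStarAlgebra SubringClass.toNormedCommRing SubringClass.toSeminormedCommRing Pi.subNegMonoid Pi.instMaxForall_mathlib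 Pi.mulZeroClass PadicComplex.normedField StarSubalgebra.cstarAlgebra SubalgebraClass.normedRing SubalgebraClass.seminormedRing SubringClass.toNormedRing SubringClass.toSeminormedRing SetLike.GradeZero.instRing Pi.distribSMul' RingCat.FilteredColimits.colimitRing BialgHomClass.toMonoidHomClass MulCharClass.toMonoidHomClass MulDistribMulActionSemiHomClass.toMonoidHomClass SubringClass.toRing Fin.instBiheytingAlgebra Pi.instTopForall SubsemiringClass.addSubmonoidWithOneClass SetLike.GradeZero.instCommSemiring SetLike.GradeZero.instSemiring OneHom.oneHomClass TensorProduct.instModuleFstSnd SaturatedAddSubmonoid.instAddSubmonoidClass Pi.nonUnitalNonAssocRing Pi.nonAssocRing AddSubmonoidWithOneClass.toAddMonoidWithOne SubringClass.toNonAssocCommRing SubringClass.toNonAssocRing SubsemiringClass.toNonAssocCommSemiring SubsemiringClass.toNonAssocSemiring SubsemiringClass.toSemiring Std.DTreeMap.Raw.instInsertSigma OpenNormalAddSubgroup.instAddSubgroupClass Pi.instIsRightCancelAdd coePNatNat Nat.Primes.coeNat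 Nat.Primes.coePNat BialgEquivClass.toCoalgEquivClass SemilinearIsometryEquivClass.toSemilinearIsometryClass AbsoluteValue.zeroHomClass MonoidWithZero.toMulActionWithZero Pi.normedAddCommGroup Fin.instCoheytingAlgebra Fin.instHeytingAlgebra AddCommGroup.toGrindIntModule CommRing.toGrindCommRing Field.toGrindField Ring.toGrindRing CategoryTheory.instFinCategoryOfFintypeOfIsThin FinEnum.instFintype SetLike.instFintype Unique.fintype CategoryTheory.FinCategory.fintypeObj ConvexCone.instAddMemClass AlgebraicGeometry.Scheme.instPreorderCarrierCarrierCommRingCat MulSemiringActionSemiHomClass.toRingHomClass instSubsingleton IsEmpty.instSubsingleton Unique.instSubsingleton Group.IsPerfect.subsingleton_of_isMulCommutative LeftPreLieAlgebra.toIsScalarTower LieAdmissibleAlgebra.toIsScalarTower LieRinehartAlgebra.toIsScalarTower RightPreLieAlgebra.toIsScalarTower ENormedCommMonoid.toESeminormedCommMonoid NormedCommGroup.toENormedCommMonoid SemilatSupCat.isSemilatticeSup Pi.commMagma Fin.instOfNat AddCommMonoid.toGrindNatModule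 CommSemiring.toGrindCommSemiring Semiring.toGrindSemiring RCLike.toInnerProductSpaceReal ContinuousAddMonoidHom.instCoeOutOfAddMonoidHomClassOfContinuousMapClass ContinuousMonoidHom.instCoeOutOfMonoidHomClassOfContinuousMapClass HomeomorphClass.instCoeOutHomeomorph IsometryClass.instCoeOutIsometryEquiv Set.instEmptyCollection instInhabitedOfMonad instNonemptyOfMonad MulZeroClass.negZeroClass MulActionWithZero.toMulAction MulDistribMulAction.toMulAction MulSemiringAction.toMulDistribMulAction MulZeroClass.toSMulWithZero MulEquivClass.toMonoidWithZeroHomClass MulRingSeminormClass.toMonoidWithZeroHomClass instSMulCommClassOfIsScalarTower LeftPreLieAlgebra.toSMulCommClass LieAdmissibleAlgebra.toSMulCommClass RightPreLieAlgebra.toSMulCommClass Algebra.TensorProduct.instAddCommGroupWithOne -- iprune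

set_option linter.all false

section

/-!
Height inequality for primes of `R₁ ⊗[A] R₂`.
-/

namespace Vale.Agent.P177

open Function IsLocalRing TensorProduct

universe u

section fiber

variable {R S : Type u} [CommRing R] [CommRing S] [Algebra R S]

end fiber

section fields

end fields

section

variable {A R₁ R₂ : Type u} [CommRing A] [CommRing R₁] [CommRing R₂] [Algebra A R₁]
  [Algebra A R₂] [IsNoetherianRing A] [IsNoetherianRing R₁] [IsNoetherianRing R₂]
  [IsNoetherianRing (R₁ ⊗[A] R₂)] [Module.Flat A R₂]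

end

end Vale.Agent.P177
end

section

/-!
Heights of primes in polynomial rings: upper bound and the product bound.
-/

namespace Vale.Agent.P177

open TensorProduct

universe u

end Vale.Agent.P177
end

section

/-!
P177, (KOSW): Koszul exactness of the Teichmueller elements `[a_1], .., [a_m]` on the modules
`WI (perfHull (P I ^ (s - |S|))) / (p - [t], p ^ N)`, `I = (a_1, .., a_m)`, for `m < s`.
-/

namespace Vale.Agent.P177.PI

open Vale.Agent.P202.Mix Vale.Agent.P177.Perf WittVector _root_.P202.Mix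
open scoped Pointwise

universe u

section abstract

variable {R : Type u} [CommRing R] {m : ℕ}

theorem kd_kd (b : Fin m → R) (v : Finset (Fin m) → R) : kd b (kd b v) = 0 := by
  rw [← kz_eq_kd, ← kz_eq_kd]
  refine kz_sq _ (fun k l v => ?_) v
  simp only [LinearMap.mulLeft_apply]
  ring

theorem kd_smul (b : Fin m → R) (c : R) (v : Finset (Fin m) → R) (S : Finset (Fin m)) :
    kd b (fun S => c * v S) S = c * kd b v S := by
  have h : kd b (c • v) = c • kd b v := by
    rw [← kz_eq_kd, map_smul]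
    rfl
  exact congrFun h S

theorem kd_sub (b : Fin m → R) (v w : Finset (Fin m) → R) (S : Finset (Fin m)) :
    kd b (fun S => v S - w S) S = kd b v S - kd b w S := by
  have h : kd b (v - w) = kd b v - kd b w := by rw [← kz_eq_kd, map_sub]; rfl
  exact congrFun h S

theorem kd_add' (b : Fin m → R) (v w : Finset (Fin m) → R) (S : Finset (Fin m)) :
    kd b (fun S => v S + w S) S = kd b v S + kd b w S := congrFun (kd_add b v w) S

/-- the differential preserves the family `G`. -/
def Stb (b : Fin m → R) (G : Finset (Fin m) → Ideal R) : Prop :=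
  ∀ (l : Fin m) (S : Finset (Fin m)), l ∉ S → ∀ x ∈ G (insert l S), b l * x ∈ G S

theorem Stb.kd_mem {b : Fin m → R} {G : Finset (Fin m) → Ideal R} (h : Stb b G)
    {v : Finset (Fin m) → R} (hv : ∀ S, v S ∈ G S) (S : Finset (Fin m)) : kd b v S ∈ G S := by
  refine Ideal.sum_mem _ fun l hl => ?_
  refine zsmul_mem ?_ _
  exact h l S (by simpa using hl) _ (hv _)

/-- Koszul exactness modulo the ideal `I`. -/
def ExI (b : Fin m → R) (G : Finset (Fin m) → Ideal R) (I : Ideal R) : Prop :=
  ∀ v : Finset (Fin m) → R, (∀ S, v S ∈ G S) → (∀ S, kd b v S ∈ I * G S) →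
    ∃ w : Finset (Fin m) → R, (∀ S, w S ∈ G S) ∧ ∀ S, v S - kd b w S ∈ I * G S

theorem ExI.pow {b : Fin m → R} {G : Finset (Fin m) → Ideal R} {π : R}
    (hπ : ∀ x, π * x = 0 → x = 0) (h : ExI b G (Ideal.span {π})) (N : ℕ) :
    ExI b G (Ideal.span {π ^ N}) := by
  have hinj : ∀ n x y, π ^ n * x = π ^ n * y → x = y := by
    intro n
    induction n with
    | zero => intro x y h; simpa using h
    | succ n ih =>
      intro x y h
      apply ih
      have : π * (π ^ n * x - π ^ n * y) = 0 := by
        have h1 : π * (π ^ n * x - π ^ n * y) = π ^ (n + 1) * x - π ^ (n + 1) * y := by ring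
        rw [h1, h, sub_self]
      exact sub_eq_zero.1 (hπ _ this)
  induction N with
  | zero =>
    intro v hv _
    refine ⟨0, fun S => zero_mem _, fun S => ?_⟩
    rw [pow_zero, Ideal.span_singleton_one, Ideal.top_mul, kd_zero]
    simpa using hv S
  | succ N ih =>
    intro v hv hz
    obtain ⟨w, hw, hvw⟩ := h v hv fun S => by
      obtain ⟨z, hz1, hz2⟩ := Ideal.mem_span_singleton_mul.1 (hz S)
      refine Ideal.mem_span_singleton_mul.2 ⟨π ^ N * z, Ideal.mul_mem_left _ _ hz1, ?_⟩
      rw [← hz2]; ring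
    choose v' hv' hvv using fun S => Ideal.mem_span_singleton_mul.1 (hvw S)
    have hv1 : v = fun S => kd b w S + π * v' S := by
      funext S; rw [hvv]; ring
    have hk : ∀ S, kd b v S = π * kd b v' S := by
      intro S
      have h1 : kd b v S = kd b (fun S => kd b w S + (fun S => π * v' S) S) S := by
        rw [hv1]
      rw [h1, kd_add', kd_smul]
      have h2 : kd b (fun S => kd b w S) S = 0 := congrFun (kd_kd b w) S
      rw [h2, zero_add]
    obtain ⟨w', hw', hvw'⟩ := ih v' hv' fun S => by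
      obtain ⟨z, hz1, hz2⟩ := Ideal.mem_span_singleton_mul.1 (hz S)
      refine Ideal.mem_span_singleton_mul.2 ⟨z, hz1, ?_⟩
      apply hinj 1
      rw [pow_one, ← hk, ← hz2]; ring
    choose v'' hv'' hvv' using fun S => Ideal.mem_span_singleton_mul.1 (hvw' S)
    refine ⟨fun S => w S + π * w' S, fun S => add_mem (hw S) (Ideal.mul_mem_left _ _ (hw' S)),
      fun S => Ideal.mem_span_singleton_mul.2 ⟨v'' S, hv'' S, ?_⟩⟩
    rw [kd_add' b w (fun S => π * w' S) S, kd_smul]
    have h1 : v S = kd b w S + π * v' S := congrFun hv1 S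
    have h2 := hvv' S
    rw [h1]
    linear_combination π * h2

theorem ExI.sup {b : Fin m → R} {G : Finset (Fin m) → Ideal R} (hG : Stb b G) {q ξ : R}
    (h : ExI b G (Ideal.span {q}))
    (hξ : ∀ S, ∀ x ∈ G S, ξ * x ∈ Ideal.span {q} * G S → x ∈ Ideal.span {q} * G S) :
    ExI b G (Ideal.span {ξ} ⊔ Ideal.span {q}) := by
  intro v hv hz
  have hz' : ∀ S, ∃ x ∈ G S, ∃ y ∈ G S, kd b v S = ξ * x + q * y := by
    intro S
    have h1 := hz S
    rw [Ideal.sup_mul] at h1
    obtain ⟨x', hx', y', hy', he⟩ := Submodule.mem_sup.1 h1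
    obtain ⟨x, hx, hxe⟩ := Ideal.mem_span_singleton_mul.1 hx'
    obtain ⟨y, hy, hye⟩ := Ideal.mem_span_singleton_mul.1 hy'
    exact ⟨x, hx, y, hy, by rw [hxe, hye, he]⟩
  choose x hx y hy hxy using hz'
  obtain ⟨x', hx', hxx⟩ := h x hx fun S => by
    apply hξ S _ (hG.kd_mem hx S)
    refine Ideal.mem_span_singleton_mul.2 ⟨-kd b y S, neg_mem (hG.kd_mem hy S), ?_⟩
    have h1 : kd b v = fun S => (fun S => ξ * x S) S + (fun S => q * y S) S := funext hxy
    have h2 := congrFun (kd_kd b v) S
    rw [h1, kd_add', kd_smul, kd_smul] at h2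
    simp only [Pi.zero_apply] at h2
    linear_combination -h2
  choose x'' hx'' hxx' using fun S => Ideal.mem_span_singleton_mul.1 (hxx S)
  obtain ⟨w, hw, hvw⟩ := h (fun S => v S - ξ * x' S)
    (fun S => sub_mem (hv S) (Ideal.mul_mem_left _ _ (hx' S))) fun S => by
      refine Ideal.mem_span_singleton_mul.2 ⟨y S + ξ * x'' S,
        add_mem (hy S) (Ideal.mul_mem_left _ _ (hx'' S)), ?_⟩
      rw [kd_sub b v (fun S => ξ * x' S) S, kd_smul]
      have h1 := hxx' S
      have h2 := hxy S
      rw [h2]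
      linear_combination ξ * h1
  refine ⟨w, hw, fun S => ?_⟩
  rw [Ideal.sup_mul]
  have h1 : v S - kd b w S = ξ * x' S + (v S - ξ * x' S - kd b w S) := by ring
  rw [h1]
  exact Submodule.add_mem_sup (Ideal.mul_mem_mul (Ideal.mem_span_singleton_self _) (hx' S)) (hvw S)

end abstract

section

variable (p : ℕ) [hp : Fact p.Prime] {C : Type u} [CommRing C] [CharP C p] [PerfectRing C p]

omit [PerfectRing C p] in
theorem isPerf_perfHull (I : Ideal C) : IsPerf p (perfHull p I) := by
  rintro a ⟨e, he⟩ b ⟨f, hf⟩ i hi c hc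
  refine ⟨max e f + 1, ?_⟩
  have h1 := pow_mem_of_le (le_max_left e f) he
  have h2 := pow_mem_of_le (le_max_right e f) hf
  have h3 := Ideal.mul_mem_mul (Ideal.pow_mem_pow h1 i) (Ideal.pow_mem_pow h2 (p - i))
  have h4 : c ^ p ^ (max e f + 1) = (a ^ p ^ max e f) ^ i * (b ^ p ^ max e f) ^ (p - i) := by
    rw [pow_succ', pow_mul, hc, mul_pow, ← pow_mul, ← pow_mul, ← pow_mul, ← pow_mul,
      mul_comm i, mul_comm (p - i)]
  rw [h4]
  rw [← pow_mul, ← pow_mul, ← pow_add] at h3
  have h5 : p ^ max e f * i + p ^ max e f * (p - i) = p ^ (max e f + 1) := by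
    rw [← mul_add, pow_succ]
    congr 1
    omega
  rw [h5] at h3
  exact h3

theorem te_mul_mem_WI {J J' : Ideal C} (hJ : IsPerf p J) {a : C} (h : ∀ x ∈ J, a * x ∈ J')
    {x : WittVector p C} (hx : x ∈ WI p J) : teichmuller p a * x ∈ WI p J' := by
  apply mem_WI_of_coeff
  intro k
  obtain ⟨c, hc, hce⟩ := coeff_of_mem_WI p hJ hx k
  refine ⟨a * c, h c hc, ?_⟩
  rw [teichmuller_mul_coeff, hce, mul_pow]

theorem isPerf_bot : IsPerf p (⊥ : Ideal C) := by
  intro a ha b hb i hi c hc
  rw [Ideal.mem_bot] at ha hb ⊢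
  rw [ha, hb, ← pow_add, Nat.add_sub_cancel' hi, zero_pow hp.out.ne_zero] at hc
  apply pow_inj p
  rw [hc, zero_pow hp.out.ne_zero]

theorem p_reg (x : WittVector p C) (h : (p : WittVector p C) * x = 0) : x = 0 := by
  have h1 : x ∈ WI p (⊥ : Ideal C) := by
    apply mem_of_p_mul_mem p (isPerf_bot p)
    rw [h]
    exact zero_mem _
  ext k
  obtain ⟨c, hc, hce⟩ := coeff_of_mem_WI p (isPerf_bot p) h1 k
  rw [Ideal.mem_bot] at hc
  rw [hce, hc, zero_pow (pow_ne_zero _ hp.out.ne_zero), WittVector.zero_coeff]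

variable {m : ℕ}

theorem stb_WI {a : Fin m → C} {G : Finset (Fin m) → Ideal C} (hG : ∀ S, IsPerf p (G S))
    (hst : Stb a G) : Stb (fun l => teichmuller p (a l)) fun S => WI p (G S) := by
  intro l S hl x hx
  exact te_mul_mem_WI p (hG _) (hst l S hl) hx

theorem exI_p {a : Fin m → C} {G : Finset (Fin m) → Ideal C} (hG : ∀ S, IsPerf p (G S))
    (hst : Stb a G) (h : Ex a G) :
    ExI (fun l => teichmuller p (a l)) (fun S => WI p (G S))
      (Ideal.span {(p : WittVector p C)}) := by
  intro v hv hz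
  obtain ⟨w, hw, hwv⟩ := h (fun S => (v S).coeff 0) (fun S => coeff_zero_mem p (hG S) (hv S)) (by
    funext S
    have h1 := kd_map (WittVector.constantCoeff (p := p) (R := C))
      (fun l => teichmuller p (a l)) v S
    have h2 : (fun l => WittVector.constantCoeff (p := p) (teichmuller p (a l))) = a :=
      funext fun l => teichmuller_coeff_zero p (a l)
    rw [h2] at h1
    refine h1.symm.trans ?_
    obtain ⟨y, -, hy⟩ := Ideal.mem_span_singleton_mul.1 (hz S)
    rw [← hy]
    exact p_mul_coeff_zero p y)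
  refine ⟨fun S => teichmuller p (w S), fun S => te_mem_WI p (hw S), fun S => ?_⟩
  have h1 : v S - kd (fun l => teichmuller p (a l)) (fun S => teichmuller p (w S)) S ∈
      WI p (G S) :=
    sub_mem (hv S) ((stb_WI p hG hst).kd_mem (fun S => te_mem_WI p (hw S)) S)
  obtain ⟨y, hy, he⟩ := exists_p_mul_of_coeff_zero p (hG S) h1 (by
    have h3 : (WittVector.constantCoeff (p := p) (R := C)) (v S -
        kd (fun l => teichmuller p (a l)) (fun S => teichmuller p (w S)) S) = 0 := by
      rw [map_sub, kd_map]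
      have h4 : (fun l => WittVector.constantCoeff (p := p) (teichmuller p (a l))) = a :=
        funext fun l => teichmuller_coeff_zero p (a l)
      have h5 : (fun S => WittVector.constantCoeff (p := p) (teichmuller p (w S))) = w :=
        funext fun S => teichmuller_coeff_zero p (w S)
      rw [h4, h5, hwv]
      exact sub_self _
    exact h3)
  exact Ideal.mem_span_singleton_mul.2 ⟨y, hy, he.symm⟩

theorem xi_reg {J : Ideal C} (hJ : IsPerf p J) {t : C} (ht : t ∈ nonZeroDivisors C) (N : ℕ)
    {x : WittVector p C} (hx : x ∈ WI p J)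
    (h : (p - teichmuller p t) * x ∈ Ideal.span {(p : WittVector p C) ^ N} * WI p J) :
    x ∈ Ideal.span {(p : WittVector p C) ^ N} * WI p J := by
  induction N with
  | zero => rwa [pow_zero, Ideal.span_singleton_one, Ideal.top_mul]
  | succ N ih =>
    obtain ⟨z, hz, hze⟩ := Ideal.mem_span_singleton_mul.1 h
    obtain ⟨x', hx', hxe⟩ := Ideal.mem_span_singleton_mul.1 (ih (by
      refine Ideal.mem_span_singleton_mul.2 ⟨p * z, Ideal.mul_mem_left _ _ hz, ?_⟩
      rw [← hze]; ring))
    have hinj : ∀ n, ∀ y : WittVector p C, (p : WittVector p C) ^ n * y = 0 → y = 0 := by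
      intro n
      induction n with
      | zero => intro y hy; simpa using hy
      | succ n ih =>
        intro y hy
        apply ih
        apply p_reg p
        rw [← hy]; ring
    have h1 : (p - teichmuller p t) * x' = p * z := by
      have h2 : (p : WittVector p C) ^ N * ((p - teichmuller p t) * x' - p * z) = 0 := by
        have h3 : (p : WittVector p C) ^ N * ((p - teichmuller p t) * x' - p * z) =
          (p - teichmuller p t) * (p ^ N * x') - p ^ (N + 1) * z := by ring
        rw [h3, hxe, hze, sub_self]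
      exact sub_eq_zero.1 (hinj _ _ h2)
    have h4 : x'.coeff 0 = 0 := by
      have h5 := congrArg (WittVector.constantCoeff (p := p) (R := C)) h1
      rw [map_mul, map_mul, map_sub, map_natCast, CharP.cast_eq_zero, zero_mul, zero_sub,
        neg_mul, neg_eq_zero] at h5
      have h6 : t * x'.coeff 0 = 0 := by
        rw [← teichmuller_coeff_zero p t]
        exact h5
      exact (mem_nonZeroDivisors_iff_left.1 ht) _ h6
    obtain ⟨y, hy, hye⟩ := exists_p_mul_of_coeff_zero p hJ hx' h4
    refine Ideal.mem_span_singleton_mul.2 ⟨y, hy, ?_⟩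
    rw [← hxe, hye]; ring

theorem exI_WI {a : Fin m → C} {G : Finset (Fin m) → Ideal C} (hG : ∀ S, IsPerf p (G S))
    (hst : Stb a G) (h : Ex a G) {t : C} (ht : t ∈ nonZeroDivisors C) (N : ℕ) :
    ExI (fun l => teichmuller p (a l)) (fun S => WI p (G S))
      (Ideal.span {(p : WittVector p C) - teichmuller p t} ⊔
        Ideal.span {(p : WittVector p C) ^ N}) := by
  refine ExI.sup (stb_WI p hG hst) (ExI.pow (p_reg p) (exI_p p hG hst h) N) ?_
  intro S x hx hz
  exact xi_reg p (hG S) ht N hx hz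

/-- the family of perfect ideals. -/
def JF (P : Ideal C) (a : Fin m → C) (n : ℕ) : Ideal C :=
  perfHull p (P * Ideal.span (Set.range a) ^ n)

omit [PerfectRing C p] in
theorem isPerf_JF (P : Ideal C) (a : Fin m → C) (n : ℕ) : IsPerf p (JF p P a n) :=
  isPerf_perfHull p _

omit [PerfectRing C p] in
theorem mul_mem_JF (P : Ideal C) (a : Fin m → C) (n : ℕ) (l : Fin m) {x : C}
    (hx : x ∈ JF p P a n) : a l * x ∈ JF p P a (n + 1) := by
  have h1 : a l ∈ perfHull p (Ideal.span (Set.range a)) :=
    le_perfHull (Ideal.subset_span ⟨l, rfl⟩)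
  have h2 := mul_mem_perfHull hx h1
  rw [mul_assoc, ← pow_succ] at h2
  rw [mul_comm]
  exact h2

omit [PerfectRing C p] in
theorem stb_JF (P : Ideal C) (a : Fin m → C) (s : ℕ) (hs : m ≤ s) :
    Stb a fun S => JF p P a (s - S.card) := by
  intro l S hl x hx
  have h1 := mul_mem_JF p P a _ l hx
  have h2 : S.card + 1 ≤ m := by
    have h3 := Finset.card_le_univ (insert l S)
    rw [Finset.card_insert_of_notMem hl, Fintype.card_fin] at h3
    exact h3
  have h4 : s - (insert l S).card + 1 = s - S.card := by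
    rw [Finset.card_insert_of_notMem hl]
    omega
  rw [h4] at h1
  exact h1

/-- (KOSW) -/
theorem kosW (P : Ideal C) (hP : P.FG) (a : Fin m → C) (s : ℕ) (hs : m < s) {t : C}
    (ht : t ∈ nonZeroDivisors C) (N : ℕ) :
    ExI (fun l => teichmuller p (a l)) (fun S => WI p (JF p P a (s - S.card)))
      (Ideal.span {(p : WittVector p C) - teichmuller p t} ⊔
        Ideal.span {(p : WittVector p C) ^ N}) :=
  exI_WI p (fun S => isPerf_JF p P a _) (stb_JF p P a s hs.le)
    (fun v hv hz => kos_exact p P hP a s hs v hv hz) ht N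

section applications

variable (P : Ideal C) (hP : P.FG) (a : Fin m → C) {t : C} (ht : t ∈ nonZeroDivisors C) (N : ℕ)

include hP ht

theorem kosW_inj (c : ℕ) (hc : 1 ≤ c) {x : WittVector p C} (hx : x ∈ WI p (JF p P a c))
    (h : ∀ l, teichmuller p (a l) * x ∈ (Ideal.span {(p : WittVector p C) - teichmuller p t} ⊔
        Ideal.span {(p : WittVector p C) ^ N}) * WI p (JF p P a (c + 1))) :
    x ∈ (Ideal.span {(p : WittVector p C) - teichmuller p t} ⊔
        Ideal.span {(p : WittVector p C) ^ N}) * WI p (JF p P a c) := by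
  classical
  obtain ⟨w, hw, hvw⟩ := kosW p P hP a (c + m) (by omega) ht N
    (fun S => if S = Finset.univ then x else 0) (fun S => by
      dsimp only
      split_ifs with hS
      · rw [hS, Finset.card_univ, Fintype.card_fin, Nat.add_sub_cancel]
        exact hx
      · exact zero_mem _) (fun S => by
      refine Ideal.sum_mem _ fun l hl => zsmul_mem ?_ _
      dsimp only
      split_ifs with hS
      · have h2 : S.card + 1 = m := by
          have h3 := congrArg Finset.card hS
          rw [Finset.card_insert_of_notMem (by simpa using hl), Finset.card_univ,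
            Fintype.card_fin] at h3
          exact h3
        have h4 : c + m - S.card = c + 1 := by omega
        rw [h4]
        exact h l
      · rw [mul_zero]; exact zero_mem _)
  have h1 := hvw Finset.univ
  have h2 : kd (fun l => teichmuller p (a l)) w Finset.univ = 0 := by
    unfold kd
    rw [Finset.compl_univ, Finset.sum_empty]
  dsimp only at h1
  rw [h2, if_pos rfl, sub_zero, Finset.card_univ, Fintype.card_fin, Nat.add_sub_cancel] at h1
  exact h1

theorem kosW_sko (s : ℕ) (hs : m < s) {x : WittVector p C} (hx : x ∈ WI p (JF p P a s)) :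
    ∃ w : Fin m → WittVector p C, (∀ l, w l ∈ WI p (JF p P a (s - 1))) ∧
      x - ∑ l, teichmuller p (a l) * w l ∈
        (Ideal.span {(p : WittVector p C) - teichmuller p t} ⊔
        Ideal.span {(p : WittVector p C) ^ N}) * WI p (JF p P a s) := by
  classical
  obtain ⟨w, hw, hvw⟩ := kosW p P hP a s hs ht N
    (fun S => if S = ∅ then x else 0) (fun S => by
      dsimp only
      split_ifs with hS
      · rw [hS, Finset.card_empty, Nat.sub_zero]
        exact hx
      · exact zero_mem _) (fun _ => by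
      refine Ideal.sum_mem _ fun l hl => zsmul_mem ?_ _
      dsimp only
      rw [if_neg (Finset.insert_ne_empty _ _), mul_zero]
      exact zero_mem _)
  refine ⟨fun l => w {l}, fun l => ?_, ?_⟩
  · have h1 := hw {l}
    dsimp only at h1
    rw [Finset.card_singleton] at h1
    exact h1
  · have h1 := hvw ∅
    have h2 : kd (fun l => teichmuller p (a l)) w ∅ = ∑ l, teichmuller p (a l) * w {l} := by
      unfold kd
      rw [Finset.compl_empty]
      refine Finset.sum_congr rfl fun l _ => ?_
      have h3 : ksg l ∅ = 1 := by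
        unfold ksg
        simp
      rw [h3, one_smul]
      rfl
    dsimp only at h1
    rw [h2, if_pos rfl, Finset.card_empty, Nat.sub_zero] at h1
    exact h1

theorem kosW_col (c : ℕ) (hc : 1 ≤ c) (β : Fin m → WittVector p C)
    (hβ : ∀ l, β l ∈ WI p (JF p P a (c + 1)))
    (h : ∀ k l, teichmuller p (a k) * β l - teichmuller p (a l) * β k ∈
      (Ideal.span {(p : WittVector p C) - teichmuller p t} ⊔
        Ideal.span {(p : WittVector p C) ^ N}) * WI p (JF p P a (c + 2))) :
    ∃ x ∈ WI p (JF p P a c), ∀ l, β l - teichmuller p (a l) * x ∈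
      (Ideal.span {(p : WittVector p C) - teichmuller p t} ⊔
        Ideal.span {(p : WittVector p C) ^ N}) * WI p (JF p P a (c + 1)) := by
  classical
  set I : Ideal (WittVector p C) := Ideal.span {(p : WittVector p C) - teichmuller p t} ⊔
        Ideal.span {(p : WittVector p C) ^ N} with hI
  set v : Finset (Fin m) → WittVector p C := fun S =>
    if S.card + 1 = m then ∑ l ∈ Sᶜ, ksg l S • β l else 0 with hv
  have hvS : ∀ (S : Finset (Fin m)) (l : Fin m), l ∉ S → insert l S = Finset.univ →
      v S = ksg l S • β l := by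
    intro S l hl hS
    have h2 : S.card + 1 = m := by
      have h3 := congrArg Finset.card hS
      rw [Finset.card_insert_of_notMem hl, Finset.card_univ, Fintype.card_fin] at h3
      exact h3
    have h4 : Sᶜ = {l} := by
      ext k
      rw [Finset.mem_compl, Finset.mem_singleton]
      constructor
      · intro hk
        have h5 := Finset.mem_univ k
        rw [← hS, Finset.mem_insert] at h5
        exact h5.resolve_right hk
      · rintro rfl
        exact hl
    rw [hv]
    dsimp only
    rw [if_pos h2, h4, Finset.sum_singleton]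
  obtain ⟨w, hw, hvw⟩ := kosW p P hP a (c + m) (by omega) ht N v (fun S => by
      rw [hv]
      dsimp only
      split_ifs with hS
      · have h4 : c + m - S.card = c + 1 := by omega
        rw [h4]
        exact Ideal.sum_mem _ fun l _ => zsmul_mem (hβ l) _
      · exact zero_mem _) (fun S => by
      by_cases hS : S.card + 2 = m
      · have h4 : c + m - S.card = c + 2 := by omega
        dsimp only
        rw [h4]
        have h5 : Sᶜ.card = 2 := by
          rw [Finset.card_compl, Fintype.card_fin]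
          omega
        obtain ⟨k, l, hkl, hSc⟩ := Finset.card_eq_two.1 h5
        have hk : k ∉ S := by
          rw [← Finset.mem_compl, hSc]; simp
        have hl : l ∉ S := by
          rw [← Finset.mem_compl, hSc]; simp
        have hu : insert l (insert k S) = Finset.univ := by
          rw [Finset.eq_univ_iff_forall]
          intro x
          by_cases hx : x ∈ S
          · simp [hx]
          · rw [← Finset.mem_compl, hSc] at hx
            simp only [Finset.mem_insert, Finset.mem_singleton] at hx ⊢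
            tauto
        have h6 : v (insert k S) = ksg l (insert k S) • β l :=
          hvS _ l (by simp [hl, Ne.symm hkl]) hu
        have h7 : v (insert l S) = ksg k (insert l S) • β k :=
          hvS _ k (by simp [hk, hkl]) (by rw [Finset.insert_comm]; exact hu)
        have h8 : kd (fun l => teichmuller p (a l)) v S =
            (ksg k S * ksg l (insert k S)) •
              (teichmuller p (a k) * β l - teichmuller p (a l) * β k) := by
          unfold kd
          rw [hSc, Finset.sum_pair hkl, h6, h7]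
          have h9 := kzb_ksg_anti hk hl hkl
          have h10 : ksg l S * ksg k (insert l S) = -(ksg k S * ksg l (insert k S)) := by
            linear_combination h9
          rw [mul_smul_comm, mul_smul_comm, smul_smul, smul_smul, h10, smul_sub, neg_smul,
            sub_eq_add_neg]
        rw [h8]
        exact zsmul_mem (h k l) _
      · have h0 : kd (fun l => teichmuller p (a l)) v S = 0 := by
          unfold kd
          refine Finset.sum_eq_zero fun l hl => ?_
          have h1 : v (insert l S) = 0 := by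
            rw [hv]
            dsimp only
            rw [if_neg]
            rw [Finset.card_insert_of_notMem (by simpa using hl)]
            omega
          rw [h1, mul_zero, smul_zero]
        rw [h0]
        exact zero_mem _)
  refine ⟨w Finset.univ, ?_, fun l => ?_⟩
  · have h1 := hw Finset.univ
    dsimp only at h1
    rw [Finset.card_univ, Fintype.card_fin, Nat.add_sub_cancel] at h1
    exact h1
  · set S : Finset (Fin m) := Finset.univ.erase l with hS
    have hl : l ∉ S := Finset.notMem_erase l _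
    have hu : insert l S = Finset.univ := Finset.insert_erase (Finset.mem_univ l)
    have h2 : S.card + 1 = m := by
      have h3 := congrArg Finset.card hu
      rw [Finset.card_insert_of_notMem hl, Finset.card_univ, Fintype.card_fin] at h3
      exact h3
    have h1 := hvw S
    have h4 : c + m - S.card = c + 1 := by omega
    have hSc : Sᶜ = {l} := by
      rw [hS]
      ext k
      simp
    have h5 : kd (fun l => teichmuller p (a l)) w S =
        ksg l S • (teichmuller p (a l) * w Finset.univ) := by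
      unfold kd
      rw [hSc, Finset.sum_singleton, hu]
    dsimp only at h1
    rw [hvS S l hl hu, h5, h4, ← smul_sub] at h1
    have h6 : ksg l S • ksg l S • (β l - teichmuller p (a l) * w Finset.univ) =
        β l - teichmuller p (a l) * w Finset.univ := by
      rw [smul_smul, kzb_ksg_mul_self, one_smul]
    rw [← h6]
    exact zsmul_mem h1 _

/-! versions for `b l = u l * [a l]`, `u l * u l = 1` (signs) -/

theorem kosW_inj_sign (u : Fin m → WittVector p C) (hu : ∀ l, u l * u l = 1) (c : ℕ) (hc : 1 ≤ c)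
    {x : WittVector p C} (hx : x ∈ WI p (JF p P a c))
    (h : ∀ l, (u l * teichmuller p (a l)) * x ∈
      (Ideal.span {(p : WittVector p C) - teichmuller p t} ⊔
        Ideal.span {(p : WittVector p C) ^ N}) * WI p (JF p P a (c + 1))) :
    x ∈ (Ideal.span {(p : WittVector p C) - teichmuller p t} ⊔
        Ideal.span {(p : WittVector p C) ^ N}) * WI p (JF p P a c) := by
  refine kosW_inj p P hP a ht N c hc hx fun l => ?_
  have h1 := Ideal.mul_mem_left _ (u l) (h l)
  have h2 : u l * (u l * teichmuller p (a l) * x) = teichmuller p (a l) * x := by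
    linear_combination (teichmuller p (a l) * x) * hu l
  rwa [h2] at h1

theorem kosW_sko_sign (u : Fin m → WittVector p C) (hu : ∀ l, u l * u l = 1) (s : ℕ) (hs : m < s)
    {x : WittVector p C} (hx : x ∈ WI p (JF p P a s)) :
    ∃ w : Fin m → WittVector p C, (∀ l, w l ∈ WI p (JF p P a (s - 1))) ∧
      x - ∑ l, (u l * teichmuller p (a l)) * w l ∈
        (Ideal.span {(p : WittVector p C) - teichmuller p t} ⊔
        Ideal.span {(p : WittVector p C) ^ N}) * WI p (JF p P a s) := by
  obtain ⟨w, hw, hx'⟩ := kosW_sko p P hP a ht N s hs hx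
  refine ⟨fun l => u l * w l, fun l => Ideal.mul_mem_left _ _ (hw l), ?_⟩
  have h2 : ∑ l, (u l * teichmuller p (a l)) * (u l * w l) = ∑ l, teichmuller p (a l) * w l :=
    Finset.sum_congr rfl fun l _ => by linear_combination (teichmuller p (a l) * w l) * hu l
  rw [h2]
  exact hx'

theorem kosW_col_sign (u : Fin m → WittVector p C) (hu : ∀ l, u l * u l = 1) (c : ℕ) (hc : 1 ≤ c)
    (β : Fin m → WittVector p C) (hβ : ∀ l, β l ∈ WI p (JF p P a (c + 1)))
    (h : ∀ k l, (u k * teichmuller p (a k)) * β l - (u l * teichmuller p (a l)) * β k ∈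
      (Ideal.span {(p : WittVector p C) - teichmuller p t} ⊔
        Ideal.span {(p : WittVector p C) ^ N}) * WI p (JF p P a (c + 2))) :
    ∃ x ∈ WI p (JF p P a c), ∀ l, β l - (u l * teichmuller p (a l)) * x ∈
      (Ideal.span {(p : WittVector p C) - teichmuller p t} ⊔
        Ideal.span {(p : WittVector p C) ^ N}) * WI p (JF p P a (c + 1)) := by
  obtain ⟨x, hx, hxx⟩ := kosW_col p P hP a ht N c hc (fun l => u l * β l)
    (fun l => Ideal.mul_mem_left _ _ (hβ l)) fun k l => by
      have h1 := Ideal.mul_mem_left _ (u k * u l) (h k l)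
      have h2 : u k * u l * ((u k * teichmuller p (a k)) * β l - (u l * teichmuller p (a l)) * β k)
          = teichmuller p (a k) * (u l * β l) - teichmuller p (a l) * (u k * β k) := by
        linear_combination (teichmuller p (a k) * (u l * β l)) * hu k -
          (teichmuller p (a l) * (u k * β k)) * hu l
      rwa [h2] at h1
  refine ⟨x, hx, fun l => ?_⟩
  have h1 := Ideal.mul_mem_left _ (u l) (hxx l)
  have h2 : u l * (u l * β l - teichmuller p (a l) * x) = β l - (u l * teichmuller p (a l)) * x := by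
    linear_combination (β l) * hu l
  rwa [h2] at h1

end applications

end

end Vale.Agent.P177.PI
end

section

/-!
P177, transfer of a Teichmueller element: `K ≤ N` perfect ideals, `t ^ L N ⊆ K`, `z ∈ N` and
`[z] ∈ W(K) + (p - [t]) W(N)` imply `z ∈ K`.
-/

namespace Vale.Agent.P177.PI

open WittVector

universe u

variable (p : ℕ) [hp : Fact p.Prime] {C : Type u} [CommRing C] [CharP C p] [PerfectRing C p]

theorem te_transfer_aux {K : Ideal C} (hK : IsPerf p K) (t z : C) (v : WittVector p C) (L : ℕ)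
    (h : (∑ i ∈ Finset.range (L + 1), (p : WittVector p C) ^ i *
      teichmuller p (t ^ (L - i) * z)) - (p : WittVector p C) ^ (L + 1) * v ∈ WI p K) : z ∈ K := by
  have hcc : ∀ x : WittVector p C, x.coeff 0 = WittVector.constantCoeff x := fun x => rfl
  induction L with
  | zero =>
    have h1 := coeff_zero_mem p hK h
    rw [hcc] at h1
    simp only [zero_add, Finset.range_one, Finset.sum_singleton, pow_zero, one_mul, pow_one,
      Nat.sub_zero, map_sub, map_mul, map_natCast, CharP.cast_eq_zero, zero_mul, sub_zero,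
      map_one] at h1
    rwa [← hcc, teichmuller_coeff_zero] at h1
  | succ L ih =>
    rw [Finset.sum_range_succ'] at h
    have h1 := coeff_zero_mem p hK h
    rw [hcc, map_sub, map_add, map_sum] at h1
    have h2 : ∀ i ∈ Finset.range (L + 1), WittVector.constantCoeff ((p : WittVector p C) ^ (i + 1) *
        teichmuller p (t ^ (L + 1 - (i + 1)) * z)) = 0 := by
      intro i _
      rw [map_mul, map_pow, map_natCast, CharP.cast_eq_zero, zero_pow (Nat.succ_ne_zero i),
        zero_mul]
    have h5 : WittVector.constantCoeff ((p : WittVector p C) ^ (L + 1 + 1) * v) = 0 := by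
      rw [map_mul, map_pow, map_natCast, CharP.cast_eq_zero, zero_pow (Nat.succ_ne_zero (L + 1)),
        zero_mul]
    rw [Finset.sum_eq_zero h2, h5, sub_zero, zero_add, pow_zero, one_mul, ← hcc,
      teichmuller_coeff_zero, Nat.sub_zero] at h1
    apply ih
    apply mem_of_p_mul_mem p hK
    have h3 := sub_mem h (te_mem_WI p h1)
    convert h3 using 1
    rw [mul_sub, Finset.mul_sum, pow_zero, one_mul, Nat.sub_zero]
    have h4 : ∑ i ∈ Finset.range (L + 1), (p : WittVector p C) * ((p : WittVector p C) ^ i *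
        teichmuller p (t ^ (L - i) * z)) = ∑ i ∈ Finset.range (L + 1),
        (p : WittVector p C) ^ (i + 1) * teichmuller p (t ^ (L + 1 - (i + 1)) * z) := by
      refine Finset.sum_congr rfl fun i _ => ?_
      rw [Nat.add_sub_add_right, pow_succ']
      ring
    rw [h4]
    ring

/-- **Transfer.** -/
theorem te_transfer {K N : Ideal C} (hK : IsPerf p K) (hN : IsPerf p N) (t z : C) (L : ℕ)
    (htL : ∀ x ∈ N, t ^ L * x ∈ K) (hz : z ∈ N) {v j : WittVector p C} (hv : v ∈ WI p N)
    (hj : j ∈ WI p K) (h : teichmuller p z = j + ((p : WittVector p C) - teichmuller p t) * v) :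
    z ∈ K := by
  rcases Nat.eq_zero_or_pos L with rfl | hL
  · have := htL z hz
    rwa [pow_zero, one_mul] at this
  obtain ⟨L, rfl⟩ : ∃ M, L = M + 1 := ⟨L - 1, by omega⟩
  refine te_transfer_aux p hK t z v L ?_
  -- `S (p - [t]) = p ^ (L + 1) - [t] ^ (L + 1)`
  have h1 : (∑ i ∈ Finset.range (L + 1), (p : WittVector p C) ^ i *
      teichmuller p t ^ (L - i)) * ((p : WittVector p C) - teichmuller p t) =
      (p : WittVector p C) ^ (L + 1) - teichmuller p t ^ (L + 1) := by
    have := (Commute.all (p : WittVector p C) (teichmuller p t)).geom_sum₂_mul (L + 1)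
    simpa using this
  have h2 : (∑ i ∈ Finset.range (L + 1), (p : WittVector p C) ^ i *
      teichmuller p (t ^ (L - i) * z)) = (∑ i ∈ Finset.range (L + 1), (p : WittVector p C) ^ i *
      teichmuller p t ^ (L - i)) * teichmuller p z := by
    rw [Finset.sum_mul]
    refine Finset.sum_congr rfl fun i _ => ?_
    rw [map_mul, map_pow, mul_assoc]
  have h3 : teichmuller p (t ^ (L + 1)) * v ∈ WI p K := te_mul_mem_WI (p := p) hN htL hv
  rw [h2, h]
  have h4 : (∑ i ∈ Finset.range (L + 1), (p : WittVector p C) ^ i * teichmuller p t ^ (L - i)) *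
      (j + ((p : WittVector p C) - teichmuller p t) * v) - (p : WittVector p C) ^ (L + 1) * v =
      (∑ i ∈ Finset.range (L + 1), (p : WittVector p C) ^ i * teichmuller p t ^ (L - i)) * j -
      teichmuller p (t ^ (L + 1)) * v := by
    rw [map_pow]
    linear_combination v * h1
  rw [h4]
  exact sub_mem (Ideal.mul_mem_left _ _ hj) h3

end Vale.Agent.P177.PI
end

section

/-!
P177, almost Artin-Rees for perfect hulls (abstract form): the transfer property (TR) of
Teichmueller elements between powers of the ideals generated by `[g]`, `[y]` modulo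
`(p - [t], p ^ ν)` implies `h (perfHull P ∩ perfHull (Y ^ B)) ⊆ perfHull (Y ^ K P)`,
`h = g'^((m+1)/q) γ₀^(1/q)`.
-/

namespace Vale.Agent.P177.PI

open WittVector Vale.Agent.P177.Perf

universe u

variable (p : ℕ) [hp : Fact p.Prime] {C : Type u} [CommRing C] [CharP C p]

/-- the ideal of `W(C)` generated by the Teichmueller elements `[g_l]`. -/
noncomputable def TG {m : ℕ} (g : Fin m → C) : Ideal (WittVector p C) :=
  Ideal.span (Set.range fun l => teichmuller p (g l))

/-- the ideal `(p - [t], p ^ ν)`. -/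
noncomputable def XI (t : C) (ν : ℕ) : Ideal (WittVector p C) :=
  Ideal.span {(p : WittVector p C) - teichmuller p t} ⊔ Ideal.span {(p : WittVector p C) ^ ν}

omit [CharP C p] in
theorem mem_XI {t : C} {ν : ℕ} {x : WittVector p C} : x ∈ XI p t ν ↔
    ∃ v w, x = ((p : WittVector p C) - teichmuller p t) * v + (p : WittVector p C) ^ ν * w := by
  unfold XI
  rw [Submodule.mem_sup]
  constructor
  · rintro ⟨a, ha, b, hb, rfl⟩
    rw [Ideal.mem_span_singleton'] at ha hb
    obtain ⟨v, rfl⟩ := ha
    obtain ⟨w, rfl⟩ := hb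
    exact ⟨v, w, by ring⟩
  · rintro ⟨v, w, rfl⟩
    exact ⟨_, Ideal.mul_mem_right _ _ (Ideal.mem_span_singleton_self _), _,
      Ideal.mul_mem_right _ _ (Ideal.mem_span_singleton_self _), rfl⟩

omit [CharP C p] in
theorem te_mul_mem_span {m : ℕ} (g : Fin m → C) (l : Fin m) :
    teichmuller p (g l) ∈ TG p g := Ideal.subset_span ⟨l, rfl⟩

omit [CharP C p] in
theorem TG_mul_le {m : ℕ} (g : Fin m → C) {I J : Ideal (WittVector p C)}
    (h : ∀ l, ∀ x ∈ I, teichmuller p (g l) * x ∈ J) : TG p g * I ≤ J := by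
  rw [Ideal.mul_le]
  intro r hr s hs
  refine Submodule.span_induction (p := fun r _ => r * s ∈ J) ?_ ?_ ?_ ?_ hr
  · rintro _ ⟨l, rfl⟩
    exact h l s hs
  · rw [zero_mul]; exact zero_mem _
  · intro a b _ _ ha hb
    rw [add_mul]; exact add_mem ha hb
  · intro a b _ hb
    rw [smul_eq_mul, mul_assoc]; exact Ideal.mul_mem_left _ _ hb

variable [PerfectRing C p]

/-- `([y])^l ([g])^k ⊆ W(perfHull (Y^l P^k))`. -/
theorem TG_pow_mul_le {m n : ℕ} (g : Fin m → C) (y : Fin n → C) (l k : ℕ) :
    TG p y ^ l * TG p g ^ k ≤ WI p (perfHull p (Ideal.span (Set.range y) ^ l *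
      Ideal.span (Set.range g) ^ k)) := by
  induction l with
  | zero =>
    rw [pow_zero, pow_zero, one_mul, one_mul]
    induction k with
    | zero =>
      rw [pow_zero, pow_zero, Ideal.one_eq_top, Ideal.one_eq_top, perfHull_top]
      intro x _
      rw [mem_WI]
      intro N
      unfold TN TI
      have h1 : (1 : WittVector p C) ∈ Ideal.span ((fun c => teichmuller p c) ''
          ((⊤ : Ideal C) : Set C)) := Ideal.subset_span ⟨1, Submodule.mem_top, map_one _⟩
      rw [(Ideal.eq_top_iff_one _).2 h1, top_sup_eq]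
      exact Submodule.mem_top
    | succ k ih =>
      rw [pow_succ']
      refine TG_mul_le p g fun i x hx => ?_
      refine te_mul_mem_WI (p := p) (isPerf_perfHull p _) (fun c hc => ?_) (ih hx)
      have h1 : g i ∈ perfHull p (Ideal.span (Set.range g)) :=
        le_perfHull (Ideal.subset_span ⟨i, rfl⟩)
      have h2 := mul_mem_perfHull h1 hc
      rwa [← pow_succ'] at h2
  | succ l ih =>
    rw [pow_succ', mul_assoc]
    refine TG_mul_le p y fun i x hx => ?_
    refine te_mul_mem_WI (p := p) (isPerf_perfHull p _) (fun c hc => ?_) (ih hx)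
    have h1 : y i ∈ perfHull p (Ideal.span (Set.range y)) :=
      le_perfHull (Ideal.subset_span ⟨i, rfl⟩)
    have h2 := mul_mem_perfHull h1 hc
    rwa [← mul_assoc, ← pow_succ'] at h2

/-- the pigeonhole at the level of Witt vectors. -/
theorem mem_TG_of_mem_WI {m : ℕ} (g : Fin m → C) {t : C} (ht : t ∈ nonZeroDivisors C) (ν : ℕ)
    (k : ℕ) {x : WittVector p C}
    (hx : x ∈ WI p (perfHull p (Ideal.span (Set.range g) ^ (k + m)))) :
    x ∈ TG p g ^ k ⊔ XI p t ν := by
  induction k generalizing x with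
  | zero => rw [pow_zero, Ideal.one_eq_top, top_sup_eq]; exact Submodule.mem_top
  | succ k ih =>
    have hJF : ∀ s, JF p (⊤ : Ideal C) g s = perfHull p (Ideal.span (Set.range g) ^ s) := by
      intro s
      unfold JF
      rw [Ideal.top_mul]
    have hx' : x ∈ WI p (JF p (⊤ : Ideal C) g (k + 1 + m)) := by rwa [hJF]
    obtain ⟨w, hw, h⟩ := kosW_sko p (⊤ : Ideal C) ⟨{1}, by simp⟩ g ht ν (k + 1 + m) (by omega) hx'
    have h0 : x - ∑ l, teichmuller p (g l) * w l ∈ XI p t ν := by
      unfold XI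
      exact Ideal.mul_le_left h
    have h1 : x - ∑ l, teichmuller p (g l) * w l ∈ TG p g ^ (k + 1) ⊔ XI p t ν :=
      (le_sup_right : XI p t ν ≤ TG p g ^ (k + 1) ⊔ XI p t ν) h0
    have h2 : ∑ l, teichmuller p (g l) * w l ∈ TG p g ^ (k + 1) ⊔ XI p t ν := by
      refine Ideal.sum_mem _ fun l _ => ?_
      have h3 := hw l
      rw [hJF, show k + 1 + m - 1 = k + m by omega] at h3
      obtain ⟨a, ha, b, hb, hab⟩ := Submodule.mem_sup.1 (ih h3)
      rw [← hab, mul_add]
      refine add_mem ((le_sup_left : TG p g ^ (k + 1) ≤ TG p g ^ (k + 1) ⊔ XI p t ν) ?_)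
        ((le_sup_right : XI p t ν ≤ TG p g ^ (k + 1) ⊔ XI p t ν) (Ideal.mul_mem_left _ _ hb))
      rw [pow_succ']
      exact Ideal.mul_mem_mul (te_mul_mem_span p g l) ha
    have h3 := add_mem h1 h2
    rwa [sub_add_cancel] at h3

/-- **Almost Artin-Rees, abstract form.** -/
theorem ar_abs {m n : ℕ} (g : Fin m → C) (y : Fin n → C) {t : C} (ht : t ∈ nonZeroDivisors C)
    (hty : t ∈ Ideal.span (Set.range y)) (γ0 g' : C) (hg' : g' ∈ Ideal.span (Set.range g))
    (f k K B K2 l ν : ℕ) (hk : k + m = p ^ f) (hK2 : K2 + n = B * p ^ f) (hl : K * p ^ f ≤ l)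
    (hν : l * p ^ f ≤ ν)
    (hTR : ∀ z : C, teichmuller p z ∈ TG p g ^ k ⊔ XI p t ν →
      teichmuller p z ∈ TG p y ^ K2 ⊔ XI p t ν →
      teichmuller p (γ0 * z) ∈ TG p y ^ l * TG p g ^ k ⊔ XI p t ν)
    {x : C} (hx : x ∈ perfHull p (Ideal.span (Set.range g)))
    (hx' : x ∈ perfHull p (Ideal.span (Set.range y) ^ B)) :
    rt p f g' ^ (m + 1) * rt p f γ0 * x ∈
      perfHull p (Ideal.span (Set.range y) ^ K * Ideal.span (Set.range g)) := by
  set P := Ideal.span (Set.range g) with hP
  set Y := Ideal.span (Set.range y) with hY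
  set q := p ^ f with hq
  -- the element `z = x ^ q`
  have hz1 : x ^ q ∈ perfHull p (P ^ q) := pow_mem_perfHull_iff.2 hx
  have hz2 : x ^ q ∈ perfHull p (Y ^ (B * q)) := by
    rw [pow_mul]
    exact pow_mem_perfHull_iff.2 hx'
  have hT1 : teichmuller p (x ^ q) ∈ TG p g ^ k ⊔ XI p t ν := by
    apply mem_TG_of_mem_WI p g ht ν k
    rw [hk]
    exact te_mem_WI p hz1
  have hT2 : teichmuller p (x ^ q) ∈ TG p y ^ K2 ⊔ XI p t ν := by
    apply mem_TG_of_mem_WI p y ht ν K2
    rw [hK2]
    exact te_mem_WI p hz2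
  obtain ⟨κ, hκ, e, he, hκe⟩ := Submodule.mem_sup.1 (hTR _ hT1 hT2)
  obtain ⟨v, w, hvw⟩ := (mem_XI p).1 he
  set K1 := perfHull p (Y ^ l * P ^ k) with hK1
  set N' := perfHull p (P ^ k) with hN'
  have hK1p : IsPerf p K1 := isPerf_perfHull p _
  have hN'p : IsPerf p N' := isPerf_perfHull p _
  have hκ1 : κ ∈ WI p K1 := TG_pow_mul_le p g y l k hκ
  have hK1N : K1 ≤ N' := perfHull_mono Ideal.mul_le_right
  have hzN : γ0 * x ^ q ∈ N' :=
    Ideal.mul_mem_left _ _ (perfHull_mono (Ideal.pow_le_pow_right (by omega)) hz1)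
  have hτ : teichmuller p (γ0 * x ^ q) - κ ∈ WI p N' :=
    sub_mem (te_mem_WI p hzN) (WI_mono p hK1N hκ1)
  have hgk : g' ^ k ∈ N' := le_perfHull (Ideal.pow_mem_pow hg' k)
  have htl : ∀ c ∈ N', t ^ l * c ∈ K1 := by
    intro c hc
    exact mul_mem_perfHull (le_perfHull (Ideal.pow_mem_pow hty l)) hc
  have hpf : 0 < q := Nat.pow_pos hp.out.pos
  -- the case `ν = 0` is `l = 0`, `K = 0`
  have key : rt p f ((g' ^ k) ^ 1) * (γ0 * x ^ q) ∈ K1 := by
    rcases Nat.eq_zero_or_pos l with hl0 | hl0
    · have h1 := htl _ hzN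
      rw [hl0, pow_zero, one_mul] at h1
      exact Ideal.mul_mem_left _ _ h1
    have hν1 : 1 ≤ ν := le_trans (Nat.mul_pos hl0 hpf) hν
    obtain ⟨I, rfl⟩ : ∃ I, ν = I + 1 := ⟨ν - 1, by omega⟩
    obtain ⟨v', hv', w', hw', hrel⟩ := te_mul_mem p hN'p ht hτ I (v := v) (w := w)
      (by rw [← hκe, ← hvw]; ring) hgk f 1 l (Nat.one_le_pow _ _ hp.out.pos) (by rw [mul_one]; exact hν)
    have hgeom : (∑ i ∈ Finset.range l, (p : WittVector p C) ^ i *
        teichmuller p t ^ (l - 1 - i)) * ((p : WittVector p C) - teichmuller p t) =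
        (p : WittVector p C) ^ l - teichmuller p t ^ l :=
      (Commute.all (p : WittVector p C) (teichmuller p t)).geom_sum₂_mul l
    refine te_transfer p hK1p hN'p t _ l htl (Ideal.mul_mem_left _ _ hzN)
      (v := v' + (∑ i ∈ Finset.range l, (p : WittVector p C) ^ i *
        teichmuller p t ^ (l - 1 - i)) * w')
      (j := teichmuller p (rt p f ((g' ^ k) ^ 1)) * κ + teichmuller p (t ^ l) * w')
      (add_mem hv' (Ideal.mul_mem_left _ _ hw'))
      (add_mem (Ideal.mul_mem_left _ _ hκ1) (te_mul_mem_WI (p := p) hN'p htl hw')) ?_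
    rw [map_mul (teichmuller p) (rt p f ((g' ^ k) ^ 1)), map_pow (teichmuller p) t]
    linear_combination hrel - w' * hgeom
  -- `g' = b * rt(g')^m`
  have hb : rt p f ((g' ^ k) ^ 1) = rt p f g' ^ k := by
    apply pow_pow_inj p f
    rw [rt_pow, pow_one, ← pow_mul, mul_comm k (p ^ f), pow_mul, rt_pow]
  rw [hb] at key
  have h1 : g' * (γ0 * x ^ q) ∈ K1 := by
    have h2 := Ideal.mul_mem_left _ (rt p f g' ^ m) key
    have h3 : rt p f g' ^ m * (rt p f g' ^ k * (γ0 * x ^ q)) = g' * (γ0 * x ^ q) := by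
      rw [← mul_assoc, ← pow_add, add_comm m k, hk, hq, rt_pow]
    rwa [h3] at h2
  have h4 : g' ^ m * (g' * (γ0 * x ^ q)) ∈ perfHull p ((Y ^ K * P) ^ q) := by
    have h5 : g' ^ m ∈ perfHull p (P ^ m) := le_perfHull (Ideal.pow_mem_pow hg' m)
    have h6 := mul_mem_perfHull h5 h1
    refine perfHull_mono ?_ h6
    have h7 : P ^ m * (Y ^ l * P ^ k) = Y ^ l * P ^ q := by
      rw [← hk, pow_add]; ring
    rw [h7, mul_pow, ← pow_mul]
    exact Ideal.mul_mono_left (Ideal.pow_le_pow_right hl)
  rw [hq] at h4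
  rw [← pow_mem_perfHull_iff (e := f)]
  have h8 : (rt p f g' ^ (m + 1) * rt p f γ0 * x) ^ p ^ f = g' ^ m * (g' * (γ0 * x ^ q)) := by
    rw [mul_pow, mul_pow, rt_pow, ← pow_mul, mul_comm (m + 1), pow_mul, rt_pow, pow_succ, hq]
    ring
  rw [h8]
  exact h4

end Vale.Agent.P177.PI
end

section

/-!
P177: the product ring `∏ C_e`.  Witt vectors, perfect ideals `∏ J_e`, the ideals
`(p - [t], p ^ N) W(∏ J_e)`, graded families: everything is checked componentwise.
-/

namespace Vale.Agent.P177.PI

open WittVector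

universe u v w

section

variable (p : ℕ) [hp : Fact p.Prime] {ι : Type v} (C : ι → Type w) [∀ e, CommRing (C e)]

omit hp in
theorem charP_pi [Nonempty ι] [∀ e, CharP (C e) p] : CharP (∀ e, C e) p := by
  refine ⟨fun x => ?_⟩
  obtain ⟨i⟩ := (inferInstance : Nonempty ι)
  constructor
  · intro h
    have h1 := congrFun h i
    rw [Pi.natCast_apply, Pi.zero_apply] at h1
    exact (CharP.cast_eq_zero_iff (C i) p x).1 h1
  · intro h
    funext e
    rw [Pi.natCast_apply, Pi.zero_apply]
    exact (CharP.cast_eq_zero_iff (C e) p x).2 h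

attribute [local instance] charP_pi

theorem perfectRing_pi [Nonempty ι] [∀ e, CharP (C e) p] [∀ e, PerfectRing (C e) p] :
    PerfectRing (∀ e, C e) p := by
  refine ⟨⟨fun x y h => ?_, fun y => ?_⟩⟩
  · funext e
    apply (PerfectRing.bijective_frobenius (R := C e) (p := p)).1
    exact congrFun h e
  · choose x hx using fun e => (PerfectRing.bijective_frobenius (R := C e) (p := p)).2 (y e)
    exact ⟨x, funext fun e => hx e⟩

/-- the component. -/
noncomputable def prj (e : ι) : WittVector p (∀ e, C e) →+* WittVector p (C e) :=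
  WittVector.map (Pi.evalRingHom C e)

variable {C}

theorem prj_coeff (e : ι) (x : WittVector p (∀ e, C e)) (n : ℕ) :
    (prj p C e x).coeff n = x.coeff n e := by
  rw [prj, WittVector.map_coeff, Pi.evalRingHom_apply]

theorem prj_ext {x y : WittVector p (∀ e, C e)} (h : ∀ e, prj p C e x = prj p C e y) : x = y := by
  ext n e
  rw [← prj_coeff, ← prj_coeff, h]

theorem prj_te (e : ι) (a : ∀ e, C e) :
    prj p C e (teichmuller p a) = teichmuller p (a e) := by
  rw [prj, WittVector.map_teichmuller, Pi.evalRingHom_apply]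

theorem exists_prj (x : ∀ e, WittVector p (C e)) :
    ∃ y : WittVector p (∀ e, C e), ∀ e, prj p C e y = x e := by
  refine ⟨WittVector.mk p fun n e => (x e).coeff n, fun e => ?_⟩
  ext n
  rw [prj_coeff, WittVector.coeff_mk]

omit hp in
theorem isPerf_pi {J : ∀ e, Ideal (C e)} (hJ : ∀ e, IsPerf p (J e)) : IsPerf p (Ideal.pi J) := by
  intro a ha b hb i hi c hc e
  exact hJ e (a e) (ha e) (b e) (hb e) i hi (c e) (by
    have := congrFun hc e
    simpa using this)

theorem mem_nonZeroDivisors_pi {t : ∀ e, C e} (ht : ∀ e, t e ∈ nonZeroDivisors (C e)) :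
    t ∈ nonZeroDivisors (∀ e, C e) := by
  rw [mem_nonZeroDivisors_iff_right]
  intro x hx
  funext e
  exact (mem_nonZeroDivisors_iff_right.1 (ht e)) (x e) (congrFun hx e)

end

section

variable (p : ℕ) [hp : Fact p.Prime] {ι : Type v} [Nonempty ι] {C : ι → Type w}
  [∀ e, CommRing (C e)] [∀ e, CharP (C e) p] [∀ e, PerfectRing (C e) p]

attribute [local instance] charP_pi perfectRing_pi

theorem mem_WI_pi {J : ∀ e, Ideal (C e)} (hJ : ∀ e, IsPerf p (J e))
    {x : WittVector p (∀ e, C e)} :
    x ∈ WI p (Ideal.pi J) ↔ ∀ e, prj p C e x ∈ WI p (J e) := by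
  rw [mem_WI_iff_coeff p (isPerf_pi p hJ)]
  constructor
  · intro h e
    rw [mem_WI_iff_coeff p (hJ e)]
    intro k
    obtain ⟨c, hc, hck⟩ := h k
    exact ⟨c e, hc e, by rw [prj_coeff, hck, Pi.pow_apply]⟩
  · intro h k
    have h1 : ∀ e, ∃ c ∈ J e, x.coeff k e = c ^ p ^ k := by
      intro e
      obtain ⟨c, hc, hck⟩ := (mem_WI_iff_coeff p (hJ e)).1 (h e) k
      exact ⟨c, hc, by rw [← prj_coeff, hck]⟩
    choose c hc hck using h1
    exact ⟨c, fun e => hc e, funext fun e => by rw [Pi.pow_apply, hck e]⟩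

omit [∀ e, CharP (C e) p] [∀ e, PerfectRing (C e) p] [Nonempty ι] in
theorem mem_XI_mul {R : Type w} [CommRing R] {t : R} {N : ℕ} {I : Ideal (WittVector p R)}
    {x : WittVector p R} : x ∈ XI p t N * I ↔ ∃ v ∈ I, ∃ w ∈ I,
      x = ((p : WittVector p R) - teichmuller p t) * v + (p : WittVector p R) ^ N * w := by
  unfold XI
  rw [Ideal.sup_mul, Submodule.mem_sup]
  constructor
  · rintro ⟨a, ha, b, hb, rfl⟩
    rw [Ideal.mem_span_singleton_mul] at ha hb
    obtain ⟨v, hv, rfl⟩ := ha
    obtain ⟨w, hw, rfl⟩ := hb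
    exact ⟨v, hv, w, hw, rfl⟩
  · rintro ⟨v, hv, w, hw, rfl⟩
    exact ⟨_, Ideal.mul_mem_mul (Ideal.mem_span_singleton_self _) hv, _,
      Ideal.mul_mem_mul (Ideal.mem_span_singleton_self _) hw, rfl⟩

theorem mem_XI_mul_WI_pi {J : ∀ e, Ideal (C e)} (hJ : ∀ e, IsPerf p (J e)) {t : ∀ e, C e} {N : ℕ}
    {x : WittVector p (∀ e, C e)} :
    x ∈ XI p t N * WI p (Ideal.pi J) ↔ ∀ e, prj p C e x ∈ XI p (t e) N * WI p (J e) := by
  rw [mem_XI_mul]
  constructor
  · rintro ⟨v, hv, w, hw, rfl⟩ e
    rw [mem_XI_mul]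
    exact ⟨prj p C e v, (mem_WI_pi p hJ).1 hv e, prj p C e w, (mem_WI_pi p hJ).1 hw e, by
      rw [map_add, map_mul, map_mul, map_sub, map_pow, map_natCast, prj_te]⟩
  · intro h
    have h1 : ∀ e, ∃ v ∈ WI p (J e), ∃ w ∈ WI p (J e), prj p C e x =
        ((p : WittVector p (C e)) - teichmuller p (t e)) * v +
          (p : WittVector p (C e)) ^ N * w := fun e => (mem_XI_mul p).1 (h e)
    choose v hv w hw hvw using h1
    obtain ⟨v', hv'⟩ := exists_prj p v
    obtain ⟨w', hw'⟩ := exists_prj p w
    refine ⟨v', (mem_WI_pi p hJ).2 fun e => by rw [hv']; exact hv e, w',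
      (mem_WI_pi p hJ).2 fun e => by rw [hw']; exact hw e, prj_ext p fun e => ?_⟩
    rw [map_add, map_mul, map_mul, map_sub, map_pow, map_natCast, prj_te, hv', hw']
    exact hvw e

end

section

variable {ι : Type v} {W : Type u} [CommRing W] {V : ι → Type w} [∀ e, CommRing (V e)]
  {G : Type*} [AddCommGroup G] {n : ℕ}

/-- the family with components `F e`. -/
def RFam.pull (π : ∀ e, W →+* V e) (F : ∀ e, RFam (V e) G) : RFam W G where
  M s := ⨅ e, ((F e).M s).comap (π e)
  N s := ⨅ e, ((F e).N s).comap (π e)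
  le s := iInf_mono fun e => Ideal.comap_mono ((F e).le s)
  one := by
    rw [Submodule.mem_iInf]
    intro e
    rw [Ideal.mem_comap, map_one]
    exact (F e).one
  mul := by
    intro s s' x y hx hy
    rw [Submodule.mem_iInf] at hx hy ⊢
    intro e
    rw [Ideal.mem_comap, map_mul]
    exact (F e).mul (hx e) (hy e)
  mulN := by
    intro s s' x y hx hy
    rw [Submodule.mem_iInf] at hx hy ⊢
    intro e
    rw [Ideal.mem_comap, map_mul]
    exact (F e).mulN (hx e) (hy e)

variable {π : ∀ e, W →+* V e} {F : ∀ e, RFam (V e) G}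

theorem RFam.mem_pull_M {s : G} {x : W} : x ∈ (RFam.pull π F).M s ↔ ∀ e, π e x ∈ (F e).M s :=
  (Submodule.mem_iInf _)

theorem RFam.mem_pull_N {s : G} {x : W} : x ∈ (RFam.pull π F).N s ↔ ∀ e, π e x ∈ (F e).N s :=
  (Submodule.mem_iInf _)

theorem map_wdg {R S : Type*} [CommRing R] [CommRing S] (f : R →+* S) {j : ℕ}
    (T : (Fin j → Fin n) → R) (v : Fin n → R) (t : Fin (j + 1) → Fin n) :
    f (Flag.wdg T v t) = Flag.wdg (fun t => f (T t)) (fun i => f (v i)) t := by
  unfold Flag.wdg
  simp

variable {τ : ∀ j : ℕ, (Fin j → Fin n) → W} {d : ℕ → G}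

theorem skoN_pull (hsurj : ∀ y : ∀ e, V e, ∃ x : W, ∀ e, π e x = y e) {j : ℕ} {s : G}
    (h : ∀ e, SkoN (F e) (fun j t => π e (τ j t)) d j s) : SkoN (RFam.pull π F) τ d j s := by
  intro a ha
  rw [RFam.mem_pull_M] at ha
  choose g hg hga using fun e => h e (π e a) (ha e)
  choose g' hg' using fun ρ => hsurj fun e => g e ρ
  refine ⟨g', fun ρ => ?_, ?_⟩
  · rw [RFam.mem_pull_M]
    intro e
    rw [hg']
    exact hg e ρ
  · rw [RFam.mem_pull_N]
    intro e
    have h1 := hga e
    rw [map_sub, map_sum]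
    simp only [map_mul, hg']
    exact h1

theorem colN_pull (hsurj : ∀ y : ∀ e, V e, ∃ x : W, ∀ e, π e x = y e) {j : ℕ} {s : G}
    (h : ∀ e, ColN (F e) (fun j t => π e (τ j t)) d j s) : ColN (RFam.pull π F) τ d j s := by
  intro β hβ hββ
  have h1 : ∀ e, ∃ a ∈ (F e).M (s - d j), ∀ t, π e (β t) - π e (τ j t) * a ∈ (F e).N s := by
    intro e
    refine h e (fun t => π e (β t)) (fun t => (RFam.mem_pull_M).1 (hβ t) e) fun t t' => ?_
    have h2 := (RFam.mem_pull_N).1 (hββ t t') e
    rwa [map_sub, map_mul, map_mul] at h2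
  choose a ha haβ using h1
  obtain ⟨a', ha'⟩ := hsurj a
  refine ⟨a', (RFam.mem_pull_M).2 fun e => by rw [ha']; exact ha e, fun t =>
    (RFam.mem_pull_N).2 fun e => ?_⟩
  rw [map_sub, map_mul, ha']
  exact haβ e t

/-- injectivity of the multiplication by all `τ j t`. -/
theorem inj_pull {j : ℕ} {s : G}
    (h : ∀ e, ∀ x ∈ (F e).M s, (∀ t, π e (τ j t) * x ∈ (F e).N (s + d j)) → x ∈ (F e).N s) :
    ∀ x ∈ (RFam.pull π F).M s, (∀ t, τ j t * x ∈ (RFam.pull π F).N (s + d j)) →
      x ∈ (RFam.pull π F).N s := by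
  intro x hx hxt
  refine (RFam.mem_pull_N).2 fun e => h e _ ((RFam.mem_pull_M).1 hx e) fun t => ?_
  have := (RFam.mem_pull_N).1 (hxt t) e
  rwa [map_mul] at this

end

end Vale.Agent.P177.PI
end

section

/-!
P177, (FLIM): the multigraded family `M s = WI (perfHull (∏ i, I i ^ s i))`,
`N s = (p - [t], p ^ N) M s`, `s : Fin r → ℤ`, of ideals of `W(C)`, and the properties `inj`, `ColN`,
`SkoN` of `FEB` for coordinates `τ j t = ± [a t]` with `I i₀ = (a t)_t`.
-/

namespace Vale.Agent.P177.PI

open Vale.Agent.P202.Mix Vale.Agent.P177.Perf WittVector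
open scoped Pointwise

universe u

section family

variable {C : Type u} [CommRing C] {r : ℕ}

/-- product of powers of the ideals `I i`. -/
def PPr (I : Fin r → Ideal C) (s : Fin r → ℤ) : Ideal C := ∏ i, I i ^ (s i).toNat

theorem PPr_mul_le (I : Fin r → Ideal C) (s s' : Fin r → ℤ) :
    PPr I s * PPr I s' ≤ PPr I (s + s') := by
  unfold PPr
  rw [← Finset.prod_mul_distrib]
  refine Finset.prod_le_prod' fun i _ => ?_
  rw [← pow_add]
  refine Ideal.pow_le_pow_right ?_
  rw [Pi.add_apply]
  omega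

theorem PPr_zero (I : Fin r → Ideal C) : PPr I 0 = ⊤ := by
  unfold PPr
  simp

theorem PPr_single (I : Fin r → Ideal C) (i : Fin r) : PPr I (Pi.single i 1) = I i := by
  unfold PPr
  rw [Finset.prod_eq_single i]
  · simp
  · intro k _ hk
    rw [Pi.single_eq_of_ne hk]
    simp
  · intro h
    exact absurd (Finset.mem_univ i) h

theorem PPr_eq (I : Fin r → Ideal C) (s : Fin r → ℤ) (i : Fin r) :
    PPr I s = (∏ k ∈ Finset.univ.erase i, I k ^ (s k).toNat) * I i ^ (s i).toNat := by
  unfold PPr
  rw [← Finset.mul_prod_erase Finset.univ (fun k => I k ^ (s k).toNat) (Finset.mem_univ i),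
    mul_comm]

end family

section

variable (p : ℕ) [hp : Fact p.Prime] {C : Type u} [CommRing C] [CharP C p] {r : ℕ}

/-- the perfect ideals. -/
def JJ (I : Fin r → Ideal C) (s : Fin r → ℤ) : Ideal C := perfHull p (PPr I s)

theorem isPerf_JJ (I : Fin r → Ideal C) (s : Fin r → ℤ) : IsPerf p (JJ p I s) :=
  isPerf_perfHull p _

theorem JJ_mul_mem (I : Fin r → Ideal C) {s s' : Fin r → ℤ} {x y : C} (hx : x ∈ JJ p I s)
    (hy : y ∈ JJ p I s') : x * y ∈ JJ p I (s + s') :=
  perfHull_mono (PPr_mul_le I s s') (mul_mem_perfHull hx hy)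

theorem JJ_zero (I : Fin r → Ideal C) : JJ p I 0 = ⊤ := by
  unfold JJ
  rw [PPr_zero, perfHull_top]

theorem mem_JJ_single (I : Fin r → Ideal C) (i : Fin r) {x : C} (hx : x ∈ I i) :
    x ∈ JJ p I (Pi.single i 1) := by
  unfold JJ
  rw [PPr_single]
  exact le_perfHull hx

theorem JJ_eq_JF (I : Fin r → Ideal C) {m : ℕ} (a : Fin m → C) (i : Fin r)
    (hI : I i = Ideal.span (Set.range a)) (s : Fin r → ℤ) :
    JJ p I s = JF p (∏ k ∈ Finset.univ.erase i, I k ^ (s k).toNat) a (s i).toNat := by
  unfold JJ JF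
  rw [PPr_eq I s i, hI]

theorem JJ_anti (I : Fin r → Ideal C) {s s' : Fin r → ℤ} (h : s ≤ s') :
    JJ p I s' ≤ JJ p I s := by
  refine perfHull_mono ?_
  unfold PPr
  refine Finset.prod_le_prod' fun i _ => Ideal.pow_le_pow_right ?_
  have h1 : s i ≤ s' i := h i
  omega

end

section

variable (p : ℕ) [hp : Fact p.Prime] {C : Type u} [CommRing C] [CharP C p] [PerfectRing C p]
  {r : ℕ}

omit [CharP C p] [PerfectRing C p] in
theorem TI_mul_mem {J J' J'' : Ideal C} (h : ∀ a ∈ J, ∀ b ∈ J', a * b ∈ J'')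
    {x y : WittVector p C} (hx : x ∈ TI p J) (hy : y ∈ TI p J') : x * y ∈ TI p J'' := by
  have h1 : TI p J * TI p J' ≤ TI p J'' := by
    unfold TI
    rw [Ideal.span_mul_span', Ideal.span_le]
    rintro _ ⟨_, ⟨a, ha, rfl⟩, _, ⟨b, hb, rfl⟩, rfl⟩
    change teichmuller p a * teichmuller p b ∈ _
    rw [← map_mul]
    exact te_mem_TI p (h a ha b hb)
  exact h1 (Ideal.mul_mem_mul hx hy)

omit [CharP C p] [PerfectRing C p] in
theorem WI_mul_mem {J J' J'' : Ideal C} (h : ∀ a ∈ J, ∀ b ∈ J', a * b ∈ J'')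
    {x y : WittVector p C} (hx : x ∈ WI p J) (hy : y ∈ WI p J') : x * y ∈ WI p J'' := by
  rw [mem_WI] at hx hy ⊢
  intro N
  obtain ⟨a, ha, z, hz⟩ := (mem_TN_iff p).1 (hx N)
  obtain ⟨b, hb, w, hw⟩ := (mem_TN_iff p).1 (hy N)
  refine (mem_TN_iff p).2 ⟨a * b, TI_mul_mem p h ha hb, a * w + z * b + p ^ N * (z * w), ?_⟩
  rw [hz, hw]
  ring

/-- the graded family. -/
noncomputable def famJ (I : Fin r → Ideal C) (t : C) (N : ℕ) :
    RFam (WittVector p C) (Fin r → ℤ) where
  M s := WI p (JJ p I s)
  N s := XI p t N * WI p (JJ p I s)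
  le s := Ideal.mul_le_right
  one := by
    rw [JJ_zero, ← map_one (teichmuller p (R := C))]
    exact te_mem_WI p Submodule.mem_top
  mul hx hy := WI_mul_mem p (fun _ ha _ hb => JJ_mul_mem p I ha hb) hx hy
  mulN {s s' x y} hx hy := by
    have h1 : WI p (JJ p I s) * (XI p t N * WI p (JJ p I s')) ≤
        XI p t N * WI p (JJ p I (s + s')) := by
      rw [mul_left_comm]
      refine Ideal.mul_mono_right ?_
      rw [Ideal.mul_le]
      intro a ha b hb
      exact WI_mul_mem p (fun _ ha _ hb => JJ_mul_mem p I ha hb) ha hb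
    exact h1 (Ideal.mul_mem_mul hx hy)

omit [PerfectRing C p] in
theorem famJ_M (I : Fin r → Ideal C) (t : C) (N : ℕ) (s : Fin r → ℤ) :
    (famJ p I t N).M s = WI p (JJ p I s) := rfl

omit [PerfectRing C p] in
theorem famJ_N (I : Fin r → Ideal C) (t : C) (N : ℕ) (s : Fin r → ℤ) :
    (famJ p I t N).N s = XI p t N * WI p (JJ p I s) := rfl

theorem fg_prod_pow {r : ℕ} {I : Fin r → Ideal C} (hI : ∀ i, (I i).FG) (S : Finset (Fin r))
    (f : Fin r → ℕ) : (∏ k ∈ S, I k ^ f k).FG := by
  classical
  induction S using Finset.induction_on with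
  | empty => rw [Finset.prod_empty, Ideal.one_eq_top]; exact Ideal.fg_top C
  | insert a S ha ih =>
    rw [Finset.prod_insert ha]
    exact Submodule.FG.mul (Submodule.FG.pow (hI a) _) ih

/-- the cofactor of `I i` in the product in degree `s`. -/
def cof (I : Fin r → Ideal C) (i : Fin r) (s : Fin r → ℤ) : Ideal C :=
  ∏ k ∈ Finset.univ.erase i, I k ^ (s k).toNat

omit [PerfectRing C p] in
theorem JJ_update (I : Fin r → Ideal C) {m : ℕ} (a : Fin m → C) (i : Fin r)
    (hI : I i = Ideal.span (Set.range a)) (s : Fin r → ℤ) (z : ℤ) :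
    JJ p I (Function.update s i z) = JF p (cof I i s) a z.toNat := by
  rw [JJ_eq_JF p I a i hI, Function.update_self]
  congr 1
  unfold cof
  refine Finset.prod_congr rfl fun k hk => ?_
  rw [Function.update_of_ne (Finset.ne_of_mem_erase hk)]

theorem add_single_eq (s : Fin r → ℤ) (i : Fin r) (z : ℤ) :
    s + Pi.single i z = Function.update s i (s i + z) := by
  funext k
  by_cases h : k = i
  · subst h; simp
  · rw [Pi.add_apply, Pi.single_eq_of_ne h, Function.update_of_ne h, add_zero]

theorem sub_single_eq (s : Fin r → ℤ) (i : Fin r) (z : ℤ) :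
    s - Pi.single i z = Function.update s i (s i - z) := by
  funext k
  by_cases h : k = i
  · subst h; simp
  · rw [Pi.sub_apply, Pi.single_eq_of_ne h, Function.update_of_ne h, sub_zero]

section flim

variable {I : Fin r → Ideal C} (hI : ∀ i, (I i).FG) {t : C} (ht : t ∈ nonZeroDivisors C) (N : ℕ)
  {κ : Type} [Fintype κ] (a : κ → C) (u : κ → WittVector p C) (hu : ∀ k, u k * u k = 1)
  (i : Fin r) (hIi : I i = Ideal.span (Set.range a))

include hI ht hu hIi

theorem famJ_inj (s : Fin r → ℤ) (hs : 1 ≤ s i) {x : WittVector p C}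
    (hx : x ∈ (famJ p I t N).M s)
    (h : ∀ k, (u k * teichmuller p (a k)) * x ∈ (famJ p I t N).N (s + Pi.single i 1)) :
    x ∈ (famJ p I t N).N s := by
  let e := Fintype.equivFin κ
  have hr : I i = Ideal.span (Set.range (a ∘ e.symm)) := by
    rw [hIi, e.symm.surjective.range_comp]
  have h0 : JJ p I s = JF p (cof I i s) (a ∘ e.symm) (s i).toNat := by
    have := JJ_update p I (a ∘ e.symm) i hr s (s i)
    rwa [Function.update_eq_self] at this
  have h1 : JJ p I (s + Pi.single i 1) = JF p (cof I i s) (a ∘ e.symm) ((s i).toNat + 1) := by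
    rw [add_single_eq, JJ_update p I (a ∘ e.symm) i hr]
    congr 1
    omega
  rw [famJ_M, h0] at hx
  rw [famJ_N, h0]
  refine kosW_inj_sign p (cof I i s) (fg_prod_pow hI _ _) (a ∘ e.symm) ht N (u ∘ e.symm)
    (fun l => hu _) (s i).toNat (by omega) hx fun l => ?_
  have h2 := h (e.symm l)
  rw [famJ_N, h1] at h2
  exact h2

theorem famJ_col (s : Fin r → ℤ) (hs : 2 ≤ s i) (β : κ → WittVector p C)
    (hβ : ∀ k, β k ∈ (famJ p I t N).M s)
    (h : ∀ k l, (u l * teichmuller p (a l)) * β k - (u k * teichmuller p (a k)) * β l ∈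
      (famJ p I t N).N (s + Pi.single i 1)) :
    ∃ x ∈ (famJ p I t N).M (s - Pi.single i 1), ∀ k,
      β k - (u k * teichmuller p (a k)) * x ∈ (famJ p I t N).N s := by
  let e := Fintype.equivFin κ
  have hr : I i = Ideal.span (Set.range (a ∘ e.symm)) := by
    rw [hIi, e.symm.surjective.range_comp]
  obtain ⟨c, hc⟩ : ∃ c : ℕ, s i = c + 1 := ⟨(s i).toNat - 1, by omega⟩
  have h0 : JJ p I s = JF p (cof I i s) (a ∘ e.symm) (c + 1) := by
    have := JJ_update p I (a ∘ e.symm) i hr s (s i)
    rw [Function.update_eq_self] at this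
    rw [this]
    congr 1
    omega
  have h1 : JJ p I (s + Pi.single i 1) = JF p (cof I i s) (a ∘ e.symm) (c + 2) := by
    rw [add_single_eq, JJ_update p I (a ∘ e.symm) i hr]
    congr 1
    omega
  have h2 : JJ p I (s - Pi.single i 1) = JF p (cof I i s) (a ∘ e.symm) c := by
    rw [sub_single_eq, JJ_update p I (a ∘ e.symm) i hr]
    congr 1
    omega
  obtain ⟨x, hx, hxx⟩ := kosW_col_sign p (cof I i s) (fg_prod_pow hI _ _) (a ∘ e.symm) ht N
    (u ∘ e.symm) (fun l => hu _) c (by omega) (β ∘ e.symm) (fun l => by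
      have := hβ (e.symm l)
      rw [famJ_M, h0] at this
      exact this) (fun k l => by
      have := h (e.symm l) (e.symm k)
      rw [famJ_N, h1] at this
      exact this)
  refine ⟨x, by rw [famJ_M, h2]; exact hx, fun k => ?_⟩
  have := hxx (e k)
  rw [famJ_N, h0]
  simp only [Function.comp_apply, Equiv.symm_apply_apply] at this
  exact this

theorem famJ_sko (s : Fin r → ℤ) (hs : (Fintype.card κ : ℤ) < s i) {x : WittVector p C}
    (hx : x ∈ (famJ p I t N).M s) :
    ∃ w : κ → WittVector p C, (∀ k, w k ∈ (famJ p I t N).M (s - Pi.single i 1)) ∧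
      x - ∑ k, (u k * teichmuller p (a k)) * w k ∈ (famJ p I t N).N s := by
  let e := Fintype.equivFin κ
  have hr : I i = Ideal.span (Set.range (a ∘ e.symm)) := by
    rw [hIi, e.symm.surjective.range_comp]
  have h0 : JJ p I s = JF p (cof I i s) (a ∘ e.symm) (s i).toNat := by
    have := JJ_update p I (a ∘ e.symm) i hr s (s i)
    rwa [Function.update_eq_self] at this
  have h2 : JJ p I (s - Pi.single i 1) = JF p (cof I i s) (a ∘ e.symm) ((s i).toNat - 1) := by
    rw [sub_single_eq, JJ_update p I (a ∘ e.symm) i hr]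
    congr 1
    omega
  rw [famJ_M, h0] at hx
  obtain ⟨w, hw, hww⟩ := kosW_sko_sign p (cof I i s) (fg_prod_pow hI _ _) (a ∘ e.symm) ht N
    (u ∘ e.symm) (fun l => hu _) (s i).toNat (by omega) hx
  refine ⟨w ∘ e, fun k => by rw [famJ_M, h2]; exact hw _, ?_⟩
  rw [famJ_N, h0]
  have h3 : ∑ k, (u k * teichmuller p (a k)) * (w ∘ e) k =
      ∑ l, ((u ∘ e.symm) l * teichmuller p ((a ∘ e.symm) l)) * w l := by
    refine Fintype.sum_equiv e _ _ fun k => ?_
    simp
  rw [h3]
  exact hww

end flim

section flag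

variable {I : Fin r → Ideal C} (hI : ∀ i, (I i).FG) {t : C} (ht : t ∈ nonZeroDivisors C) (N : ℕ)
  {n : ℕ} {τ : ∀ j : ℕ, (Fin j → Fin n) → WittVector p C} {d : ℕ → Fin r → ℤ}

/-- the coordinates `τ j t = ± [a t]`, with `(a t)_t = I i`, in degree `d j = e_i`. -/
structure TauAt (I : Fin r → Ideal C) (τ : ∀ j : ℕ, (Fin j → Fin n) → WittVector p C)
    (d : ℕ → Fin r → ℤ) (j : ℕ) (i : Fin r) : Prop where
  rep : ∃ (a : (Fin j → Fin n) → C) (u : (Fin j → Fin n) → WittVector p C),
    (∀ t, u t * u t = 1) ∧ (∀ t, τ j t = u t * teichmuller p (a t)) ∧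
      I i = Ideal.span (Set.range a)
  deg : d j = Pi.single i 1

theorem TauAt.mem {j : ℕ} {i : Fin r} (h : TauAt p I τ d j i) (t' : Fin j → Fin n) :
    τ j t' ∈ (famJ p I t N).M (d j) := by
  obtain ⟨a, u, hu, hτ, hIi⟩ := h.rep
  rw [hτ, h.deg, famJ_M]
  refine Ideal.mul_mem_left _ _ (te_mem_WI p (mem_JJ_single p I i ?_))
  rw [hIi]
  exact Ideal.subset_span ⟨t', rfl⟩

include hI ht

theorem TauAt.inj {j : ℕ} {i : Fin r} (h : TauAt p I τ d j i) (s : Fin r → ℤ) (hs : 1 ≤ s i) :
    ∀ x ∈ (famJ p I t N).M s, (∀ t', τ j t' * x ∈ (famJ p I t N).N (s + d j)) →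
      x ∈ (famJ p I t N).N s := by
  obtain ⟨a, u, hu, hτ, hIi⟩ := h.rep
  intro x hx hxt
  refine famJ_inj p hI ht N a u hu i hIi s hs hx fun k => ?_
  rw [← hτ, ← h.deg]
  exact hxt k

theorem TauAt.colN {j : ℕ} {i : Fin r} (h : TauAt p I τ d j i) (s : Fin r → ℤ) (hs : 2 ≤ s i) :
    ColN (famJ p I t N) τ d j s := by
  obtain ⟨a, u, hu, hτ, hIi⟩ := h.rep
  intro β hβ hββ
  obtain ⟨x, hx, hxx⟩ := famJ_col p hI ht N a u hu i hIi s hs β hβ fun k l => by
    rw [← hτ, ← hτ, ← h.deg]
    exact hββ k l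
  refine ⟨x, by rw [h.deg]; exact hx, fun k => ?_⟩
  rw [hτ]
  exact hxx k

theorem TauAt.skoN {j : ℕ} {i : Fin r} (h : TauAt p I τ d j i) (s : Fin r → ℤ)
    (hs : ((n ^ j : ℕ) : ℤ) < s i) : SkoN (famJ p I t N) τ d j s := by
  obtain ⟨a, u, hu, hτ, hIi⟩ := h.rep
  intro x hx
  obtain ⟨w, hw, hxw⟩ := famJ_sko p hI ht N a u hu i hIi s (by
    rw [Fintype.card_fun, Fintype.card_fin, Fintype.card_fin]
    exact hs) hx
  refine ⟨w, fun ρ => by rw [h.deg]; exact hw ρ, ?_⟩
  have h3 : ∑ ρ, τ j ρ * w ρ = ∑ k, (u k * teichmuller p (a k)) * w k :=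
    Finset.sum_congr rfl fun ρ _ => by rw [hτ]
  rw [h3]
  exact hxw

omit hI ht

omit [CharP C p] [PerfectRing C p] in
theorem inj_zero (h0 : ∀ t', τ 0 t' = 1) (hd : d 0 = 0) (F : RFam (WittVector p C) (Fin r → ℤ))
    (s : Fin r → ℤ) : ∀ x ∈ F.M s, (∀ t', τ 0 t' * x ∈ F.N (s + d 0)) → x ∈ F.N s := by
  intro x _ hx
  have h1 := hx fun k => k.elim0
  rwa [h0, one_mul, hd, add_zero] at h1

omit [CharP C p] [PerfectRing C p] in
theorem skoN_zero (h0 : ∀ t', τ 0 t' = 1) (hd : d 0 = 0) (F : RFam (WittVector p C) (Fin r → ℤ))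
    (s : Fin r → ℤ) : SkoN F τ d 0 s := by
  intro x hx
  refine ⟨fun _ => x, fun ρ => by rwa [hd, sub_zero], ?_⟩
  have h1 : ∑ ρ : Fin 0 → Fin n, τ 0 ρ * x = x := by
    rw [Finset.sum_congr rfl fun ρ _ => by rw [h0, one_mul]]
    simp
  rw [h1, sub_self]
  exact zero_mem _

end flag

end

end Vale.Agent.P177.PI
end

section

/-!
# P177, block FREL: the eigenflag relations at one level

`b l ∈ Ω` finitely many elements of an extension of `Λ`, `c l ∈ C` such that every polynomial
relation between the `b l` holds for the Teichmueller representatives `[c l]` after multiplication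
by `[η]`, modulo `(p - [t], p ^ M)`. If the coordinates of an eigenflag are among the `b l`, then
the flag relations hold in the family `famJ` after multiplication by `[η] ^ (2 n + 1)`.
-/

namespace Vale.Agent.P177.PI

open Vale.Agent.P177.Flag Vale.Agent.P177.Perf Vale.Agent.P202.Mix WittVector

universe u

section defs

variable (p : ℕ) [hp : Fact p.Prime] {C : Type u} [CommRing C] {Λ : Type*} [CommRing Λ]
  {Ω : Type*} [CommRing Ω] [Algebra Λ Ω] {m n : ℕ}

/-- evaluation of polynomials at the Teichmueller representatives. -/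
noncomputable def tev (φ : Λ →+* WittVector p C) (c : Fin m → C) :
    MvPolynomial (Fin m) Λ →+* WittVector p C :=
  MvPolynomial.eval₂Hom φ fun l => teichmuller p (c l)

/-- the relations between the `b l` at one level. -/
structure LRel [CharP C p] [PerfectRing C p] (b : Fin m → Ω) (φ : Λ →+* WittVector p C)
    (c : Fin m → C) (t η : C) (q M : ℕ) : Prop where
  rel : ∀ f : MvPolynomial (Fin m) Λ, MvPolynomial.aeval b f = 0 →
    teichmuller p η * tev p φ c f ∈ XI p t M
  dvd : ∀ l, b l ≠ 0 → ∃ y, η = rt p q (c l) * y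

/-- the Pluecker coordinates as polynomials. -/
noncomputable def tauP (Λ : Type*) [CommRing Λ] (n : ℕ) (ix : ∀ j, (Fin j → Fin n) → Fin m)
    (j : ℕ) (t : Fin j → Fin n) : MvPolynomial (Fin m) Λ :=
  if j = 0 then 1 else if j ≤ n then MvPolynomial.X (ix j t) else 0

/-- the Pluecker coordinates in `W(C)`. -/
noncomputable def tauW (n : ℕ) (ix : ∀ j, (Fin j → Fin n) → Fin m) (c : Fin m → C)
    (j : ℕ) (t : Fin j → Fin n) : WittVector p C :=
  if j = 0 then 1 else if j ≤ n then teichmuller p (c (ix j t)) else 0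

/-- the degrees. -/
def dg (n : ℕ) (j : ℕ) : Fin n → ℤ := fun i => if (i : ℕ) + 1 = j then 1 else 0

/-- the ideals generated by the coordinates. -/
def IdR {C : Type u} [CommRing C] (n : ℕ) (ix : ∀ j, (Fin j → Fin n) → Fin m) (c : Fin m → C)
    (i : Fin n) : Ideal C :=
  Ideal.span (Set.range fun t : Fin ((i : ℕ) + 1) → Fin n => c (ix _ t))

/-- the good degrees. -/
def gd (n : ℕ) (s : Fin n → ℤ) : Prop := ∀ i, 1 ≤ s i

variable {ix : ∀ j, (Fin j → Fin n) → Fin m} {φ : Λ →+* WittVector p C} {c : Fin m → C}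
  {b : Fin m → Ω}

theorem dg_nonneg (n j : ℕ) (i : Fin n) : 0 ≤ dg n j i := by
  unfold dg
  split_ifs <;> omega

theorem dg_le_one (n j : ℕ) (i : Fin n) : dg n j i ≤ 1 := by
  unfold dg
  split_ifs <;> omega

theorem dg_zero (n : ℕ) : dg n 0 = 0 := by
  funext i
  unfold dg
  rw [if_neg (by omega)]
  rfl

theorem dg_succ (n : ℕ) (i : Fin n) : dg n ((i : ℕ) + 1) = Pi.single i 1 := by
  funext k
  unfold dg
  by_cases h : k = i
  · subst h
    rw [if_pos rfl, Pi.single_eq_same]
  · rw [Pi.single_eq_of_ne h, if_neg]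
    intro h1
    exact h (Fin.ext (by omega))

theorem tev_tauP (j : ℕ) (t : Fin j → Fin n) :
    tev p φ c (tauP Λ n ix j t) = tauW p n ix c j t := by
  unfold tauP tauW
  split_ifs
  · rw [map_one]
  · simp [tev]
  · rw [map_zero]

theorem aeval_tauP {v : ℕ → Fin n → Ω}
    (hix : ∀ j, 1 ≤ j → j ≤ n → ∀ t : Fin j → Fin n, b (ix j t) = detT v j t)
    (j : ℕ) (t : Fin j → Fin n) :
    MvPolynomial.aeval b (tauP Λ n ix j t) = detT v j t := by
  unfold tauP
  split_ifs with h1 h2
  · subst h1
    rw [map_one, (flagRel_detT v).zero]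
  · rw [MvPolynomial.aeval_X, hix j (by omega) h2]
  · rw [map_zero, detT_eq_zero_of_lt v (by omega)]

theorem tauW_zero (t : Fin 0 → Fin n) : tauW p n ix c 0 t = 1 := by
  unfold tauW
  rw [if_pos rfl]

theorem tauW_lt {j : ℕ} (hj : n < j) (t : Fin j → Fin n) : tauW p n ix c j t = 0 := by
  unfold tauW
  rw [if_neg (by omega), if_neg (by omega)]

end defs

section

variable (p : ℕ) [hp : Fact p.Prime] {C : Type u} [CommRing C] [CharP C p] [PerfectRing C p]
  {Λ : Type*} [CommRing Λ] {Ω : Type*} [CommRing Ω] [Algebra Λ Ω] {m n : ℕ}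
  {ix : ∀ j, (Fin j → Fin n) → Fin m} {φ : Λ →+* WittVector p C} {c : Fin m → C}
  {b : Fin m → Ω} {t η : C} {q M : ℕ}

omit [CharP C p] [PerfectRing C p] in
theorem tauAt (i : Fin n) :
    TauAt p (IdR n ix c) (tauW p n ix c) (dg n) ((i : ℕ) + 1) i where
  rep := by
    refine ⟨fun t => c (ix _ t), fun _ => 1, fun _ => one_mul 1, fun t => ?_, rfl⟩
    unfold tauW
    rw [if_neg (by omega), if_pos (by have := i.2; omega), one_mul]
  deg := dg_succ n i

theorem fg_IdR (i : Fin n) : (IdR n ix c i).FG :=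
  Submodule.fg_span (Set.finite_range _)

theorem tauW_mem (N : ℕ) (j : ℕ) (t' : Fin j → Fin n) :
    tauW p n ix c j t' ∈ (famJ p (IdR n ix c) t N).M (dg n j) := by
  rcases Nat.eq_zero_or_pos j with rfl | hj
  · rw [tauW_zero, dg_zero]
    exact (famJ p (IdR n ix c) t N).one
  · by_cases hjn : j ≤ n
    · obtain ⟨i, rfl⟩ : ∃ i, j = i + 1 := ⟨j - 1, by omega⟩
      exact (tauAt p (ix := ix) (c := c) ⟨i, by omega⟩).mem p N t'
    · rw [tauW_lt p (by omega)]
      exact zero_mem _

theorem rt_prod {ι : Type*} (S : Finset ι) (e : ℕ) (f : ι → C) :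
    rt p e (∏ i ∈ S, f i) = ∏ i ∈ S, rt p e (f i) := by
  unfold rt
  exact map_prod _ _ _

variable {v : ℕ → Fin n → Ω}

/-- a relation holds inside the ideals after multiplication by `[η] ^ (2 n + 1)`. -/
theorem LRel.mem_N (h : LRel p b φ c t η q M) (ht : t ∈ nonZeroDivisors C) (hM : 0 < M) {N : ℕ}
    (hN : N * p ^ q ≤ M)
    (hix : ∀ j, 1 ≤ j → j ≤ n → ∀ t : Fin j → Fin n, b (ix j t) = detT v j t)
    (hv : ∀ j ≤ n, ∃ t, detT v j t ≠ 0) {s : Fin n → ℤ} (hs : ∀ i, s i ≤ 2)
    {f : MvPolynomial (Fin m) Λ} (hf : MvPolynomial.aeval b f = 0)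
    (hfM : tev p φ c f ∈ (famJ p (IdR n ix c) t N).M s) :
    teichmuller p η ^ (2 * n + 1) * tev p φ c f ∈ (famJ p (IdR n ix c) t N).N s := by
  choose l hl using fun i : Fin n => hv ((i : ℕ) + 1) i.2
  have hbl : ∀ i : Fin n, b (ix _ (l i)) ≠ 0 := fun i => by
    rw [hix _ (by omega) i.2]
    exact hl i
  choose y hy using fun i : Fin n => h.dvd _ (hbl i)
  set g : C := ∏ i, c (ix _ (l i)) ^ 2 with hg
  have hgJ : g ∈ JJ p (IdR n ix c) s := by
    refine JJ_anti p (IdR n ix c) (s' := fun _ => 2) hs (le_perfHull ?_)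
    unfold PPr
    refine Ideal.prod_mem_prod fun i _ => ?_
    have h1 : c (ix _ (l i)) ∈ IdR n ix c i := Ideal.subset_span (Set.mem_range_self (l i))
    exact Ideal.pow_mem_pow h1 2
  have hη : η ^ (2 * n) = (∏ i, y i ^ 2) * rt p q (g ^ 1) := by
    have h1 : η ^ (2 * n) = ∏ _i : Fin n, η ^ 2 := by
      rw [Finset.prod_const, Finset.card_univ, Fintype.card_fin, pow_mul]
    rw [h1, pow_one, hg, rt_prod, ← Finset.prod_mul_distrib]
    refine Finset.prod_congr rfl fun i _ => ?_
    have h2 : rt p q (c (ix _ (l i)) ^ 2) = rt p q (c (ix _ (l i))) ^ 2 := by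
      unfold rt
      exact map_pow _ _ _
    rw [h2, ← mul_pow, mul_comm (y i), ← hy]
  obtain ⟨I, rfl⟩ : ∃ I, M = I + 1 := ⟨M - 1, by omega⟩
  obtain ⟨a, w, haw⟩ := (mem_XI p).1 (h.rel f hf)
  have hx : teichmuller p η * tev p φ c f ∈ WI p (JJ p (IdR n ix c) s) :=
    Ideal.mul_mem_left _ _ hfM
  obtain ⟨a', ha', w', hw', he⟩ := te_mul_mem p (isPerf_JJ p (IdR n ix c) s) ht hx I haw hgJ q 1 N
    (Nat.one_le_iff_ne_zero.2 (Nat.pow_pos hp.out.pos).ne') (by rw [mul_one]; exact hN)
  have h3 : teichmuller p η ^ (2 * n + 1) * tev p φ c f = teichmuller p (∏ i, y i ^ 2) *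
      (teichmuller p (rt p q (g ^ 1)) * (teichmuller p η * tev p φ c f)) := by
    rw [pow_succ, ← map_pow, hη, map_mul]
    ring
  rw [h3, he, famJ_N]
  refine Ideal.mul_mem_left _ _ ((mem_XI_mul p).2 ⟨a', ha', w', hw', rfl⟩)

omit [CharP C p] [PerfectRing C p] in
/-- the wedge of the coordinates is a polynomial. -/
theorem tev_wdg (j : ℕ) (P : Fin n → MvPolynomial (Fin m) Λ) (t' : Fin (j + 1) → Fin n) :
    tev p φ c (wdg (tauP Λ n ix j) P t') = wdg (tauW p n ix c j) (fun i => tev p φ c (P i)) t' := by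
  rw [map_wdg]
  congr 1
  funext t
  exact tev_tauP p j t

theorem aeval_wdg
    (hix : ∀ j, 1 ≤ j → j ≤ n → ∀ t : Fin j → Fin n, b (ix j t) = detT v j t)
    (j : ℕ) (P : Fin n → MvPolynomial (Fin m) Λ) (t' : Fin (j + 1) → Fin n) :
    MvPolynomial.aeval b (wdg (tauP Λ n ix j) P t') =
      wdg (detT v j) (fun i => MvPolynomial.aeval b (P i)) t' := by
  have h1 := map_wdg (MvPolynomial.aeval (R := Λ) b).toRingHom (tauP Λ n ix j) P t'
  have h2 : (fun t => (MvPolynomial.aeval (R := Λ) b).toRingHom (tauP Λ n ix j t)) = detT v j := by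
    funext t
    exact aeval_tauP hix j t
  rw [h2] at h1
  exact h1

theorem gd_add (s : Fin n → ℤ) (j : ℕ) (hs : gd n s) : gd n (s + dg n j) := by
  intro i
  have h1 := hs i
  have h2 := dg_nonneg n j i
  rw [Pi.add_apply]
  omega

/-- **FREL**: the flag data at one level. -/
theorem LRel.fDataE (h : LRel p b φ c t η q M) (ht : t ∈ nonZeroDivisors C) (hM : 0 < M) {N : ℕ}
    (hN : N * p ^ q ≤ M)
    (hix : ∀ j, 1 ≤ j → j ≤ n → ∀ t : Fin j → Fin n, b (ix j t) = detT v j t)
    (hv : ∀ j ≤ n, ∃ t, detT v j t ≠ 0) :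
    FDataE (famJ p (IdR n ix c) t N) (tauW p n ix c) (dg n) (gd n)
      (teichmuller p η ^ (2 * n + 1)) where
  d_zero := dg_zero n
  mem := tauW_mem p N
  zero := tauW_zero p
  same j ρ t' := by
    have h1 := tev_wdg p (φ := φ) (c := c) (ix := ix) (j + 1)
      (fun i => tauP Λ n ix (j + 1) (Fin.cons i ρ)) t'
    simp only [tev_tauP] at h1
    rw [← h1]
    refine h.mem_N p ht hM hN hix hv (fun i => ?_) ?_ ?_
    · have := dg_le_one n (j + 1) i
      rw [Pi.add_apply]
      omega
    · rw [aeval_wdg hix]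
      simp only [aeval_tauP hix]
      exact (flagRel_detT v).same j ρ t'
    · rw [h1]
      exact wdg_mem_M (tauW_mem p N) (fun i => tauW_mem p N _ _) t'
  incl j ρ t' := by
    have h1 := tev_wdg p (φ := φ) (c := c) (ix := ix) (j + 2)
      (fun i => tauP Λ n ix (j + 1) (Fin.cons i ρ)) t'
    simp only [tev_tauP] at h1
    rw [← h1]
    refine h.mem_N p ht hM hN hix hv (fun i => ?_) ?_ ?_
    · have := dg_le_one n (j + 1) i
      have := dg_le_one n (j + 2) i
      rw [Pi.add_apply]
      omega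
    · rw [aeval_wdg hix]
      simp only [aeval_tauP hix]
      exact (flagRel_detT v).incl j ρ t'
    · rw [h1]
      exact wdg_mem_M (tauW_mem p N) (fun i => tauW_mem p N _ _) t'
  step j ρ t' := by
    have h1 := tev_wdg p (φ := φ) (c := c) (ix := ix) j
      (fun i => tauP Λ n ix (j + 1) (Fin.cons i ρ)) t'
    simp only [tev_tauP] at h1
    have h2 : tev p φ c (wdg (tauP Λ n ix j) (fun i => tauP Λ n ix (j + 1) (Fin.cons i ρ)) t' -
        tauP Λ n ix j ρ * tauP Λ n ix (j + 1) t') =
        wdg (tauW p n ix c j) (fun i => tauW p n ix c (j + 1) (Fin.cons i ρ)) t' -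
          tauW p n ix c j ρ * tauW p n ix c (j + 1) t' := by
      rw [map_sub, map_mul, h1, tev_tauP, tev_tauP]
    rw [← h2]
    refine h.mem_N p ht hM hN hix hv (fun i => ?_) ?_ ?_
    · have := dg_le_one n (j + 1) i
      have := dg_le_one n j i
      rw [Pi.add_apply]
      omega
    · rw [map_sub, map_mul, aeval_wdg hix, aeval_tauP hix, aeval_tauP hix]
      simp only [aeval_tauP hix]
      rw [(flagRel_detT v).step j ρ t', sub_self]
    · rw [h2]
      exact sub_mem (wdg_mem_M (tauW_mem p N) (fun i => tauW_mem p N _ _) t')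
        ((famJ p (IdR n ix c) t N).mul (tauW_mem p N _ _) (tauW_mem p N _ _))
  top i t' := by
    have h1 := tev_wdg p (φ := φ) (c := c) (ix := ix) n
      (Pi.single i (1 : MvPolynomial (Fin m) Λ)) t'
    have h2 : (fun k => tev p φ c ((Pi.single i (1 : MvPolynomial (Fin m) Λ) :
        Fin n → MvPolynomial (Fin m) Λ) k)) = Pi.single i (1 : WittVector p C) := by
      funext k
      by_cases hk : k = i
      · subst hk
        rw [Pi.single_eq_same, Pi.single_eq_same, map_one]
      · rw [Pi.single_eq_of_ne hk, Pi.single_eq_of_ne hk, map_zero]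
    rw [h2] at h1
    rw [← h1]
    refine h.mem_N p ht hM hN hix hv (fun i => ?_) ?_ ?_
    · have := dg_le_one n n i
      omega
    · rw [aeval_wdg hix]
      exact wdg_detT_of_le v le_rfl _ t'
    · rw [h1]
      have h3 := wdg_mem_M (F := famJ p (IdR n ix c) t N) (tauW_mem p N) (j := n) (s := 0)
        (v := Pi.single i (1 : WittVector p C)) (fun k => RFam.mem_zero _ _) t'
      rwa [add_zero] at h3
  good_add := gd_add
  inj j hj s hs := by
    rcases Nat.eq_zero_or_pos j with rfl | hj0
    · exact inj_zero p (tauW_zero p) (dg_zero n) _ s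
    · obtain ⟨i, rfl⟩ : ∃ i, j = i + 1 := ⟨j - 1, by omega⟩
      exact (tauAt p (ix := ix) (c := c) ⟨i, by omega⟩).inj p fg_IdR ht N s (hs _)

theorem eig_mem_M (N : ℕ) (X : Matrix (Fin n) (Fin n) (WittVector p C)) (w : WittVector p C)
    (j : ℕ) (ρ : Fin j → Fin n) (i : Fin n) :
    (∑ l, X i l * tauW p n ix c (j + 1) (Fin.cons l ρ)) - w * tauW p n ix c (j + 1) (Fin.cons i ρ)
      ∈ (famJ p (IdR n ix c) t N).M (dg n (j + 1)) :=
  sub_mem (Ideal.sum_mem _ fun _ _ => Ideal.mul_mem_left _ _ (tauW_mem p N _ _))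
    (Ideal.mul_mem_left _ _ (tauW_mem p N _ _))

/-- **FREL**: the eigenvalue relations at one level, for an operator with matrix `X` over `Λ` and
polynomials `f j` representing the `j`-th eigencharacter. -/
theorem LRel.eigNA (h : LRel p b φ c t η q M) (ht : t ∈ nonZeroDivisors C) (hM : 0 < M) {N : ℕ}
    (hN : N * p ^ q ≤ M)
    (hix : ∀ j, 1 ≤ j → j ≤ n → ∀ t : Fin j → Fin n, b (ix j t) = detT v j t)
    (hv : ∀ j ≤ n, ∃ t, detT v j t ≠ 0) (X : Matrix (Fin n) (Fin n) Λ)
    (f : ℕ → MvPolynomial (Fin m) Λ)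
    (hX : ∀ j < n, ∀ (ρ : Fin j → Fin n) (t : Fin (j + 1) → Fin n),
      wdg (detT v j) (fun i => (∑ l, algebraMap Λ Ω (X i l) * detT v (j + 1) (Fin.cons l ρ)) -
        MvPolynomial.aeval b (f j) * detT v (j + 1) (Fin.cons i ρ)) t = 0) :
    EigNA (famJ p (IdR n ix c) t N) (tauW p n ix c) (dg n) (teichmuller p η ^ (2 * n + 1))
      (X.map φ) (fun j => tev p φ c (f j)) := by
  intro j hj ρ t'
  have h1 := tev_wdg p (φ := φ) (c := c) (ix := ix) j
    (fun i => (∑ l, MvPolynomial.C (X i l) * tauP Λ n ix (j + 1) (Fin.cons l ρ)) -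
      f j * tauP Λ n ix (j + 1) (Fin.cons i ρ)) t'
  have h2 : (fun i => tev p φ c ((∑ l, MvPolynomial.C (X i l) *
      tauP Λ n ix (j + 1) (Fin.cons l ρ)) - f j * tauP Λ n ix (j + 1) (Fin.cons i ρ))) =
      fun i => (∑ l, (X.map φ) i l * tauW p n ix c (j + 1) (Fin.cons l ρ)) -
        tev p φ c (f j) * tauW p n ix c (j + 1) (Fin.cons i ρ) := by
    funext i
    rw [map_sub, map_sum, map_mul, tev_tauP]
    congr 1
    refine Finset.sum_congr rfl fun l _ => ?_
    rw [map_mul, tev_tauP, Matrix.map_apply]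
    congr 1
    simp [tev]
  rw [h2] at h1
  rw [← h1]
  refine h.mem_N p ht hM hN hix hv (fun i => ?_) ?_ ?_
  · have := dg_le_one n (j + 1) i
    have := dg_le_one n j i
    rw [Pi.add_apply]
    omega
  · rw [aeval_wdg hix]
    have h3 : (fun i => MvPolynomial.aeval b ((∑ l, MvPolynomial.C (X i l) *
        tauP Λ n ix (j + 1) (Fin.cons l ρ)) - f j * tauP Λ n ix (j + 1) (Fin.cons i ρ))) =
        fun i => (∑ l, algebraMap Λ Ω (X i l) * detT v (j + 1) (Fin.cons l ρ)) -
          MvPolynomial.aeval b (f j) * detT v (j + 1) (Fin.cons i ρ) := by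
      funext i
      rw [map_sub, map_sum, map_mul, aeval_tauP hix]
      congr 1
      refine Finset.sum_congr rfl fun l _ => ?_
      rw [map_mul, aeval_tauP hix, MvPolynomial.aeval_C]
    rw [h3]
    exact hX j hj ρ t'
  · rw [h1]
    exact wdg_mem_M (tauW_mem p N) (fun i => eig_mem_M p N _ _ j ρ i) t'

end

section eig

variable (p : ℕ) [hp : Fact p.Prime] {C : Type u} [CommRing C] [CharP C p] [PerfectRing C p]
  {Λ : Type*} [CommRing Λ] {Ω : Type*} [Field Ω] [Algebra Λ Ω] {m n : ℕ}
  {R : Type*} [CommRing R] [Algebra Λ R] {L : Type*} [AddCommGroup L] [Module Λ L] [Module R L]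
  [IsScalarTower Λ R L] {bL : Module.Basis (Fin n) Λ L} {v : ℕ → Fin n → Ω}
  {σ : Fin n → R →ₐ[Λ] Ω}
  {ix : ∀ j, (Fin j → Fin n) → Fin m} {φ : Λ →+* WittVector p C} {c : Fin m → C}
  {b : Fin m → Ω} {t η : C} {q M : ℕ}

/-- **FREL** for an eigenflag: flag data. -/
theorem LRel.fDataE_flag (h : LRel p b φ c t η q M) (hfl : EigFlag bL v σ)
    (ht : t ∈ nonZeroDivisors C) (hM : 0 < M) {N : ℕ} (hN : N * p ^ q ≤ M)
    (hix : ∀ j, 1 ≤ j → j ≤ n → ∀ t : Fin j → Fin n, b (ix j t) = detT v j t) :
    FDataE (famJ p (IdR n ix c) t N) (tauW p n ix c) (dg n) (gd n)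
      (teichmuller p η ^ (2 * n + 1)) :=
  h.fDataE p ht hM hN hix hfl.exists_detT_ne_zero

/-- **FREL** for an eigenflag: eigenvalue relations of `r ∈ R`. -/
theorem LRel.eigNA_flag (h : LRel p b φ c t η q M) (hfl : EigFlag bL v σ)
    (ht : t ∈ nonZeroDivisors C) (hM : 0 < M) {N : ℕ} (hN : N * p ^ q ≤ M)
    (hix : ∀ j, 1 ≤ j → j ≤ n → ∀ t : Fin j → Fin n, b (ix j t) = detT v j t)
    (r : R) (f : ℕ → MvPolynomial (Fin m) Λ)
    (hf : ∀ j (hj : j < n), MvPolynomial.aeval b (f j) = σ ⟨j, hj⟩ r) :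
    EigNA (famJ p (IdR n ix c) t N) (tauW p n ix c) (dg n) (teichmuller p η ^ (2 * n + 1))
      ((actMat bL r).map φ) (fun j => tev p φ c (f j)) := by
  refine h.eigNA p ht hM hN hix hfl.exists_detT_ne_zero (actMat bL r) f fun j hj ρ t' => ?_
  have h1 := hfl.eigRel r j ρ t'
  simp only [dif_pos hj, Matrix.map_apply] at h1
  rw [hf j hj]
  exact h1

end eig

end Vale.Agent.P177.PI
end

section

/-!
P177, block LEVGLUE (A): the graded family over the product ring `∏ C_e`, from the families
`famJ` at the levels; `ColN`, `SkoN` and the degree conditions of the flag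
formula.
-/

namespace Vale.Agent.P177.PI

open WittVector Vale.Agent.P177.Flag

universe u v w

section family

variable (p : ℕ) [hp : Fact p.Prime] {ι : Type v} [Nonempty ι] {C : ι → Type w}
  [∀ e, CommRing (C e)] [∀ e, CharP (C e) p] [∀ e, PerfectRing (C e) p] {r : ℕ}

/-- the product ideals. -/
def JP (I : ∀ e, Fin r → Ideal (C e)) (s : Fin r → ℤ) : Ideal (∀ e, C e) :=
  Ideal.pi fun e => JJ p (I e) s

omit [Nonempty ι] [∀ e, PerfectRing (C e) p] in
theorem isPerf_JP (I : ∀ e, Fin r → Ideal (C e)) (s : Fin r → ℤ) : IsPerf p (JP p I s) :=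
  isPerf_pi p fun e => isPerf_JJ p (I e) s

/-- the graded family over the product. -/
noncomputable def famP (I : ∀ e, Fin r → Ideal (C e)) (t : ∀ e, C e) (N : ℕ) :
    RFam (WittVector p (∀ e, C e)) (Fin r → ℤ) :=
  RFam.pull (prj p C) fun e => famJ p (I e) (t e) N

attribute [local instance] charP_pi perfectRing_pi

theorem famP_M (I : ∀ e, Fin r → Ideal (C e)) (t : ∀ e, C e) (N : ℕ) (s : Fin r → ℤ) :
    (famP p I t N).M s = WI p (JP p I s) := by
  ext x
  rw [famP, RFam.mem_pull_M, JP, mem_WI_pi p fun e => isPerf_JJ p (I e) s]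
  rfl

theorem famP_N (I : ∀ e, Fin r → Ideal (C e)) (t : ∀ e, C e) (N : ℕ) (s : Fin r → ℤ) :
    (famP p I t N).N s = XI p t N * WI p (JP p I s) := by
  ext x
  rw [famP, RFam.mem_pull_N, JP, mem_XI_mul_WI_pi p fun e => isPerf_JJ p (I e) s]
  rfl

end family

section degrees

/-- the base degree. -/
def sb (n : ℕ) : Fin n → ℤ := fun _ => (n : ℤ) ^ n + 3

theorem gd_sb (n : ℕ) : gd n (sb n) := by
  intro i
  unfold sb
  have : (0 : ℤ) ≤ (n : ℤ) ^ n := by positivity
  linarith

theorem gd_sb_sub (n j : ℕ) : gd n (sb n + dg n j - dg n (j + 1)) := by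
  intro i
  have h2 := dg_nonneg n j i
  have h3 := dg_le_one n (j + 1) i
  have : (0 : ℤ) ≤ (n : ℤ) ^ n := by positivity
  rw [Pi.sub_apply, Pi.add_apply]
  unfold sb
  linarith

theorem gd_sb_sub' (n j : ℕ) : gd n (sb n - dg n j) := by
  intro i
  have h3 := dg_le_one n j i
  have : (0 : ℤ) ≤ (n : ℤ) ^ n := by positivity
  rw [Pi.sub_apply]
  unfold sb
  linarith

theorem two_le_sb {n j : ℕ} (i : Fin n) : 2 ≤ (sb n + dg n j) i := by
  have h2 := dg_nonneg n j i
  have : (0 : ℤ) ≤ (n : ℤ) ^ n := by positivity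
  rw [Pi.add_apply]
  unfold sb
  linarith

theorem pow_lt_sb {n j k : ℕ} (hj : j ≤ n) (i : Fin n) :
    ((n ^ j : ℕ) : ℤ) < (sb n + dg n k - dg n (k + 1)) i := by
  have h2 := dg_nonneg n k i
  have h3 := dg_le_one n (k + 1) i
  have hn : 0 < n := i.pos
  have h4 : ((n ^ j : ℕ) : ℤ) ≤ (n : ℤ) ^ n := by
    exact_mod_cast Nat.pow_le_pow_right hn hj
  rw [Pi.sub_apply, Pi.add_apply]
  unfold sb
  linarith

end degrees

section flag

variable (p : ℕ) [hp : Fact p.Prime] {ι : Type v} [Nonempty ι] {C : ι → Type w}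
  [∀ e, CommRing (C e)] [∀ e, CharP (C e) p] [∀ e, PerfectRing (C e) p] {n : ℕ}
  {I : ∀ e, Fin n → Ideal (C e)} (hI : ∀ e i, (I e i).FG) {t : ∀ e, C e}
  (ht : ∀ e, t e ∈ nonZeroDivisors (C e)) (N : ℕ)
  {τ : ∀ j : ℕ, (Fin j → Fin n) → WittVector p (∀ e, C e)}

attribute [local instance] charP_pi perfectRing_pi

include hI ht

omit [Nonempty ι] in
theorem famP_colN (j : ℕ) (hj : j < n)
    (hτ : ∀ e, TauAt p (I e) (fun j t => prj p C e (τ j t)) (dg n) (j + 1) ⟨j, hj⟩) :
    ColN (famP p I t N) τ (dg n) (j + 1) (sb n + dg n j) :=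
  colN_pull (exists_prj p) fun e => (hτ e).colN p (hI e) (ht e) N _ (two_le_sb _)

omit [Nonempty ι] in
theorem famP_skoN (j : ℕ) (hj : j < n) (h0 : ∀ t', τ 0 t' = 1)
    (hτ : ∀ e, ∀ h : 0 < j, TauAt p (I e) (fun j t => prj p C e (τ j t)) (dg n) j ⟨j - 1, by omega⟩) :
    SkoN (famP p I t N) τ (dg n) j (sb n + dg n j - dg n (j + 1)) := by
  rcases Nat.eq_zero_or_pos j with rfl | hj0
  · exact skoN_pull (exists_prj p) fun e => skoN_zero p (fun t' => by
      rw [h0, map_one]) (dg_zero n) _ _
  · exact skoN_pull (exists_prj p) fun e => (hτ e hj0).skoN p (hI e) (ht e) N _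
      (pow_lt_sb hj.le _)

end flag

end Vale.Agent.P177.PI
end

section

/-!
P177: the `R ⊗[ℤ] W`-module `Y ⊗[Λ] L`, for a `W`-module `Y` (a `Λ`-module through `φ : Λ →+* W`)
and an `R`-module `L` over the `Λ`-algebra `R`.
-/

namespace Vale.Agent.P177.Ap

open TensorProduct

universe u

section Def

variable {Λ W : Type u} [CommRing Λ] [CommRing W]

/-- a `W`-module, as a `Λ`-module through `φ`. -/
@[nolint unusedArguments]
def LM (_ : Λ →+* W) (Y : Type u) : Type u := Y

variable (φ : Λ →+* W) (Y : Type u) [AddCommGroup Y] [Module W Y]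

instance : AddCommGroup (LM φ Y) := inferInstanceAs (AddCommGroup Y)

instance : Module W (LM φ Y) := inferInstanceAs (Module W Y)

instance : Module Λ (LM φ Y) := Module.compHom Y φ

theorem LM.smul_def (a : Λ) (y : LM φ Y) : a • y = φ a • y := rfl

instance : SMulCommClass W Λ (LM φ Y) where
  smul_comm w a y := by
    rw [LM.smul_def, LM.smul_def, smul_smul, smul_smul, mul_comm]

variable {Y} {Y' : Type u} [AddCommGroup Y'] [Module W Y']

/-- a `W`-linear map, as a `Λ`-linear map. -/
def LM.map (f : Y →ₗ[W] Y') : LM φ Y →ₗ[Λ] LM φ Y' where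
  toFun := f
  map_add' := f.map_add
  map_smul' a y := f.map_smul (φ a) y

@[simp]
theorem LM.map_apply (f : Y →ₗ[W] Y') (y : LM φ Y) : LM.map φ f y = f y := rfl

end Def

section Gen

variable {R W D : Type*} [CommRing R] [CommRing W] [CommRing D] (iR : R →+* D) (iW : W →+* D)
    (hgen : ∀ y : D, y ∈ AddSubgroup.closure {z : D | ∃ (r : R) (a : W), z = iW a * iR r})

include hgen in
/-- an additive map commuting with `R` and `W` is linear. -/
theorem map_smul_of_gen {X X' : Type*} [AddCommGroup X] [AddCommGroup X'] [Module D X]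
    [Module D X'] (f : X →+ X') (hR : ∀ r x, f (iR r • x) = iR r • f x)
    (hW : ∀ w x, f (iW w • x) = iW w • f x) (d : D) (x : X) :
    f (d • x) = d • f x := by
  refine AddSubgroup.closure_induction (p := fun d _ => f (d • x) = d • f x) ?_ ?_ ?_ ?_ (hgen d)
  · rintro _ ⟨r, a, rfl⟩
    rw [mul_smul, hW, hR, mul_smul]
  · rw [zero_smul, zero_smul, map_zero]
  · intro a b _ _ ha hb
    rw [add_smul, map_add, ha, hb, add_smul]
  · intro a _ ha
    rw [neg_smul, map_neg, ha, neg_smul]

theorem step_zero {X X' : Type*} [AddCommGroup X] [AddCommGroup X'] [Module D X]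
    [Module D X'] (f : X →+ X') (d : D) : f (d • (0 : X)) = d • f 0 := by
  rw [smul_zero, map_zero, smul_zero]

theorem step_add {X X' : Type*} [AddCommGroup X] [AddCommGroup X'] [Module D X]
    [Module D X'] (f : X →+ X') (d : D) {x x' : X} (hx : f (d • x) = d • f x)
    (hx' : f (d • x') = d • f x') : f (d • (x + x')) = d • f (x + x') := by
  rw [smul_add, map_add, hx, hx', map_add, smul_add]

theorem step_pow {X : Type*} [AddCommGroup X] [Module D X] {a b : D} {c : ℕ}
    (h : ∀ x : X, a • x = (b ^ c) • x) (m : ℕ) (x : X) : a ^ m • x = (b ^ (c * m)) • x := by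
  induction m generalizing x with
  | zero => rw [pow_zero, one_smul, mul_zero, pow_zero, one_smul]
  | succ m ih => rw [pow_succ, mul_smul, ih, h, smul_smul, ← pow_add, Nat.mul_succ]

theorem regular_pow {Y : Type*} [AddCommGroup Y] [Module W Y] {a : W}
    (ha : ∀ y : Y, a • y = 0 → y = 0) (k : ℕ) : ∀ y : Y, a ^ k • y = 0 → y = 0 := by
  induction k with
  | zero => intro y hy; rwa [pow_zero, one_smul] at hy
  | succ k ih =>
    intro y hy
    rw [pow_succ, mul_smul] at hy
    exact ha _ (ih _ hy)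

theorem lsmul_injective {Y : Type*} [AddCommGroup Y] [Module W Y] {a : W}
    (ha : ∀ y : Y, a • y = 0 → y = 0) : Function.Injective (LinearMap.lsmul W Y a) := by
  rw [injective_iff_map_eq_zero]
  exact ha

end Gen

section Ten

variable {Λ R W : Type u} [CommRing Λ] [CommRing R] [Algebra Λ R] [CommRing W] (φ : Λ →+* W)
  (Y : Type u) [AddCommGroup Y] [Module W Y]
  (L : Type u) [AddCommGroup L] [Module R L] [Module Λ L] [IsScalarTower Λ R L]

/-- `Y ⊗[Λ] L`. -/
abbrev TenM : Type u := LM φ Y ⊗[Λ] L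

variable (R) in
/-- the action of `R`. -/
noncomputable def tenR : R →ₐ[ℤ] Module.End Λ (TenM φ Y L) :=
  ((Module.End.lTensorAlgHom Λ L (LM φ Y)).toRingHom.comp (Module.toModuleEnd Λ L)).toIntAlgHom

/-- the action of `W`. -/
noncomputable def tenW : W →ₐ[ℤ] Module.End Λ (TenM φ Y L) :=
  ((Module.End.rTensorAlgHom Λ (LM φ Y) L).toRingHom.comp
      (Module.toModuleEnd Λ (LM φ Y))).toIntAlgHom

theorem ten_commute (r : R) (w : W) : Commute (tenR R φ Y L r) (tenW φ Y L w) := by
  refine TensorProduct.ext' fun y l => ?_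
  rfl

/-- the action of `R ⊗ W`. -/
noncomputable def tenHom : R ⊗[ℤ] W →ₐ[ℤ] Module.End Λ (TenM φ Y L) :=
  Algebra.TensorProduct.lift (tenR R φ Y L) (tenW φ Y L) (ten_commute φ Y L)

theorem tenHom_tmul (r : R) (w : W) (y : LM φ Y) (l : L) :
    tenHom φ Y L (r ⊗ₜ w) (y ⊗ₜ l) = (w • y) ⊗ₜ (r • l) := by
  unfold tenHom
  rw [Algebra.TensorProduct.lift_tmul]
  rfl

variable (R) in
/-- the `R ⊗ W`-module structure. -/
noncomputable instance tenModule : Module (R ⊗[ℤ] W) (TenM φ Y L) :=
  Module.compHom _ (tenHom (R := R) φ Y L).toRingHom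

variable {φ Y L}

theorem tmul_smul_tmul (r : R) (w : W) (y : LM φ Y) (l : L) :
    (r ⊗ₜ[ℤ] w : R ⊗[ℤ] W) • (y ⊗ₜ[Λ] l : TenM φ Y L) = (w • y) ⊗ₜ (r • l) :=
  tenHom_tmul φ Y L r w y l

/-- The ring homomorphism `R → R ⊗ W`. -/
noncomputable def inR (R W : Type u) [CommRing R] [CommRing W] : R →+* R ⊗[ℤ] W :=
  (Algebra.TensorProduct.includeLeft : R →ₐ[ℤ] R ⊗[ℤ] W).toRingHom

/-- The ring homomorphism `W → R ⊗ W`. -/
noncomputable def inW (R W : Type u) [CommRing R] [CommRing W] : W →+* R ⊗[ℤ] W :=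
  (Algebra.TensorProduct.includeRight : W →ₐ[ℤ] R ⊗[ℤ] W).toRingHom

theorem inR_smul_tmul (r : R) (y : LM φ Y) (l : L) :
    inR R W r • (y ⊗ₜ[Λ] l : TenM φ Y L) = y ⊗ₜ (r • l) := by
  have := tmul_smul_tmul (φ := φ) r (1 : W) y l
  rwa [one_smul] at this

theorem inW_smul_tmul (w : W) (y : LM φ Y) (l : L) :
    inW R W w • (y ⊗ₜ[Λ] l : TenM φ Y L) = (w • y) ⊗ₜ l := by
  have := tmul_smul_tmul (φ := φ) (1 : R) w y l
  rwa [one_smul] at this

theorem ten_gen (y : R ⊗[ℤ] W) :
    y ∈ AddSubgroup.closure {z : R ⊗[ℤ] W | ∃ (r : R) (a : W), z = inW R W a * inR R W r} := by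
  induction y using TensorProduct.induction_on with
  | zero => exact zero_mem _
  | tmul r a =>
    refine AddSubgroup.subset_closure ⟨r, a, ?_⟩
    show _ = ((1 : R) ⊗ₜ[ℤ] a) * (r ⊗ₜ[ℤ] (1 : W))
    rw [Algebra.TensorProduct.tmul_mul_tmul, one_mul, mul_one]
  | add y z hy hz => exact add_mem hy hz

variable {Y' : Type u} [AddCommGroup Y'] [Module W Y']

variable (φ L) in
/-- functoriality in `Y`. -/
noncomputable def TenM.map (f : Y →ₗ[W] Y') : TenM φ Y L →ₗ[R ⊗[ℤ] W] TenM φ Y' L where
  toFun := (LM.map φ f).rTensor L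
  map_add' := map_add _
  map_smul' d x := by
    refine map_smul_of_gen (inR R W) (inW R W) ten_gen
      (((LM.map φ f).rTensor L : TenM φ Y L →ₗ[Λ] TenM φ Y' L) : TenM φ Y L →+ TenM φ Y' L)
      ?_ ?_ d x
    · intro r x
      induction x using TensorProduct.induction_on with
      | zero => exact step_zero _ _
      | tmul y l =>
        rw [inR_smul_tmul]
        exact (inR_smul_tmul (φ := φ) r (f y) l).symm
      | add x x' hx hx' => exact step_add _ _ hx hx'
    · intro w x
      induction x using TensorProduct.induction_on with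
      | zero => exact step_zero _ _
      | tmul y l =>
        rw [inW_smul_tmul]
        refine Eq.trans ?_ (inW_smul_tmul (R := R) (φ := φ) w (f y) l).symm
        exact congrArg (fun z : LM φ Y' => z ⊗ₜ[Λ] l) (f.map_smul w y)
      | add x x' hx hx' => exact step_add _ _ hx hx'

theorem TenM.map_apply (f : Y →ₗ[W] Y') (x : TenM φ Y L) :
    TenM.map (R := R) φ L f x = (LM.map φ f).rTensor L x := rfl

theorem TenM.map_surjective (f : Y →ₗ[W] Y') (hf : Function.Surjective f) :
    Function.Surjective (TenM.map (R := R) φ L f) :=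
  LinearMap.rTensor_surjective L (g := LM.map φ f) hf

theorem TenM.rTensor_lsmul (a : W) (z : TenM φ Y L) :
    (LM.map φ (LinearMap.lsmul W Y a)).rTensor L z = inW R W a • z := by
  induction z using TensorProduct.induction_on with
  | zero => exact (LinearMap.map_zero _).trans (smul_zero _).symm
  | tmul y l => rw [LinearMap.rTensor_tmul, inW_smul_tmul]; rfl
  | add x x' hx hx' => rw [LinearMap.map_add, hx, hx']; exact (smul_add _ _ _).symm

/-- the kernel of `Y ⊗ L → Y' ⊗ L`, if the kernel of `Y → Y'` is `a Y`, `a ∈ W`. -/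
theorem TenM.map_eq_zero_iff (f : Y →ₗ[W] Y') (hf : Function.Surjective f) (a : W)
    (hker : ∀ y, f y = 0 ↔ ∃ z, y = a • z) (x : TenM φ Y L) :
    TenM.map (R := R) φ L f x = 0 ↔ ∃ z, x = inW R W a • z := by
  have h1 : Function.Exact (LM.map φ (LinearMap.lsmul W Y a)) (LM.map φ f) := by
    intro y
    rw [LM.map_apply]
    refine (hker y).trans ?_
    constructor
    · rintro ⟨z, rfl⟩
      exact ⟨z, rfl⟩
    · rintro ⟨z, hz⟩
      exact ⟨z, hz.symm⟩
  have h2 := rTensor_exact L h1 (g := LM.map φ f) hf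
  have h3 := TenM.rTensor_lsmul (R := R) (φ := φ) (Y := Y) (L := L) a
  rw [TenM.map_apply, h2 x]
  constructor
  · rintro ⟨z, rfl⟩
    exact ⟨z, h3 z⟩
  · rintro ⟨z, rfl⟩
    exact ⟨z, h3 z⟩

/-- `a ∈ W` regular on `Y` is regular on `Y ⊗ L`. -/
theorem TenM.eq_zero_of_smul [Module.Flat Λ L] (a : W) (ha : ∀ y : Y, a • y = 0 → y = 0)
    (x : TenM φ Y L) (hx : inW R W a • x = 0) : x = 0 := by
  have h3 := TenM.rTensor_lsmul (R := R) (φ := φ) (Y := Y) (L := L) a
  have h4 : Function.Injective (LM.map φ (LinearMap.lsmul W Y a)) := lsmul_injective ha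
  have h5 := Module.Flat.rTensor_preserves_injective_linearMap (M := L) _ h4
  refine h5 ?_
  rw [h3, hx, map_zero]

/-- elements of `R` killing `L` kill `Y ⊗ L`. -/
theorem TenM.inR_smul_eq_zero {r : R} (hr : ∀ l : L, r • l = 0) (x : TenM φ Y L) :
    inR R W r • x = 0 := by
  induction x using TensorProduct.induction_on with
  | zero => exact smul_zero _
  | tmul y l => rw [inR_smul_tmul, hr, tmul_zero]
  | add x x' hx hx' => exact (smul_add _ _ _).trans (by rw [hx, hx', add_zero])

theorem inR_natCast (n : ℕ) : inR R W (n : R) = inW R W (n : W) := by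
  exact (map_natCast (inR R W) n).trans (map_natCast (inW R W) n).symm

variable {p : ℕ} {α β : R} {c : ℕ}

/-- `α` acts as `p ^ c`. -/
theorem TenM.alpha_smul (hαβ : (p : R) ^ c = α + β) (hβ : ∀ l : L, β • l = 0) (x : TenM φ Y L) :
    inR R W α • x = inW R W ((p : W) ^ c) • x := by
  have h1 : inW R W ((p : W) ^ c) = inR R W α + inR R W β := by
    rw [← RingHom.map_add, ← hαβ, RingHom.map_pow, RingHom.map_pow, inR_natCast]
  rw [h1, add_smul, TenM.inR_smul_eq_zero hβ, add_zero]

theorem TenM.alpha_pow_smul (hαβ : (p : R) ^ c = α + β) (hβ : ∀ l : L, β • l = 0) (m : ℕ)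
    (x : TenM φ Y L) : inR R W α ^ m • x = inW R W ((p : W) ^ (c * m)) • x := by
  rw [RingHom.map_pow]
  refine step_pow (fun y => ?_) m x
  rw [TenM.alpha_smul hαβ hβ, RingHom.map_pow]

/-- **Main statement.** -/
theorem TenM.trunc [Module.Flat Λ L] (hαβ : (p : R) ^ c = α + β) (hβ : ∀ l : L, β • l = 0)
    (hY : ∀ y : Y, (p : W) • y = 0 → y = 0) (f : Y →ₗ[W] Y') (hf : Function.Surjective f) (m : ℕ)
    (hker : ∀ y, f y = 0 ↔ ∃ z, y = (p : W) ^ (c * (m + 1)) • z) :
    (∀ v : TenM φ Y L, inR R W α • v = 0 → v = 0) ∧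
    Function.Surjective (TenM.map (R := R) φ L f) ∧
    (∀ v : TenM φ Y L, TenM.map (R := R) φ L f v = 0 ↔ ∃ w, v = inR R W α ^ (m + 1) • w) ∧
    (∀ x : TenM φ Y' L, inR R W α ^ (m + 1) • x = 0) := by
  have h3 : ∀ v : TenM φ Y L, TenM.map (R := R) φ L f v = 0 ↔
      ∃ w, v = inR R W α ^ (m + 1) • w := by
    intro v
    rw [TenM.map_eq_zero_iff f hf _ hker]
    refine exists_congr fun w => ?_
    rw [TenM.alpha_pow_smul hαβ hβ]
  refine ⟨fun v hv => ?_, TenM.map_surjective f hf, h3, fun x => ?_⟩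
  · rw [TenM.alpha_smul hαβ hβ] at hv
    exact TenM.eq_zero_of_smul _ (regular_pow hY c) v hv
  · obtain ⟨v, rfl⟩ := TenM.map_surjective (R := R) (φ := φ) (L := L) f hf x
    exact (LinearMap.map_smul _ _ _).symm.trans ((h3 _).2 ⟨v, rfl⟩)

end Ten

end Vale.Agent.P177.Ap
end

section

/-!
P177: the flag formula for the graded pieces `M s / N s` of a graded family of pairs of ideals of
a commutative ring `W`, relations up to `η` (`η = 1` is allowed).
-/

namespace Vale.Agent.P177.Ap

open Vale.Agent.P177.Flag Vale.Agent.P177.PI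

universe u v w

section Conv

variable {W : Type w} [CommRing W] {G : Type v} [AddCommGroup G] {n : ℕ}
  {F : RFam W G} {τ : ∀ j : ℕ, (Fin j → Fin n) → W} {d : ℕ → G} {good : G → Prop} {η : W}

theorem flagRelA_of (h : FDataE F τ d good η) : FlagRelA (F.cls 0 η) (TT F τ d) where
  zero := h.flagRelE.zero
  same := h.flagRelE.same
  incl := h.flagRelE.incl
  step j ρ t := by
    rw [mul_sub, sub_eq_zero]
    exact h.flagRelE.step j ρ t
  top i t := by
    have h1 : (Pi.single i (1 : F.E) : Fin n → F.E) =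
        fun k => F.cls 0 ((Pi.single i (1 : W) : Fin n → W) k) := by
      funext k
      by_cases hk : k = i
      · subst hk
        rw [Pi.single_eq_same, Pi.single_eq_same, F.cls_one]
      · rw [Pi.single_eq_of_ne hk, Pi.single_eq_of_ne hk, F.cls_zero]
    have hv : ∀ k, (Pi.single i (1 : W) : Fin n → W) k ∈ F.M 0 := fun k => F.mem_zero _
    rw [h1, wdg_cls h.mem hv t, cls_zero_mul η (wdg_mem_M h.mem hv t),
      F.cls_eq_zero_iff (Ideal.mul_mem_left _ _ (wdg_mem_M h.mem hv t)), add_zero]
    exact h.top i t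

theorem eigRelA_of (h : FDataE F τ d good η) {X : Matrix (Fin n) (Fin n) W} {c : ℕ → W}
    (hX : ∀ (j : ℕ), j < n → ∀ (ρ : Fin j → Fin n) (t : Fin (j + 1) → Fin n),
      η * wdg (τ j) (fun i => (∑ l, X i l * τ (j + 1) (Fin.cons l ρ))
        - c j * τ (j + 1) (Fin.cons i ρ)) t ∈ F.N (d j + d (j + 1))) :
    EigRelA (F.cls 0 η) (TT F τ d) (fun i l => F.cls 0 (X i l)) (fun j => F.cls 0 (c j)) := by
  intro j hj ρ t
  have hv' : ∀ i, (∑ l, X i l * τ (j + 1) (Fin.cons l ρ)) - c j * τ (j + 1) (Fin.cons i ρ) ∈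
      F.M (d (j + 1)) := fun i =>
    sub_mem (Ideal.sum_mem _ fun l _ => Ideal.mul_mem_left _ _ (h.mem _ _))
      (Ideal.mul_mem_left _ _ (h.mem _ _))
  have h1 := wdg_cls (F := F) (d := d) h.mem (j := j) (s := d (j + 1)) hv' t
  have h2 : F.cls 0 η * wdg (TT F τ d j) (fun i => F.cls (d (j + 1))
      ((∑ l, X i l * τ (j + 1) (Fin.cons l ρ)) - c j * τ (j + 1) (Fin.cons i ρ))) t = 0 := by
    rw [h1, cls_zero_mul η (wdg_mem_M h.mem hv' t),
      F.cls_eq_zero_iff (Ideal.mul_mem_left _ _ (wdg_mem_M h.mem hv' t))]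
    exact hX j hj ρ t
  refine Eq.trans ?_ h2
  congr 2
  funext i
  rw [F.cls_sub (Ideal.sum_mem _ fun l _ => Ideal.mul_mem_left _ _ (h.mem _ _))
      (Ideal.mul_mem_left _ _ (h.mem _ _)),
    F.cls_sum _ _ fun l _ => Ideal.mul_mem_left _ _ (h.mem _ _)]
  congr 1
  · exact Finset.sum_congr rfl fun l _ => cls_zero_mul _ (h.mem _ _)
  · exact cls_zero_mul _ (h.mem _ _)

end Conv

section Theta

variable {D : Type u} [CommRing D] {η' q : D}
  {θ : ∀ (X : Type u) [AddCommGroup X] [Module D X], ℝ}
  {Adm : ∀ (X : Type u) [AddCommGroup X] [Module D X], Prop}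
  {W : Type w} [CommRing W] {G : Type v} [AddCommGroup G] {n : ℕ}
  {F : RFam W G} {τ : ∀ j : ℕ, (Fin j → Fin n) → W} {d : ℕ → G} {good : G → Prop} {η : W}

/-- **The flag formula**, for `(M s / N s) ^ n`; the pieces are `N j` up to `η ^ k`. -/
theorem IsTheta.flagWK (k : ℕ) (Θ : IsTheta η' q θ Adm) (h : FDataE F τ d good η) (hn : 0 < n) {s : G}
    (hs : good s) (hs1 : ∀ j < n, good (s + d j - d (j + 1)))
    (hs2 : ∀ j < n, good (s - d (j + 1)))
    (hcol : ∀ j < n, ColN F τ d (j + 1) (s + d j))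
    (hsko : ∀ j < n, SkoN F τ d j (s + d j - d (j + 1)))
    {X : Type u} [AddCommGroup X] [Module D X] (hq : ∀ x : X, q • x = 0)
    (e : X ≃+ (Fin n → Gr F s))
    (A : D → Matrix (Fin n) (Fin n) W)
    (hA : ∀ r x i, e (r • x) i = ∑ l, A r i l • e x l)
    (c : D → ℕ → W)
    (hEig : ∀ r, ∀ (j : ℕ), j < n → ∀ (ρ : Fin j → Fin n) (t : Fin (j + 1) → Fin n),
      η * wdg (τ j) (fun i => (∑ l, A r i l * τ (j + 1) (Fin.cons l ρ))
        - c r j * τ (j + 1) (Fin.cons i ρ)) t ∈ F.N (d j + d (j + 1)))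
    (hη' : ∀ x i, e (η' • x) i = η • e x i) (hcη : ∀ j, c η' j = η)
    (N : ℕ → Type u) [∀ j, AddCommGroup (N j)] [∀ j, Module D (N j)]
    (hN : ∀ j < n, Adm (N j)) (hNq : ∀ j < n, ∀ m : N j, q • m = 0)
    (π : ∀ j, Gr F (s + d j - d (j + 1)) →+ N j) (hπ : ∀ j < n, ∀ m : N j, ∃ g, π j g = η' ^ k • m)
    (hπ0 : ∀ j < n, ∀ g, π j g = 0 → η ^ k • g = 0)
    (hπD : ∀ j < n, ∀ (r : D) (g : Gr F (s + d j - d (j + 1))),
      π j (c r j • g) = r • π j g) :
    Adm X ∧ θ X = ∑ j ∈ Finset.range n, θ (N j) := by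
  classical
  let iz : ∀ s', AddZeroClass (F.part s') := fun s' =>
    (AddSubgroup.toAddGroup (F.part s')).toAddMonoid.toAddZeroClass
  -- the equivalence of a good part with the quotient
  let gr : ∀ s' : G, Gr F s' ≃+ F.part s' := fun s' =>
    AddEquiv.ofBijective (grPart F s') (grPart_bijective s')
  have hgr : ∀ s' (x : Gr F s'), gr s' x = grPart F s' x := fun _ _ => rfl
  have hle : ∀ s', MF F good s' ≤ F.part s' := by
    intro s'
    by_cases h1 : good s'
    · rw [MF_of_good h1]
    · rw [MF, if_neg h1]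
      exact bot_le
  have hsm : ∀ s' (w : W) (x : F.part s') (hx : F.cls 0 w • (x : F.E) ∈ F.part s'),
      (gr s').symm ⟨F.cls 0 w • (x : F.E), hx⟩ = w • (gr s').symm x := by
    intro s' w x hx
    rw [AddEquiv.symm_apply_eq]
    apply Subtype.ext
    rw [hgr, grPart_smul, ← hgr, AddEquiv.apply_symm_apply]
  let ι : X →+ (Fin n → F.E) :=
    { toFun := fun x i => ((gr s (e x i) : F.part s) : F.E)
      map_zero' := by
        funext i
        have h1 : e 0 i = 0 := by rw [e.map_zero]; rfl
        rw [h1, (gr s).map_zero]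
        rfl
      map_add' := fun x y => by
        funext i
        have h1 : e (x + y) i = e x i + e y i := by rw [e.map_add]; rfl
        rw [h1, (gr s).map_add]
        rfl }
  have hι : ∀ x i, ι x i = ((gr s (e x i) : F.part s) : F.E) := fun _ _ => rfl
  have hact : ∀ (w : W) (g : Gr F s), ((gr s (w • g) : F.part s) : F.E) =
      F.cls 0 w • ((gr s g : F.part s) : F.E) := by
    intro w g
    rw [hgr, hgr, grPart_smul]
  have hpart : ∀ (w : W) (s' : G), ∀ y ∈ F.part s', F.cls 0 w • y ∈ F.part s' := by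
    intro w s' y hy
    obtain ⟨x, hx, rfl⟩ := hy
    rw [smul_eq_mul, cls_zero_mul w hx]
    exact F.cls_mem_part (Ideal.mul_mem_left _ _ hx)
  let π' : ∀ j, MF F good (s + d j - d (j + 1)) →+ N j := fun j =>
    (π j).comp ((gr (s + d j - d (j + 1))).symm.toAddMonoidHom.comp
      (AddSubgroup.inclusion (hle _)))
  have hπ' : ∀ j (y : MF F good (s + d j - d (j + 1))),
      π' j y = π j ((gr _).symm ⟨y.1, hle _ y.2⟩) := fun _ _ => rfl
  have hpow : ∀ (s' : G) (l : ℕ) (y z : F.part s'), (z : F.E) = F.cls 0 η ^ l • (y : F.E) →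
      (gr s').symm z = η ^ l • (gr s').symm y := by
    intro s' l
    induction l with
    | zero =>
      intro y z hz
      rw [pow_zero, one_smul] at hz ⊢
      rw [Subtype.ext hz]
    | succ l ih =>
      intro y z hz
      have h2 : F.cls 0 η • (y : F.E) ∈ F.part s' := hpart _ _ _ y.2
      rw [pow_succ, mul_smul, ← hsm _ η y h2]
      refine ih ⟨_, h2⟩ z ?_
      rw [hz, pow_succ, mul_smul]
  refine Θ.flagK k (flagRelA_of h) h.graded (fun s' y hy => cls_zero_smul_mem η s' y hy) hn s
    (fun j hj => h.col (h.good_add s j hs) (hs1 j hj) (hcol j hj))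
    (fun j hj => h.sko (hs1 j hj) (by
      have : s + d j - d (j + 1) - d j = s - d (j + 1) := by abel
      rw [this]
      exact hs2 j hj) (hsko j hj)) hq ι ?_ ?_ ?_
    (fun r i l => F.cls 0 (A r i l)) ?_ (fun r i l y hy => cls_zero_smul_mem _ _ _ hy)
    (fun r j => F.cls 0 (c r j)) (fun r j s' y hy => cls_zero_smul_mem _ _ _ hy)
    (fun r => eigRelA_of h (hEig r)) ?_ (fun j => by
      show F.cls 0 (c η' j) = F.cls 0 η
      rw [hcη]) N hN hNq π' ?_ ?_ ?_
  · intro x y hxy
    apply e.injective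
    funext i
    apply (gr s).injective
    apply Subtype.ext
    exact congrFun hxy i
  · intro x i
    rw [MF_of_good hs, hι]
    exact (gr s (e x i)).2
  · intro v hv
    rw [MF_of_good hs] at hv
    refine ⟨e.symm fun i => (gr s).symm ⟨v i, hv i⟩, ?_⟩
    funext i
    rw [hι, AddEquiv.apply_symm_apply, AddEquiv.apply_symm_apply]
  · intro r x
    funext i
    have h1 : ∀ (f : Fin n → Gr F s), ((gr s (∑ l, f l) : F.part s) : F.E) =
        ∑ l, ((gr s (f l) : F.part s) : F.E) := fun f =>
      map_sum ((F.part s).subtype.comp (gr s).toAddMonoidHom) f Finset.univ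
    rw [hι, hA, h1]
    exact Finset.sum_congr rfl fun l _ => hact _ _
  · intro x
    funext i
    rw [hι, hη', hact]
    rfl
  · intro j hj m
    obtain ⟨g, hg⟩ := hπ j hj m
    refine ⟨⟨(gr _ g : F.part _), by
      rw [MF_of_good (hs1 j hj)]
      exact (gr _ g).2⟩, ?_⟩
    rw [hπ', ← hg]
    congr 1
    rw [AddEquiv.symm_apply_eq]
  · intro j hj y hy
    rw [hπ'] at hy
    have h1 := hπ0 j hj _ hy
    have h3 : F.cls 0 η ^ k • (y : F.E) ∈ F.part (s + d j - d (j + 1)) := by
      have : ∀ l : ℕ, F.cls 0 η ^ l • (y : F.E) ∈ F.part (s + d j - d (j + 1)) := by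
        intro l
        induction l with
        | zero => rw [pow_zero, one_smul]; exact hle _ y.2
        | succ l ih => rw [pow_succ', mul_smul]; exact hpart _ _ _ ih
      exact this k
    rw [← hpow _ k ⟨y.1, hle _ y.2⟩ ⟨_, h3⟩ rfl, AddEquiv.symm_apply_eq] at h1
    have h2 : gr (s + d j - d (j + 1)) 0 = 0 := (gr (s + d j - d (j + 1))).map_zero
    exact congrArg Subtype.val (h1.trans h2)
  · intro j hj r y
    rw [hπ', hπ', ← hπD j hj]
    congr 1
    exact hsm _ (c r j) ⟨y.1, hle _ y.2⟩ _

end Theta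

end Vale.Agent.P177.Ap
end

section

/-!
P177, (N5): exact relations modulo `(p - [t], p ^ N)` inside perfect ideals `J' ⊆ J` with
`t ^ c J ⊆ J'`.
-/

namespace Vale.Agent.P177.NatC

open Vale.Agent.P177.Perf Vale.Agent.P177.PI WittVector

universe u

variable (p : ℕ) [hp : Fact p.Prime] {C : Type u} [CommRing C] [CharP C p] [PerfectRing C p]

/-- `∑ p ^ i [t] ^ (c - 1 - i)`. -/
noncomputable def SS (t : C) (c : ℕ) : WittVector p C :=
  ∑ j ∈ Finset.range c, (p : WittVector p C) ^ j * teichmuller p t ^ (c - 1 - j)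

omit [CharP C p] [PerfectRing C p] in
theorem SS_mul (t : C) (c : ℕ) : SS p t c * ((p : WittVector p C) - teichmuller p t) =
    (p : WittVector p C) ^ c - teichmuller p t ^ c :=
  Commute.geom_sum₂_mul (Commute.all (p : WittVector p C) (teichmuller p t)) c

end Vale.Agent.P177.NatC
end

section

/-!
P177, (N4): relations which hold modulo `(p - [t], p ^ M)` after multiplication by `[η]` hold
exactly modulo `(p - [t], p ^ (M - κ))` when `η` divides `t ^ κ` and `t` is regular.
-/

namespace Vale.Agent.P177.NatC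

open Vale.Agent.P177.Perf Vale.Agent.P177.PI WittVector

universe u v

variable (p : ℕ) [hp : Fact p.Prime] {C : Type u} [CommRing C] [CharP C p] [PerfectRing C p]

/-- `p` is regular modulo `p - [t]`. -/
theorem exists_of_p_mul {t : C} (ht : t ∈ nonZeroDivisors C) {r a b : WittVector p C} {M : ℕ}
    (h : (p : WittVector p C) * r = ((p : WittVector p C) - teichmuller p t) * a +
      (p : WittVector p C) ^ (M + 1) * b) :
    ∃ a', r = ((p : WittVector p C) - teichmuller p t) * a' + (p : WittVector p C) ^ M * b := by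
  have h5 : a.coeff 0 = 0 := by
    have h1 := congrArg WittVector.constantCoeff h
    rw [map_add, map_mul, map_mul, map_mul, map_sub, map_pow, map_natCast, CharP.cast_eq_zero,
      zero_sub, zero_mul, zero_pow (Nat.succ_ne_zero M), zero_mul, add_zero] at h1
    have h2 : 0 = -(teichmuller p t).coeff 0 * a.coeff 0 := h1
    rw [teichmuller_coeff_zero, neg_mul, eq_comm, neg_eq_zero] at h2
    exact (mul_left_mem_nonZeroDivisors_eq_zero_iff ht).1 h2
  rw [← WittVector.mem_span_p_iff_coeff_zero_eq_zero, Ideal.mem_span_singleton'] at h5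
  obtain ⟨a', rfl⟩ := h5
  refine ⟨a', ?_⟩
  have h6 : (r - (((p : WittVector p C) - teichmuller p t) * a' +
      (p : WittVector p C) ^ M * b)) * (p : WittVector p C) = 0 := by
    linear_combination h
  exact sub_eq_zero.1 (WittVector.eq_zero_of_p_mul_eq_zero _ h6)

theorem exists_of_p_pow_mul {t : C} (ht : t ∈ nonZeroDivisors C) {r b : WittVector p C}
    {M : ℕ} (κ : ℕ) {a : WittVector p C}
    (h : (p : WittVector p C) ^ κ * r = ((p : WittVector p C) - teichmuller p t) * a +
      (p : WittVector p C) ^ (M + κ) * b) :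
    ∃ a', r = ((p : WittVector p C) - teichmuller p t) * a' + (p : WittVector p C) ^ M * b := by
  induction κ generalizing a with
  | zero => exact ⟨a, by simpa using h⟩
  | succ κ ih =>
    have h1 : (p : WittVector p C) * (p ^ κ * r) = ((p : WittVector p C) - teichmuller p t) * a +
        (p : WittVector p C) ^ (M + κ + 1) * b := by
      rw [← mul_assoc, ← pow_succ']; exact h
    obtain ⟨a', h2⟩ := exists_of_p_mul p ht h1
    exact ih h2

/-- **(N4)** -/
theorem exact_rel {t : C} (ht : t ∈ nonZeroDivisors C) {η w : C} {κ M : ℕ}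
    (hw : η * w = t ^ κ) {r a b : WittVector p C}
    (h : teichmuller p η * r = ((p : WittVector p C) - teichmuller p t) * a +
      (p : WittVector p C) ^ M * b) (hκ : κ ≤ M) :
    ∃ a' b', r = ((p : WittVector p C) - teichmuller p t) * a' +
      (p : WittVector p C) ^ (M - κ) * b' := by
  obtain ⟨N, rfl⟩ : ∃ N, M = N + κ := ⟨M - κ, by omega⟩
  rw [Nat.add_sub_cancel]
  have h1 : (p : WittVector p C) ^ κ * r = ((p : WittVector p C) - teichmuller p t) *
      (SS p t κ * r + teichmuller p w * a) + (p : WittVector p C) ^ (N + κ) *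
        (teichmuller p w * b) := by
    have h2 : teichmuller p t ^ κ = teichmuller p η * teichmuller p w := by
      rw [← map_pow, ← hw, map_mul]
    have h3 := SS_mul p t κ
    rw [h2] at h3
    linear_combination (-r) * h3 + teichmuller p w * h
  obtain ⟨a', h2⟩ := exists_of_p_pow_mul p ht κ h1
  exact ⟨a', _, h2⟩

variable {C' : Type v} [CommRing C'] [CharP C' p] [PerfectRing C' p] (f : C →+* C')

omit [CharP C p] [PerfectRing C p] in
/-- **(N4)** along `f : C → C'`. -/
theorem exact_rel_map {t η : C} (ht : f t ∈ nonZeroDivisors C') {w : C'} {κ M : ℕ}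
    (hw : f η * w = f t ^ κ) {r : WittVector p C}
    (h : ∃ a b, teichmuller p η * r = ((p : WittVector p C) - teichmuller p t) * a +
      (p : WittVector p C) ^ M * b) (hκ : κ ≤ M) :
    ∃ a b, WittVector.map f r = ((p : WittVector p C') - teichmuller p (f t)) * a +
      (p : WittVector p C') ^ (M - κ) * b := by
  obtain ⟨a, b, h⟩ := h
  have h1 := congrArg (WittVector.map f) h
  rw [map_mul, map_add, map_mul, map_mul, map_sub, map_pow, map_natCast, map_teichmuller,
    map_teichmuller] at h1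
  exact exact_rel p ht hw h1 hκ

end Vale.Agent.P177.NatC
end

section

/-!
P177, the ring `C♮` (block NAT-B): `W(C)/(p - [t], p ^ ν) → W(C♮)/(p - [t], p ^ ν)` has cokernel
killed by `[θ]` and kernel killed by `[θ ^ 3]`; transfer of the intersection property (HF).
-/

set_option linter.unusedSectionVars false

namespace Vale.Agent.P177.NatR

open WittVector Vale.Agent.P177.PI
open _root_.P202.Mix (teichmuller_mul_coeff)

universe u v

variable (p : ℕ) [hp : Fact p.Prime] {C : Type u} [CommRing C] [CharP C p] [PerfectRing C p]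
  {D : Type v} [CommRing D] [CharP D p] [PerfectRing D p] (f : C →+* D)

theorem mem_WI_top (x : WittVector p C) : x ∈ WI p (⊤ : Ideal C) := by
  apply mem_WI_of_coeff
  intro k
  exact ⟨rt p k (x.coeff k), Submodule.mem_top, (rt_pow p k _).symm⟩

end Vale.Agent.P177.NatR
end
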