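import Mathlib
import Vale.Agent.P177.Bd4.B5
import Vale.Agent.P177.Bd4.B7
import Vale.Agent.P177.Bd4.B4
import Vale.Agent.P177.Bd4.B8
import Vale.Agent.P177.Bd4.B1
attribute [-instance] CommGroupWithZero.toGroupWithZero Ring.toNonUnitalRing Pi.mulZeroOneClass RCLike.toDenselyNormedField LinearOrderedCommGroupWithZero.toCommGroupWithZero NormedAlgebra.toAlgebra NormedGroup.toGroup BoxIntegral.Box.instMembershipForallReal SeminormedCommRing.toCommRing littleWedderburn NormedCommRing.toCommRing IsometryClass.instCoeOutIsometryEquiv CategoryTheory.Preadditive.instGrpObj NormedRing.toNonUnitalNormedRing SemiRingCat.instSemiringObjForgetRingHomCarrier AddCommGroupWithOne.toAddCommMonoidWithOne NonUnitalCommCStarAlgebra.toNonUnitalNormedCommRing NonUnitalNormedRing.toMetricSpace NonUnitalNormedRing.toNormedAddCommGroup MonTypeEquivalenceMon.monMonoid CommCStarAlgebra.toNonUnitalCommCStarAlgebra Complex.instRCLike HomeomorphClass.instCoeOutHomeomorph NonUnitalRing.toNonUnitalNonAssocRing MulSemiringAction.toDistribMulAction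 NonUnitalAlgHomClass.instSemilinearMapClassOfNonUnitalAlgSemiHomClassToMonoidHomRingHom LeftPreLieRing.instLieAdmissibleRing Bialgebra.toAlgebra NonUnitalNormedCommRing.toNonUnitalCommRing NormedField.toMetricSpace CompleteLinearOrder.toLinearOrder LieAdmissibleRing.toNonUnitalNonAssocRing CommSemiRingCat.FilteredColimits.colimitCommSemiring CategoryTheory.GrpObj.toMonObj KleeneAlgebra.toIdemSemiring RKHS.instFunLike NormedAddGroup.toSeminormedAddGroup LeftPreLieAlgebra.toModule SemilinearIsometryClass.toContinuousSemilinearMapClass SemigroupWithZero.toMulZeroClass NormedField.toField LinearOrderedCommGroupWithZero.toLinearOrderedCommMonoidWithZero NonAssocCommSemiring.toNonUnitalNonAssocCommSemiring NormedCommGroup.toNormedGroup NormedField.toNormedCommRing NormedGroup.toSeminormedGroup NonAssocCommRing.toNonAssocCommSemiring BooleanRing.toCommRing ContinuousSemilinearEquivClass.continuousSemilinearMapClass SeminormedCommGroup.toSeminormedGroup CoalgEquivClass.toCoalgHomClass RightPreLieAlgebra.toModule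 TopologicalSpace.UpgradedIsCompletelyMetrizableSpace.toMetricSpace CategoryTheory.CommRingObj.toRingObj ContinuousSemilinearMapClass.toSemilinearMapClass DenselyNormedField.toNormedField SeminormedAddCommGroup.toAddCommGroup NormedCommGroup.toCommGroup RingCat.FilteredColimits.colimitRing ProfiniteAddGrp.addGroup CoalgHomClass.toSemilinearMapClass NormedAddCommGroup.toMetricSpace HopfAlgebra.toHopfAlgebraStruct CommGroup.toGroup LieAlgebra.toModule SeminormedRing.toRing instCoeTC AddOpposite.instAddZero LinearOrderedCommMonoidWithZero.toLinearOrder Action.instMulAction GrpTypeEquivalenceGrp.grpGroup NormedDivisionRing.toDivisionRing CommSemiring.toNonAssocCommSemiring OrderAddMonoidHom.instAddMonoidHomClass LinearOrderedAddCommGroupWithTop.instLinearOrderedAddCommMonoidWithTop DenselyNormedField.toNontriviallyNormedField Field.toEuclideanDomain NormedAddGroup.toMetricSpace CategoryTheory.RingObj.toMonObj ContDiffMapSupportedInClass.toDFunLike LieAdmissibleAlgebra.toModule NormedField.toNormedDivisionRing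 RingHomClass.toLinearMapClassNNRat LinearOrderedAddCommGroupWithTop.toLinearOrder RightPreLieRing.instLieAdmissibleRing CStarAlgebra.toNormedRing AddCommGroupWithOne.toAddCommGroup NormedGroup.toMetricSpace LinearOrderedCommMonoidWithZero.toCommMonoidWithZero ConditionallyCompleteLinearOrder.toLinearOrder AddCommGroupWithOne.toAddGroupWithOne NormedRing.toRing SeminormedCommRing.toNonUnitalSeminormedCommRing instCoeHTCT instCoeHTC SeminormedAddCommGroup.toSeminormedAddGroup HopfAlgebraStruct.toBialgebra CommSemiring.toBialgebra NormedRing.toMetricSpace NonAssocCommSemiring.toNonAssocSemiring NormedDivisionRing.toMetricSpace NonAssocCommRing.toNonUnitalNonAssocCommRing NonUnitalSeminormedRing.toSeminormedAddCommGroup AddCommMonCat.FilteredColimits.colimitAddCommMonoid NormedAddCommGroup.toAddCommGroup MonoidWithZero.toSemigroupWithZero NormedAddCommGroup.toNormedAddGroup MonCat.monoidObj NonUnitalNonAssocCommSemiring.toNonUnitalNonAssocSemiring SeminormedAddGroup.toAddGroup BialgHomClass.toCoalgHomClass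 RingHomClass.toLinearMapClassRat NormedCommGroup.toSeminormedCommGroup Pi.instTopForall CommRing.toAddCommGroupWithOne CategoryTheory.CommGrpObj.toGrpObj TestFunctionClass.toDFunLike ContinuousAddMonoidHom.instCoeOutOfAddMonoidHomClassOfContinuousMapClass MulSemiringActionSemiHomClass.toDistribMulActionSemiHomClass LieRing.toAddCommGroup instCoeTCOfCoe CStarAlgebra.toNonUnitalCStarAlgebra LinearOrderedAddCommGroupWithTop.toSubNegMonoid NormedCommGroup.toMetricSpace SeminormedCommRing.toSeminormedRing NonUnitalSeminormedCommRing.toNonUnitalCommRing CommMonTypeEquivalenceCommMon.commMonCommMonoid NormedCommRing.toSeminormedCommRing NonUnitalCommCStarAlgebra.toNonUnitalCStarAlgebra ContinuousMonoidHom.instCoeOutOfMonoidHomClassOfContinuousMapClass AlgHom.instContinuousLinearMapClassOfAlgHomClass EuclideanDomain.toCommRing SeminormedCommGroup.toCommGroup NonUnitalSeminormedCommRing.toNonUnitalSeminormedRing instNonUnitalAlgHomClassOfNonUnitalAlgEquivClass NormedAddCommGroup.toSeminormedAddCommGroup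 NonUnitalNormedCommRing.toNonUnitalNormedRing BialgEquivClass.toBialgHomClass NonUnitalNormedRing.toNonUnitalRing instCommGroupOfIsSimpleGroupOfIsNilpotent SeminormedRing.toNonUnitalSeminormedRing CommSemiring.toHopfAlgebra NormedCommRing.toNormedRing GradedMonoid.GradeZero.mulAction CategoryTheory.BimonObj.toMonObj NormedRing.toSeminormedRing NormedCommRing.toNonUnitalNormedCommRing instNonUnitalCStarAlgebraForall NonUnitalNormedRing.toNonUnitalSeminormedRing CategoryTheory.HopfObj.toBimonObj TopRep.hV1 CentroidHomClass.toAddMonoidHomClass CommGrpTypeEquivalenceCommGrp.commGrpCommGroup Torsor.toMulAction SemilinearIsometryClass.toSemilinearMapClass CommCStarAlgebra.toCStarAlgebra RightPreLieRing.toNonUnitalNonAssocRing LieAdmissibleRing.instLieRing ValuationClass.toMonoidWithZeroHomClass NormedSpace.toModule instCoeTOfCoeDep NontriviallyNormedField.toNormedField Action.FintypeCat.instMulActionObjFiniteOf NormedAddGroup.toAddGroup SeminormedGroup.toGroup BooleanRing.toRing LinearOrderedAddCommGroupWithTop.toAddCommMonoid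 instSMulZeroClass NonUnitalSeminormedRing.toNonUnitalRing NonUnitalCStarAlgebra.toNonUnitalNormedRing PositiveLinearMap.instContinuousLinearMapClassComplexOfLinearMapClassOfOrderHomClass SSet.stdSimplex.instFunLikeObjOppositeSimplexCategoryMkOpFinHAddNatOfNat AbsoluteValue.zeroHomClass Pi.normedRing SemiNormedGrp.str NormedDivisionRing.toNormedRing LeftPreLieRing.toNonUnitalNonAssocRing CommCStarAlgebra.toNormedCommRing AlgHomClass.linearMapClass NonUnitalNormedCommRing.toNonUnitalSeminormedCommRing Group.IsPerfect.subsingleton_of_isMulCommutative EMetricSpace.toPseudoEMetricSpace BialgHomClass.toAlgHomClass CompletelyDistribLattice.toCompleteDistribLattice BiheytingAlgebra.toCoheytingAlgebra GeneralizedHeytingAlgebra.toDistribLattice SeminormedGroup.toPseudoMetricSpace HeytingAlgebra.toGeneralizedHeytingAlgebra instCoeT Pi.nonUnitalNonAssocSemiring SetLike.instFintype ConditionallyCompletePartialOrderInf.toPartialOrder BooleanAlgebra.toBiheytingAlgebra PseudoMetricSpace.toUniformSpace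 Std.DTreeMap.Raw.instSingletonSigma CompleteLattice.toPartialOrder' NumberField.to_charZero Quaternion.instDivisionRing ChainCompletePartialOrder.toPartialOrder CategoryTheory.FinCategory.fintypeObj PseudoMetricSpace.toPseudoEMetricSpace instSubsingleton Pi.normedAddCommGroup CompleteBooleanAlgebra.toCompleteDistribLattice NonUnitalSemiring.toNonUnitalNonAssocSemiring CoheytingAlgebra.toGeneralizedCoheytingAlgebra WithIdeal.instTopologicalSpace IsEmpty.instSubsingleton CompleteDistribLattice.toBiheytingAlgebra SeminormedCommGroup.toPseudoMetricSpace MetricSpace.toEMetricSpace UpgradedStandardBorel.toTopologicalSpace BooleanAlgebra.toGeneralizedBooleanAlgebra ChainCompletePartialOrder.instOfCompleteLattice SeminormedAddCommGroup.toPseudoMetricSpace BooleanAlgebra.toDistribLattice TopologicalSpace.Compacts.instSetLike OrderRingHom.instRingHomClass Valued.toUniformSpace UniformSpace.toTopologicalSpace CompleteAtomicBooleanAlgebra.toCompletelyDistribLattice MetricSpace.toPseudoMetricSpace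 TopologicalSpace.UpgradedIsCompletelyPseudoMetrizableSpace.toPseudoMetricSpace ChainCompletePartialOrder.instOmegaCompletePartialOrder CompleteBooleanAlgebra.toBooleanAlgebra Order.Coframe.toCoheytingAlgebra CategoryTheory.Limits.Concrete.instUniqueToTypeTerminal NonUnitalSeminormedRing.toPseudoMetricSpace FinEnum.instFintype SeminormedAddGroup.toPseudoMetricSpace Order.Frame.toHeytingAlgebra instConditionallyCompletePartialOrderSup Order.Coframe.toCompleteLattice OmegaCompletePartialOrder.toPartialOrder CompleteDistribLattice.toCoframe OrderDual.instDivisionSemiring IsValuativeTopology.instValuedValueGroupWithZeroOfIsUniformAddGroup NonUnitalRing.toNonUnitalSemiring Order.Coframe.toDistribLattice CompletePartialOrder.toOmegaCompletePartialOrder CompleteLinearOrder.toBiheytingAlgebra SeminormedRing.toPseudoMetricSpace CategoryTheory.instFinCategoryOfFintypeOfIsThin Pi.mulOneClass CompletelyDistribLattice.toBiheytingAlgebra Order.Frame.toCompleteLattice GeneralizedCoheytingAlgebra.toLattice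 GeneralizedHeytingAlgebra.toLattice WithIdeal.instUniformSpace CompleteDistribLattice.toFrame LinearOrderedAddCommGroupWithTop.toSubtractionMonoid BiheytingAlgebra.toHeytingAlgebra Order.Frame.toDistribLattice Unique.fintype PadicComplex.normedField instDistribSMul CategoryTheory.Abelian.toPreadditive GeneralizedBooleanAlgebra.toGeneralizedCoheytingAlgebra GeneralizedCoheytingAlgebra.toDistribLattice PseudoEMetricSpace.toUniformSpace GeneralizedBooleanAlgebra.toDistribLattice CategoryTheory.Mat_.fintype LieAdmissibleAlgebra.toIsScalarTower CompleteLinearOrder.toCompleteLattice MulEquivClass.toMonoidWithZeroHomClass IsDedekindDomainDvr.isDedekindDomain CategoryTheory.CommGrpObj.mk NormedAddCommGroup.toENormedAddCommMonoid EuclideanDomain.instIsDomain TensorProduct.instModuleFstSnd IsDedekindDomain.toIsDomain Field.isDomain AlgEquivClass.toAlgHomClass CategoryTheory.instBraidedCategoryType CommGroupWithZero.toCommMonoidWithZero ESeminormedAddCommMonoid.toESeminormedAddMonoid Pi.mulZeroClass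 LieRinehartAlgebra.toIsScalarTower DivisionRing.isDomain LeftPreLieAlgebra.toIsScalarTower ENormedAddCommMonoid.toESeminormedAddCommMonoid Field.toGrindField IsStrictOrderedRing.isDomain AddCommMonoidWithOne.toAddCommMonoid ENormedAddMonoid.toESeminormedAddMonoid Pi.nonUnitalSemiring ESeminormedAddCommMonoid.toAddCommMonoid Pi.addMonoidWithOne instIsDedekindDomainOfIsDomainOfIsDedekindRing boolToProp RightPreLieAlgebra.toIsScalarTower RightPreLieAlgebra.instLieAdmissibleAlgebra ESeminormedAddMonoid.toAddMonoid AlgebraicGeometry.Scheme.instPreorderCarrierCarrierCommRingCat AddLeftCancelMonoid.toAddMonoid NormedAddGroup.toENormedAddMonoid AddMonCat.addMonoidObj AddCancelMonoid.toAddLeftCancelMonoid AddRightCancelMonoid.toAddMonoid BialgEquivClass.toCoalgEquivClass AddCancelCommMonoid.toAddCommMonoid TwoSidedIdeal.instIsTwoSidedCoeOrderHomIdealAsIdeal CommRing.toGrindCommRing ENormedAddCommMonoid.toENormedAddMonoid AddHom.addHomClass MulRingSeminormClass.toMonoidWithZeroHomClass AddCancelCommMonoid.toAddCancelMonoid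 instNonemptyOfMonad Fin.instBiheytingAlgebra Invertible.toNeZero ENormedCommMonoid.toESeminormedCommMonoid Nat.AtLeastTwo.toNeZero Fin.completeLinearOrder NormedCommGroup.toENormedCommMonoid LinearOrder.toLattice Ring.toGrindRing RCLike.toInnerProductSpaceReal Pi.nonAssocSemiring SemilinearIsometryEquivClass.toSemilinearIsometryClass Pi.subtractionMonoid StarSubalgebra.commCStarAlgebra FirstOrder.Language.instDecidableEqRelations StarSubalgebra.cstarAlgebra SubringClass.toNormedCommRing RightPreLieAlgebra.toSMulCommClass MulOpposite.instMulOne LieAdmissibleAlgebra.toSMulCommClass SubringClass.toNormedRing SubalgebraClass.normedRing FirstOrder.Language.instDecidableEqFunctions instMulActionSemiHomClassMulActionHom Pi.addZeroClass AbsoluteValue.mulHomClass MonoidWithZero.toMulActionWithZero AddQuantale.instAddLeftMono SubfieldClass.toNormedField LeftPreLieAlgebra.toSMulCommClass instNontrivialOfCharZero Nat.Prime.one_lt' NoMinOrder.infinite IsAlgClosed.instInfinite ValuationRing.isLocalRing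 DivisionRing.toNontrivial IsSimpleOrder.toNontrivial instInfiniteOfUncountable NoMaxOrder.infinite Infinite.instNontrivial LinearOrderedAddCommGroupWithTop.toNontrivial Field.instIsLocalRing Turing.FinTM2.decidableEqK FirstOrder.Language.instInfiniteOfModelDloOrderOfNonempty Fin.instCoheytingAlgebra EuclideanDomain.toNontrivial NontriviallyNormedField.infinite instInhabitedOfMonad Denumerable.instInfinite Fin.instHeytingAlgebra IsSimpleGroup.toNontrivial IsSimpleAddGroup.toNontrivial NeZero.of_gt' SemilatSupCat.isSemilatticeSup GroupWithZero.toNontrivial IsOrderedRing.toIsStrictOrderedRing PartOrdEmb.str IsStrictOrderedRing.toNontrivial CharZero.infinite IsSimpleRing.instNontrivial Nat.instNontrivial ConditionallyCompleteLinearOrderBot.toConditionallyCompleteLinearOrder MulDistribMulActionSemiHomClass.toMonoidHomClass Ideal.Quotient.normedCommRing CompleteLinearOrder.toConditionallyCompleteLinearOrderBot RCLike.toDecidableEq Pi.instBotForall BialgHomClass.toMonoidHomClass FunLike.toDecidableEq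 NonUnitalAlgHomClass.toNonUnitalRingHomClass CommSemiring.toGrindCommSemiring Semifield.toCommGroupWithZero decidableEq_of_subsingleton Semiring.toGrindSemiring MulCharClass.toMonoidHomClass instRingHomSurjectiveForallEvalRingHom FinEnum.decEq CategoryTheory.isConnected_of_nonempty_and_subsingleton CommMonCat.str IsStrictOrderedRing.toCharZero CategoryTheory.StrictBicategory.category Torsor.nonempty instIsSemirealOfIsStrictOrderedRingOfExistsAddOfLE Group.instTorsor instCharZeroOfIsSemireal instSMulCommClassOfIsScalarTower CategoryTheory.IsConnected.is_nonempty CategoryTheory.Groupoid.toCategory NonUnitalCommRing.toNonUnitalRing SeminormedAddCommGroup.toNormedAddTorsor NonAssocRing.toAddCommGroupWithOne IsRealClosed.toIsSemireal RCLike.charZero_rclike NormedAddTorsor.toAddTorsor CategoryTheory.IsSifted.instIsConnected SubalgebraClass.seminormedRing Real.instRCLike SubringClass.toSeminormedRing OrderDual.instPow_1 CompleteAtomicBooleanAlgebra.toCompleteBooleanAlgebra AddCommGroup.toGrindIntModule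 Monoid.End.instMonoidHomClass SubringClass.toSeminormedCommRing instFiniteProp CompleteBooleanAlgebra.toCompleteLattice SubfieldClass.toField CompleteSemilatticeSup.toPartialOrder SubfieldClass.toDivisionRing ConditionallyCompletePartialOrder.toConditionallyCompletePartialOrderInf NonUnitalCommSemiring.toNonUnitalNonAssocCommSemiring CancelCommMonoid.toLeftCancelMonoid IrreducibleSpace.toNonempty Semiring.toNonUnitalSemiring CancelMonoid.toLeftCancelMonoid Zero.instNonempty infSet_to_nonempty bot_nonempty LinearOrderedAddCommMonoidWithTop.toLinearOrder Group.toCancelMonoid Unique.instInhabited supSet_to_nonempty Preorder.smallCategory CategoryTheory.IsSifted.isSifted_of_hasBinaryCoproducts_and_nonempty CancelCommMonoid.toCancelMonoid One.instNonempty ConnectedSpace.toNonempty CommGroup.toCancelCommMonoid top_nonempty AddCommGroup.toAddCancelCommMonoid NonUnitalNonAssocSemiring.toDistribSMul PositiveLinearMap.instInnerProductSpaceComplexPreGNS AddCommMonoid.toGrindNatModule Pi.commMagma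 Pi.instOne Pi.instMaxForall_mathlib MulDistribMulAction.toMulAction SetLike.GradeZero.instCommRing MulActionWithZero.toMulAction MulSemiringAction.toMulDistribMulAction Ideal.Quotient.semiNormedCommRing SubfieldClass.toSubringClass Pi.distribSMul' NonAssocRing.toNonAssocSemiring Pi.distribMulAction' MulZeroClass.toSMulWithZero instIsDomain Nontrivial.to_nonempty GroupWithZero.toDivisionMonoid DivisionRing.toDivInvMonoid CommGroup.toDivisionCommMonoid Group.toDivisionMonoid Semigrp.str LeftPreLieAlgebra.instLieAdmissibleAlgebra LieAdmissibleAlgebra.instLieAlgebra IsPrincipalIdealRing.isDedekindDomain Pi.smulZeroClass' RingEquivClass.toNonUnitalRingHomClass GroupWithZero.toMonoidWithZero OneHom.oneHomClass LieAlgebra.ofAssociativeAlgebra GradedMonoid.GradeZero.commMonoid CommGroup.toCommMonoid ENormedCommMonoid.toENormedMonoid DivInvOneMonoid.toDivInvMonoid GradedMonoid.GradeZero.monoid LeftCancelMonoid.toMonoid ESeminormedMonoid.toMonoid NormedGroup.toENormedMonoid ESeminormedCommMonoid.toCommMonoid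 FloorSemiring.instCharZero RCLike.innerProductSpace RightCancelMonoid.toMonoid CancelMonoid.toRightCancelMonoid ESeminormedCommMonoid.toESeminormedMonoid MulZeroClass.negZeroClass DivisionMonoid.toDivInvMonoid RootedTree.orderBot ENormedMonoid.toESeminormedMonoid DivisionCommMonoid.toCommMonoid CancelCommMonoid.toCommMonoid SaturatedAddSubmonoid.instAddSubmonoidClass SimpleGraph.TripartiteFromTriangles.graph.instDecidableRelAdj AddQuantale.instAddRightMono DivisionSemiring.toGroupWithZero SetLike.GradeZero.instSemiring Quantale.instMulRightMono LinOrd.str SubringClass.toCommRing NonUnitalAlgSemiHomClass.toDistribMulActionSemiHomClass SubringClass.toRing SetLike.GradeZero.instRing FiniteDimensional.finiteDimensional_quotient SetLike.GradeZero.instCommSemiring Convex.instPathConnectedSpace ContractibleSpace.instOfNonemptyOfIndiscreteTopology One.ofOfNat1 NormedAddTorsor.toAddTorsor' Group.toDivInvMonoid GeneralizedBooleanAlgebra.toBot GeneralizedCoheytingAlgebra.toOrderBot HeytingAlgebra.toOrderBot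 ContractibleSpace.instPathConnectedSpace CompleteSemilatticeSup.toSupSet InvOneClass.toOne Fin.addCommMonoid BooleanAlgebra.toTop LinearOrderedAddCommGroupWithTop.toOrderTop BooleanAlgebra.toBoundedOrder RealTopologicalVectorSpace.contractibleSpace IrreducibleSpace.connectedSpace LinearOrderedAddCommMonoidWithTop.toOrderTop CoheytingAlgebra.toBoundedOrder Fin.addCommGroup Fin.instBoundedOrder HeytingAlgebra.toBoundedOrder AlgebraicGeometry.instOrderTopCarrierCarrierCommRingCatOfIsIntegral GeneralizedBooleanAlgebra.toOrderBot IdemSemiring.toOrderBot ContractibleSpace.instOfNonemptyOfSubsingleton UnitalShelf.toOne LinearOrderedCommMonoidWithZero.toOrderBot CoheytingAlgebra.toOrderTop GeneralizedHeytingAlgebra.toOrderTop ConditionallyCompleteLattice.toInfSet DivInvMonoid.toMonoid BooleanAlgebra.toBot MulSemiringActionSemiHomClass.toRingHomClass SimplyConnectedSpace.instPathConnectedSpace instNonemptyOfInhabited SimplyConnectedSpace.ofContractible PathConnectedSpace.connectedSpace ConditionallyCompleteLattice.toSupSet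 NormedSpace.instPathConnectedSpace Fin.instCommMonoid ConditionallyCompleteLinearOrderBot.toOrderBot Fin.instNontrivial CompleteLattice.toCompleteSemilatticeSup IsDiscreteValuationRing.toIsLocalRing RingConeClass.toSubsemiringClass TensorProduct.isScalarTower_right Algebra.TensorProduct.instNonUnitalRing TensorProduct.instNormedAddCommGroup instCoeOutOfCoeFun Algebra.TensorProduct.instNonAssocRing SubsemiringClass.toSemiring SubringClass.toNegMemClass Algebra.TensorProduct.right_isScalarTower Algebra.TensorProduct.instNonUnitalNonAssocRing NumberField.instFiniteDimensional Quantale.instMulLeftMono CompleteSemilatticeInf.toInfSet Fin.instInhabited CommGroupWithZero.toDivisionCommMonoid DivisionCommMonoid.toDivisionMonoid instTopologicalSpaceFin Pi.nonAssocRing CommMonoidWithZero.toCommMonoid Nat.Primes.coeNat coePNatNat Nat.Primes.coePNat instIsSemisimpleRingOfSubsingleton IsSemisimpleRing.isSemisimpleModule of_isDiscreteValuationRing smoothSheafCommRing.instLocalRing_stalk instIsSemisimpleModuleOfIsSimpleModule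 IsSimpleRing.instIsSemisimpleRing instIsSimpleModule ValuationRing.of_field CompletePartialOrder.toSupSet ConditionallyCompletePartialOrderSup.toSupSet AlgHom.instRingHomCompTripleComp Set.instAddLeftMono LinearOrder.toDecidableEq TensorProduct.CompatibleSMul.int Zero.ofOfNat0 DivInvOneMonoid.toInvOneClass Submodule.instIdemCommSemiring SubtractionCommMonoid.toAddCommMonoid Std.Time.WallTime.instHAddOffset_1 DivisionMonoid.toDivInvOneMonoid Fin.instNonUnitalCommRing Module.FaithfullyFlat.of_isIntegral_of_isDomain IsDedekindDomain.toIsDedekindRing LinearOrderedAddCommGroupWithTop.toIsOrderedAddMonoid ValuationRing.instOfIsLocalRingOfIsBezout SetLike.instFinite ConvexCone.instAddMemClass Nat.instAtLeastTwoHAddOfNat Pi.addCommMagma instFiniteCarrierToTopAndTotallyDisconnectedSpaceSecondCountableTopologyOfObj Std.LinearPreorderPackage.toPreorderPackage Std.LinearOrderPackage.toLinearPreorderPackage StarAlgEquivClass.instCoeHead CoalgHomClass.instCoeToCoalgHom BialgHomClass.instCoeToBialgHom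 CompletelyPositiveMapClass.instCoeToCompletelyPositiveMap instCoeTailRatOfRatCast NonUnitalStarRingHomClass.instCoeHeadNonUnitalStarRingHom SemilinearMapClass.instCoeToSemilinearMap Pi.instZero CategoryTheory.instCategoryObj DivisionSemiring.toNNRatCast instCoeTailNatOfNatCast DivisionRing.toNNRatCast instCoeHTCTOfCoeTailOfCoeHTC NNRatCast.toCoeTail DivisionRing.toRatCast BialgEquivClass.instCoeToBialgEquiv Semifield.toCommSemiring CoalgEquivClass.instCoeToCoalgEquiv LinearMapClass.instCoeToLinearMap instCoeTailIntOfIntCast StarRingEquivClass.instCoeHead SubNegZeroMonoid.toSubNegMonoid ValuationSubring.instSubringClass RingHomInvPair.triples₂ Vector.instHMul GroupWithZero.toDivInvMonoid PerfectClosure.instDivisionRing NonAssocRing.toNonUnitalNonAssocRing PerfectClosure.instField Ring.toNonAssocRing IsDedekindDomain.isPrincipalIdealRing IdemSemiring.toCanonicallyOrderedAdd EuclideanDomain.to_principal_ideal_domain CommRing.Pic.instFreeOfSubsingleton IsDedekindDomain.isDedekindDomainDvr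 IsPrincipalIdealRing.of_isNoetherianRing_of_isBezout NormMulClass.toNoZeroDivisors DivisionSemiring.isPrincipalIdealRing Ring.HasFiniteQuotients.instIsNoetherianRing Finite.of_subsingleton Algebra.IsFiniteSplit.instOfIsSepClosedOfEssFiniteTypeOfFormallyEtale instIsPrincipalIdealRingOfIsSemisimpleRing ValuationRing.toPreValuationRing instIsNoetherianRingOfIsArtinianRing IsDedekindRing.toIsNoetherian IsDedekindDomainDvr.toIsNoetherian IsSimpleModule.instIsNoetherian Multiset.decidableDforallMultiset Vector.instDecidableForallForallMemOfDecidablePred Option.decidableForallMem Module.FaithfullyFlat.toFlat instOfNatAtLeastTwo Module.FaithfullyFlat.self ConditionallyCompletePartialOrderInf.toInfSet Array.instDecidableForallForallMemOfDecidablePred forall_prop_decidable AddTorsor.nonempty Finset.decidableDforallFinset Fintype.decidableForallFintype Pi.subNegZeroMonoid Pi.nonUnitalNonAssocRing AddGroup.instAddTorsor Subsingleton.to_isCancelMulZero CompletePartialOrder.toOrderBot WittVector.inv_pair₁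 AlgebraicGeometry.Scheme.component_nontrivial Pi.subNegMonoid LinearMap.instLoewnerPartialOrder WithTop.linearOrderedAddCommMonoidWithTop Submodule.Quotient.normedAddCommGroup OrderDual.instRightDistribClass instCoeHTCOfCoeHeadOfCoeOTC Unique.instSubsingleton RingConeClass.toAddGroupConeClass BialgEquivClass.toAlgEquivClass Set.instAddRightMono RingHomInvPair.triples AddGroupConeClass.toAddSubmonoidClass instAlgEquivClassOfNonUnitalAlgEquivClass ContinuousAlgEquivClass.toAlgEquivClass AlgebraicGeometry.instIsNoetherianRingCarrierStalkCommRingCatPresheafOfIsLocallyNoetherian Pi.normedCommutativeRing ModuleCat.CoextendScalars.hasSMul LinearMap.IsScalarTower.compatibleSMul' SubalgebraClass.toAlgebra isNoetherian_of_subsingleton Module.Free.self Algebra.IsFiniteSplit.instFinitePresentation CentroidHom.instSMulCommClass_1 Module.Finite.self IsAzumaya.toFinite Algebra.instFiniteOfIsQuadraticExtension instCommCStarAlgebraForall instFinitePresentation ValuationRing.instIsBezout FiniteDimensional.finiteDimensional_self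 instFiniteOfFinitePresentation SetLike.GradeZero.instAlgebraSubtypeMemOfNat RingHom.Finite.instFinite FirstOrder.Language.graph.instSubsingleton PrincipalIdealRing.isNoetherianRing IsStrictOrderedRing.noZeroDivisors isNoetherian_of_finite Algebra.IsQuadraticExtension.toFree IsSemisimpleModule.instIsNoetherianOfFinite Pi.instIsRightCancelAdd SubringClass.toNonAssocRing UniqueFactorizationMonoid.toIsCancelMulZero instIsCancelMulZero CommBialgCat.instCommRingObjForgetBialgHomCarrier CategoryTheory.MarkovCategory.toCopyDiscardCategory SubgroupClass.normedGroup CategoryTheory.SymmetricCategory.toBraidedCategory Pi.instMinForall_mathlib CategoryTheory.CopyDiscardCategory.toSymmetricCategory SubmoduleClass.module' SMulMemClass.toModule CategoryTheory.CartesianMonoidalCategory.toSymmetricCategory SubringClass.toNonAssocCommRing instIsCancelMulZero_1 CategoryTheory.PositiveCategory.toMarkovCategory GCDMonoid.toIsCancelMulZero SubgroupClass.normedCommGroup NoZeroDivisors.to_isCancelMulZero IsRegularRing.toIsNoetherian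 instIsRegularRingOfIsDedekindDomain WithTop.instIsBotZeroClass String.Slice.Pos.instLinearOrderPackage instMonadLiftTOfMonadLift instMonadLiftT Pi.instCanonicallyOrderedAddForall RootedTree.semilatticeInf Std.DTreeMap.Raw.instInsertSigma Algebra.TensorProduct.instAddCommGroupWithOne Module.Flat.instOfIsDedekindDomainOfIsTorsionFree ValuationRing.instLinearOrderIdealOfDecidableLE SubringClass.toSubsemiringClass Algebra.TensorProduct.instNonUnitalNonAssocSemiring Algebra.TensorProduct.instNonUnitalSemiring Module.toMulActionWithZero -- iprune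

set_option linter.all false

section

/-!
The local criterion of flatness for a local map of noetherian local rings, and completions of
regular local rings.
-/

namespace Vale.Agent.P177

open CategoryTheory TensorProduct Function IsLocalRing RingTheory.Sequence Pointwise

universe u

section crit

variable {R C : Type u} [CommRing R] [IsLocalRing R] [IsNoetherianRing R] [CommRing C]
  [IsLocalRing C] [IsNoetherianRing C] [Algebra R C] [IsLocalHom (algebraMap R C)]

/-- Nakayama for the first Tor with a local algebra. -/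
theorem tor_one_subsingleton_of_smul (M : Type u) [AddCommGroup M] [Module R M]
    [Module.Finite R M] (x : R) (hx : x ∈ maximalIdeal R)
    (h : ∀ t : TorM R 1 M C, ∃ t', t = x • t') : Subsingleton (TorM R 1 M C) := by
  obtain ⟨n, g, hg⟩ := Module.Finite.exists_fin' R M
  have hex : Exact (LinearMap.ker g).subtype g := by
    intro y
    simp
  obtain ⟨e1⟩ := tor_one (LinearMap.ker g).subtype g (Submodule.injective_subtype _) hg hex C
  obtain ⟨e2⟩ := ker_comm (N := C) (LinearMap.ker g).subtype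
  let θ : C ⊗[R] LinearMap.ker g →ₗ[C] C ⊗[R] (Fin n → R) :=
    (LinearMap.ker g).subtype.baseChange C
  have hθ : ∀ y, y ∈ LinearMap.ker θ ↔
      y ∈ LinearMap.ker ((LinearMap.ker g).subtype.lTensor C) := fun y => Iff.rfl
  let e := e1 ≪≫ₗ e2
  have hsub : Subsingleton (LinearMap.ker θ) := by
    apply subsingleton_of_smul_surjective (B := C) (LinearMap.ker θ) (algebraMap R C x)
      (algebraMap_mem_maximalIdeal hx)
    rintro ⟨y, hy⟩
    obtain ⟨t', ht'⟩ := h (e.symm ⟨y, hy⟩)
    refine ⟨⟨(e t').1, (e t').2⟩, Subtype.ext ?_⟩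
    have h1 : (⟨y, hy⟩ : LinearMap.ker ((LinearMap.ker g).subtype.lTensor C)) = x • e t' := by
      rw [← map_smul, ← ht', LinearEquiv.apply_symm_apply]
    have h2 := congrArg Subtype.val h1
    change y = algebraMap R C x • (e t').1
    rw [algebraMap_smul]
    exact h2
  refine subsingleton_of_forall_eq 0 fun t => ?_
  apply e.injective
  apply Subtype.ext
  have h1 : (⟨(e t).1, (e t).2⟩ : LinearMap.ker θ) = 0 := Subsingleton.elim _ _
  rw [map_zero]
  exact congrArg Subtype.val h1

theorem tor_one_subsingleton_of_residue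
    (h : Subsingleton (TorM R 1 (R ⧸ maximalIdeal R) C)) (M : Type u) [AddCommGroup M]
    [Module R M] [Module.Finite R M] : Subsingleton (TorM R 1 M C) := by
  suffices H : ∀ I : Ideal R, ∀ (M : Type u) [AddCommGroup M] [Module R M] [Module.Finite R M],
      I ≤ Module.annihilator R M → Subsingleton (TorM R 1 M C) from H ⊥ M bot_le
  intro I
  induction I using IsNoetherian.induction with
  | hgt I ih =>
  intro M _ _ hM hI
  induction hM using IsNoetherianRing.induction_on_isQuotientEquivQuotientPrime R with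
  | subsingleton N =>
    have h1 := tor_smul_eq_zero_left (R := R) (M := N) 1 (fun m => Subsingleton.elim _ _) 1 C
    exact ⟨fun x y => by rw [← one_smul R x, ← one_smul R y, h1, h1]⟩
  | quotient N P e =>
    have hIP : I ≤ P.1 := by
      intro a ha
      have h1 := Module.mem_annihilator.1 (hI ha) (e.symm (Ideal.Quotient.mk P.1 1))
      rw [← map_smul, LinearEquiv.map_eq_zero_iff] at h1
      rw [← Ideal.Quotient.eq_zero_iff_mem, ← h1, Algebra.smul_def, map_one, mul_one]
      rfl
    by_cases hP : P.1 = maximalIdeal R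
    · have e1 : N ≃ₗ[R] (R ⧸ maximalIdeal R) := e ≪≫ₗ Submodule.quotEquivOfEq _ _ hP
      exact (torCongrLeft 1 e1 C).toEquiv.subsingleton
    · have hlt : P.1 < maximalIdeal R := lt_of_le_of_ne (le_maximalIdeal P.2.ne_top) hP
      obtain ⟨x, hxm, hxP⟩ := SetLike.exists_of_lt hlt
      let f : (R ⧸ P.1) →ₗ[R] (R ⧸ P.1) := LinearMap.lsmul R (R ⧸ P.1) x
      let g : (R ⧸ P.1) →ₗ[R] QuotSMulTop x (R ⧸ P.1) := Submodule.mkQ _
      have hfi : Injective f := by
        rw [injective_iff_map_eq_zero]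
        intro a ha
        obtain ⟨a, rfl⟩ := Ideal.Quotient.mk_surjective a
        have h1 : Ideal.Quotient.mk P.1 (x * a) = 0 := ha
        rw [Ideal.Quotient.eq_zero_iff_mem] at h1 ⊢
        exact (P.2.mem_or_mem h1).resolve_left hxP
      have hgs : Surjective g := Submodule.mkQ_surjective _
      have hex : Exact f g := by
        intro y
        rw [Submodule.mkQ_apply, Submodule.Quotient.mk_eq_zero]
        rw [Submodule.mem_smul_pointwise_iff_exists]
        simp [f]
      have hann : I < I ⊔ Ideal.span {x} := by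
        refine lt_of_le_of_ne le_sup_left ?_
        intro h
        apply hxP
        apply hIP
        rw [h]
        exact Ideal.mem_sup_right (Ideal.mem_span_singleton_self x)
      have hq : Subsingleton (TorM R 1 (QuotSMulTop x (R ⧸ P.1)) C) := by
        apply ih _ hann
        rw [sup_le_iff]
        constructor
        · intro a ha
          rw [Module.mem_annihilator]
          intro m
          obtain ⟨m, rfl⟩ := hgs m
          obtain ⟨m, rfl⟩ := Ideal.Quotient.mk_surjective m
          rw [← map_smul, Algebra.smul_def]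
          have : (algebraMap R (R ⧸ P.1)) a = 0 := Ideal.Quotient.eq_zero_iff_mem.2 (hIP ha)
          rw [this, zero_mul, map_zero]
        · rw [Ideal.span_singleton_le_iff_mem, Module.mem_annihilator]
          intro m
          obtain ⟨m, rfl⟩ := hgs m
          rw [← map_smul]
          exact (hex _).2 ⟨m, rfl⟩
      have h5 : Subsingleton (TorM R 1 (R ⧸ P.1) C) := by
        obtain ⟨δ, -, -, h3⟩ := exists_torDelta f g hfi hgs hex C
        apply tor_one_subsingleton_of_smul (R ⧸ P.1) x hxm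
        intro t
        obtain ⟨y, rfl⟩ := (h3 1 t).1 (Subsingleton.elim _ _)
        exact ⟨y, torMap_smul_id 1 x f (fun m => rfl) y⟩
      exact (torCongrLeft 1 e C).toEquiv.subsingleton
  | exact N₁ N₂ N₃ f g hf hg h ih1 ih3 =>
    exact tor_subsingleton_mid f g hf hg h C 1
      (ih1 (hI.trans (LinearMap.annihilator_le_of_injective f hf)))
      (ih3 (hI.trans (LinearMap.annihilator_le_of_surjective g hg)))

/-- The local criterion of flatness. -/
theorem flat_of_tor_residue (h : Subsingleton (TorM R 1 (R ⧸ maximalIdeal R) C)) :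
    Module.Flat R C :=
  flat_of_tor_one C fun I => tor_one_subsingleton_of_residue h (R ⧸ I)

end crit

end Vale.Agent.P177
end

section

/-!
Flatness of a local map from a regular sequence generating the maximal ideal.
-/

namespace Vale.Agent.P177

open CategoryTheory TensorProduct Function IsLocalRing RingTheory.Sequence Pointwise

universe u

section

variable {B : Type u} [CommRing B]

theorem tor_vanish_of_pair (zs : List B) (Z : Type u) [AddCommGroup Z] [Module B Z]
    (hreg : IsWeaklyRegular Z zs) (W : Type u) [AddCommGroup W] [Module B W]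
    (hW : IsWeaklyRegular (Z ⊗[B] W) zs)
    (h : ∀ j, 1 ≤ j → Subsingleton (TorM B j Z W)) :
    ∀ j, 1 ≤ j → Subsingleton (TorM B j (Z ⧸ (Ideal.ofList zs • ⊤ : Submodule B Z)) W) := by
  induction zs generalizing Z with
  | nil =>
    intro j hj
    have := h j hj
    have e : (Z ⧸ (Ideal.ofList ([] : List B) • ⊤ : Submodule B Z)) ≃ₗ[B] Z :=
      Submodule.quotEquivOfEqBot _ (by simp)
    exact (torCongrLeft j e W).toEquiv.subsingleton
  | cons z zs ih =>
    intro j hj
    rw [isWeaklyRegular_cons_iff] at hreg hW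
    have h1 : ∀ j, 1 ≤ j → Subsingleton (TorM B j (QuotSMulTop z Z) W) := by
      intro j hj
      obtain ⟨j, rfl⟩ : ∃ k, j = k + 1 := ⟨j - 1, by omega⟩
      obtain ⟨f, g, hf, hi, hs, hex⟩ := quot_ses Z z hreg.1
      obtain ⟨δ, h2, h3, -⟩ := exists_torDelta f g hi hs hex W
      have h4 : Injective (torMap j f W) := by
        rcases Nat.eq_zero_or_pos j with rfl | hj
        · rw [injective_iff_map_eq_zero]
          intro x hx
          apply (torZero Z W).injective
          rw [map_zero]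
          have h5 : z • torZero Z W x = 0 := by
            rw [← map_smul, ← torMap_smul_id 0 z f hf x, hx, map_zero]
          exact hW.1 (by
            change z • torZero Z W x = z • (0 : Z ⊗[B] W)
            rw [h5, smul_zero])
        · have := h j hj
          exact injective_of_subsingleton _
      refine subsingleton_of_forall_eq 0 fun x => ?_
      have := h (j + 1) (by omega)
      have h6 : δ j x = 0 := by
        apply h4
        rw [map_zero]
        exact (h3 j).apply_apply_eq_zero x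
      obtain ⟨y, rfl⟩ := (h2 j x).1 h6
      rw [Subsingleton.elim y 0, map_zero]
    have h2 := ih (QuotSMulTop z Z) hreg.2
      (((QuotSMulTop.quotSMulTopTensorEquivQuotSMulTop z W Z).isWeaklyRegular_congr zs).2 hW.2) h1 j hj
    exact (torCongrLeft j
      (Submodule.quotOfListConsSMulTopEquivQuotSMulTopInner Z z zs) W).toEquiv.subsingleton

end

theorem flat_of_weaklyRegular {R C : Type u} [CommRing R] [IsLocalRing R] [IsNoetherianRing R]
    [CommRing C] [IsLocalRing C] [IsNoetherianRing C] [Algebra R C] [IsLocalHom (algebraMap R C)]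
    (rs : List R) (hrs : Ideal.ofList rs = maximalIdeal R) (hR : IsWeaklyRegular R rs)
    (hC : IsWeaklyRegular C (rs.map (algebraMap R C))) : Module.Flat R C := by
  apply flat_of_tor_residue
  rw [isWeaklyRegular_map_algebraMap_iff] at hC
  have h1 := tor_vanish_of_pair rs R hR C
    (((TensorProduct.lid R C).isWeaklyRegular_congr rs).2 hC) (fun j hj => by
      obtain ⟨j, rfl⟩ : ∃ k, j = k + 1 := ⟨j - 1, by omega⟩
      exact tor_subsingleton_of_flat j) 1 le_rfl
  have e : (R ⧸ maximalIdeal R) ≃ₗ[R] (R ⧸ (Ideal.ofList rs • ⊤ : Submodule R R)) :=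
    Submodule.quotEquivOfEq _ _ (by rw [hrs]; simp)
  exact (torCongrLeft 1 e C).toEquiv.subsingleton

end Vale.Agent.P177
end

section

/-!
Complete intersections, the Cohen-Macaulay case, and cutting by an element.
-/

namespace Vale.Agent.P177

open CategoryTheory TensorProduct Function IsLocalRing RingTheory.Sequence Pointwise

universe u

variable {R₁ R₂ T : Type u} [CommRing R₁] [CommRing R₂] [CommRing T]
  [IsRegularLocalRing R₁] [IsRegularLocalRing R₂] [IsRegularLocalRing T]
  [Algebra R₁ T] [Algebra R₂ T] [Module.Flat R₁ T] [Module.Flat R₂ T]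
  [IsLocalHom (algebraMap R₁ T)] [IsLocalHom (algebraMap R₂ T)] {r₁ r₂ t b : ℕ}

theorem nontrivial_tensor_local {T : Type u} [CommRing T] [IsLocalRing T] (X Y : Type u)
    [AddCommGroup X] [Module T X] [Module.Finite T X] [AddCommGroup Y] [Module T Y]
    [Module.Finite T Y] [Nontrivial X] [Nontrivial Y] : Nontrivial (X ⊗[T] Y) := by
  obtain ⟨f, hf⟩ := exists_surjective_residue (S := T) X
  obtain ⟨g, hg⟩ := exists_surjective_residue (S := T) Y
  obtain ⟨x, hx⟩ := hf 1
  obtain ⟨y, hy⟩ := hg 1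
  refine ⟨x ⊗ₜ y, 0, fun h0 => ?_⟩
  have h1 : LinearMap.mul' T (T ⧸ maximalIdeal T) (TensorProduct.map f g (x ⊗ₜ y)) = 0 := by
    rw [h0, map_zero, map_zero]
  rw [TensorProduct.map_tmul, hx, hy, LinearMap.mul'_apply, mul_one] at h1
  exact one_ne_zero h1

theorem annihilator_quot_list {R : Type u} [CommRing R] (zs : List R) :
    Module.annihilator R (R ⧸ (Ideal.ofList zs • ⊤ : Submodule R R)) = Ideal.ofList zs := by
  rw [smul_eq_mul, Ideal.mul_top, Ideal.annihilator_quotient]

omit [IsRegularLocalRing R₂] [Module.Flat R₂ T] [IsLocalHom (algebraMap R₂ T)] in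
/-- Euler characteristic with a complete intersection. -/
theorem chi_ci_eq (ht : ringKrullDim T = t) (zs : List R₁) (hzs : ∀ z ∈ zs, z ∈ maximalIdeal R₁)
    (hreg : IsWeaklyRegular R₁ zs) (G : Type u) [AddCommGroup G] [Module R₂ G]
    [Module.Finite R₂ G] (h : FP R₁ R₂ T (R₁ ⧸ (Ideal.ofList zs • ⊤ : Submodule R₁ R₁)) G) :
    chi R₁ R₂ T t (R₁ ⧸ (Ideal.ofList zs • ⊤ : Submodule R₁ R₁)) G =
      eul (zs.map (algebraMap R₁ T)) (T ⊗[R₂] G) := by
  have hregT : IsWeaklyRegular T (zs.map (algebraMap R₁ T)) := hreg.of_flat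
  have hFL : FL2 (zs.map (algebraMap R₁ T)) T (T ⊗[R₂] G) := by
    refine h.trans (Ideal.radical_mono ?_)
    rw [annihilator_quot_list, Ideal.map_ofList]
    exact sup_le le_sup_right ((map_ann_le_tensor G).trans (le_sup_of_le_left le_sup_right))
  have hv : ∀ j, 1 ≤ j → Subsingleton (TorM T j T (T ⊗[R₂] G)) := by
    intro j hj
    obtain ⟨j, rfl⟩ : ∃ k, j = k + 1 := ⟨j - 1, by omega⟩
    exact tor_subsingleton_of_flat j
  have hlen := length_le_dim ht _ (map_mem_maximalIdeal (T := T) hzs) hregT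
  have hsum := sum_length_tor_quot (zs.map (algebraMap R₁ T)) (T ⊗[R₂] G) (t + 1) T hregT hFL 1
    hv (by omega)
  obtain ⟨e⟩ := exists_baseChange_quot (T := T) zs R₁
  have e2 : (T ⊗[R₁] R₁) ≃ₗ[T] T := AlgebraTensorModule.rid R₁ T T
  have e3 : ((T ⊗[R₁] R₁) ⧸ (Ideal.ofList (zs.map (algebraMap R₁ T)) • ⊤ :
      Submodule T (T ⊗[R₁] R₁))) ≃ₗ[T]
      (T ⧸ (Ideal.ofList (zs.map (algebraMap R₁ T)) • ⊤ : Submodule T T)) :=
    Submodule.Quotient.equiv _ _ e2 (by
      rw [Submodule.map_smul'', Submodule.map_top, LinearEquiv.range])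
  unfold chi
  rw [eulerTor_congr (e ≪≫ₗ e3) (LinearEquiv.refl T (T ⊗[R₂] G)) (t + 1)]
  unfold eulerTor
  rw [hsum, Finset.sum_range_succ', Finset.sum_eq_zero, zero_add, pow_zero, one_mul]
  · exact eul_congr _ (torZero _ _ ≪≫ₗ TensorProduct.lid T _)
  · intro j _
    have := hv (j + 1) (by omega)
    rw [eul_subsingleton, mul_zero]

omit [IsRegularLocalRing R₁] [IsRegularLocalRing R₂] [IsRegularLocalRing T] [Module.Flat R₁ T]
  [Module.Flat R₂ T] [IsLocalHom (algebraMap R₁ T)] [IsLocalHom (algebraMap R₂ T)] in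
theorem fl_of_fp_ci [IsLocalRing T] (zs : List R₁) (G : Type u) [AddCommGroup G] [Module R₂ G]
    (h : FP R₁ R₂ T (R₁ ⧸ (Ideal.ofList zs • ⊤ : Submodule R₁ R₁)) G) :
    FL (zs.map (algebraMap R₁ T)) (T ⊗[R₂] G) := by
  refine h.trans (Ideal.radical_mono ?_)
  rw [annihilator_quot_list, Ideal.map_ofList]
  exact sup_le le_sup_right ((map_ann_le_tensor G).trans le_sup_left)

/-- All of Serre's statements for complete intersections. -/
theorem pos_ci (h1 : ringKrullDim R₁ = r₁) (h2 : ringKrullDim R₂ = r₂)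
    (ht : ringKrullDim T = t) (hb : r₁ + r₂ = t + b) (zs : List R₁)
    (hzs : ∀ z ∈ zs, z ∈ maximalIdeal R₁)
    (hreg : IsWeaklyRegular R₁ zs) (G : Type u) [AddCommGroup G] [Module R₂ G]
    [Module.Finite R₂ G] (h : FP R₁ R₂ T (R₁ ⧸ (Ideal.ofList zs • ⊤ : Submodule R₁ R₁)) G) :
    Pos R₁ R₂ T t b (R₁ ⧸ (Ideal.ofList zs • ⊤ : Submodule R₁ R₁)) G := by
  have hr1 := dim_le_dim (R := R₁) (T := T) h1 ht
  have hr2 := dim_le_dim (R := R₂) (T := T) h2 ht
  have hlen : zs.length ≤ r₁ := length_le_dim h1 zs hzs hreg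
  have hdim := supportDim_quot_of_weaklyRegular h1 zs hzs hreg
  have hchi := chi_ci_eq ht zs hzs hreg G h
  have hFL := fl_of_fp_ci (T := T) zs G h
  have hmap := map_mem_maximalIdeal (T := T) hzs
  have hle := supportDim_le_length _ hmap _ hFL
  rw [List.length_map] at hle
  obtain ⟨hnn, hpos⟩ := eul_nonneg_pos _ hmap _ hFL
  rw [List.length_map] at hpos
  refine ⟨?_, ?_, ?_, ?_⟩
  · intro e g he hg
    rw [hdim] at he
    have he' : e ≤ r₁ - zs.length := by exact_mod_cast he
    have h3 := (le_supportDim_baseChange (T := T) h2 ht G g hg).trans hle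
    have h4 : g + (t - r₂) ≤ zs.length := by exact_mod_cast h3
    omega
  · rw [hchi]; exact hnn
  · intro e g he hg hbe
    rw [hdim] at he
    have he' : e ≤ r₁ - zs.length := by exact_mod_cast he
    rw [hchi]
    apply hpos
    refine le_trans ?_ (le_supportDim_baseChange (T := T) h2 ht G g hg)
    have : zs.length ≤ g + (t - r₂) := by omega
    exact_mod_cast this
  · intro hh
    rw [hchi]
    apply eul_eq_zero_of_dim _ hmap _ hFL
    rw [List.length_map]
    intro hcon
    obtain ⟨g, hg, hgl⟩ := supportDim_baseChange_le (T := T) h2 ht G _ hcon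
    have := hh (r₁ - zs.length) g hdim.ge hg
    omega

theorem pos_residue (h1 : ringKrullDim R₁ = r₁) (h2 : ringKrullDim R₂ = r₂)
    (ht : ringKrullDim T = t) (hb : r₁ + r₂ = t + b) (G : Type u) [AddCommGroup G] [Module R₂ G]
    [Module.Finite R₂ G] (h : FP R₁ R₂ T (R₁ ⧸ maximalIdeal R₁) G) :
    Pos R₁ R₂ T t b (R₁ ⧸ maximalIdeal R₁) G := by
  obtain ⟨rs, hrs, hlen, hreg⟩ := exists_rsp R₁ h1
  have e1 : (R₁ ⧸ (Ideal.ofList rs • ⊤ : Submodule R₁ R₁)) ≃ₗ[R₁] (R₁ ⧸ maximalIdeal R₁) :=
    Submodule.quotEquivOfEq _ _ (by rw [hrs]; simp)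
  have h' : FP R₁ R₂ T (R₁ ⧸ (Ideal.ofList rs • ⊤ : Submodule R₁ R₁)) G :=
    h.mono e1.symm.annihilator_eq.le le_rfl
  exact (pos_ci h1 h2 ht hb rs (fun z hz => by rw [← hrs]; exact Ideal.subset_span hz) hreg G
    h').congr e1 (LinearEquiv.refl _ _)

/-- The Cohen-Macaulay case, in terms of depth. -/
theorem chi_pos_of_depth (h1 : ringKrullDim R₁ = r₁) (h2 : ringKrullDim R₂ = r₂)
    (ht : ringKrullDim T = t) (hb : r₁ + r₂ = t + b) (E G : Type u) [AddCommGroup E]
    [Module R₁ E] [Module.Finite R₁ E] [AddCommGroup G] [Module R₂ G]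
    [Module.Finite R₂ G] (h : FP R₁ R₂ T E G) (zs : List R₁) (ws : List R₂)
    (hzs : ∀ z ∈ zs, z ∈ maximalIdeal R₁) (hws : ∀ z ∈ ws, z ∈ maximalIdeal R₂)
    (hz : IsWeaklyRegular E zs) (hw : IsWeaklyRegular G ws) (hzl : zs.length ≤ r₁)
    (hwl : ws.length ≤ r₂) (hlen : b ≤ zs.length + ws.length) :
    0 ≤ chi R₁ R₂ T t E G ∧ (Nontrivial E → Nontrivial G → 0 < chi R₁ R₂ T t E G) := by
  have hr1 := dim_le_dim (R := R₁) (T := T) h1 ht
  have hr2 := dim_le_dim (R := R₂) (T := T) h2 ht
  obtain ⟨us, hul, hus, hureg⟩ := exists_regular_baseChange (T := T) h1 ht E zs hzs hz hzl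
  obtain ⟨vs, hvl, hvs, hvreg⟩ := exists_regular_baseChange (T := T) h2 ht G ws hws hw hwl
  have hv : ∀ j, 1 ≤ j → Subsingleton (TorM T j (T ⊗[R₁] E) (T ⊗[R₂] G)) := fun j hj =>
    tor_subsingleton_of_depth ht _ _ h.fl2 us vs hus hvs hureg hvreg j (by omega)
  have hchi : chi R₁ R₂ T t E G =
      ((Module.length T (TorM T 0 (T ⊗[R₁] E) (T ⊗[R₂] G))).toNat : ℤ) := by
    unfold chi
    rw [eulerTor_of_vanish _ _ 1 (t + 1) (by omega) hv]
    unfold eulerTor
    simp
  rw [hchi]
  refine ⟨Nat.cast_nonneg _, fun hE hG => ?_⟩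
  have hnt : Nontrivial (TorM T 0 (T ⊗[R₁] E) (T ⊗[R₂] G)) := by
    have a1 : Nontrivial (T ⊗[R₁] E) := by
      rw [← Module.supportDim_ne_bot_iff_nontrivial T]
      intro hbot
      have h0 : ((0 : ℕ) : WithBot ℕ∞) ≤ Module.supportDim R₁ E := by
        unfold Module.supportDim
        have := (Module.nonempty_support_of_nontrivial (R := R₁) (M := E)).to_subtype
        exact Order.krullDim_nonneg
      have h3 := le_supportDim_baseChange (T := T) h1 ht E 0 h0
      rw [hbot] at h3
      simp at h3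
    have a2 : Nontrivial (T ⊗[R₂] G) := by
      rw [← Module.supportDim_ne_bot_iff_nontrivial T]
      intro hbot
      have h0 : ((0 : ℕ) : WithBot ℕ∞) ≤ Module.supportDim R₂ G := by
        unfold Module.supportDim
        have := (Module.nonempty_support_of_nontrivial (R := R₂) (M := G)).to_subtype
        exact Order.krullDim_nonneg
      have h3 := le_supportDim_baseChange (T := T) h2 ht G 0 h0
      rw [hbot] at h3
      simp at h3
    have a3 : Nontrivial ((T ⊗[R₁] E) ⊗[T] (T ⊗[R₂] G)) := nontrivial_tensor_local _ _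
    exact (torZero _ _).toEquiv.nontrivial
  have h3 := h.length_ne_top 0
  have h4 : Module.length T (TorM T 0 (T ⊗[R₁] E) (T ⊗[R₂] G)) ≠ 0 := by
    rw [Ne, Module.length_eq_zero_iff]
    exact not_subsingleton _
  have h5 : (Module.length T (TorM T 0 (T ⊗[R₁] E) (T ⊗[R₂] G))).toNat ≠ 0 := by
    rw [Ne, ENat.toNat_eq_zero]
    exact not_or.2 ⟨h4, h3⟩
  exact_mod_cast Nat.pos_of_ne_zero h5

omit [IsRegularLocalRing R₁] [IsRegularLocalRing R₂] [Module.Flat R₂ T]
  [IsLocalHom (algebraMap R₁ T)] [IsLocalHom (algebraMap R₂ T)] in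
theorem chi_quotSMulTop [IsNoetherianRing R₁] (ht : ringKrullDim T = t) (E : Type u)
    [AddCommGroup E] [Module R₁ E] [Module.Finite R₁ E]
    (G : Type u) [AddCommGroup G] [Module R₂ G] [Module.Finite R₂ G] (h : FP R₁ R₂ T E G)
    (x : R₁) (hx : IsSMulRegular E x) : chi R₁ R₂ T t (QuotSMulTop x E) G = 0 := by
  obtain ⟨f, g, -, hf, hg, hex⟩ := quot_ses E x hx
  have := chi_add ht f g hf hg hex G h
  omega

omit [IsRegularLocalRing R₂] [Module.Flat R₂ T] [IsLocalHom (algebraMap R₁ T)]
  [IsLocalHom (algebraMap R₂ T)] in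
/-- Cutting by an element. -/
theorem cut (ht : ringKrullDim T = t) (P : Ideal R₁) [hP : P.IsPrime] (x : R₁)
    (hx : x ∈ maximalIdeal R₁) (hxP : x ∉ P) (G : Type u) [AddCommGroup G] [Module R₂ G]
    [Module.Finite R₂ G] (h : FP R₁ R₂ T (R₁ ⧸ P) G)
    (hpos : Pos R₁ R₂ T t b (QuotSMulTop x (R₁ ⧸ P)) G) (e g : ℕ)
    (he : ((e + 1 : ℕ) : WithBot ℕ∞) ≤ Module.supportDim R₁ (R₁ ⧸ P))
    (hg : (g : WithBot ℕ∞) ≤ Module.supportDim R₂ G) : e + g < b := by
  have hreg : IsSMulRegular (R₁ ⧸ P) x := by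
    rw [isSMulRegular_iff_right_eq_zero_of_smul]
    intro y hy
    obtain ⟨y, rfl⟩ := Ideal.Quotient.mk_surjective y
    have h1 : Ideal.Quotient.mk P (x * y) = 0 := hy
    rw [Ideal.Quotient.eq_zero_iff_mem] at h1 ⊢
    exact (hP.mem_or_mem h1).resolve_left hxP
  have h0 := chi_quotSMulTop ht (R₁ ⧸ P) G h x hreg
  have h1 := Module.supportDim_quotSMulTop_succ_eq_supportDim hreg hx
  by_contra hcon
  have h2 : (e : WithBot ℕ∞) ≤ Module.supportDim R₁ (QuotSMulTop x (R₁ ⧸ P)) := by
    rw [← h1] at he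
    generalize Module.supportDim R₁ (QuotSMulTop x (R₁ ⧸ P)) = a at he ⊢
    induction a using WithBot.recBotCoe with
    | bot => simp at he
    | coe a =>
      have h3 : ((e + 1 : ℕ) : ℕ∞) ≤ a + 1 := by exact_mod_cast he
      have h4 : (e : ℕ∞) ≤ a := by
        push_cast at h3
        exact (ENat.add_le_add_iff_right ENat.one_ne_top).1 h3
      exact_mod_cast h4
  have h3 := hpos.pos e g h2 hg (by omega)
  omega

end Vale.Agent.P177
end

section

/-!
Saturation with respect to the maximal ideal and modules of depth two.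
-/

namespace Vale.Agent.P177

open CategoryTheory TensorProduct Function IsLocalRing RingTheory.Sequence Pointwise

universe u

section onering

variable {R : Type u} [CommRing R] [IsRegularLocalRing R] {r : ℕ}

omit [IsRegularLocalRing R] in
theorem supportDim_le_zero_of_pow [IsLocalRing R] [IsNoetherianRing R] (V : Type u)
    [AddCommGroup V] [Module R V] [Module.Finite R V] (n : ℕ)
    (h : ∀ a ∈ maximalIdeal R ^ n, ∀ v : V, a • v = 0) : Module.supportDim R V ≤ 0 := by
  have h1 : FL ([] : List R) V := by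
    unfold FL
    refine fun a ha => ⟨n, ?_⟩
    refine le_sup_left (α := Ideal R) ?_
    rw [Module.mem_annihilator]
    exact h _ (Ideal.pow_mem_pow ha n)
  exact supportDim_le_length [] (by simp) V h1

theorem exists_sat (hr : ringKrullDim R = r) (h2 : 2 ≤ r) (C : Type u) [AddCommGroup C]
    [Module R C] [Module.Finite R C]
    (hC : ∀ j, r ≤ j + 1 → Subsingleton (TorM R j C (R ⧸ maximalIdeal R)))
    (N : Submodule R C) : ∃ S : Submodule R C, N ≤ S ∧
      (∃ n, ∀ a ∈ maximalIdeal R ^ n, ∀ s ∈ S, a • s ∈ N) ∧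
      ∃ ws : List R, ws.length = 2 ∧ (∀ z ∈ ws, z ∈ maximalIdeal R) ∧ IsWeaklyRegular S ws := by
  let f : ℕ →o Submodule R C :=
    { toFun := fun n =>
        { carrier := {c | ∀ a ∈ maximalIdeal R ^ n, a • c ∈ N}
          add_mem' := fun {x y} hx hy a ha => by
            rw [smul_add]
            exact N.add_mem (hx a ha) (hy a ha)
          zero_mem' := fun a _ => by rw [smul_zero]; exact N.zero_mem
          smul_mem' := fun c x hx a ha => by
            rw [smul_comm]
            exact N.smul_mem _ (hx a ha) }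
      monotone' := fun m n hmn x hx a ha => hx a (Ideal.pow_le_pow_right hmn ha) }
  have hf : ∀ n c, c ∈ f n ↔ ∀ a ∈ maximalIdeal R ^ n, a • c ∈ N := fun n c => Iff.rfl
  obtain ⟨n, hn⟩ := monotone_stabilizes_iff_noetherian.2 (inferInstance : IsNoetherian R C) f
  refine ⟨f n, ?_, ⟨n, fun a ha s hs => hs a ha⟩, ?_⟩
  · intro x hx
    rw [hf]
    exact fun a _ => N.smul_mem a hx
  · have hsoc : ∀ x : C ⧸ f n, (∀ a ∈ maximalIdeal R, a • x = 0) → x = 0 := by
      intro x hx
      obtain ⟨c, rfl⟩ := Submodule.mkQ_surjective _ x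
      rw [Submodule.mkQ_apply, Submodule.Quotient.mk_eq_zero, hn (n + 1) (by omega), hf]
      have h3 : ∀ a ∈ maximalIdeal R, a • c ∈ f n := by
        intro a ha
        have := hx a ha
        rwa [← map_smul, Submodule.mkQ_apply, Submodule.Quotient.mk_eq_zero] at this
      intro a ha
      rw [pow_succ] at ha
      induction ha using Submodule.mul_induction_on' with
      | mem_mul_mem a ha b hb =>
        rw [mul_smul]
        exact h3 b hb a ha
      | add x _ y _ hx hy =>
        rw [add_smul]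
        exact N.add_mem hx hy
    have h4 : ∀ j, r ≤ j → Subsingleton (TorM R j (C ⧸ f n) (R ⧸ maximalIdeal R)) := by
      intro j hj
      rcases hj.eq_or_lt with h5 | h5
      · rw [← h5]
        exact tor_residue_of_no_socle hr _ hsoc
      · exact regular_tor_vanish R r hr _ _ j h5
    have hex : Exact (f n).subtype (f n).mkQ := by
      intro x
      rw [Submodule.mkQ_apply, Submodule.Quotient.mk_eq_zero]
      simp
    obtain ⟨δ, -, h6, -⟩ := exists_torDelta (f n).subtype (f n).mkQ
      (Submodule.injective_subtype _) (Submodule.mkQ_surjective _) hex (R ⧸ maximalIdeal R)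
    obtain ⟨ws, hw1, hw2, hw3⟩ := exists_regular_ext_list hr (f n) [] (IsWeaklyRegular.nil _ _)
      (r - 2) (fun j hj => by
        have h7 := hC j (by omega)
        have h8 := h4 (j + 1) (by omega)
        refine subsingleton_of_forall_eq 0 fun x => ?_
        obtain ⟨y, rfl⟩ := (h6 j x).1 (Subsingleton.elim _ _)
        rw [Subsingleton.elim y 0, map_zero]) 2 (by rw [List.length_nil]; omega)
    exact ⟨ws, hw1, hw2, by simpa using hw3⟩

omit [IsRegularLocalRing R] in
theorem tor_ci_residue [IsLocalRing R] (zs : List R) (hreg : IsWeaklyRegular R zs)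
    (hl : zs.length + 2 ≤ r) (j : ℕ) (hj : r ≤ j + 1) :
    Subsingleton (TorM R j (R ⧸ (Ideal.ofList zs • ⊤ : Submodule R R)) (R ⧸ maximalIdeal R)) := by
  refine tor_subsingleton_list zs R hreg (R ⧸ maximalIdeal R) 1 (fun j hj => ?_) j (by omega)
  obtain ⟨j, rfl⟩ : ∃ k, j = k + 1 := ⟨j - 1, by omega⟩
  exact tor_subsingleton_of_flat j

theorem eq_zero_of_pow_of_no_socle {R : Type u} [CommRing R] [IsLocalRing R] (C : Type u)
    [AddCommGroup C] [Module R C] (h : ∀ x : C, (∀ a ∈ maximalIdeal R, a • x = 0) → x = 0) (n : ℕ)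
    (x : C) (hx : ∀ a ∈ maximalIdeal R ^ n, a • x = 0) : x = 0 := by
  induction n generalizing x with
  | zero => simpa using hx 1 (by simp)
  | succ n ih =>
    apply h
    intro a ha
    apply ih
    intro c hc
    rw [← mul_smul]
    exact hx _ (by rw [pow_succ]; exact Ideal.mul_mem_mul hc ha)

/-- For a prime of coheight at least two, the domain embeds in a module of depth two supported on
it with cokernel of finite length. -/
theorem exists_depth_two (hr : ringKrullDim R = r) (P : Ideal R) [P.IsPrime]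
    (hd : ((2 : ℕ) : WithBot ℕ∞) ≤ Module.supportDim R (R ⧸ P)) :
    ∃ (S : Type u) (_ : AddCommGroup S) (_ : Module R S) (_ : Module.Finite R S)
      (f : (R ⧸ P) →ₗ[R] S), Injective f ∧ P ≤ Module.annihilator R S ∧
      Module.supportDim R (S ⧸ LinearMap.range f) ≤ 0 ∧
      ∃ ws : List R, ws.length = 2 ∧ (∀ z ∈ ws, z ∈ maximalIdeal R) ∧ IsWeaklyRegular S ws := by
  obtain ⟨zs, hmem, hreg, hlt, hh, hdim, hass⟩ := exists_ci hr P
  rw [hdim] at hd
  have hd' : 2 ≤ r - zs.length := by exact_mod_cast hd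
  obtain ⟨f, hf⟩ := ((isAssociatedPrime_iff_exists_injective_linearMap _ _).1 hass).2
  obtain ⟨S, hNS, ⟨n, hn⟩, ws, hw1, hw2, hw3⟩ := exists_sat hr (by omega)
    (R ⧸ (Ideal.ofList zs • ⊤ : Submodule R R))
    (fun j hj => tor_ci_residue zs hreg (by omega) j hj) (LinearMap.range f)
  have hsoc := no_socle_of_tor_residue hr (R ⧸ (Ideal.ofList zs • ⊤ : Submodule R R))
    (tor_ci_residue (r := r) zs hreg (by omega) r (by omega))
  refine ⟨S, inferInstance, inferInstance, inferInstance,
    f.codRestrict S (fun x => hNS ⟨x, rfl⟩), ?_, ?_, ?_, ws, hw1, hw2, hw3⟩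
  · intro x y hxy
    exact hf (congrArg Subtype.val hxy)
  · intro p hp
    rw [Module.mem_annihilator]
    rintro ⟨s, hs⟩
    apply Subtype.ext
    change p • s = 0
    apply eq_zero_of_pow_of_no_socle _ hsoc n
    intro a ha
    obtain ⟨y, hy⟩ := hn a ha s hs
    rw [smul_comm, ← hy, ← map_smul]
    have : p • y = 0 := by
      obtain ⟨y, rfl⟩ := Ideal.Quotient.mk_surjective y
      change Ideal.Quotient.mk P (p * y) = 0
      rw [Ideal.Quotient.eq_zero_iff_mem]
      exact Ideal.mul_mem_right _ _ hp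
    rw [this, map_zero]
  · apply supportDim_le_zero_of_pow _ n
    intro a ha v
    obtain ⟨⟨s, hs⟩, rfl⟩ := Submodule.mkQ_surjective _ v
    rw [← map_smul, Submodule.mkQ_apply, Submodule.Quotient.mk_eq_zero]
    obtain ⟨y, hy⟩ := hn a ha s hs
    exact ⟨y, Subtype.ext hy⟩

end onering

section twosided

variable {R₁ R₂ T : Type u} [CommRing R₁] [CommRing R₂] [CommRing T]
  [IsRegularLocalRing R₁] [IsRegularLocalRing R₂] [IsRegularLocalRing T]
  [Algebra R₁ T] [Algebra R₂ T] [Module.Flat R₁ T] [Module.Flat R₂ T]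
  [IsLocalHom (algebraMap R₁ T)] [IsLocalHom (algebraMap R₂ T)] {r₁ r₂ t b : ℕ}

theorem eq_maximalIdeal_of_supportDim {R : Type u} [CommRing R] [IsLocalRing R]
    (P : Ideal R) [hP : P.IsPrime] (h : Module.supportDim R (R ⧸ P) ≤ 0) :
    P = maximalIdeal R := by
  by_contra hne
  have hlt : P < maximalIdeal R := lt_of_le_of_ne (le_maximalIdeal hP.ne_top) hne
  have h1 : ((0 : ℕ) : WithBot ℕ∞) ≤ Module.supportDim R (R ⧸ maximalIdeal R) := by
    unfold Module.supportDim
    have := (Module.nonempty_support_of_nontrivial (R := R)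
      (M := R ⧸ maximalIdeal R)).to_subtype
    exact Order.krullDim_nonneg
  have h2 := (supportDim_quotient_strict hlt 0 h1).trans h
  have h3 : (1 : ℕ) ≤ 0 := by exact_mod_cast h2
  omega

/-- The case where the first module has dimension at most zero. -/
theorem pos_dim_zero (h1 : ringKrullDim R₁ = r₁) (h2 : ringKrullDim R₂ = r₂)
    (ht : ringKrullDim T = t) (hb : r₁ + r₂ = t + b) (G : Type u) [AddCommGroup G] [Module R₂ G]
    [Module.Finite R₂ G] (E : Type u) [AddCommGroup E] [Module R₁ E] [Module.Finite R₁ E]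
    (hE : Module.supportDim R₁ E ≤ 0) (h : FP R₁ R₂ T E G) : Pos R₁ R₂ T t b E G := by
  refine pos_of_primes ht 0 G (fun P hP hdim hFP => ?_) E hE h
  have hPm := eq_maximalIdeal_of_supportDim P hdim
  subst hPm
  exact pos_residue h1 h2 ht hb G hFP

/-- Replacing a domain by a module of depth two does not change the Euler characteristic. -/
theorem exists_replace (h1 : ringKrullDim R₁ = r₁) (h2 : ringKrullDim R₂ = r₂)
    (ht : ringKrullDim T = t) (hb : r₁ + r₂ = t + b) (P : Ideal R₁) [hP : P.IsPrime]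
    (hd : ((2 : ℕ) : WithBot ℕ∞) ≤ Module.supportDim R₁ (R₁ ⧸ P)) :
    ∃ (S : Type u) (_ : AddCommGroup S) (_ : Module R₁ S) (_ : Module.Finite R₁ S),
      Nontrivial S ∧ P ≤ Module.annihilator R₁ S ∧
      (∃ ws : List R₁, ws.length = 2 ∧ (∀ z ∈ ws, z ∈ maximalIdeal R₁) ∧ IsWeaklyRegular S ws) ∧
      ∀ (G : Type u) [AddCommGroup G] [Module R₂ G] [Module.Finite R₂ G],
        (∀ g : ℕ, (g : WithBot ℕ∞) ≤ Module.supportDim R₂ G → g < b) →
        FP R₁ R₂ T (R₁ ⧸ P) G → FP R₁ R₂ T S G ∧
          chi R₁ R₂ T t (R₁ ⧸ P) G = chi R₁ R₂ T t S G := by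
  obtain ⟨S, _, _, _, f, hf, hPS, hdim, ws, hw1, hw2, hw3⟩ := exists_depth_two h1 P hd
  have hnt : Nontrivial (R₁ ⧸ P) := Ideal.Quotient.nontrivial_iff.2 hP.ne_top
  refine ⟨S, inferInstance, inferInstance, inferInstance, hf.nontrivial, hPS,
    ⟨ws, hw1, hw2, hw3⟩, ?_⟩
  intro G _ _ _ hG hFP
  have hFPS : FP R₁ R₂ T S G := hFP.mono (by rwa [Ideal.annihilator_quotient]) le_rfl
  refine ⟨hFPS, ?_⟩
  have hex : Exact f (LinearMap.range f).mkQ := by
    intro x
    rw [Submodule.mkQ_apply, Submodule.Quotient.mk_eq_zero]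
    rfl
  have hadd := chi_add ht f (LinearMap.range f).mkQ hf (Submodule.mkQ_surjective _) hex G hFPS
  have hq := pos_dim_zero h1 h2 ht hb G (S ⧸ LinearMap.range f) hdim (hFPS.mono
    (LinearMap.annihilator_le_of_surjective _ (Submodule.mkQ_surjective _)) le_rfl)
  rw [hadd, hq.zero, add_zero]
  intro e g he hg
  have h3 : (e : WithBot ℕ∞) ≤ 0 := he.trans hdim
  have h4 : e ≤ 0 := by exact_mod_cast h3
  have := hG g hg
  omega

end twosided

end Vale.Agent.P177
end

section

/-!
Primes of given coheight, and prime avoidance for systems of parameters.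
-/

namespace Vale.Agent.P177

open CategoryTheory TensorProduct Function IsLocalRing RingTheory.Sequence Pointwise

universe u

section series

variable {T : Type u} [CommRing T]

theorem le_supportDim_of_series {I : Ideal T} (l : LTSeries (Module.support T (T ⧸ I)))
    (k m : ℕ) (hk : k + m = l.length) :
    (m : WithBot ℕ∞) ≤ Module.supportDim T (T ⧸ (l ⟨k, by omega⟩).1.asIdeal) := by
  unfold Module.supportDim
  rw [Order.le_krullDim_iff]
  let l' : LTSeries (Module.support T (T ⧸ (l ⟨k, by omega⟩).1.asIdeal)) :=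
    { length := m
      toFun := fun i => ⟨(l ⟨k + i, by omega⟩).1,
        (support_quotient_prime _ _).2 (l.strictMono.monotone (by
          rw [Fin.le_def]
          change k ≤ k + i
          omega))⟩
      step := fun i => l.strictMono (by
        rw [Fin.lt_def]
        change k + (i.castSucc : ℕ) < k + (i.succ : ℕ)
        simp) }
  exact ⟨l', rfl⟩

theorem exists_prime_supportDim (I : Ideal T) (n : ℕ)
    (h : (n : WithBot ℕ∞) ≤ Module.supportDim T (T ⧸ I)) :
    ∃ q : Ideal T, q.IsPrime ∧ I ≤ q ∧ (n : WithBot ℕ∞) ≤ Module.supportDim T (T ⧸ q) := by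
  unfold Module.supportDim at h
  obtain ⟨l, hl⟩ := Order.le_krullDim_iff.1 h
  exact ⟨(l ⟨0, by omega⟩).1.asIdeal, (l _).1.2, (support_quotient_prime _ _).1 (l _).2,
    le_supportDim_of_series l 0 n (by omega)⟩

theorem exists_gt_prime (I : Ideal T) (n : ℕ)
    (h : ((n + 1 : ℕ) : WithBot ℕ∞) ≤ Module.supportDim T (T ⧸ I)) :
    ∃ q : Ideal T, q.IsPrime ∧ I < q ∧ (n : WithBot ℕ∞) ≤ Module.supportDim T (T ⧸ q) := by
  unfold Module.supportDim at h
  obtain ⟨l, hl⟩ := Order.le_krullDim_iff.1 h
  refine ⟨(l ⟨1, by omega⟩).1.asIdeal, (l _).1.2, ?_,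
    le_supportDim_of_series l 1 n (by omega)⟩
  have h1 : I ≤ (l ⟨0, by omega⟩).1.asIdeal := (support_quotient_prime _ _).1 (l _).2
  have h2 : l ⟨0, by omega⟩ < l ⟨1, by omega⟩ := l.strictMono (by rw [Fin.lt_def]; simp)
  exact lt_of_le_of_lt h1 h2

/-- A prime above `P` with prescribed coheight. -/
theorem exists_prime_exact [IsNoetherianRing T] (P : Ideal T) [hP : P.IsPrime] (n : ℕ)
    (h : (n : WithBot ℕ∞) ≤ Module.supportDim T (T ⧸ P)) :
    ∃ q : Ideal T, q.IsPrime ∧ P ≤ q ∧ Module.supportDim T (T ⧸ q) = n := by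
  obtain ⟨q, ⟨hq1, hq2, hq3⟩, hmax⟩ := set_has_maximal_iff_noetherian.2
    (inferInstance : IsNoetherian T T) {q : Ideal T | q.IsPrime ∧ P ≤ q ∧
      (n : WithBot ℕ∞) ≤ Module.supportDim T (T ⧸ q)} ⟨P, hP, le_rfl, h⟩
  refine ⟨q, hq1, hq2, le_antisymm ?_ hq3⟩
  by_contra hcon
  rw [not_le] at hcon
  obtain ⟨q', h1, h2, h3⟩ := exists_gt_prime q n (succ_le_of_lt_withBot hcon)
  exact hmax q' ⟨h1, hq2.trans h2.le, h3⟩ h2

variable [IsLocalRing T]

theorem maximalIdeal_le_radical_of_supportDim (J : Ideal T)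
    (h : Module.supportDim T (T ⧸ J) ≤ 0) : maximalIdeal T ≤ J.radical := by
  rw [Ideal.radical_eq_sInf]
  refine le_sInf ?_
  rintro q ⟨hJq, hq⟩
  exact (eq_maximalIdeal_of_supportDim q ((supportDim_quotient_mono hJq).trans h)).ge

end series

section avoid

variable {R T : Type u} [CommRing R] [CommRing T] [IsNoetherianRing T] [IsLocalRing T] [Algebra R T]

theorem exists_cut (P : Ideal R) (F : Set (Ideal R)) (hF : F.Finite)
    (hFp : ∀ q ∈ F, q.IsPrime ∧ ¬ (P ≤ q)) (J : Ideal T) (n : ℕ)
    (hJ : Module.supportDim T (T ⧸ J) ≤ ((n + 1 : ℕ) : WithBot ℕ∞))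
    (hrad : maximalIdeal T ≤ (J ⊔ P.map (algebraMap R T)).radical) :
    ∃ z ∈ P, (∀ q ∈ F, z ∉ q) ∧
      Module.supportDim T (T ⧸ (J ⊔ Ideal.span {algebraMap R T z})) ≤ (n : WithBot ℕ∞) := by
  have hfin : J.minimalPrimes.Finite := Ideal.finite_minimalPrimes_of_isNoetherianRing T J
  let F' : Set (Ideal R) := F ∪ (fun q : Ideal T => q.comap (algebraMap R T)) ''
    {q ∈ J.minimalPrimes | q ≠ maximalIdeal T}
  have hF' : F'.Finite := hF.union ((hfin.subset (fun q hq => hq.1)).image _)
  have hF'p : ∀ q ∈ F', q.IsPrime ∧ ¬ (P ≤ q) := by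
    rintro q (hq | ⟨q, ⟨hq1, hq2⟩, rfl⟩)
    · exact hFp q hq
    · have hqp : q.IsPrime := hq1.1.1
      refine ⟨Ideal.comap_isPrime _ _, fun hle => ?_⟩
      apply hq2
      apply le_antisymm (le_maximalIdeal hqp.ne_top)
      refine hrad.trans ?_
      rw [hqp.radical_le_iff]
      exact sup_le hq1.1.2 (Ideal.map_le_iff_le_comap.2 hle)
  have hnot : ¬ ((P : Set R) ⊆ ⋃ q ∈ F', (q : Set R)) := by
    intro hsub
    obtain ⟨q, hq, hle⟩ := (Ideal.subset_union_prime_finite hF' ⊥ ⊥
      (fun q hq _ _ => (hF'p q hq).1)).1 hsub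
    exact (hF'p q hq).2 hle
  rw [Set.not_subset] at hnot
  obtain ⟨z, hz, hzn⟩ := hnot
  have hzn' : ∀ q ∈ F', z ∉ q := by
    intro q hq hzq
    apply hzn
    simp only [Set.mem_iUnion]
    exact ⟨q, hq, hzq⟩
  refine ⟨z, hz, fun q hq => hzn' q (Or.inl hq), ?_⟩
  by_contra hcon
  rw [not_le] at hcon
  obtain ⟨q, hq1, hq2, hq3⟩ := exists_prime_supportDim _ _ (succ_le_of_lt_withBot hcon)
  obtain ⟨Q, hQ, hQq⟩ := Ideal.exists_minimalPrimes_le (le_sup_left.trans hq2)
  have hQp : Q.IsPrime := hQ.1.1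
  by_cases hQm : Q = maximalIdeal T
  · have hqm : q = maximalIdeal T := le_antisymm (le_maximalIdeal hq1.ne_top) (hQm ▸ hQq)
    obtain ⟨q', h1, h2, h3⟩ := exists_gt_prime q n hq3
    rw [hqm] at h2
    exact absurd (le_maximalIdeal h1.ne_top) (not_le_of_gt h2)
  · have hzQ : z ∉ Q.comap (algebraMap R T) := hzn' _ (Or.inr ⟨Q, ⟨hQ, hQm⟩, rfl⟩)
    have hlt : Q < q := by
      refine lt_of_le_of_ne hQq ?_
      rintro rfl
      apply hzQ
      exact hq2 (Ideal.mem_sup_right (Ideal.mem_span_singleton_self _))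
    have h4 := (supportDim_quotient_strict hlt (n + 1) hq3).trans
      ((supportDim_quotient_mono hQ.1.2).trans hJ)
    have h5 : n + 1 + 1 ≤ n + 1 := by exact_mod_cast h4
    omega

end avoid

end Vale.Agent.P177
end

section

/-!
Vanishing of the Euler characteristic for one dimensional modules against Cohen-Macaulay modules
of codimension two.
-/

namespace Vale.Agent.P177

open CategoryTheory TensorProduct Function IsLocalRing RingTheory.Sequence Pointwise

universe u

section onering

variable {R : Type u} [CommRing R] [IsRegularLocalRing R] {r : ℕ}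

end onering

section avoid

variable {R T : Type u} [CommRing R] [IsRegularLocalRing R] [CommRing T] [IsNoetherianRing T]
  [IsLocalRing T] [Algebra R T] {r : ℕ}

end avoid

section vanish

variable {R₁ R₂ T : Type u} [CommRing R₁] [CommRing R₂] [CommRing T]
  [IsRegularLocalRing R₁] [IsRegularLocalRing R₂] [IsRegularLocalRing T]
  [Algebra R₁ T] [Algebra R₂ T] [Module.Flat R₁ T] [Module.Flat R₂ T]
  [IsLocalHom (algebraMap R₁ T)] [IsLocalHom (algebraMap R₂ T)] {r₁ r₂ t b : ℕ}

end vanish

end Vale.Agent.P177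
end

section

/-!
The local positivity statement for `dim R₁ + dim R₂ - dim T ≤ 3`.
-/

namespace Vale.Agent.P177

open CategoryTheory TensorProduct Function IsLocalRing RingTheory.Sequence Pointwise

universe u

section prelim

variable {R : Type u} [CommRing R] [IsLocalRing R]

theorem exists_mem_notMem_of_supportDim (P : Ideal R) [hP : P.IsPrime]
    (h : ((1 : ℕ) : WithBot ℕ∞) ≤ Module.supportDim R (R ⧸ P)) : ∃ x ∈ maximalIdeal R, x ∉ P := by
  by_contra hcon
  push Not at hcon
  have hPm : P = maximalIdeal R := le_antisymm (le_maximalIdeal hP.ne_top) hcon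
  obtain ⟨q, hq1, hq2, -⟩ := exists_gt_prime P 0 h
  rw [hPm] at hq2
  exact absurd (le_maximalIdeal hq1.ne_top) (not_le_of_gt hq2)

omit [IsLocalRing R] in
theorem isSMulRegular_quot_prime (P : Ideal R) [hP : P.IsPrime] (x : R) (hx : x ∉ P) :
    IsSMulRegular (R ⧸ P) x := by
  rw [isSMulRegular_iff_right_eq_zero_of_smul]
  intro y hy
  obtain ⟨y, rfl⟩ := Ideal.Quotient.mk_surjective y
  have h1 : Ideal.Quotient.mk P (x * y) = 0 := hy
  rw [Ideal.Quotient.eq_zero_iff_mem] at h1 ⊢
  exact (hP.mem_or_mem h1).resolve_left hx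

theorem supportDim_quotSMulTop_prime_le [IsNoetherianRing R] (P : Ideal R) [hP : P.IsPrime]
    (x : R) (hx : x ∈ maximalIdeal R) (hxP : x ∉ P) (n : ℕ)
    (h : Module.supportDim R (R ⧸ P) ≤ ((n + 1 : ℕ) : WithBot ℕ∞)) :
    Module.supportDim R (QuotSMulTop x (R ⧸ P)) ≤ (n : WithBot ℕ∞) := by
  by_contra hcon
  rw [not_le] at hcon
  have h3 := succ_le_of_lt_withBot hcon
  have h4 := Module.supportDim_quotSMulTop_succ_eq_supportDim (isSMulRegular_quot_prime P x hxP) hx
  have h5 : ((n + 1 : ℕ) : WithBot ℕ∞) + 1 ≤ ((n + 1 : ℕ) : WithBot ℕ∞) := by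
    refine le_trans ?_ h
    rw [← h4]
    gcongr
  have h6 : n + 1 + 1 ≤ n + 1 := by exact_mod_cast h5
  omega

omit [IsLocalRing R] in
theorem supportDim_le_of_le_annihilator [IsNoetherianRing R] (P : Ideal R) (S : Type u)
    [AddCommGroup S] [Module R S] [Module.Finite R S] (h : P ≤ Module.annihilator R S) :
    Module.supportDim R S ≤ Module.supportDim R (R ⧸ P) := by
  have h4 : Module.supportDim R (R ⧸ Module.annihilator R S) = Module.supportDim R S := by
    unfold Module.supportDim
    rw [Module.support_eq_zeroLocus, Module.support_eq_zeroLocus, Ideal.annihilator_quotient]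
  rw [← h4]
  exact supportDim_quotient_mono h

end prelim

variable {R₁ R₂ T : Type u} [CommRing R₁] [CommRing R₂] [CommRing T]
  [IsRegularLocalRing R₁] [IsRegularLocalRing R₂] [IsRegularLocalRing T]
  [Algebra R₁ T] [Algebra R₂ T] [Module.Flat R₁ T] [Module.Flat R₂ T]
  [IsLocalHom (algebraMap R₁ T)] [IsLocalHom (algebraMap R₂ T)] {r₁ r₂ t b : ℕ}

/-- Serre's statements for primes of coheight one in the first ring. -/
def HOne (R₁ R₂ T : Type u) [CommRing R₁] [CommRing R₂] [CommRing T] [IsLocalRing T]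
    [Algebra R₁ T] [Algebra R₂ T] (t b : ℕ) : Prop :=
  ∀ P : Ideal R₁, P.IsPrime → Module.supportDim R₁ (R₁ ⧸ P) = (1 : ℕ) →
    ∀ (G : Type u) [AddCommGroup G] [Module R₂ G] [Module.Finite R₂ G],
      FP R₁ R₂ T (R₁ ⧸ P) G → Pos R₁ R₂ T t b (R₁ ⧸ P) G

theorem pos_dim_one (h1 : ringKrullDim R₁ = r₁) (h2 : ringKrullDim R₂ = r₂)
    (ht : ringKrullDim T = t) (hb : r₁ + r₂ = t + b) (H : HOne R₁ R₂ T t b) (G : Type u)
    [AddCommGroup G] [Module R₂ G]
    [Module.Finite R₂ G] (E : Type u) [AddCommGroup E] [Module R₁ E] [Module.Finite R₁ E]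
    (hE : Module.supportDim R₁ E ≤ ((1 : ℕ) : WithBot ℕ∞)) (h : FP R₁ R₂ T E G) :
    Pos R₁ R₂ T t b E G := by
  refine pos_of_primes ht ((1 : ℕ) : WithBot ℕ∞) G (fun P hP hdim hFP => ?_) E hE h
  by_cases h0 : Module.supportDim R₁ (R₁ ⧸ P) ≤ 0
  · exact pos_dim_zero h1 h2 ht hb G _ h0 hFP
  · rw [not_le] at h0
    exact H P hP (le_antisymm hdim (succ_le_of_lt_withBot (n := 0) h0)) G hFP

/-- The case of two primes of coheight two. -/
theorem pos_two_two (h1 : ringKrullDim R₁ = r₁) (h2 : ringKrullDim R₂ = r₂)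
    (ht : ringKrullDim T = t) (hb : r₁ + r₂ = t + b) (hb4 : b ≤ 4) (H : HOne R₁ R₂ T t b)
    (P : Ideal R₁) [hP : P.IsPrime] (Q : Ideal R₂) [hQ : Q.IsPrime]
    (hPd : Module.supportDim R₁ (R₁ ⧸ P) = (2 : ℕ)) (hQd : Module.supportDim R₂ (R₂ ⧸ Q) = (2 : ℕ))
    (hFP : FP R₁ R₂ T (R₁ ⧸ P) (R₂ ⧸ Q)) : Pos R₁ R₂ T t b (R₁ ⧸ P) (R₂ ⧸ Q) := by
  obtain ⟨x, hx, hxP⟩ := exists_mem_notMem_of_supportDim P (by rw [hPd]; exact_mod_cast one_le_two)
  have hd := supportDim_quotSMulTop_prime_le P x hx hxP 1 hPd.le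
  have hpos := pos_dim_one h1 h2 ht hb H (R₂ ⧸ Q) (QuotSMulTop x (R₁ ⧸ P)) hd
    (hFP.mono (LinearMap.annihilator_le_of_surjective _ (Submodule.mkQ_surjective _)) le_rfl)
  have hcut := cut ht P x hx hxP (R₂ ⧸ Q) hFP hpos 1 2 hPd.ge hQd.ge
  have hb' : b = 4 := by omega
  subst hb'
  have hr1 : 2 ≤ r₁ := by
    have := dim_le_dim (R := R₂) (T := T) h2 ht
    omega
  have hr2 : 2 ≤ r₂ := by
    have := dim_le_dim (R := R₁) (T := T) h1 ht
    omega
  obtain ⟨S, _, _, _, hS, hPS, ⟨zs, hz1, hz2, hz3⟩, hSG⟩ :=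
    exists_replace (R₂ := R₂) (T := T) h1 h2 ht hb P hPd.ge
  obtain ⟨hFPS, hchiS⟩ := hSG (R₂ ⧸ Q) (by
    intro g hg
    rw [hQd] at hg
    have : g ≤ 2 := by exact_mod_cast hg
    omega) hFP
  obtain ⟨S', _, _, _, hS', hQS', ⟨ws, hw1, hw2, hw3⟩, hSG'⟩ :=
    exists_replace (R₁ := R₂) (R₂ := R₁) (T := T) h2 h1 ht (by omega : r₂ + r₁ = t + 4) Q hQd.ge
  obtain ⟨hFPS', hchiS'⟩ := hSG' S (by
    intro g hg
    have h3 := hg.trans (supportDim_le_of_le_annihilator P S hPS)
    rw [hPd] at h3
    have : g ≤ 2 := by exact_mod_cast h3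
    omega) hFPS.symm
  have hpos := (chi_pos_of_depth h2 h1 ht (by omega : r₂ + r₁ = t + 4) S' S hFPS' ws zs hw2 hz2 hw3
    hz3 (by omega) (by omega) (by omega)).2 hS' hS
  rw [← hchiS', ← chi_symm, ← hchiS] at hpos
  refine ⟨?_, hpos.le, fun _ _ _ _ _ => hpos, ?_⟩
  · intro e g he hg
    rw [hPd] at he
    rw [hQd] at hg
    have h3 : e ≤ 2 := by exact_mod_cast he
    have h4 : g ≤ 2 := by exact_mod_cast hg
    omega
  · intro hh
    have := hh 2 2 hPd.ge hQd.ge
    omega

theorem pos_two_two' (h1 : ringKrullDim R₁ = r₁) (h2 : ringKrullDim R₂ = r₂)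
    (ht : ringKrullDim T = t) (hb : r₁ + r₂ = t + b) (hb4 : b ≤ 4) (H : HOne R₁ R₂ T t b)
    (Q : Ideal R₂) [hQ : Q.IsPrime] (hQd : Module.supportDim R₂ (R₂ ⧸ Q) = (2 : ℕ))
    (E : Type u) [AddCommGroup E] [Module R₁ E] [Module.Finite R₁ E]
    (hE : Module.supportDim R₁ E ≤ ((2 : ℕ) : WithBot ℕ∞))
    (hFP : FP R₁ R₂ T E (R₂ ⧸ Q)) : Pos R₁ R₂ T t b E (R₂ ⧸ Q) := by
  refine pos_of_primes ht ((2 : ℕ) : WithBot ℕ∞) _ (fun P hP hdim hFP => ?_) E hE hFP
  by_cases h0 : Module.supportDim R₁ (R₁ ⧸ P) ≤ ((1 : ℕ) : WithBot ℕ∞)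
  · exact pos_dim_one h1 h2 ht hb H _ _ h0 hFP
  · rw [not_le] at h0
    exact pos_two_two h1 h2 ht hb hb4 H P Q (le_antisymm hdim (succ_le_of_lt_withBot h0)) hQd hFP

/-- No finiteness is possible for coheights at least three and at least two. -/
theorem not_fp_three_two (h1 : ringKrullDim R₁ = r₁) (h2 : ringKrullDim R₂ = r₂)
    (ht : ringKrullDim T = t) (hb : r₁ + r₂ = t + b) (hb4 : b ≤ 4) (H : HOne R₁ R₂ T t b)
    (P : Ideal R₁) [hP : P.IsPrime] (Q : Ideal R₂) [hQ : Q.IsPrime]
    (hPd : ((3 : ℕ) : WithBot ℕ∞) ≤ Module.supportDim R₁ (R₁ ⧸ P))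
    (hQd : ((2 : ℕ) : WithBot ℕ∞) ≤ Module.supportDim R₂ (R₂ ⧸ Q))
    (hFP : FP R₁ R₂ T (R₁ ⧸ P) (R₂ ⧸ Q)) : False := by
  obtain ⟨P', hP', hPP', hPd'⟩ := exists_prime_exact P 3 hPd
  obtain ⟨Q', hQ', hQQ', hQd'⟩ := exists_prime_exact Q 2 hQd
  have hFP' : FP R₁ R₂ T (R₁ ⧸ P') (R₂ ⧸ Q') := hFP.mono
    (by rwa [Ideal.annihilator_quotient, Ideal.annihilator_quotient])
    (by rwa [Ideal.annihilator_quotient, Ideal.annihilator_quotient])
  obtain ⟨x, hx, hxP⟩ := exists_mem_notMem_of_supportDim P' (by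
    rw [hPd']
    exact_mod_cast (by omega : 1 ≤ 3))
  have hd := supportDim_quotSMulTop_prime_le P' x hx hxP 2 hPd'.le
  have hpos := pos_two_two' h1 h2 ht hb hb4 H Q' hQd' (QuotSMulTop x (R₁ ⧸ P')) hd
    (hFP'.mono (LinearMap.annihilator_le_of_surjective _ (Submodule.mkQ_surjective _)) le_rfl)
  have hcut := cut ht P' x hx hxP (R₂ ⧸ Q') hFP' hpos 2 2 hPd'.ge hQd'.ge
  omega

/-- Assembly: Serre's statements for `b ≤ 4` follow from the case of coheight one. -/
theorem pos_of_hOne (h1 : ringKrullDim R₁ = r₁) (h2 : ringKrullDim R₂ = r₂)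
    (ht : ringKrullDim T = t) (hb : r₁ + r₂ = t + b) (hb4 : b ≤ 4) (H : HOne R₁ R₂ T t b)
    (H' : HOne R₂ R₁ T t b) (E G : Type u) [AddCommGroup E] [Module R₁ E] [Module.Finite R₁ E]
    [AddCommGroup G] [Module R₂ G] [Module.Finite R₂ G] (hFP : FP R₁ R₂ T E G) :
    Pos R₁ R₂ T t b E G := by
  refine pos_of_primes ht ⊤ G (fun P hP _ hFP => ?_) E le_top hFP
  refine (pos_of_primes ht ⊤ (R₁ ⧸ P) (fun Q hQ _ hFP => ?_) G le_top hFP.symm).symm
  refine Pos.symm ?_
  have hFP := hFP.symm
  by_cases hP1 : Module.supportDim R₁ (R₁ ⧸ P) ≤ ((1 : ℕ) : WithBot ℕ∞)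
  · exact pos_dim_one h1 h2 ht hb H _ _ hP1 hFP
  by_cases hQ1 : Module.supportDim R₂ (R₂ ⧸ Q) ≤ ((1 : ℕ) : WithBot ℕ∞)
  · exact (pos_dim_one h2 h1 ht (by omega : r₂ + r₁ = t + b) H' _ _ hQ1 hFP.symm).symm
  rw [not_le] at hP1 hQ1
  have hP2 := succ_le_of_lt_withBot hP1
  have hQ2 := succ_le_of_lt_withBot hQ1
  by_cases hP3 : Module.supportDim R₁ (R₁ ⧸ P) ≤ ((2 : ℕ) : WithBot ℕ∞)
  · by_cases hQ3 : Module.supportDim R₂ (R₂ ⧸ Q) ≤ ((2 : ℕ) : WithBot ℕ∞)
    · exact pos_two_two h1 h2 ht hb hb4 H P Q (le_antisymm hP3 hP2) (le_antisymm hQ3 hQ2) hFP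
    · rw [not_le] at hQ3
      exact (not_fp_three_two h2 h1 ht (by omega : r₂ + r₁ = t + b) hb4 H' Q P
        (succ_le_of_lt_withBot hQ3) hP2 hFP.symm).elim
  · rw [not_le] at hP3
    exact (not_fp_three_two h1 h2 ht hb hb4 H P Q (succ_le_of_lt_withBot hP3) hQ2 hFP).elim

end Vale.Agent.P177
end

section

/-!
Complete intersections inside a prime ideal, in general position with respect to another prime.
-/

namespace Vale.Agent.P177

open TensorProduct IsLocalRing RingTheory.Sequence Function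

universe u

variable {T : Type u} [CommRing T] [IsRegularLocalRing T] {t : ℕ}

/-- The associated primes of a complete intersection have the expected dimension. -/
theorem le_supportDim_of_isAssociatedPrime_ci (ht : ringKrullDim T = t) (rs : List T)
    (hreg : IsWeaklyRegular T rs) (hle : rs.length ≤ t) (q : Ideal T)
    (hq : IsAssociatedPrime q (T ⧸ (Ideal.ofList rs • ⊤ : Submodule T T))) :
    ((t - rs.length : ℕ) : WithBot ℕ∞) ≤ Module.supportDim T (T ⧸ q) := by
  obtain ⟨ws, hlen, hws, hwreg⟩ := exists_regular_ext_list ht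
    (T ⧸ (Ideal.ofList rs • ⊤ : Submodule T T)) [] (IsWeaklyRegular.nil _ _) rs.length
    (fun j hj => tor_subsingleton_list rs T hreg (T ⧸ maximalIdeal T) 1
      (fun j hj => tor_self_residue_subsingleton T j hj) j (by omega))
    (t - rs.length) (by simp; omega)
  rw [List.nil_append] at hwreg
  rw [← hlen]
  exact length_le_supportDim_of_isAssociatedPrime ws hws _ hwreg q hq

theorem isSMulRegular_of_forall_notMem {R M : Type*} [CommRing R] [IsNoetherianRing R]
    [AddCommGroup M] [Module R M] (z : R)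
    (h : ∀ q : Ideal R, IsAssociatedPrime q M → z ∉ q) : IsSMulRegular M z := by
  intro x y hxy
  by_contra hne
  have h1 : x - y ≠ 0 := sub_ne_zero.2 hne
  obtain ⟨q, hq, hle⟩ := exists_le_isAssociatedPrime_of_isNoetherianRing R (x - y) h1
  exact h q hq (hle (by
    rw [Submodule.mem_colon_singleton, smul_sub, Submodule.mem_bot]
    exact sub_eq_zero.2 hxy))

/-- A complete intersection `hs` in the prime `Q`, of the height of `Q`, such that `π ∉ Q` is
regular modulo `hs` and `P + (hs)` is primary to the maximal ideal. -/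
theorem exists_hs (ht : ringKrullDim T = t) (P Q : Ideal T) [hP : P.IsPrime] [hQ : Q.IsPrime]
    (π : T) (hπ : π ∈ maximalIdeal T) (hπ0 : π ≠ 0) (hπQ : π ∉ Q)
    (hrad : maximalIdeal T ≤ (P ⊔ Q).radical) (a b : ℕ)
    (ha : Module.supportDim T (T ⧸ P) = a) (hb : Module.supportDim T (T ⧸ Q) = b)
    (hab : a + b ≤ t) :
    ∃ hs : List T, (∀ h ∈ hs, h ∈ Q) ∧ IsWeaklyRegular T (hs ++ [π]) ∧ hs.length + b = t ∧
      maximalIdeal T ≤ (P ⊔ Ideal.ofList hs).radical := by
  have hdom : IsDomain T := regular_isDomain T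
  have key : ∀ i : ℕ, i + b ≤ t → ∃ hs : List T, (∀ h ∈ hs, h ∈ Q) ∧
      IsWeaklyRegular T (hs ++ [π]) ∧ hs.length = i ∧
      Module.supportDim T (T ⧸ (P ⊔ Ideal.ofList hs)) ≤ ((a - i : ℕ) : WithBot ℕ∞) := by
    intro i
    induction i with
    | zero =>
      intro _
      refine ⟨[], by simp, ?_, rfl, ?_⟩
      · rw [List.nil_append, isWeaklyRegular_singleton_iff]
        exact fun x y hxy => mul_left_cancel₀ hπ0 hxy
      · rw [Ideal.ofList_nil, sup_bot_eq, ha]
        exact le_rfl
    | succ i ih =>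
      intro hi
      obtain ⟨hs, hsQ, hreg, hlen, hdim⟩ := ih (by omega)
      have hreg' : IsWeaklyRegular T hs := ((isWeaklyRegular_append_iff _ _ _).1 hreg).1
      -- the primes to avoid
      let F : Set (Ideal T) :=
        {q | IsAssociatedPrime q (T ⧸ (Ideal.ofList hs • ⊤ : Submodule T T))} ∪
        {q | IsAssociatedPrime q (T ⧸ (Ideal.ofList (hs ++ [π]) • ⊤ : Submodule T T))}
      have hF : F.Finite := (associatedPrimes.finite T _).union (associatedPrimes.finite T _)
      have hFp : ∀ q ∈ F, q.IsPrime ∧ ¬ (Q ≤ q) := by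
        rintro q (hq | hq)
        · refine ⟨hq.isPrime, fun hle => ?_⟩
          have h1 := le_supportDim_of_isAssociatedPrime_ci ht hs hreg' (by omega) q hq
          have h2 := h1.trans (supportDim_quotient_mono hle)
          rw [hb] at h2
          have h3 : t - hs.length ≤ b := by exact_mod_cast h2
          omega
        · refine ⟨hq.isPrime, fun hle => ?_⟩
          have h1 := le_supportDim_of_isAssociatedPrime_ci ht (hs ++ [π]) hreg
            (by simp; omega) q hq
          have hπq : π ∈ q := by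
            have h4 := hq.annihilator_le
            rw [Submodule.annihilator_top, annihilator_quot_list] at h4
            exact h4 (Ideal.subset_span (by simp))
          have hlt : Q < q := lt_of_le_of_ne hle fun h => hπQ (h ▸ hπq)
          have h2 := supportDim_quotient_strict hlt _ h1
          rw [hb] at h2
          have h3 : t - (hs ++ [π]).length + 1 ≤ b := by exact_mod_cast h2
          rw [List.length_append, List.length_singleton] at h3
          omega
      obtain ⟨z, hzQ, hzF, hzdim⟩ := exists_cut (R := T) (T := T) Q F hF hFp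
        (P ⊔ Ideal.ofList hs) (a - (i + 1)) (hdim.trans (by
          have : a - i ≤ a - (i + 1) + 1 := by omega
          exact_mod_cast this)) (hrad.trans (Ideal.radical_mono (by
          rw [Algebra.algebraMap_self, Ideal.map_id]
          exact sup_le (le_sup_left.trans le_sup_left) le_sup_right)))
      have hz1 : IsSMulRegular (T ⧸ (Ideal.ofList hs • ⊤ : Submodule T T)) z :=
        isSMulRegular_of_forall_notMem z fun q hq => hzF q (Or.inl hq)
      have hz2 : IsSMulRegular (T ⧸ (Ideal.ofList (hs ++ [π]) • ⊤ : Submodule T T)) z :=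
        isSMulRegular_of_forall_notMem z fun q hq => hzF q (Or.inr hq)
      have hzm : z ∈ maximalIdeal T := le_maximalIdeal hQ.ne_top hzQ
      refine ⟨hs ++ [z], ?_, ?_, by simp [hlen], ?_⟩
      · intro h hh
        rw [List.mem_append, List.mem_singleton] at hh
        rcases hh with hh | rfl
        · exact hsQ h hh
        · exact hzQ
      · have h5 : IsWeaklyRegular T ((hs ++ [π]) ++ [z]) := by
          rw [isWeaklyRegular_append_iff]
          exact ⟨hreg, (isWeaklyRegular_singleton_iff _ _).2 hz2⟩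
        refine IsLocalRing.isWeaklyRegular_of_perm_of_subset_maximalIdeal h5 ?_ ?_
        · rw [List.append_assoc, List.append_assoc]
          exact List.Perm.append_left _ (List.Perm.swap _ _ _)
        · intro y hy
          simp only [List.mem_append, List.mem_singleton] at hy
          rcases hy with (hy | rfl) | rfl
          · exact le_maximalIdeal hQ.ne_top (hsQ y hy)
          · exact hπ
          · exact hzm
      · rw [Algebra.algebraMap_self, RingHom.id_apply] at hzdim
        have h6 : P ⊔ Ideal.ofList (hs ++ [z]) = P ⊔ Ideal.ofList hs ⊔ Ideal.span {z} := by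
          rw [Ideal.ofList_append, Ideal.ofList_singleton, sup_assoc]
        rw [h6]
        exact hzdim
  obtain ⟨hs, h1, h2, h3, h4⟩ := key (t - b) (by omega)
  refine ⟨hs, h1, h2, by omega, maximalIdeal_le_radical_of_supportDim _ ?_⟩
  have h5 : a - (t - b) = 0 := by omega
  rw [h5] at h4
  exact_mod_cast h4

end Vale.Agent.P177
end

section

/-!
Complete intersections are free over a Noether normalization.
-/

namespace Vale.Agent.P177

open TensorProduct IsLocalRing RingTheory.Sequence Function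

universe u

/-- A system of parameters of a regular local ring is a regular sequence. -/
theorem isWeaklyRegular_of_sop {T : Type u} [CommRing T] [IsRegularLocalRing T] {t : ℕ}
    (ht : ringKrullDim T = t) (zs : List T) (hlen : zs.length = t)
    (hzs : ∀ z ∈ zs, z ∈ maximalIdeal T) (hrad : maximalIdeal T ≤ (Ideal.ofList zs).radical) :
    IsWeaklyRegular T zs := by
  have key : ∀ (us ws : List T), zs = ws ++ us → IsWeaklyRegular T ws → IsWeaklyRegular T zs := by
    intro us
    induction us with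
    | nil =>
      intro ws h1 h2
      rw [h1, List.append_nil]
      exact h2
    | cons z us ih =>
      intro ws h1 h2
      refine ih (ws ++ [z]) (by rw [h1, List.append_assoc]; rfl) ?_
      have hlw : ws.length + (us.length + 1) = t := by
        rw [← hlen, h1, List.length_append, List.length_cons]
      rw [isWeaklyRegular_append_iff]
      refine ⟨h2, (isWeaklyRegular_singleton_iff _ _).2
        (isSMulRegular_of_forall_notMem z fun q hq hzq => ?_)⟩
      have hqp : q.IsPrime := hq.isPrime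
      have h3 := le_supportDim_of_isAssociatedPrime_ci ht ws h2 (by omega) q hq
      have hwq : Ideal.ofList ws ≤ q := by
        have h4 := hq.annihilator_le
        rwa [Submodule.annihilator_top, annihilator_quot_list] at h4
      have h5 : Module.supportDim T (T ⧸ q) ≤ (us.length : WithBot ℕ∞) := by
        refine supportDim_le_length us (fun y hy => hzs y (by rw [h1]; simp [hy])) _ ?_
        refine hrad.trans (Ideal.radical_mono ?_)
        rw [h1, Ideal.ofList_append, Ideal.ofList_cons, Ideal.annihilator_quotient]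
        refine sup_le (hwq.trans le_sup_left) (sup_le ?_ le_sup_right)
        exact ((Ideal.span_singleton_le_iff_mem _).2 hzq).trans le_sup_left
      have h6 : t - ws.length ≤ us.length := by exact_mod_cast h3.trans h5
      omega
  exact key zs [] rfl (IsWeaklyRegular.nil _ _)

/-- A finite module with vanishing `Tor` against the residue field is free. -/
theorem free_of_tor_residue {Λ : Type u} [CommRing Λ] [IsLocalRing Λ] [IsNoetherianRing Λ]
    (M : Type u) [AddCommGroup M] [Module Λ M] [Module.Finite Λ M]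
    (h : ∀ j, 1 ≤ j → Subsingleton (TorM Λ j M (Λ ⧸ maximalIdeal Λ))) : Module.Free Λ M := by
  have hflat : Module.Flat Λ M := flat_of_tor_one M fun I =>
    tor_symm_subsingleton 1 M (Λ ⧸ I) (tor_subsingleton_of_residue M 1 h (Λ ⧸ I) 1 le_rfl)
  exact Module.free_of_flat_of_isLocalRing

/-- A complete intersection is free over a regular local ring of the same dimension over which it is
finite. -/
theorem free_quotient_ofList {R : Type u} [CommRing R] [IsRegularLocalRing R] {d b : ℕ}
    (hd : ringKrullDim R = d) (hs : List R) (hsm : ∀ h ∈ hs, h ∈ maximalIdeal R)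
    (hlen : hs.length + b = d) (Λ : Type u) [CommRing Λ] [IsRegularLocalRing Λ] [Algebra Λ R]
    (hΛ : ringKrullDim Λ = b) [Module.Finite Λ (R ⧸ Ideal.ofList hs)] :
    Module.Free Λ (R ⧸ Ideal.ofList hs) := by
  have hle : Ideal.ofList hs ≤ maximalIdeal R := Ideal.span_le.2 fun h hh => hsm h hh
  have hnt : Nontrivial (R ⧸ Ideal.ofList hs) := Ideal.Quotient.nontrivial_iff.2 fun h =>
    (maximalIdeal.isMaximal R).ne_top (top_le_iff.1 (h ▸ hle))
  have hloc : IsLocalRing (R ⧸ Ideal.ofList hs) :=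
    IsLocalRing.of_surjective' (Ideal.Quotient.mk _) Ideal.Quotient.mk_surjective
  have hint : Algebra.IsIntegral Λ (R ⧸ Ideal.ofList hs) := Algebra.IsIntegral.of_finite _ _
  have hcm : (maximalIdeal (R ⧸ Ideal.ofList hs)).comap (algebraMap Λ (R ⧸ Ideal.ofList hs)) =
      maximalIdeal Λ := by
    have h1 : ((maximalIdeal (R ⧸ Ideal.ofList hs)).comap
        (algebraMap Λ (R ⧸ Ideal.ofList hs))).IsMaximal :=
      Ideal.isMaximal_comap_of_isIntegral_of_isMaximal _
    exact IsLocalRing.eq_maximalIdeal h1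
  have hlh : IsLocalHom (algebraMap Λ (R ⧸ Ideal.ofList hs)) :=
    ((local_hom_TFAE (algebraMap Λ (R ⧸ Ideal.ofList hs))).out 0 4).2 hcm
  obtain ⟨rs, hrs, hrl, hreg⟩ := exists_rsp Λ hΛ
  let rs' : List R := rs.map (algebraMap Λ R)
  have hmk : ∀ x : Λ, algebraMap Λ (R ⧸ Ideal.ofList hs) x =
      Ideal.Quotient.mk (Ideal.ofList hs) (algebraMap Λ R x) := fun x => rfl
  have hmaxR : ∀ x ∈ maximalIdeal Λ, algebraMap Λ R x ∈ maximalIdeal R := by
    intro x hx
    rw [← hcm, Ideal.mem_comap, hmk, mem_maximalIdeal, mem_nonunits_iff] at hx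
    rw [mem_maximalIdeal, mem_nonunits_iff]
    exact fun h => hx (h.map _)
  have hrad : maximalIdeal R ≤ (Ideal.ofList (hs ++ rs')).radical := by
    rw [Ideal.radical_eq_sInf]
    refine le_sInf ?_
    rintro q ⟨hq1, hq2⟩
    rw [Ideal.ofList_append, sup_le_iff] at hq1
    have hmap : (maximalIdeal Λ).map (algebraMap Λ R) ≤ q := by
      rw [← hrs, Ideal.map_ofList]
      exact hq1.2
    -- the prime of the quotient
    have hq' : (q.map (Ideal.Quotient.mk (Ideal.ofList hs))).IsPrime :=
      Ideal.map_isPrime_of_surjective Ideal.Quotient.mk_surjective (by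
        rw [Ideal.mk_ker]
        exact hq1.1)
    have hcq : (q.map (Ideal.Quotient.mk (Ideal.ofList hs))).comap
        (algebraMap Λ (R ⧸ Ideal.ofList hs)) = maximalIdeal Λ := by
      refine le_antisymm (le_maximalIdeal (Ideal.comap_isPrime _ _).ne_top) ?_
      intro x hx
      rw [Ideal.mem_comap, hmk]
      exact Ideal.mem_map_of_mem _ (hmap (Ideal.mem_map_of_mem _ hx))
    have hmax : (q.map (Ideal.Quotient.mk (Ideal.ofList hs))).IsMaximal :=
      Ideal.isMaximal_of_isIntegral_of_isMaximal_comap _ (by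
        rw [hcq]
        exact maximalIdeal.isMaximal Λ)
    have hqm : q.IsMaximal := by
      have h2 : q = (q.map (Ideal.Quotient.mk (Ideal.ofList hs))).comap
          (Ideal.Quotient.mk (Ideal.ofList hs)) := by
        rw [Ideal.comap_map_of_surjective _ Ideal.Quotient.mk_surjective,
          ← RingHom.ker_eq_comap_bot, Ideal.mk_ker, sup_eq_left.2 hq1.1]
      rw [h2]
      exact Ideal.comap_isMaximal_of_surjective _ Ideal.Quotient.mk_surjective
    rw [IsLocalRing.eq_maximalIdeal hqm]
  have hreg' : IsWeaklyRegular R (hs ++ rs') := by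
    refine isWeaklyRegular_of_sop hd _ ?_ ?_ hrad
    · rw [List.length_append, List.length_map, hrl, hlen]
    · intro z hz
      rw [List.mem_append, List.mem_map] at hz
      rcases hz with hz | ⟨y, hy, rfl⟩
      · exact hsm z hz
      · refine hmaxR y ?_
        rw [← hrs]
        exact Ideal.subset_span hy
  have h3 := ((isWeaklyRegular_append_iff _ _ _).1 hreg').2
  have heq : (Ideal.ofList hs • ⊤ : Submodule R R) = Ideal.ofList hs := by
    rw [smul_eq_mul, Ideal.mul_top]
  have h4 : IsWeaklyRegular (R ⧸ Ideal.ofList hs) rs' :=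
    (LinearEquiv.isWeaklyRegular_congr (Submodule.quotEquivOfEq _ _ heq) _).1 h3
  have h5 : IsWeaklyRegular (R ⧸ Ideal.ofList hs)
      (rs.map (algebraMap Λ (R ⧸ Ideal.ofList hs))) := by
    rw [← isWeaklyRegular_map_algebraMap_iff (S := R ⧸ Ideal.ofList hs)
      (M := R ⧸ Ideal.ofList hs)] at h4
    have h6 : rs'.map (algebraMap R (R ⧸ Ideal.ofList hs)) =
        rs.map (algebraMap Λ (R ⧸ Ideal.ofList hs)) := by
      rw [List.map_map]
      rfl
    rwa [h6] at h4
  have hflat : Module.Flat Λ (R ⧸ Ideal.ofList hs) :=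
    flat_of_weaklyRegular rs hrs hreg h5
  exact Module.free_of_flat_of_isLocalRing

end Vale.Agent.P177
end

section

/-!
A system of parameters of a regular local ring is a regular sequence (early file, copy of the
lemmas of OEndA, OEndC).
-/

namespace Vale.Agent.P177.SR

open TensorProduct IsLocalRing RingTheory.Sequence Function

universe u

section

variable {T : Type u} [CommRing T] [IsRegularLocalRing T] {t : ℕ}

/-- The associated primes of a complete intersection have the expected dimension. -/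
theorem le_supportDim_of_isAssociatedPrime_ci (ht : ringKrullDim T = t) (rs : List T)
    (hreg : IsWeaklyRegular T rs) (hle : rs.length ≤ t) (q : Ideal T)
    (hq : IsAssociatedPrime q (T ⧸ (Ideal.ofList rs • ⊤ : Submodule T T))) :
    ((t - rs.length : ℕ) : WithBot ℕ∞) ≤ Module.supportDim T (T ⧸ q) := by
  obtain ⟨ws, hlen, hws, hwreg⟩ := exists_regular_ext_list ht
    (T ⧸ (Ideal.ofList rs • ⊤ : Submodule T T)) [] (IsWeaklyRegular.nil _ _) rs.length
    (fun j hj => tor_subsingleton_list rs T hreg (T ⧸ maximalIdeal T) 1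
      (fun j hj => tor_self_residue_subsingleton T j hj) j (by omega))
    (t - rs.length) (by simp; omega)
  rw [List.nil_append] at hwreg
  rw [← hlen]
  exact length_le_supportDim_of_isAssociatedPrime ws hws _ hwreg q hq

theorem isSMulRegular_of_forall_notMem {R M : Type*} [CommRing R] [IsNoetherianRing R]
    [AddCommGroup M] [Module R M] (z : R)
    (h : ∀ q : Ideal R, IsAssociatedPrime q M → z ∉ q) : IsSMulRegular M z := by
  intro x y hxy
  by_contra hne
  have h1 : x - y ≠ 0 := sub_ne_zero.2 hne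
  obtain ⟨q, hq, hle⟩ := exists_le_isAssociatedPrime_of_isNoetherianRing R (x - y) h1
  exact h q hq (hle (by
    rw [Submodule.mem_colon_singleton, smul_sub, Submodule.mem_bot]
    exact sub_eq_zero.2 hxy))

end

/-- A system of parameters of a regular local ring is a regular sequence. -/
theorem isWeaklyRegular_of_sop {T : Type u} [CommRing T] [IsRegularLocalRing T] {t : ℕ}
    (ht : ringKrullDim T = t) (zs : List T) (hlen : zs.length = t)
    (hzs : ∀ z ∈ zs, z ∈ maximalIdeal T) (hrad : maximalIdeal T ≤ (Ideal.ofList zs).radical) :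
    IsWeaklyRegular T zs := by
  have key : ∀ (us ws : List T), zs = ws ++ us → IsWeaklyRegular T ws → IsWeaklyRegular T zs := by
    intro us
    induction us with
    | nil =>
      intro ws h1 h2
      rw [h1, List.append_nil]
      exact h2
    | cons z us ih =>
      intro ws h1 h2
      refine ih (ws ++ [z]) (by rw [h1, List.append_assoc]; rfl) ?_
      have hlw : ws.length + (us.length + 1) = t := by
        rw [← hlen, h1, List.length_append, List.length_cons]
      rw [isWeaklyRegular_append_iff]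
      refine ⟨h2, (isWeaklyRegular_singleton_iff _ _).2
        (isSMulRegular_of_forall_notMem z fun q hq hzq => ?_)⟩
      have hqp : q.IsPrime := hq.isPrime
      have h3 := le_supportDim_of_isAssociatedPrime_ci ht ws h2 (by omega) q hq
      have hwq : Ideal.ofList ws ≤ q := by
        have h4 := hq.annihilator_le
        rwa [Submodule.annihilator_top, annihilator_quot_list] at h4
      have h5 : Module.supportDim T (T ⧸ q) ≤ (us.length : WithBot ℕ∞) := by
        refine supportDim_le_length us (fun y hy => hzs y (by rw [h1]; simp [hy])) _ ?_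
        refine hrad.trans (Ideal.radical_mono ?_)
        rw [h1, Ideal.ofList_append, Ideal.ofList_cons, Ideal.annihilator_quotient]
        refine sup_le (hwq.trans le_sup_left) (sup_le ?_ le_sup_right)
        exact ((Ideal.span_singleton_le_iff_mem _).2 hzq).trans le_sup_left
      have h6 : t - ws.length ≤ us.length := by exact_mod_cast h3.trans h5
      omega
  exact key zs [] rfl (IsWeaklyRegular.nil _ _)


end Vale.Agent.P177.SR
end

section

/-!
# P177, block (AR-a): intersections of extended ideals, abstract form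

`B` is a `Λ`-algebra such that tensoring with `B` preserves injections of `Λ`-modules killed by
`c ∈ Λ` (for `c = p^N`, `B = B/p^N` this is `P202.Mix.lTensor_BN_injective`).
Then `a(A ⊗ B) ∩ b(A ⊗ B) = (a ∩ b)(A ⊗ B)` for ideals `a, b` of a `Λ`-algebra `A` that contain
`c`, and, if `A` is generated by roots `T_j` of the polynomials `F_j` and `Ψ : A → B` is a
homomorphism of `Λ`-algebras, `∏ F_j'(Ψ(T_j))` maps `Ψ(a)B ∩ Ψ(b)B` into `Ψ(a ∩ b)B`.
-/

set_option linter.all false

namespace Vale.Agent.P177.AR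

open TensorProduct Polynomial

universe u

/-- tensoring with `B` preserves injections of `Λ`-modules killed by `c`. -/
def FlatC (Λ B : Type u) [CommRing Λ] [CommRing B] [Algebra Λ B] (c : Λ) : Prop :=
  ∀ (M M' : Type u) [AddCommGroup M] [Module Λ M] [AddCommGroup M'] [Module Λ M']
    (f : M →ₗ[Λ] M'), Function.Injective f → (∀ m : M', c • m = 0) →
    Function.Injective (f.rTensor B)

section

variable {Λ : Type u} [CommRing Λ] {A B : Type u} [CommRing A] [Algebra Λ A]
  [CommRing B] [Algebra Λ B]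

/-- the homomorphism `A → A ⊗ B`. -/
noncomputable abbrev iL (Λ A B : Type u) [CommRing Λ] [CommRing A] [Algebra Λ A]
    [CommRing B] [Algebra Λ B] : A →ₐ[Λ] A ⊗[Λ] B :=
  Algebra.TensorProduct.includeLeft

theorem mem_map_iL (a : Ideal A) (x : A ⊗[Λ] B) :
    x ∈ a.map (iL Λ A B) ↔ ((Ideal.Quotient.mkₐ Λ a).toLinearMap).rTensor B x = 0 := by
  have h := Algebra.TensorProduct.rTensor_ker (R := Λ) (S := Λ) (A := A) (B := A ⧸ a) (C := B)
    (Ideal.Quotient.mkₐ Λ a) (Ideal.Quotient.mkₐ_surjective Λ a)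
  have h2 : RingHom.ker (Ideal.Quotient.mkₐ Λ a) = a := Ideal.Quotient.mkₐ_ker Λ a
  rw [h2] at h
  rw [iL, ← h, RingHom.mem_ker]
  rfl

/-- **intersections of extended ideals.** -/
theorem map_inf_map_le {c : Λ} (hB : FlatC Λ B c) (a b : Ideal A)
    (ha : algebraMap Λ A c ∈ a) (hb : algebraMap Λ A c ∈ b) :
    a.map (iL Λ A B) ⊓ b.map (iL Λ A B) ≤ (a ⊓ b).map (iL Λ A B) := by
  rintro x ⟨h1, h2⟩
  rw [SetLike.mem_coe, mem_map_iL] at h1 h2
  rw [mem_map_iL]
  -- `A/(a ∩ b) → A/a × A/b`
  let f1 : (A ⧸ (a ⊓ b)) →ₐ[Λ] A ⧸ a := Ideal.Quotient.factorₐ Λ inf_le_left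
  let f2 : (A ⧸ (a ⊓ b)) →ₐ[Λ] A ⧸ b := Ideal.Quotient.factorₐ Λ inf_le_right
  let f : (A ⧸ (a ⊓ b)) →ₗ[Λ] (A ⧸ a) × (A ⧸ b) := f1.toLinearMap.prod f2.toLinearMap
  have hf : Function.Injective f := by
    rw [← LinearMap.ker_eq_bot, LinearMap.ker_eq_bot']
    intro y hy
    obtain ⟨z, rfl⟩ := Ideal.Quotient.mk_surjective y
    have e1 : Ideal.Quotient.mk a z = 0 := congrArg Prod.fst hy
    have e2 : Ideal.Quotient.mk b z = 0 := congrArg Prod.snd hy
    rw [Ideal.Quotient.eq_zero_iff_mem] at e1 e2 ⊢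
    exact ⟨e1, e2⟩
  have hk : ∀ m : (A ⧸ a) × (A ⧸ b), c • m = 0 := by
    rintro ⟨y, z⟩
    obtain ⟨y, rfl⟩ := Ideal.Quotient.mk_surjective y
    obtain ⟨z, rfl⟩ := Ideal.Quotient.mk_surjective z
    have e1 : c • (Ideal.Quotient.mk a y) = 0 := by
      rw [Algebra.smul_def, IsScalarTower.algebraMap_apply Λ A (A ⧸ a) c]
      rw [Ideal.Quotient.algebraMap_eq, ← map_mul, Ideal.Quotient.eq_zero_iff_mem]
      exact Ideal.mul_mem_right _ _ ha
    have e2 : c • (Ideal.Quotient.mk b z) = 0 := by
      rw [Algebra.smul_def, IsScalarTower.algebraMap_apply Λ A (A ⧸ b) c]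
      rw [Ideal.Quotient.algebraMap_eq, ← map_mul, Ideal.Quotient.eq_zero_iff_mem]
      exact Ideal.mul_mem_right _ _ hb
    rw [Prod.smul_mk, e1, e2]
    rfl
  have hinj := hB _ _ f hf hk
  apply hinj
  rw [map_zero]
  -- compute through `(A/a × A/b) ⊗ B = A/a ⊗ B × A/b ⊗ B`
  apply (TensorProduct.prodLeft Λ Λ (A ⧸ a) (A ⧸ b) B).injective
  rw [map_zero]
  have key : ∀ x : A ⊗[Λ] B, (TensorProduct.prodLeft Λ Λ (A ⧸ a) (A ⧸ b) B)
      (f.rTensor B (((Ideal.Quotient.mkₐ Λ (a ⊓ b)).toLinearMap).rTensor B x)) =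
      (((Ideal.Quotient.mkₐ Λ a).toLinearMap).rTensor B x,
        ((Ideal.Quotient.mkₐ Λ b).toLinearMap).rTensor B x) := by
    intro x
    induction x with
    | zero => simp only [map_zero]; rfl
    | tmul y z => simp [f, f1, f2]
    | add y z hy hz => simp only [map_add, hy, hz, Prod.mk_add_mk]
  rw [key, h1, h2]
  rfl

end

section

variable {Λ : Type u} [CommRing Λ] {A B : Type u} [CommRing A] [Algebra Λ A]
  [CommRing B] [Algebra Λ B]

/-- the multiplication `A ⊗ B → B` along `Ψ`. -/
noncomputable def muL (Ψ : A →ₐ[Λ] B) : A ⊗[Λ] B →ₐ[Λ] B :=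
  Algebra.TensorProduct.productMap Ψ (AlgHom.id Λ B)

theorem muL_tmul (Ψ : A →ₐ[Λ] B) (x : A) (y : B) : muL Ψ (x ⊗ₜ y) = Ψ x * y := by
  simp [muL]

/-- If `ε` equalises the two embeddings of `A` (the second one along `Ψ`), then `μ(ε)` maps the
intersection of the extensions into the extension of the intersection. -/
theorem mul_mem_of_eps {c : Λ} (hB : FlatC Λ B c) (Ψ : A →ₐ[Λ] B) (ε : A ⊗[Λ] B)
    (hε : ∀ x : A, ε * (1 ⊗ₜ Ψ x) = ε * (x ⊗ₜ 1)) (a b : Ideal A)
    (ha : algebraMap Λ A c ∈ a) (hb : algebraMap Λ A c ∈ b) (m : B)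
    (h1 : m ∈ a.map Ψ) (h2 : m ∈ b.map Ψ) : muL Ψ ε * m ∈ (a ⊓ b).map Ψ := by
  have h : ∀ I : Ideal A, ∀ m : B, m ∈ I.map Ψ → ε * (1 ⊗ₜ m) ∈ I.map (iL Λ A B) := by
    intro I m hm
    refine Submodule.span_induction (p := fun m _ => ε * (1 ⊗ₜ m) ∈ I.map (iL Λ A B))
      ?_ ?_ ?_ ?_ hm
    · rintro _ ⟨x, hx, rfl⟩
      show ε * (1 ⊗ₜ Ψ x) ∈ _
      rw [hε]
      exact Ideal.mul_mem_left _ _ (Ideal.mem_map_of_mem (iL Λ A B) hx)
    · rw [TensorProduct.tmul_zero, mul_zero]
      exact Ideal.zero_mem _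
    · intro y z _ _ hy hz
      rw [TensorProduct.tmul_add, mul_add]
      exact Ideal.add_mem _ hy hz
    · intro r y _ hy
      have e1 : (1 : A) ⊗ₜ[Λ] (r • y) = (1 ⊗ₜ r) * (1 ⊗ₜ y) := by
        rw [Algebra.TensorProduct.tmul_mul_tmul, one_mul, smul_eq_mul]
      rw [e1, mul_left_comm]
      exact Ideal.mul_mem_left _ _ hy
  have h3 := map_inf_map_le hB a b ha hb ⟨h a m h1, h b m h2⟩
  have h4 : muL Ψ (ε * (1 ⊗ₜ m)) = muL Ψ ε * m := by
    rw [map_mul, muL_tmul, map_one, one_mul]
  rw [← h4]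
  have h5 : (a ⊓ b).map (iL Λ A B) ≤ ((a ⊓ b).map Ψ).comap (muL Ψ) := by
    rw [Ideal.map_le_iff_le_comap]
    intro x hx
    show muL Ψ (x ⊗ₜ[Λ] (1 : B)) ∈ (a ⊓ b).map Ψ
    rw [muL_tmul, mul_one]
    exact Ideal.mem_map_of_mem Ψ hx
  exact h5 h3

/-- the element `ε = ∏ G_j(T_j)`. -/
theorem exists_eps {ι : Type*} [Fintype ι] (T : ι → A) (hT : Algebra.adjoin Λ (Set.range T) = ⊤)
    (F : ι → Λ[X]) (hF : ∀ j, aeval (T j) (F j) = 0) (Ψ : A →ₐ[Λ] B) :
    ∃ ε : A ⊗[Λ] B, (∀ x : A, ε * (1 ⊗ₜ Ψ x) = ε * (x ⊗ₜ 1)) ∧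
      muL Ψ ε = Ψ (∏ j, aeval (T j) (derivative (F j))) := by
  classical
  -- the roots in `B` and the cofactors
  have hroot : ∀ j, ((F j).map (algebraMap Λ B)).IsRoot (Ψ (T j)) := by
    intro j
    rw [IsRoot.def, eval_map_algebraMap, aeval_algHom_apply, hF, map_zero]
  have hG : ∀ j, ∃ G : B[X], (F j).map (algebraMap Λ B) = (X - C (Ψ (T j))) * G :=
    fun j => dvd_iff_isRoot.2 (hroot j)
  choose G hG using hG
  let iR : B →ₐ[Λ] A ⊗[Λ] B := Algebra.TensorProduct.includeRight
  let e : ι → A ⊗[Λ] B := fun j => (G j).eval₂ (iR : B →+* A ⊗[Λ] B) (T j ⊗ₜ 1)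
  have he1 : ∀ j, e j * (1 ⊗ₜ Ψ (T j)) = e j * (T j ⊗ₜ 1) := by
    intro j
    have h1 : ((F j).map (algebraMap Λ B)).eval₂ (iR : B →+* A ⊗[Λ] B) (T j ⊗ₜ 1) = 0 := by
      rw [eval₂_map]
      have h2 : ((iR : B →+* A ⊗[Λ] B).comp (algebraMap Λ B)) = algebraMap Λ (A ⊗[Λ] B) := by
        ext x
        show iR (algebraMap Λ B x) = _
        rw [AlgHom.commutes]
      rw [h2]
      have h3 : eval₂ (algebraMap Λ (A ⊗[Λ] B)) (T j ⊗ₜ 1) (F j) =
          (iL Λ A B) (aeval (T j) (F j)) := by
        rw [← aeval_algHom_apply]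
        rfl
      rw [h3, hF, map_zero]
    rw [hG, eval₂_mul, eval₂_sub, eval₂_X, eval₂_C] at h1
    have h4 : (iR : B →+* A ⊗[Λ] B) (Ψ (T j)) = 1 ⊗ₜ Ψ (T j) := rfl
    rw [h4] at h1
    have h5 : (T j ⊗ₜ 1 - 1 ⊗ₜ Ψ (T j)) * e j = 0 := h1
    linear_combination -h5
  have he2 : ∀ j, muL Ψ (e j) = Ψ (aeval (T j) (derivative (F j))) := by
    intro j
    have h1 : muL Ψ (e j) = (G j).eval (Ψ (T j)) := by
      show (muL Ψ : A ⊗[Λ] B →+* B) (eval₂ (iR : B →+* A ⊗[Λ] B) (T j ⊗ₜ 1) (G j)) = _
      rw [hom_eval₂]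
      have h2 : ((muL Ψ : A ⊗[Λ] B →+* B).comp (iR : B →+* A ⊗[Λ] B)) = RingHom.id B := by
        ext x
        show muL Ψ (1 ⊗ₜ x) = x
        rw [muL_tmul, map_one, one_mul]
      rw [h2]
      have h3 : (muL Ψ : A ⊗[Λ] B →+* B) (T j ⊗ₜ 1) = Ψ (T j) := by
        show muL Ψ (T j ⊗ₜ 1) = _
        rw [muL_tmul, mul_one]
      rw [h3]
      rfl
    rw [h1, ← aeval_algHom_apply, ← eval_map_algebraMap, ← derivative_map, hG]
    simp
  refine ⟨∏ j, e j, ?_, ?_⟩
  · -- the set of the good `x` is a subalgebra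
    intro x
    have hx : x ∈ Algebra.adjoin Λ (Set.range T) := by rw [hT]; trivial
    induction hx using Algebra.adjoin_induction with
    | mem x hx =>
      obtain ⟨j, rfl⟩ := hx
      rw [← Finset.mul_prod_erase _ _ (Finset.mem_univ j)]
      linear_combination (∏ i ∈ Finset.univ.erase j, e i) * he1 j
    | algebraMap r =>
      congr 1
      rw [AlgHom.commutes, Algebra.algebraMap_eq_smul_one, Algebra.algebraMap_eq_smul_one,
        TensorProduct.tmul_smul, TensorProduct.smul_tmul']
    | add x y _ _ hx hy =>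
      rw [map_add, TensorProduct.tmul_add, mul_add, hx, hy, ← mul_add, TensorProduct.add_tmul]
    | mul x y _ _ hx hy =>
      have e1 : (1 : A) ⊗ₜ[Λ] (Ψ (x * y)) = (1 ⊗ₜ Ψ x) * (1 ⊗ₜ Ψ y) := by
        rw [Algebra.TensorProduct.tmul_mul_tmul, one_mul, map_mul]
      have e2 : (x * y) ⊗ₜ[Λ] (1 : B) = (x ⊗ₜ 1) * (y ⊗ₜ 1) := by
        rw [Algebra.TensorProduct.tmul_mul_tmul, one_mul]
      rw [e1, e2]
      linear_combination (1 ⊗ₜ[Λ] Ψ y) * hx + (x ⊗ₜ[Λ] 1) * hy
  · rw [map_prod, map_prod]
    exact Finset.prod_congr rfl fun j _ => he2 j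

/-- **the interface (HF).** -/
theorem psi_inf_gen {c : Λ} (hB : FlatC Λ B c) {ι : Type*} [Fintype ι] (T : ι → A)
    (hT : Algebra.adjoin Λ (Set.range T) = ⊤)
    (F : ι → Λ[X]) (hF : ∀ j, aeval (T j) (F j) = 0) (Ψ : A →ₐ[Λ] B) (a b : Ideal A)
    (ha : algebraMap Λ A c ∈ a) (hb : algebraMap Λ A c ∈ b) (m : B)
    (h1 : m ∈ a.map Ψ) (h2 : m ∈ b.map Ψ) :
    Ψ (∏ j, aeval (T j) (derivative (F j))) * m ∈ (a ⊓ b).map Ψ := by
  obtain ⟨ε, hε, hμ⟩ := exists_eps T hT F hF Ψ
  rw [← hμ]
  exact mul_mem_of_eps hB Ψ ε hε a b ha hb m h1 h2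

end

end Vale.Agent.P177.AR
end

section

/-!
The linear Artin-Rees lemma for products of powers of several ideals.
-/

namespace Vale.Agent.P177.AR

open MvPolynomial

variable {R : Type*} [CommRing R] {ι : Type*} [Fintype ι]

/-- the product of the powers `I i ^ k i`. -/
def ipow (I : ι → Ideal R) (k : ι →₀ ℕ) : Ideal R := ∏ i, I i ^ k i

theorem ipow_zero (I : ι → Ideal R) : ipow I 0 = ⊤ := by
  simp [ipow, Ideal.one_eq_top]

theorem ipow_add (I : ι → Ideal R) (k l : ι →₀ ℕ) : ipow I (k + l) = ipow I k * ipow I l := by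
  simp [ipow, pow_add, Finset.prod_mul_distrib]

theorem ipow_single [DecidableEq ι] (I : ι → Ideal R) (i : ι) (n : ℕ) :
    ipow I (Finsupp.single i n) = I i ^ n := by
  rw [ipow, Finset.prod_eq_single i]
  · simp
  · intro j _ hj
    rw [Finsupp.single_eq_of_ne hj, pow_zero]
  · simp

theorem ipow_antitone (I : ι → Ideal R) {k l : ι →₀ ℕ} (h : k ≤ l) : ipow I l ≤ ipow I k := by
  obtain ⟨m, rfl⟩ := exists_add_of_le h
  rw [ipow_add]
  exact Ideal.mul_le_left (I := ipow I k) (J := ipow I m)

/-- the multi-Rees algebra. -/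
def mRees (I : ι → Ideal R) : Subalgebra R (MvPolynomial ι R) where
  carrier := {f | ∀ k, coeff k f ∈ ipow I k}
  mul_mem' := by
    classical
    intro f g hf hg k
    rw [coeff_mul]
    refine Ideal.sum_mem _ fun x hx => ?_
    rw [Finset.HasAntidiagonal.mem_antidiagonal] at hx
    rw [← hx, ipow_add]
    exact Ideal.mul_mem_mul (hf _) (hg _)
  add_mem' := by
    intro f g hf hg k
    rw [coeff_add]
    exact Ideal.add_mem _ (hf k) (hg k)
  algebraMap_mem' := by
    classical
    intro r k
    rw [algebraMap_eq, coeff_C]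
    split_ifs with h
    · rw [← h, ipow_zero]; exact Submodule.mem_top
    · exact Ideal.zero_mem _

theorem monomial_mem_mRees (I : ι → Ideal R) {k : ι →₀ ℕ} {a : R} (h : a ∈ ipow I k) :
    monomial k a ∈ mRees I := by
  classical
  intro l
  rw [coeff_monomial]
  split_ifs with h1
  · rwa [← h1]
  · exact Ideal.zero_mem _

theorem mRees_fg [IsNoetherianRing R] (I : ι → Ideal R) : (mRees I).FG := by
  classical
  have hfg : ∀ i, ∃ s : Finset R, Ideal.span (s : Set R) = I i := fun i =>
    (isNoetherianRing_iff_ideal_fg R).1 inferInstance (I i)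
  choose s hs using hfg
  let G : Finset (MvPolynomial ι R) :=
    Finset.univ.biUnion fun i => (s i).image fun a => monomial (Finsupp.single i 1) a
  refine ⟨G, ?_⟩
  set A := Algebra.adjoin R (G : Set (MvPolynomial ι R)) with hA
  -- the ideals of coefficients
  let q : (ι →₀ ℕ) → Ideal R := fun k =>
    { carrier := {a | monomial k a ∈ A}
      add_mem' := by
        intro a b ha hb
        change monomial k (a + b) ∈ A
        rw [map_add]
        exact add_mem ha hb
      zero_mem' := by
        change monomial k 0 ∈ A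
        rw [map_zero]
        exact zero_mem _
      smul_mem' := by
        intro c a ha
        change monomial k (c • a) ∈ A
        rw [map_smul]
        exact Subalgebra.smul_mem _ ha c }
  have hq0 : q 0 = ⊤ := by
    rw [Ideal.eq_top_iff_one]
    change monomial 0 1 ∈ A
    exact one_mem _
  have hqmul : ∀ k l, q k * q l ≤ q (k + l) := by
    intro k l
    rw [Ideal.mul_le]
    intro a ha b hb
    change monomial (k + l) (a * b) ∈ A
    rw [← monomial_mul]
    exact mul_mem ha hb
  have hq1 : ∀ i, I i ≤ q (Finsupp.single i 1) := by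
    intro i
    rw [← hs i, Ideal.span_le]
    intro a ha
    change monomial (Finsupp.single i 1) a ∈ A
    refine Algebra.subset_adjoin ?_
    simp only [G, Finset.coe_biUnion, Set.mem_iUnion, Finset.coe_image]
    exact ⟨i, Finset.mem_univ i, a, ha, rfl⟩
  have hqpow : ∀ i n, I i ^ n ≤ q (Finsupp.single i n) := by
    intro i n
    induction n with
    | zero => rw [Finsupp.single_zero, hq0]; exact le_top
    | succ n ih =>
      rw [pow_succ, Finsupp.single_add]
      exact (Ideal.mul_mono ih (hq1 i)).trans (hqmul _ _)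
  have hqprod : ∀ (t : Finset ι) (k : ι →₀ ℕ), ∏ i ∈ t, I i ^ k i ≤
      q (∑ i ∈ t, Finsupp.single i (k i)) := by
    intro t k
    induction t using Finset.induction_on with
    | empty => simp [hq0]
    | insert i t hi ih =>
      rw [Finset.prod_insert hi, Finset.sum_insert hi]
      exact (Ideal.mul_mono (hqpow i _) ih).trans (hqmul _ _)
  apply le_antisymm
  · rw [hA, Algebra.adjoin_le_iff]
    intro f hf
    simp only [G, Finset.coe_biUnion, Set.mem_iUnion, Finset.coe_image] at hf
    obtain ⟨i, -, a, ha, rfl⟩ := hf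
    refine monomial_mem_mRees I ?_
    rw [ipow_single, pow_one, ← hs i]
    exact Ideal.subset_span ha
  · intro f hf
    rw [← support_sum_monomial_coeff f]
    refine sum_mem fun k _ => ?_
    have h1 := hqprod Finset.univ k
    have h2 : ∑ i, Finsupp.single i (k i) = k := by
      ext j
      simp
    rw [h2] at h1
    exact h1 (hf k)

instance [IsNoetherianRing R] (I : ι → Ideal R) : IsNoetherianRing (mRees I) :=
  isNoetherianRing_of_fg (mRees_fg I)

/-- the ideal of the multi-Rees algebra with coefficients in `∏ I ^ (k + e)`. -/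
def shiftI (I : ι → Ideal R) (e : ι →₀ ℕ) : Ideal (mRees I) where
  carrier := {f | ∀ k, coeff k (f : MvPolynomial ι R) ∈ ipow I (k + e)}
  add_mem' := by
    intro f g hf hg k
    rw [Subalgebra.coe_add, coeff_add]
    exact Ideal.add_mem _ (hf k) (hg k)
  zero_mem' := by
    intro k
    simp
  smul_mem' := by
    classical
    intro f g hg k
    rw [smul_eq_mul, Subalgebra.coe_mul, coeff_mul]
    refine Ideal.sum_mem _ fun x hx => ?_
    rw [Finset.HasAntidiagonal.mem_antidiagonal] at hx
    rw [← hx, add_assoc, ipow_add]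
    exact Ideal.mul_mem_mul (f.2 _) (hg _)

/-- coefficients of elements of the extended ideal. -/
theorem coeff_mem_of_mem_map_pow (I : ι → Ideal R) (m : Ideal R) (e : ι →₀ ℕ) (n : ℕ)
    (E : Ideal (mRees I)) (hE : E ≤ shiftI I e) {f : mRees I}
    (hf : f ∈ (m.map (algebraMap R (mRees I))) ^ n • E) (k : ι →₀ ℕ) :
    coeff k (f : MvPolynomial ι R) ∈ m ^ n * ipow I (k + e) := by
  rw [← Ideal.map_pow] at hf
  refine Submodule.smul_induction_on hf ?_ ?_
  · intro a ha g hg
    -- `a` in the extended ideal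
    have h1 : ∀ k, coeff k (a : MvPolynomial ι R) ∈ m ^ n * ipow I k := by
      refine Submodule.span_induction ?_ ?_ ?_ ?_ ha
      · rintro _ ⟨b, hb, rfl⟩ l
        classical
        have h2 : ((algebraMap R (mRees I) b : mRees I) : MvPolynomial ι R) = C b := rfl
        rw [h2, coeff_C]
        split_ifs with h3
        · rw [← h3, ipow_zero, Ideal.mul_top]; exact hb
        · exact Ideal.zero_mem _
      · intro l; simp
      · intro x y _ _ hx hy l
        rw [Subalgebra.coe_add, coeff_add]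
        exact Ideal.add_mem _ (hx l) (hy l)
      · classical
        intro c x _ hx l
        rw [smul_eq_mul, Subalgebra.coe_mul, coeff_mul]
        refine Ideal.sum_mem _ fun z hz => ?_
        rw [Finset.HasAntidiagonal.mem_antidiagonal] at hz
        rw [← hz, ipow_add, mul_left_comm]
        exact Ideal.mul_mem_mul (c.2 _) (hx _)
    classical
    rw [smul_eq_mul, Subalgebra.coe_mul, coeff_mul]
    refine Ideal.sum_mem _ fun z hz => ?_
    rw [Finset.HasAntidiagonal.mem_antidiagonal] at hz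
    rw [← hz, add_assoc, ipow_add, ← mul_assoc]
    exact Ideal.mul_mem_mul (h1 _) (hE hg _)
  · intro x y hx hy
    rw [Subalgebra.coe_add, coeff_add]
    exact Ideal.add_mem _ hx hy

/-- the homogeneous elements. -/
noncomputable def mono (I : ι → Ideal R) (k : ι →₀ ℕ) : ipow I k →ₗ[R] mRees I where
  toFun a := ⟨monomial k a.1, monomial_mem_mRees I a.2⟩
  map_add' a b := by
    ext1
    simp
  map_smul' r a := by
    ext1
    simp [smul_monomial]

theorem coe_mono (I : ι → Ideal R) (k : ι →₀ ℕ) (a : ipow I k) :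
    (mono I k a : MvPolynomial ι R) = monomial k a.1 := rfl

theorem mono_mem (I : ι → Ideal R) (n : Ideal R) (k : ι →₀ ℕ) {x : R}
    (hx : x ∈ n * ipow I k) (h : x ∈ ipow I k) :
    mono I k ⟨x, h⟩ ∈ n.map (algebraMap R (mRees I)) := by
  have key : ∀ y (_ : y ∈ n * ipow I k), ∃ h : y ∈ ipow I k,
      mono I k ⟨y, h⟩ ∈ n.map (algebraMap R (mRees I)) := by
    intro y hy
    refine Submodule.mul_induction_on hy ?_ ?_
    · intro a ha b hb
      have h : a * b ∈ ipow I k := Ideal.mul_mem_left _ _ hb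
      have h2 : mono I k ⟨a * b, h⟩ = a • mono I k ⟨b, hb⟩ := by
        rw [← map_smul]; rfl
      refine ⟨h, ?_⟩
      rw [h2, Algebra.smul_def]
      exact Ideal.mul_mem_right _ _ (Ideal.mem_map_of_mem _ ha)
    · rintro a b ⟨ha, ha'⟩ ⟨hb, hb'⟩
      refine ⟨Ideal.add_mem _ ha hb, ?_⟩
      have h2 : mono I k ⟨a + b, Ideal.add_mem _ ha hb⟩ = mono I k ⟨a, ha⟩ + mono I k ⟨b, hb⟩ := by
        rw [← map_add]; rfl
      rw [h2]
      exact Ideal.add_mem _ ha' hb'
  exact (key x hx).2

theorem mono_mem_shiftI (I : ι → Ideal R) (e k : ι →₀ ℕ) {x : R}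
    (hx : x ∈ ipow I (k + e)) (h : x ∈ ipow I k) :
    mono I k ⟨x, h⟩ ∈ shiftI I e := by
  classical
  intro l'
  rw [coe_mono, coeff_monomial]
  split_ifs with h
  · rwa [← h]
  · exact Ideal.zero_mem _

theorem exists_artin [IsNoetherianRing R] (I : ι → Ideal R) (m : Ideal R) (e : ι →₀ ℕ) :
    ∃ c : ℕ, ∀ l, c ≤ l → ∀ f : mRees I, f ∈ (m.map (algebraMap R (mRees I))) ^ l →
      f ∈ shiftI I e → f ∈ (m.map (algebraMap R (mRees I))) ^ (l - c) • shiftI I e := by
  generalize m.map (algebraMap R (mRees I)) = M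
  generalize shiftI I e = N
  obtain ⟨c, hc⟩ := Ideal.exists_pow_inf_eq_pow_smul M (M := mRees I) N
  refine ⟨c, fun l hl f h1 h2 => ?_⟩
  have h3 : f ∈ M ^ l • (⊤ : Submodule (mRees I) (mRees I)) ⊓ N := by
    refine ⟨?_, h2⟩
    rw [smul_eq_mul, Ideal.mul_top]
    exact h1
  rw [hc l hl] at h3
  exact Submodule.smul_mono le_rfl inf_le_right h3

/-- One step: `m ^ l * ∏ I ^ k ∩ ∏ I ^ (k + e) ⊆ m ^ (l - c) * ∏ I ^ (k + e)`, uniformly in `k`. -/
theorem exists_step [IsNoetherianRing R] (I : ι → Ideal R) (m : Ideal R) (e : ι →₀ ℕ) :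
    ∃ c : ℕ, ∀ (l : ℕ) (k : ι →₀ ℕ) (x : R), x ∈ m ^ l * ipow I k → x ∈ ipow I (k + e) →
      x ∈ m ^ (l - c) * ipow I (k + e) := by
  obtain ⟨c, hc⟩ := exists_artin I m e
  refine ⟨c, fun l k x hx hx' => ?_⟩
  by_cases hl : c ≤ l
  · have h1 : x ∈ ipow I k := Ideal.mul_le_right hx
    have hf1 := mono_mem I (m ^ l) k hx h1
    rw [Ideal.map_pow] at hf1
    have hf2 := mono_mem_shiftI I e k hx' h1
    have hf4 := coeff_mem_of_mem_map_pow I m e (l - c) _ le_rfl (hc l hl _ hf1 hf2) k
    classical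
    rwa [coe_mono, coeff_monomial, if_pos rfl] at hf4
  · rw [Nat.sub_eq_zero_of_le (by omega), pow_zero, Ideal.one_eq_top, Ideal.top_mul]
    exact hx'

/-- **Linear Artin-Rees lemma.** -/
theorem exists_linear [IsNoetherianRing R] (I : ι → Ideal R) (m : Ideal R) :
    ∃ c : ℕ, ∀ (l : ℕ) (k : ι →₀ ℕ) (x : R), x ∈ m ^ l → x ∈ ipow I k →
      x ∈ m ^ (l - c * ∑ i, k i) * ipow I k := by
  classical
  have h1 : ∀ i, ∃ c : ℕ, ∀ (l : ℕ) (k : ι →₀ ℕ) (x : R), x ∈ m ^ l * ipow I k →
      x ∈ ipow I (k + Finsupp.single i 1) →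
      x ∈ m ^ (l - c) * ipow I (k + Finsupp.single i 1) :=
    fun i => exists_step I m (Finsupp.single i 1)
  choose c hc using h1
  refine ⟨∑ i, c i, ?_⟩
  have key : ∀ (n : ℕ) (l : ℕ) (k : ι →₀ ℕ) (x : R), ∑ i, k i = n → x ∈ m ^ l → x ∈ ipow I k →
      x ∈ m ^ (l - (∑ i, c i) * n) * ipow I k := by
    intro n
    induction n with
    | zero =>
      intro l k x hk hx _
      have : k = 0 := by
        ext i
        have := (Finset.sum_eq_zero_iff_of_nonneg (fun i _ => Nat.zero_le (k i))).1 hk i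
          (Finset.mem_univ i)
        simpa using this
      rw [this, ipow_zero, Ideal.mul_top, mul_zero, Nat.sub_zero]
      exact hx
    | succ n ih =>
      intro l k x hk hx hx'
      obtain ⟨i, hi⟩ : ∃ i, k i ≠ 0 := by
        by_contra hcon
        push Not at hcon
        simp [hcon] at hk
      obtain ⟨k', rfl⟩ : ∃ k', k = k' + Finsupp.single i 1 := by
        have : Finsupp.single i 1 ≤ k := by
          rw [Finsupp.single_le_iff]; omega
        obtain ⟨k', h⟩ := exists_add_of_le this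
        exact ⟨k', by rw [h, add_comm]⟩
      have hk' : ∑ j, k' j = n := by
        simp only [Finsupp.add_apply, Finset.sum_add_distrib] at hk
        have : ∑ j, (Finsupp.single i 1 : ι →₀ ℕ) j = 1 := by
          simp
        omega
      have h2 := ih l k' x hk' hx (ipow_antitone I (by simp) hx')
      have h3 := hc i _ k' x h2 hx'
      refine Ideal.mul_mono_left (Ideal.pow_le_pow_right ?_) h3
      have : c i ≤ ∑ i, c i := Finset.single_le_sum (fun i _ => Nat.zero_le (c i))
        (Finset.mem_univ i)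
      rw [mul_add, mul_one]
      omega
  exact fun l k x => key _ l k x rfl

end Vale.Agent.P177.AR
end

section

/-!
# P177, block ARTR: the transfer property (TR) and almost Artin-Rees at one level
-/

set_option linter.all false

namespace Vale.Agent.P177.AR

open TensorProduct Polynomial WittVector Vale.Agent.P177.PI Vale.Agent.P177.Perf

universe u

/-- the linear Artin-Rees lemma for the powers of one ideal. -/
theorem exists_linear_one {R : Type*} [CommRing R] [IsNoetherianRing R] (I m : Ideal R) :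
    ∃ c : ℕ, ∀ (l k : ℕ) (x : R), x ∈ m ^ (l + c * k) → x ∈ I ^ k → x ∈ m ^ l * I ^ k := by
  obtain ⟨c, hc⟩ := exists_linear (fun _ : Unit => I) m
  refine ⟨c, fun l k x h1 h2 => ?_⟩
  have h3 : ipow (fun _ : Unit => I) (Finsupp.single () k) = I ^ k := by
    simp [ipow]
  have h4 := hc (l + c * k) (Finsupp.single () k) x h1 (by rw [h3]; exact h2)
  rw [h3] at h4
  simpa using h4

variable (p : ℕ) [hp : Fact p.Prime] {C : Type u} [CommRing C]
  {Λ : Type u} [CommRing Λ] {A B : Type u} [CommRing A] [Algebra Λ A]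
  [CommRing B] [Algebra Λ B]

/-- **(TR).** -/
theorem hTR_of {m n : ℕ} (g : Fin m → C) (y : Fin n → C) (t : C) (ν : ℕ)
    (π : WittVector p C →+* B) (hπ : Function.Surjective π) (hker : RingHom.ker π = XI p t ν)
    (hB : FlatC Λ B ((p : Λ) ^ ν)) {ι : Type*} [Fintype ι] (T : ι → A)
    (hT : Algebra.adjoin Λ (Set.range T) = ⊤) (F : ι → Λ[X])
    (hF : ∀ j, aeval (T j) (F j) = 0) (Ψ : A →ₐ[Λ] B)
    (a : Fin m → A) (ha : ∀ l, Ψ (a l) = π (teichmuller p (g l)))
    (b : Fin n → A) (hb : ∀ i, Ψ (b i) = π (teichmuller p (y i)))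
    (hpb : (p : A) ∈ Ideal.span (Set.range b))
    (γ0 : C) (hγ : π (teichmuller p γ0) ∈
      Ideal.span {Ψ (∏ j, aeval (T j) (derivative (F j)))})
    (c : ℕ) (hc : ∀ (l k : ℕ) (x : A), x ∈ Ideal.span (Set.range b) ^ (l + c * k) →
      x ∈ Ideal.span (Set.range a) ^ k →
      x ∈ Ideal.span (Set.range b) ^ l * Ideal.span (Set.range a) ^ k)
    (k l K2 : ℕ) (hK2 : l + c * k ≤ K2) (hν : K2 ≤ ν) (z : C)
    (h1 : teichmuller p z ∈ TG p g ^ k ⊔ XI p t ν)
    (h2 : teichmuller p z ∈ TG p y ^ K2 ⊔ XI p t ν) :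
    teichmuller p (γ0 * z) ∈ TG p y ^ l * TG p g ^ k ⊔ XI p t ν := by
  -- `x ∈ I ⊔ XI ↔ π x ∈ I.map π`
  have hmem : ∀ (I : Ideal (WittVector p C)) (x : WittVector p C),
      x ∈ I ⊔ XI p t ν ↔ π x ∈ I.map π := by
    intro I x
    rw [← hker, ← Ideal.comap_map_of_surjective' π hπ I, Ideal.mem_comap]
  have hmapg : (TG p g).map π = (Ideal.span (Set.range a)).map Ψ := by
    rw [TG, Ideal.map_span, Ideal.map_span, ← Set.range_comp, ← Set.range_comp]
    congr 2
    funext l
    exact (ha l).symm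
  have hmapy : (TG p y).map π = (Ideal.span (Set.range b)).map Ψ := by
    rw [TG, Ideal.map_span, Ideal.map_span, ← Set.range_comp, ← Set.range_comp]
    congr 2
    funext l
    exact (hb l).symm
  rw [hmem] at h1 h2 ⊢
  rw [Ideal.map_pow, hmapg, ← Ideal.map_pow] at h1
  rw [Ideal.map_pow, hmapy, ← Ideal.map_pow] at h2
  rw [Ideal.map_mul, Ideal.map_pow, Ideal.map_pow, hmapg, hmapy, ← Ideal.map_pow,
    ← Ideal.map_pow, ← Ideal.map_mul]
  set P1 := Ideal.span (Set.range a) with hP1
  set Y1 := Ideal.span (Set.range b) with hY1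
  have hpY : (p : A) ^ ν ∈ Y1 ^ K2 := Ideal.pow_le_pow_right hν (Ideal.pow_mem_pow hpb ν)
  have hp0 : Ψ ((p : A) ^ ν) = 0 := by
    have h : (p : WittVector p C) ^ ν ∈ RingHom.ker π := by
      rw [hker]
      exact (mem_XI p).2 ⟨0, 1, by ring⟩
    rw [RingHom.mem_ker, map_pow, map_natCast] at h
    rw [map_pow, map_natCast, h]
  have h3 := psi_inf_gen hB T hT F hF Ψ (P1 ^ k ⊔ Ideal.span {(p : A) ^ ν}) (Y1 ^ K2)
    (by
      rw [map_pow, map_natCast]
      exact (le_sup_right : Ideal.span {(p : A) ^ ν} ≤ _) (Ideal.mem_span_singleton_self _))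
    (by rw [map_pow, map_natCast]; exact hpY) (π (teichmuller p z))
    (Ideal.map_mono le_sup_left h1) h2
  have h4 : (P1 ^ k ⊔ Ideal.span {(p : A) ^ ν}) ⊓ Y1 ^ K2 ≤
      Y1 ^ l * P1 ^ k ⊔ Ideal.span {(p : A) ^ ν} := by
    rintro x ⟨hx1, hx2⟩
    obtain ⟨x1, hx1', x2, hx2', rfl⟩ := Submodule.mem_sup.1 hx1
    refine add_mem ((le_sup_left : Y1 ^ l * P1 ^ k ≤ _) ?_)
      ((le_sup_right : Ideal.span {(p : A) ^ ν} ≤ _) hx2')
    refine hc l k x1 (Ideal.pow_le_pow_right hK2 ?_) hx1'
    have h5 : x2 ∈ Y1 ^ K2 := (Ideal.span_singleton_le_iff_mem _).2 hpY hx2'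
    have h6 := sub_mem hx2 h5
    rwa [add_sub_cancel_right] at h6
  have h5 := Ideal.map_mono h4 h3
  rw [Ideal.map_sup, Ideal.map_span, Set.image_singleton, hp0, Ideal.span_singleton_eq_bot.2 rfl,
    sup_bot_eq] at h5
  obtain ⟨e, he⟩ := Ideal.mem_span_singleton'.1 hγ
  rw [map_mul (teichmuller p), map_mul π, ← he, mul_assoc]
  exact Ideal.mul_mem_left _ _ h5

/-- **Almost Artin-Rees at one level.** The constant `c` depends only on `A, (a), (b)`. -/
theorem almost_ar [CharP C p] [PerfectRing C p] {m n : ℕ} (g : Fin m → C) (y : Fin n → C) (t : C)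
    (ht : t ∈ nonZeroDivisors C) (hty : t ∈ Ideal.span (Set.range y)) (ν : ℕ)
    (π : WittVector p C →+* B) (hπ : Function.Surjective π) (hker : RingHom.ker π = XI p t ν)
    (hB : FlatC Λ B ((p : Λ) ^ ν)) {ι : Type*} [Fintype ι] (T : ι → A)
    (hT : Algebra.adjoin Λ (Set.range T) = ⊤) (F : ι → Λ[X])
    (hF : ∀ j, aeval (T j) (F j) = 0) (Ψ : A →ₐ[Λ] B)
    (a : Fin m → A) (ha : ∀ l, Ψ (a l) = π (teichmuller p (g l)))
    (b : Fin n → A) (hb : ∀ i, Ψ (b i) = π (teichmuller p (y i)))
    (hpb : (p : A) ∈ Ideal.span (Set.range b))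
    (γ0 : C) (hγ : π (teichmuller p γ0) ∈
      Ideal.span {Ψ (∏ j, aeval (T j) (derivative (F j)))})
    (g' : C) (hg' : g' ∈ Ideal.span (Set.range g))
    (c : ℕ) (hc : ∀ (l k : ℕ) (x : A), x ∈ Ideal.span (Set.range b) ^ (l + c * k) →
      x ∈ Ideal.span (Set.range a) ^ k →
      x ∈ Ideal.span (Set.range b) ^ l * Ideal.span (Set.range a) ^ k)
    (K f : ℕ) (hm : m ≤ p ^ f) (hν1 : K * p ^ f * p ^ f ≤ ν) (hν2 : (K + c + n) * p ^ f ≤ ν)
    {x : C} (hx : x ∈ perfHull p (Ideal.span (Set.range g)))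
    (hx' : x ∈ perfHull p (Ideal.span (Set.range y) ^ (K + c + n))) :
    rt p f g' ^ (m + 1) * rt p f γ0 * x ∈
      perfHull p (Ideal.span (Set.range y) ^ K * Ideal.span (Set.range g)) := by
  have hq : 1 ≤ p ^ f := Nat.one_le_pow _ _ hp.out.pos
  have hn : n ≤ (K + c + n) * p ^ f := by nlinarith
  refine ar_abs p g y ht hty γ0 g' hg' f (p ^ f - m) K (K + c + n) ((K + c + n) * p ^ f - n)
    (K * p ^ f) ν (by omega) (by omega) le_rfl hν1 ?_ hx hx'
  intro z h1 h2
  refine hTR_of p g y t ν π hπ hker hB T hT F hF Ψ a ha b hb hpb γ0 hγ c hc _ _ _ ?_ ?_ z h1 h2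
  · have h3 : c * (p ^ f - m) ≤ c * p ^ f := Nat.mul_le_mul_left _ (Nat.sub_le _ _)
    have h4 : n ≤ n * p ^ f := by nlinarith
    have h5 : (K + c + n) * p ^ f = K * p ^ f + c * p ^ f + n * p ^ f := by ring
    omega
  · omega

end Vale.Agent.P177.AR
end

section

/-!
P202 MIX, M4a (helper768): a flatness criterion for a nilpotent element.
-/

namespace Vale.Agent.P202.Mix

universe u

/-- The equational criterion modulo `a ^ k`. -/
def FlatMod {R M : Type u} [CommRing R] [AddCommGroup M] [Module R M] (a : R) (k : ℕ)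
    (_ : M) : Prop :=
  ∀ (ι : Type) [Fintype ι] (b : ι → R) (m : ι → M), (∃ e : M, ∑ i, b i • m i = a ^ k • e) →
    ∃ (κ : Type) (_ : Fintype κ) (r : ι → κ → R) (n : κ → M) (m' : ι → M) (s : κ → R),
      (∀ i, m i = ∑ j, r i j • n j + a ^ k • m' i) ∧ ∀ j, ∑ i, b i * r i j = a ^ k * s j

theorem flatMod_succ {R M : Type u} [CommRing R] [AddCommGroup M] [Module R M] (a : R) (N : ℕ)
    (htor : ∀ m : M, a • m = 0 → ∃ m' : M, m = a ^ (N - 1) • m') (x : M)
    (h1 : FlatMod a 1 x) (k : ℕ) (hk : k + 1 ≤ N) (ih : FlatMod a k x) :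
    FlatMod a (k + 1) x := by
  intro ι _ b m he
  obtain ⟨e, he⟩ := he
  obtain ⟨κ, _, r, n, m', s, hm, hs⟩ := h1 ι b m ⟨a ^ k • e, by rw [he, smul_smul]; ring_nf⟩
  simp only [pow_one] at hm hs
  -- the new relation
  have hX : ∃ e' : M, ∑ j, s j • n j + ∑ i, b i • m' i = a ^ k • e' := by
    have h2 : a • (∑ j, s j • n j + ∑ i, b i • m' i) = a ^ (k + 1) • e := by
      rw [← he, smul_add, Finset.smul_sum, Finset.smul_sum]
      have h3 : ∑ i, b i • m i = ∑ i, ∑ j, (b i * r i j) • n j + ∑ i, a • b i • m' i := by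
        rw [← Finset.sum_add_distrib]
        refine Finset.sum_congr rfl fun i _ => ?_
        conv_lhs => rw [hm i]
        rw [smul_add, Finset.smul_sum, smul_comm a (b i)]
        congr 1
        exact Finset.sum_congr rfl fun j _ => smul_smul _ _ _
      rw [h3, Finset.sum_comm]
      congr 1
      refine Finset.sum_congr rfl fun j _ => ?_
      rw [← Finset.sum_smul, hs j, smul_smul]
    have h4 : a • (∑ j, s j • n j + ∑ i, b i • m' i - a ^ k • e) = 0 := by
      rw [smul_sub, h2, smul_smul, ← pow_succ', sub_self]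
    obtain ⟨z, hz⟩ := htor _ h4
    refine ⟨e + a ^ (N - 1 - k) • z, ?_⟩
    rw [smul_add, smul_smul, ← pow_add, show k + (N - 1 - k) = N - 1 by omega, ← hz]
    abel
  obtain ⟨e', he'⟩ := hX
  obtain ⟨Λ, _, r', n', m'', s', hm2, hs2⟩ := ih (κ ⊕ ι) (Sum.elim s b) (Sum.elim n m')
    ⟨e', by rw [Fintype.sum_sum_type]; exact he'⟩
  have hn2 : ∀ j, n j = ∑ l, r' (Sum.inl j) l • n' l + a ^ k • m'' (Sum.inl j) :=
    fun j => hm2 (Sum.inl j)
  have hm3 : ∀ i, m' i = ∑ l, r' (Sum.inr i) l • n' l + a ^ k • m'' (Sum.inr i) :=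
    fun i => hm2 (Sum.inr i)
  have hs3 : ∀ l, ∑ j, s j * r' (Sum.inl j) l + ∑ i, b i * r' (Sum.inr i) l = a ^ k * s' l := by
    intro l
    rw [← hs2 l, Fintype.sum_sum_type]
    rfl
  refine ⟨Λ ⊕ κ, inferInstance,
    fun i => Sum.elim (fun l => ∑ j, r i j * r' (Sum.inl j) l + a * r' (Sum.inr i) l)
      (fun j => a ^ k * r i j),
    Sum.elim n' (fun j => m'' (Sum.inl j)), fun i => m'' (Sum.inr i),
    Sum.elim s' s, fun i => ?_, fun q => ?_⟩
  · rw [Fintype.sum_sum_type]
    simp only [Sum.elim_inl, Sum.elim_inr]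
    have e1 : ∑ l, (∑ j, r i j * r' (Sum.inl j) l + a * r' (Sum.inr i) l) • n' l =
        ∑ j, r i j • ∑ l, r' (Sum.inl j) l • n' l + a • ∑ l, r' (Sum.inr i) l • n' l := by
      rw [Finset.smul_sum]
      simp_rw [Finset.smul_sum, add_smul, Finset.sum_smul, smul_smul]
      rw [Finset.sum_add_distrib, Finset.sum_comm]
    have e2 : ∑ j, (a ^ k * r i j) • m'' (Sum.inl j) =
        ∑ j, r i j • a ^ k • m'' (Sum.inl j) :=
      Finset.sum_congr rfl fun j _ => by rw [smul_smul, mul_comm]
    have e3 : a ^ (k + 1) • m'' (Sum.inr i) = a • a ^ k • m'' (Sum.inr i) := by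
      rw [smul_smul, pow_succ']
    have e4 : ∑ j, r i j • n j = ∑ j, r i j • ∑ l, r' (Sum.inl j) l • n' l +
        ∑ j, r i j • a ^ k • m'' (Sum.inl j) := by
      rw [← Finset.sum_add_distrib]
      refine Finset.sum_congr rfl fun j _ => ?_
      rw [← smul_add, ← hn2 j]
    have e5 : a • m' i = a • ∑ l, r' (Sum.inr i) l • n' l + a • a ^ k • m'' (Sum.inr i) := by
      rw [← smul_add, ← hm3 i]
    rw [e1, e2, e3, hm i, e4, e5]
    abel
  · rcases q with l | j
    · simp only [Sum.elim_inl]
      have e1 : ∑ i, b i * (∑ j, r i j * r' (Sum.inl j) l + a * r' (Sum.inr i) l) =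
          ∑ j, (∑ i, b i * r i j) * r' (Sum.inl j) l + a * ∑ i, b i * r' (Sum.inr i) l := by
        simp_rw [mul_add, Finset.mul_sum, Finset.sum_mul]
        rw [Finset.sum_add_distrib, Finset.sum_comm]
        congr 1
        · exact Finset.sum_congr rfl fun j _ => Finset.sum_congr rfl fun i _ => by ring
        · exact Finset.sum_congr rfl fun i _ => by ring
      rw [e1, pow_succ', mul_assoc, ← hs3 l, mul_add]
      congr 1
      rw [Finset.mul_sum]
      exact Finset.sum_congr rfl fun j _ => by rw [hs j, mul_assoc]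
    · simp only [Sum.elim_inr]
      have e1 : ∑ i, b i * (a ^ k * r i j) = a ^ k * ∑ i, b i * r i j := by
        rw [Finset.mul_sum]
        exact Finset.sum_congr rfl fun i _ => by ring
      rw [e1, hs j, pow_succ, mul_assoc]

end Vale.Agent.P202.Mix
end

section

/-!
P202, mixed characteristic, M4c-3: `B/p^N` is flat over `Λ/p^N` (M4c-1, M4c-2 are in VarReg).
-/

namespace Vale.Agent.P202.Mix

open Polynomial TensorProduct

universe u

section Gen

/-- change of rings along a surjection. -/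
theorem fb_rTensor {Λ R M M' B : Type u} [CommRing Λ] [CommRing R] [Algebra Λ R]
    (hs : Function.Surjective (algebraMap Λ R)) [AddCommGroup M] [AddCommGroup M'] [AddCommGroup B]
    [Module Λ M] [Module Λ M'] [Module Λ B] [Module R M] [Module R M'] [Module R B]
    [IsScalarTower Λ R M] [IsScalarTower Λ R M'] [IsScalarTower Λ R B] [Module.Flat R B]
    (f : M →ₗ[Λ] M') (hf : Function.Injective f) : Function.Injective (f.rTensor B) := by
  have hc1 : TensorProduct.CompatibleSMul Λ R M B := ⟨fun r x b => by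
    obtain ⟨l, rfl⟩ := hs r
    rw [algebraMap_smul, algebraMap_smul, TensorProduct.smul_tmul]⟩
  have hc2 : TensorProduct.CompatibleSMul Λ R M' B := ⟨fun r x b => by
    obtain ⟨l, rfl⟩ := hs r
    rw [algebraMap_smul, algebraMap_smul, TensorProduct.smul_tmul]⟩
  let g : M →ₗ[R] M' :=
    { toFun := f
      map_add' := map_add f
      map_smul' := fun r x => by
        obtain ⟨l, rfl⟩ := hs r
        simp [algebraMap_smul] }
  have h1 : Function.Injective (g.rTensor B) :=
    Module.Flat.rTensor_preserves_injective_linearMap g hf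
  let e : M ⊗[Λ] B ≃ₗ[Λ] M ⊗[R] B := TensorProduct.equivOfCompatibleSMul R Λ Λ M B
  let e' : M' ⊗[Λ] B ≃ₗ[Λ] M' ⊗[R] B := TensorProduct.equivOfCompatibleSMul R Λ Λ M' B
  have h2 : ∀ z, e' (f.rTensor B z) = g.rTensor B (e z) := by
    intro z
    induction z with
    | zero => simp
    | tmul x y => rfl
    | add x y hx hy => simp only [map_add, hx, hy]
  intro x y hxy
  apply e.injective
  apply h1
  rw [← h2, ← h2, hxy]

theorem fb_rel {E E' : Type*} [CommRing E] [CommRing E'] [Algebra E E'] [Module.Flat E E']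
    {J : Type*} [Fintype J] (F : J → E) (X : J → E') (h : ∑ i, F i • X i = 0) :
    ∃ (m : ℕ) (A : J → Fin m → E) (y : Fin m → E'),
      (∀ i, X i = ∑ j, A i j • y j) ∧ ∀ j, ∑ i, F i * A i j = 0 := by
  have key := Module.Flat.isTrivialRelation_of_sum_smul_eq_zero (R := E) (M := E') (f := F)
    (x := X)
  exact key h

/-- base change of a flat homomorphism to the quotient by an element. -/
theorem fb_flat_quot {R S : Type u} [CommRing R] [CommRing S] (g : R →+* S) (hg : g.Flat) (t : R)
    (ρ : R ⧸ Ideal.span {t} →+* S ⧸ Ideal.span {g t})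
    (hρ : ∀ x, ρ (Ideal.Quotient.mk _ x) = Ideal.Quotient.mk _ (g x)) : ρ.Flat := by
  let := g.toAlgebra
  let := ρ.toAlgebra
  have hgf : Module.Flat R S := hg
  show Module.Flat (R ⧸ Ideal.span {t}) (S ⧸ Ideal.span {g t})
  refine Module.Flat.of_forall_isTrivialRelation ?_
  intro l f x h
  choose F hF using fun i => Ideal.Quotient.mk_surjective (f i)
  choose X hX using fun i => Ideal.Quotient.mk_surjective (x i)
  have h1 : ∑ i, g (F i) * X i ∈ Ideal.span {g t} := by
    rw [← Ideal.Quotient.eq_zero_iff_mem, map_sum, ← h]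
    refine Finset.sum_congr rfl fun i _ => ?_
    rw [map_mul, ← hρ, hF, hX]
    rfl
  rw [Ideal.mem_span_singleton'] at h1
  obtain ⟨c, hc⟩ := h1
  have h2 : ∑ i : Option (Fin l), (Option.elim i t F) • (Option.elim i (-c) X : S) = 0 := by
    rw [Fintype.sum_option]
    simp only [Option.elim_none, Option.elim_some]
    have h3 : ∀ i, F i • X i = g (F i) * X i := fun i => rfl
    have h4 : t • (-c) = -(c * g t) := by
      rw [Algebra.smul_def]
      show g t * -c = _
      ring
    simp only [h3]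
    rw [h4, hc]
    ring
  obtain ⟨m, a, y, hy, ha⟩ := fb_rel (E := R) (E' := S) (fun i => Option.elim i t F)
    (fun i => Option.elim i (-c) X) h2
  refine ⟨m, fun i j => Ideal.Quotient.mk _ (a (some i) j), fun j => Ideal.Quotient.mk _ (y j),
    fun i => ?_, fun j => ?_⟩
  · have h5 : X i = ∑ j, a (some i) j • y j := hy (some i)
    rw [← hX i, h5, map_sum]
    refine Finset.sum_congr rfl fun j _ => ?_
    show Ideal.Quotient.mk _ (g (a (some i) j) * y j) = ρ (Ideal.Quotient.mk _ (a (some i) j)) *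
      Ideal.Quotient.mk _ (y j)
    rw [hρ, map_mul]
  · have h6 := ha j
    rw [Fintype.sum_option] at h6
    simp only [Option.elim_none, Option.elim_some] at h6
    have h7 : ∑ i, F i * a (some i) j ∈ Ideal.span {t} := by
      rw [Ideal.mem_span_singleton']
      exact ⟨-(a none j), by linear_combination -h6⟩
    rw [← Ideal.Quotient.eq_zero_iff_mem, map_sum] at h7
    rw [← h7]
    refine Finset.sum_congr rfl fun i _ => ?_
    rw [map_mul, hF]

/-- the equational criterion modulo `a`, from a flat homomorphism `Λ/a → B/a`. -/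
theorem fb_gen {Λ B Q : Type u} [CommRing Λ] [CommRing B] [Algebra Λ B] [CommRing Q] (a : Λ)
    (q : B →+* Q) (hqs : Function.Surjective q) (hqk : ∀ z, q z = 0 → ∃ z', z = a • z')
    (hqp : ∀ z, q (a • z) = 0) (θ : Λ ⧸ Ideal.span {a} →+* Q) (hθ : θ.Flat)
    (key : ∀ l, q (algebraMap Λ B l) = θ (Ideal.Quotient.mk _ l)) : FlatMod a 1 (0 : B) := by
  intro ι _ b m he
  obtain ⟨e, he⟩ := he
  let := θ.toAlgebra
  have hfl : Module.Flat (Λ ⧸ Ideal.span {a}) Q := hθ
  have hsm : ∀ (l : Λ) (z : B), (Ideal.Quotient.mk (Ideal.span {a}) l) • q z = q (l • z) := by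
    intro l z
    rw [Algebra.smul_def (R := Λ), map_mul, key]
    rfl
  have h0 : ∑ i, (Ideal.Quotient.mk (Ideal.span {a}) (b i)) • q (m i) = 0 := by
    rw [Finset.sum_congr rfl fun i _ => hsm (b i) (m i), ← map_sum, he, pow_one, hqp]
  have h00 := fb_rel (E := Λ ⧸ Ideal.span {a}) (E' := Q)
    (fun i => Ideal.Quotient.mk (Ideal.span {a}) (b i)) (fun i => q (m i)) h0
  obtain ⟨κ, A, y, h1, h2⟩ := h00
  choose s hs using fun i j => Ideal.Quotient.mk_surjective (A i j)
  choose n hn using fun j => hqs (y j)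
  have h3 : ∀ i, ∃ z, m i - ∑ j, s i j • n j = a • z := by
    intro i
    refine hqk _ ?_
    rw [map_sub, map_sum, sub_eq_zero]
    have h4 : q (m i) = ∑ j, A i j • y j := h1 i
    rw [h4]
    refine Finset.sum_congr rfl fun j _ => ?_
    rw [← hsm, hs, hn]
  choose m' hm' using h3
  have h5 : ∀ j, ∃ c, ∑ i, b i * s i j = a * c := by
    intro j
    have h6 : ∑ i, b i * s i j ∈ Ideal.span {a} := by
      rw [← Ideal.Quotient.eq_zero_iff_mem, map_sum, ← h2 j]
      refine Finset.sum_congr rfl fun i _ => ?_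
      rw [map_mul, hs]
    rw [Ideal.mem_span_singleton'] at h6
    obtain ⟨c, hc⟩ := h6
    exact ⟨c, by rw [← hc, mul_comm]⟩
  choose c hc using h5
  refine ⟨Fin κ, inferInstance, s, n, m', c, fun i => ?_, fun j => ?_⟩
  · rw [pow_one, ← hm' i]
    abel
  · rw [pow_one]
    exact hc j

end Gen

variable {p : ℕ} [Fact p.Prime] {k : Type u} [Field k] [CharP k p] {r : ℕ}
variable {Λ : Type u} [CommRing Λ] {u : Fin r → Λ} {ψ : Λ →+* WittVector p (Rp p k r)}
  {red : Λ →+* R0 k r ⧸ Ideal.span {(MvPowerSeries.X 0 : R0 k r)}}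

section M4c

/-- the projection `B/p^N → C/t`. -/
theorem fb_q {r0 : ℕ} (ψ : Λ →+* WittVector p (Rp p k r)) (d : PExt.{u} p k r r0) (N : ℕ)
    (hN : 1 ≤ N) : ∃ q : BN ψ d.C N →+* d.C ⧸ Ideal.span {tC p k r d.C},
      Function.Surjective q ∧ (∀ z, q z = 0 → ∃ z', z = (p : Λ) • z') ∧
      (∀ z, q ((p : Λ) • z) = 0) ∧
      ∀ l : Λ, q (algebraMap Λ (BN ψ d.C N) l) =
        Ideal.Quotient.mk _ (algebraMap (Rp p k r) d.C ((ψ l).coeff 0)) := by
  obtain ⟨π, hπ, hπs, hπk⟩ := exists_proj p d.C (tC p k r d.C)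
  have hπp : π (p : Bt p d.C (tC p k r d.C)) = 0 := by
    rw [← RingHom.mem_ker, hπk]
    exact Ideal.mem_span_singleton_self _
  obtain ⟨q, hq⟩ : ∃ q : BN ψ d.C N →+* d.C ⧸ Ideal.span {tC p k r d.C},
      ∀ x, q (mkN ψ d.C N x) = π x :=
    ⟨Ideal.Quotient.lift _ π fun a ha => by
      rw [Ideal.mem_span_singleton'] at ha
      obtain ⟨c, rfl⟩ := ha
      rw [map_mul, map_pow, hπp, zero_pow (by omega), mul_zero],
      fun x => Ideal.Quotient.lift_mk _ _ _⟩
  refine ⟨q, fun z => ?_, fun z hz => ?_, fun z => ?_, fun l => ?_⟩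
  · obtain ⟨x, rfl⟩ := hπs z
    exact ⟨mkN ψ d.C N x, hq x⟩
  · obtain ⟨x, rfl⟩ := mkN_surjective d.C N z
    rw [hq, ← RingHom.mem_ker, hπk, Ideal.mem_span_singleton'] at hz
    obtain ⟨c, rfl⟩ := hz
    refine ⟨mkN ψ d.C N c, ?_⟩
    rw [Algebra.smul_def, map_natCast, map_mul, map_natCast, mul_comm]
  · rw [Algebra.smul_def, map_natCast, map_mul, map_natCast]
    have h1 : ((p : ℕ) : d.C ⧸ Ideal.span {tC p k r d.C}) = 0 := by
      rw [← map_natCast π, hπp]
    rw [h1, zero_mul]
  · have h3 : q (algebraMap Λ (BN ψ d.C N) l) = π (laB ψ d.C l) := hq _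
    have h4 : π (laB ψ d.C l) = Ideal.Quotient.mk _
        ((WittVector.map (algebraMap (Rp p k r) d.C) (ψ l)).coeff 0) := hπ _
    rw [h3, h4, WittVector.map_coeff]

/-- the flat homomorphism `R0/t → C/t`. -/
theorem fb_rho {r0 : ℕ} (d : PExt.{u} p k r r0) :
    ∃ ρ : R0 k r ⧸ Ideal.span {(MvPowerSeries.X 0 : R0 k r)} →+*
      d.C ⧸ Ideal.span {tC p k r d.C}, ρ.Flat ∧
      ∀ x, ρ (Ideal.Quotient.mk _ x) =
        Ideal.Quotient.mk _ (algebraMap (Rp p k r) d.C (PerfectClosure.of (R0 k r) p x)) := by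
  obtain ⟨g, hg⟩ : ∃ g : R0 k r →+* d.C,
    g = (algebraMap (Rp p k r) d.C).comp (PerfectClosure.of (R0 k r) p) := ⟨_, rfl⟩
  have hgf : g.Flat := by
    rw [hg]
    refine RingHom.Flat.comp ?_ ?_
    · exact flat_perfectClosure p k r
    · exact RingHom.flat_algebraMap_iff.2 d.flat
  have hg0 : g (MvPowerSeries.X 0) = tC p k r d.C := by rw [hg]; rfl
  have h1 : ∃ ρ : R0 k r ⧸ Ideal.span {(MvPowerSeries.X 0 : R0 k r)} →+*
      d.C ⧸ Ideal.span {g (MvPowerSeries.X 0)}, ρ.Flat ∧
      ∀ x, ρ (Ideal.Quotient.mk _ x) = Ideal.Quotient.mk _ (g x) := by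
    obtain ⟨ρ, hρ⟩ : ∃ ρ : R0 k r ⧸ Ideal.span {(MvPowerSeries.X 0 : R0 k r)} →+*
        d.C ⧸ Ideal.span {g (MvPowerSeries.X 0)},
        ∀ x, ρ (Ideal.Quotient.mk _ x) = Ideal.Quotient.mk _ (g x) :=
      ⟨Ideal.Quotient.lift _ ((Ideal.Quotient.mk _).comp g) fun a ha => by
        rw [Ideal.mem_span_singleton'] at ha
        obtain ⟨c, rfl⟩ := ha
        rw [RingHom.comp_apply, map_mul]
        exact Ideal.Quotient.eq_zero_iff_mem.2
          (Ideal.mul_mem_left _ _ (Ideal.mem_span_singleton_self _)),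
        fun x => Ideal.Quotient.lift_mk _ _ _⟩
    exact ⟨ρ, fb_flat_quot g hgf (MvPowerSeries.X 0) ρ hρ, hρ⟩
  rw [hg0] at h1
  obtain ⟨ρ, hρf, hρ⟩ := h1
  refine ⟨ρ, hρf, fun x => ?_⟩
  rw [hρ, hg]
  rfl

/-- the equational criterion modulo `p` for `B/p^N`. -/
theorem fb_flatMod_one {r0 : ℕ} (hb : IsBase p k r Λ u ψ red) (d : PExt.{u} p k r r0) (N : ℕ)
    (hN : 1 ≤ N) : FlatMod (p : Λ) 1 (0 : BN ψ d.C N) := by
  obtain ⟨q, hqs, hqk, hqp, hql⟩ := fb_q ψ d N hN
  obtain ⟨ρ, hρf, hρ⟩ := fb_rho d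
  have hcomp := RingHom.Flat.comp hb.red_flat hρf
  have key : ∀ l : Λ, q (algebraMap Λ (BN ψ d.C N) l) = ρ (red l) := by
    intro l
    obtain ⟨g', y, h1, h2⟩ := hb.red_coeff l
    rw [hql, h1, hρ, h2, map_add, map_mul, map_add, map_mul]
    have h5 : Ideal.Quotient.mk (Ideal.span {tC p k r d.C})
        (algebraMap (Rp p k r) d.C (xp p k r 0)) = 0 :=
      Ideal.Quotient.eq_zero_iff_mem.2 (Ideal.mem_span_singleton_self _)
    rw [h5, zero_mul, add_zero]
  exact fb_gen (p : Λ) q hqs hqk hqp _ hcomp key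

/-- the equational criterion modulo `p^N` for `B/p^N`. -/
theorem fb_flatMod {r0 : ℕ} (hb : IsBase p k r Λ u ψ red) (d : PExt.{u} p k r r0) (N : ℕ)
    (hN : 1 ≤ N) : FlatMod (p : Λ) N (0 : BN ψ d.C N) := by
  have h1 := fb_flatMod_one hb d N hN
  have htor : ∀ m : BN ψ d.C N, (p : Λ) • m = 0 → ∃ m' : BN ψ d.C N, m = (p : Λ) ^ (N - 1) • m' := by
    intro m hm
    rw [Algebra.smul_def, map_natCast] at hm
    have h2 := BN_p d N m hm
    rw [Ideal.mem_span_singleton'] at h2
    obtain ⟨c, hc⟩ := h2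
    refine ⟨c, ?_⟩
    rw [Algebra.smul_def, map_pow, map_natCast, ← hc, mul_comm]
  have hk : ∀ j, j + 1 ≤ N → FlatMod (p : Λ) (j + 1) (0 : BN ψ d.C N) := by
    intro j
    induction j with
    | zero => intro _; exact h1
    | succ j ih => intro hj; exact flatMod_succ _ N htor 0 h1 (j + 1) hj (ih (by omega))
  have := hk (N - 1) (by omega)
  rwa [Nat.sub_add_cancel hN] at this

/-- TASK M4c-3: `B/p^N` is flat over `Λ/p^N`, in the form that tensoring with `B/p^N` preserves
injections of `Λ`-modules killed by `p^N`. Proof: `flat_of_nilpotent` (M4a) for `R = Λ/p^N`,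
`M = B/p^N`, `a = p`; `M/pM = C/t` is flat over `Λ/p` (`red_flat`, `C/t` flat over `R0/t` by base
change, as `C` is flat over `Rp` and `Rp` over `R0` (M4b)); `(0 : p) = p^(N-1)` by M1. -/
theorem lTensor_BN_injective {r0 : ℕ} (hb : IsBase p k r Λ u ψ red) (d : PExt.{u} p k r r0) (N : ℕ)
    {M M' : Type u} [AddCommGroup M] [Module Λ M] [AddCommGroup M'] [Module Λ M']
    (f : M →ₗ[Λ] M') (hf : Function.Injective f) (hM' : ∀ m : M', (p : Λ) ^ N • m = 0) :
    Function.Injective (f.rTensor (BN ψ d.C N)) := by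
  rcases Nat.eq_zero_or_pos N with hN | hN
  · subst hN
    have h1 : ∀ m : M, m = 0 := fun m => hf (by
      rw [map_zero]
      have := hM' (f m)
      rwa [pow_zero, one_smul] at this)
    have h2 : ∀ z : M ⊗[Λ] BN ψ d.C 0, z = 0 := by
      intro z
      induction z with
      | zero => rfl
      | tmul x y => rw [h1 x, TensorProduct.zero_tmul]
      | add x y hx hy => rw [hx, hy, add_zero]
    intro x y _
    rw [h2 x, h2 y]
  have hM : ∀ m : M, (p : Λ) ^ N • m = 0 := fun m => hf (by rw [map_smul, hM', map_zero])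
  have hBN : ∀ z : BN ψ d.C N, (p : Λ) ^ N • z = 0 := by
    intro z
    rw [Algebra.smul_def, map_pow, map_natCast]
    have : ((p : ℕ) : BN ψ d.C N) ^ N = mkN ψ d.C N ((p : Bt p d.C (tC p k r d.C)) ^ N) := by
      rw [map_pow, map_natCast]
    rw [this, (mkN_eq_zero_iff d.C N).2 (Ideal.mem_span_singleton_self _), zero_mul]
  have tor : ∀ (X : Type u) [AddCommGroup X] [Module Λ X], (∀ m : X, (p : Λ) ^ N • m = 0) →
      Module.IsTorsionBySet Λ X (Ideal.span {(p : Λ) ^ N} : Ideal Λ) := by
    intro X _ _ hX m a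
    obtain ⟨a, ha⟩ := a
    rw [SetLike.mem_coe, Ideal.mem_span_singleton'] at ha
    obtain ⟨c, rfl⟩ := ha
    show (c * (p : Λ) ^ N) • m = 0
    rw [mul_smul, hX, smul_zero]
  let i1 : Module (Λ ⧸ Ideal.span {(p : Λ) ^ N}) M := (tor M hM).module
  let i2 : Module (Λ ⧸ Ideal.span {(p : Λ) ^ N}) M' := (tor M' hM').module
  let i3 : Module (Λ ⧸ Ideal.span {(p : Λ) ^ N}) (BN ψ d.C N) := (tor _ hBN).module
  have hsmul : ∀ (a : Λ) (z : BN ψ d.C N),
      (Ideal.Quotient.mk (Ideal.span {(p : Λ) ^ N}) a) • z = a • z := fun a z => rfl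
  have t1 : IsScalarTower Λ (Λ ⧸ Ideal.span {(p : Λ) ^ N}) M := (tor M hM).isScalarTower
  have t2 : IsScalarTower Λ (Λ ⧸ Ideal.span {(p : Λ) ^ N}) M' := (tor M' hM').isScalarTower
  have t3 : IsScalarTower Λ (Λ ⧸ Ideal.span {(p : Λ) ^ N}) (BN ψ d.C N) :=
    (tor _ hBN).isScalarTower
  have hflat : Module.Flat (Λ ⧸ Ideal.span {(p : Λ) ^ N}) (BN ψ d.C N) := by
    refine Module.Flat.of_forall_isTrivialRelation ?_
    intro l g x h
    choose G hG using fun i => Ideal.Quotient.mk_surjective (g i)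
    have h0 : ∑ i, G i • x i = (p : Λ) ^ N • (0 : BN ψ d.C N) := by
      rw [smul_zero, ← h]
      refine Finset.sum_congr rfl fun i _ => ?_
      rw [← hG i, hsmul]
    obtain ⟨κ, _, s, n, m', c, hm, hs⟩ := fb_flatMod hb d N hN (Fin l) G x ⟨0, h0⟩
    refine ⟨Fintype.card κ, fun i j => Ideal.Quotient.mk _ (s i ((Fintype.equivFin κ).symm j)),
      fun j => n ((Fintype.equivFin κ).symm j), fun i => ?_, fun j => ?_⟩
    · rw [hm i, hBN, add_zero]
      exact (Equiv.sum_comp (Fintype.equivFin κ).symm fun j => s i j • n j).symm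
    · have h2 : ∑ i, g i * Ideal.Quotient.mk (Ideal.span {(p : Λ) ^ N})
          (s i ((Fintype.equivFin κ).symm j)) =
          Ideal.Quotient.mk _ (∑ i, G i * s i ((Fintype.equivFin κ).symm j)) := by
        rw [map_sum]
        refine Finset.sum_congr rfl fun i _ => ?_
        rw [map_mul, hG]
      rw [h2, hs, Ideal.Quotient.eq_zero_iff_mem, Ideal.mem_span_singleton']
      exact ⟨_, mul_comm _ _⟩
  exact fb_rTensor (R := Λ ⧸ Ideal.span {(p : Λ) ^ N}) Ideal.Quotient.mk_surjective f hf

end M4c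

end Vale.Agent.P202.Mix
end

section

/-!
# P177, block (AR-a): the interface (HF) for `B/p^N`
-/

set_option linter.all false

namespace Vale.Agent.P177.AR

open TensorProduct Polynomial Vale.Agent.P202.Mix

universe u

variable {p : ℕ} [Fact p.Prime] {k : Type u} [Field k] [CharP k p] {r : ℕ}
variable {Λ : Type u} [CommRing Λ] {u : Fin r → Λ} {ψ : Λ →+* WittVector p (Rp p k r)}
  {red : Λ →+* R0 k r ⧸ Ideal.span {(MvPowerSeries.X 0 : R0 k r)}}

/-- tensoring with `B/p^N` preserves injections of modules killed by `p^N`. -/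
theorem flatC_BN {r0 : ℕ} (hb : IsBase p k r Λ u ψ red) (d : PExt.{u} p k r r0) (N : ℕ) :
    FlatC Λ (BN ψ d.C N) ((p : Λ) ^ N) := by
  intro M M' _ _ _ _ f hf hM'
  exact lTensor_BN_injective hb d N f hf hM'

end Vale.Agent.P177.AR
end

section

/-!
# P177, block (AR): the projection `W(C) → B/p^N` and its kernel
-/

set_option linter.all false

namespace Vale.Agent.P177.AR

open TensorProduct Polynomial Vale.Agent.P202.Mix Vale.Agent.P177.PI Vale.Agent.P177.Perf

universe u

section

variable {p : ℕ} [Fact p.Prime] {k : Type u} [Field k] [CharP k p] {r : ℕ}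
variable {Λ : Type u} [CommRing Λ] (ψ : Λ →+* WittVector p (Rp p k r))
variable (C : Type u) [CommRing C] [Algebra (Rp p k r) C]

/-- the projection `W(C) → B/p^N`. -/
noncomputable def piN (N : ℕ) : WittVector p C →+* BN ψ C N :=
  (mkN ψ C N).comp (toB p C (tC p k r C))

theorem piN_surjective (N : ℕ) : Function.Surjective (piN ψ C N) := by
  intro x
  obtain ⟨y, rfl⟩ := mkN_surjective C N x
  obtain ⟨z, rfl⟩ := Ideal.Quotient.mk_surjective y
  exact ⟨z, rfl⟩

theorem ker_piN (N : ℕ) : RingHom.ker (piN ψ C N) = XI p (tC p k r C) N := by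
  ext x
  rw [RingHom.mem_ker, mem_XI]
  constructor
  · intro h
    have h1 : mkN ψ C N (toB p C (tC p k r C) x) = 0 := h
    rw [mkN_eq_zero_iff C N, Ideal.mem_span_singleton'] at h1
    obtain ⟨c, hc⟩ := h1
    obtain ⟨w, rfl⟩ : ∃ w, toB p C (tC p k r C) w = c := Ideal.Quotient.mk_surjective c
    have h2 : toB p C (tC p k r C) (x - (p : WittVector p C) ^ N * w) = 0 := by
      rw [map_sub, map_mul, map_pow, map_natCast, ← hc]
      ring
    have h3 : x - (p : WittVector p C) ^ N * w ∈
        Ideal.span {(p : WittVector p C) - WittVector.teichmuller p (tC p k r C)} :=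
      Ideal.Quotient.eq_zero_iff_mem.1 h2
    rw [Ideal.mem_span_singleton'] at h3
    obtain ⟨v, hv⟩ := h3
    exact ⟨v, w, by linear_combination -hv⟩
  · rintro ⟨v, w, rfl⟩
    show mkN ψ C N (toB p C (tC p k r C) _) = 0
    rw [mkN_eq_zero_iff C N, Ideal.mem_span_singleton']
    refine ⟨toB p C (tC p k r C) w, ?_⟩
    have h0 : toB p C (tC p k r C) ((p : WittVector p C) -
        WittVector.teichmuller p (tC p k r C)) = 0 :=
      Ideal.Quotient.eq_zero_iff_mem.2 (Ideal.mem_span_singleton_self _)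
    rw [map_add, map_mul, h0, zero_mul, zero_add, map_mul, map_pow, map_natCast]
    ring

end

end Vale.Agent.P177.AR
end

section

/-!
# P177, block ARTR: almost Artin-Rees for the covers `CData` of P202
-/

set_option linter.all false

namespace Vale.Agent.P177.AR

open TensorProduct Polynomial WittVector Vale.Agent.P177.PI Vale.Agent.P177.Perf
  Vale.Agent.P202.Mix

universe u

variable {p : ℕ} [Fact p.Prime] {k : Type u} [Field k] [CharP k p] {r : ℕ}
variable {Λ : Type u} [CommRing Λ] {u : Fin r → Λ} {ψ : Λ →+* WittVector p (Rp p k r)}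
  {red : Λ →+* R0 k r ⧸ Ideal.span {(MvPowerSeries.X 0 : R0 k r)}}

variable {s D : ℕ}

/-- the algebra `Λ[T]/(F_j(T_j))`. -/
abbrev FA (F : Fin s → Λ[X]) : Type u :=
  MvPolynomial (Fin s) Λ ⧸ Ideal.span (Set.range fun j => Polynomial.toMvPolynomial j (F j))

/-- the projection `Λ[T] → FA F`. -/
noncomputable abbrev mkF (F : Fin s → Λ[X]) : MvPolynomial (Fin s) Λ →ₐ[Λ] FA F :=
  Ideal.Quotient.mkₐ Λ _

theorem aeval_toMv {B : Type*} [CommRing B] [Algebra Λ B] (x : Fin s → B) (j : Fin s)
    (f : Λ[X]) : MvPolynomial.aeval x (Polynomial.toMvPolynomial j f) = aeval (x j) f := by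
  induction f using Polynomial.induction_on' with
  | add f g hf hg => rw [map_add, map_add, map_add, hf, hg]
  | monomial n c =>
    rw [← C_mul_X_pow_eq_monomial, map_mul, map_pow, toMvPolynomial_X, toMvPolynomial_C]
    simp [Algebra.smul_def]

theorem mkF_root (F : Fin s → Λ[X]) (j : Fin s) :
    aeval (mkF F (MvPolynomial.X j)) (F j) = 0 := by
  rw [aeval_algHom_apply]
  have h1 : aeval (MvPolynomial.X j : MvPolynomial (Fin s) Λ) (F j) =
      Polynomial.toMvPolynomial j (F j) := by
    rw [← aeval_toMv (MvPolynomial.X : Fin s → MvPolynomial (Fin s) Λ) j (F j)]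
    simp
  rw [h1]
  exact Ideal.Quotient.eq_zero_iff_mem.2 (Ideal.subset_span ⟨j, rfl⟩)

theorem adjoin_mkF (F : Fin s → Λ[X]) :
    Algebra.adjoin Λ (Set.range fun j => mkF F (MvPolynomial.X j)) = ⊤ := by
  rw [Algebra.adjoin_range_eq_range_aeval, AlgHom.range_eq_top]
  have h1 : MvPolynomial.aeval (fun j => mkF F (MvPolynomial.X j)) = mkF F := by
    ext j
    simp
  rw [h1]
  exact Ideal.Quotient.mkₐ_surjective _ _

variable {F : Fin s → Λ[X]} {E : MvPolynomial (Fin s) Λ} {g : Λ} {I r0 : ℕ}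

/-- the monomials in `Λ[T]`. -/
noncomputable def mX (e : Fin s → ℕ) : MvPolynomial (Fin s) Λ := ∏ j, MvPolynomial.X j ^ e j

end Vale.Agent.P177.AR
end

section

/-!
Generic complete intersections inside a prime ideal of a regular local ring.
-/

set_option linter.all false

namespace Vale.Agent.P177.SL

open IsLocalRing RingTheory.Sequence Function

universe u

theorem sdq_eq {R : Type u} [CommRing R] (P : Ideal R) :
    Module.supportDim R (R ⧸ P) = ringKrullDim (R ⧸ P) := by
  rw [Module.supportDim_eq_ringKrullDim_quotient_annihilator, Ideal.annihilator_quotient]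

section cut

variable {T : Type u} [CommRing T] [IsNoetherianRing T] [IsLocalRing T]

/-- Prime avoidance with one additional arbitrary ideal. -/
theorem exists_cut_notMem (P X : Ideal T) (hX : ¬ (P ≤ X)) (J : Ideal T) (n : ℕ)
    (hJ : Module.supportDim T (T ⧸ J) ≤ ((n + 1 : ℕ) : WithBot ℕ∞))
    (hrad : maximalIdeal T ≤ (J ⊔ P).radical) :
    ∃ z ∈ P, z ∉ X ∧
      Module.supportDim T (T ⧸ (J ⊔ Ideal.span {z})) ≤ (n : WithBot ℕ∞) := by
  classical
  have hfin : J.minimalPrimes.Finite := Ideal.finite_minimalPrimes_of_isNoetherianRing T J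
  let F : Set (Ideal T) := {q ∈ J.minimalPrimes | q ≠ maximalIdeal T}
  have hF : F.Finite := hfin.subset fun q hq => hq.1
  have hFp : ∀ q ∈ F, q.IsPrime ∧ ¬ (P ≤ q) := by
    rintro q ⟨hq1, hq2⟩
    have hqp : q.IsPrime := hq1.1.1
    refine ⟨hqp, fun hle => ?_⟩
    apply hq2
    apply le_antisymm (le_maximalIdeal hqp.ne_top)
    refine hrad.trans ?_
    rw [hqp.radical_le_iff]
    exact sup_le hq1.1.2 hle
  have hF'fin : (insert X F).Finite := hF.insert X
  have hnot : ¬ ((P : Set T) ⊆ ⋃ q ∈ insert X F, (q : Set T)) := by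
    intro hsub
    obtain ⟨q, hq, hle⟩ := (Ideal.subset_union_prime_finite hF'fin (f := id) X X (by
      intro q hq h1 _
      rcases hq with rfl | hq
      · exact absurd rfl h1
      · exact (hFp q hq).1)).1 hsub
    rcases hq with rfl | hq
    · exact hX hle
    · exact (hFp q hq).2 hle
  rw [Set.not_subset] at hnot
  obtain ⟨z, hz, hzn⟩ := hnot
  have hzn' : ∀ q ∈ insert X F, z ∉ q := by
    intro q hq hzq
    apply hzn
    simp only [Set.mem_iUnion]
    exact ⟨q, hq, hzq⟩
  refine ⟨z, hz, hzn' X (Set.mem_insert _ _), ?_⟩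
  by_contra hcon
  rw [not_le] at hcon
  obtain ⟨q, hq1, hq2, hq3⟩ := exists_prime_supportDim _ _ (succ_le_of_lt_withBot hcon)
  obtain ⟨Q, hQ, hQq⟩ := Ideal.exists_minimalPrimes_le (le_sup_left.trans hq2)
  have hQp : Q.IsPrime := hQ.1.1
  by_cases hQm : Q = maximalIdeal T
  · have hqm : q = maximalIdeal T := le_antisymm (le_maximalIdeal hq1.ne_top) (hQm ▸ hQq)
    obtain ⟨q', h1, h2, h3⟩ := exists_gt_prime q n hq3
    rw [hqm] at h2
    exact absurd (le_maximalIdeal h1.ne_top) (not_le_of_gt h2)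
  · have hzQ : z ∉ Q := hzn' _ (Or.inr ⟨hQ, hQm⟩)
    have hlt : Q < q := by
      refine lt_of_le_of_ne hQq ?_
      rintro rfl
      apply hzQ
      exact hq2 (Ideal.mem_sup_right (Ideal.mem_span_singleton_self _))
    have h4 := (supportDim_quotient_strict hlt (n + 1) hq3).trans
      ((supportDim_quotient_mono hQ.1.2).trans hJ)
    have h5 : n + 1 + 1 ≤ n + 1 := by exact_mod_cast h4
    omega

end cut

section cot

variable {R : Type u} [CommRing R] (P : Ideal R) (S : Type u) [CommRing S] [Algebra R S]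
  [IsLocalRing S]

/-- The span in the cotangent space of the images of a list of elements of `P`. -/
noncomputable def cotSpan (hP : P.map (algebraMap R S) ≤ maximalIdeal S) (fs : List R) :
    Submodule (ResidueField S) (CotangentSpace S) :=
  Submodule.span (ResidueField S) {w | ∃ x ∈ fs, ∃ hx : x ∈ P,
    w = (maximalIdeal S).toCotangent ⟨algebraMap R S x, hP (Ideal.mem_map_of_mem _ hx)⟩}

theorem cotSpan_mono (hP : P.map (algebraMap R S) ≤ maximalIdeal S) {fs gs : List R}
    (h : ∀ x ∈ fs, x ∈ gs) : cotSpan P S hP fs ≤ cotSpan P S hP gs := by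
  refine Submodule.span_mono ?_
  rintro w ⟨x, hx, hxP, rfl⟩
  exact ⟨x, h x hx, hxP, rfl⟩

/-- Lifting of membership. -/
theorem mem_of_mem_cotSpan (hP : P.map (algebraMap R S) ≤ maximalIdeal S) (fs : List R)
    (g : maximalIdeal S) (hg : (maximalIdeal S).toCotangent g ∈ cotSpan P S hP fs) :
    (g : S) ∈ (Ideal.ofList fs).map (algebraMap R S) ⊔ maximalIdeal S ^ 2 := by
  have key : ∀ v ∈ cotSpan P S hP fs, ∃ y : maximalIdeal S,
      (y : S) ∈ (Ideal.ofList fs).map (algebraMap R S) ⊔ maximalIdeal S ^ 2 ∧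
        (maximalIdeal S).toCotangent y = v := by
    intro v hv
    unfold cotSpan at hv
    induction hv using Submodule.span_induction with
    | mem w hw =>
      obtain ⟨x, hx, hxP, rfl⟩ := hw
      exact ⟨⟨algebraMap R S x, hP (Ideal.mem_map_of_mem _ hxP)⟩,
        Ideal.mem_sup_left (Ideal.mem_map_of_mem _ (Ideal.subset_span hx)), rfl⟩
    | zero => exact ⟨0, Submodule.zero_mem _, map_zero _⟩
    | add v w _ _ hv hw =>
      obtain ⟨y, hy, rfl⟩ := hv
      obtain ⟨z, hz, rfl⟩ := hw
      exact ⟨y + z, Submodule.add_mem _ hy hz, map_add _ _ _⟩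
    | smul a v _ hv =>
      obtain ⟨y, hy, rfl⟩ := hv
      obtain ⟨s, rfl⟩ := IsLocalRing.residue_surjective a
      exact ⟨s • y, Ideal.mul_mem_left _ s hy, (map_smul _ _ _)⟩
  obtain ⟨y, hy, hyg⟩ := key _ hg
  rw [← sub_eq_zero, ← map_sub, Ideal.toCotangent_eq_zero] at hyg
  have h1 : (g : S) = (y : S) - ((y - g : maximalIdeal S) : S) := by
    simp
  rw [h1]
  exact Submodule.sub_mem _ hy (Ideal.mem_sup_right hyg)

/-- Nakayama. -/
theorem le_of_le_sup_sq [IsNoetherianRing S] (J : Ideal S)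
    (h : maximalIdeal S ≤ J ⊔ maximalIdeal S ^ 2) : maximalIdeal S ≤ J := by
  refine Submodule.le_of_le_smul_of_le_jacobson_bot (I := maximalIdeal S)
    ((maximalIdeal S).fg_of_isNoetherianRing) ?_ ?_
  · rw [IsLocalRing.jacobson_eq_maximalIdeal _ bot_ne_top]
  · rwa [smul_eq_mul, ← pow_two]

end cot

/-- From an inclusion after localization to a common denominator. -/
theorem exists_denominator {R : Type u} [CommRing R] [IsNoetherianRing R] (P I : Ideal R)
    [hP : P.IsPrime] (S : Type u) [CommRing S] [Algebra R S] [IsLocalization.AtPrime S P]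
    (h : P.map (algebraMap R S) ≤ I.map (algebraMap R S)) :
    ∃ s, s ∉ P ∧ ∀ x ∈ P, s * x ∈ I := by
  classical
  obtain ⟨G, hG⟩ := (IsNoetherian.noetherian P : P.FG)
  have h1 : ∀ x ∈ P, ∃ s, s ∉ P ∧ s * x ∈ I := by
    intro x hx
    obtain ⟨m, hm, hmx⟩ := (IsLocalization.algebraMap_mem_map_algebraMap_iff P.primeCompl S I x).1
      (h (Ideal.mem_map_of_mem _ hx))
    exact ⟨m, hm, hmx⟩
  choose! s hs hsx using h1
  have hGP : ∀ x ∈ G, x ∈ P := fun x hx => by
    rw [← hG]
    exact Submodule.subset_span hx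
  refine ⟨∏ x ∈ G, s x, fun hmem => ?_, fun x hx => ?_⟩
  · obtain ⟨x, hx, hxP⟩ := (Ideal.IsPrime.prod_mem_iff).1 hmem
    exact hs x (hGP x hx) hxP
  · rw [← hG] at hx
    induction hx using Submodule.span_induction with
    | mem y hy =>
      rw [← Finset.mul_prod_erase G s hy]
      have := hsx y (hGP y hy)
      have h2 : s y * (∏ x ∈ G.erase y, s x) * y = (∏ x ∈ G.erase y, s x) * (s y * y) := by ring
      rw [h2]
      exact Ideal.mul_mem_left _ _ this
    | zero => rw [mul_zero]; exact I.zero_mem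
    | add y z _ _ hy hz => rw [mul_add]; exact I.add_mem hy hz
    | smul a y _ hy =>
      rw [smul_eq_mul, mul_left_comm]
      exact Ideal.mul_mem_left _ _ hy

/-- Generic complete intersections in a prime ideal. -/
theorem exists_generic_ci {R : Type u} [CommRing R] [IsRegularLocalRing R] (P : Ideal R)
    [hP : P.IsPrime] (hs : List R) (hhs : ∀ h ∈ hs, h ∈ maximalIdeal R) (a b d : ℕ)
    (hd : ringKrullDim R = d) (ha : ringKrullDim (R ⧸ P) = a) (hl : hs.length = a)
    (hab : a + b = d) (hm : maximalIdeal R ≤ (P ⊔ Ideal.ofList hs).radical)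
    (hdim : ringKrullDim (R ⧸ Ideal.ofList hs) ≤ (b : WithBot ℕ∞)) :
    ∃ fs : List R, fs.length = b ∧ (∀ f ∈ fs, f ∈ P) ∧
      maximalIdeal R ≤ (Ideal.ofList fs ⊔ Ideal.ofList hs).radical ∧
      IsRegular R fs ∧ ∃ s, s ∉ P ∧ ∀ x ∈ P, s * x ∈ Ideal.ofList fs := by
  classical
  let S := Localization.AtPrime P
  have hSreg : IsRegularLocalRing S := isRegularLocalRing_localization R P S
  have hPS : P.map (algebraMap R S) = maximalIdeal S :=
    IsLocalization.AtPrime.map_eq_maximalIdeal P S
  have hPS' : P.map (algebraMap R S) ≤ maximalIdeal S := hPS.le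
  -- the dimension of the localization
  have hfin : Module.finrank (ResidueField S) (CotangentSpace S) ≤ b := by
    have h1 := (IsRegularLocalRing.iff_finrank_cotangentSpace S).1 hSreg
    have h2 : ringKrullDim S = P.height := IsLocalization.AtPrime.ringKrullDim_eq_height P S
    rw [h2] at h1
    have h3 : ((Module.finrank (ResidueField S) (CotangentSpace S) : ℕ) : ℕ∞) ≤ P.height := by
      exact_mod_cast h1.le
    have h4 := height_add_le (T := R) (P := P) _ a h3 (by
      rw [sdq_eq, ha])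
    rw [hd] at h4
    have h5 : Module.finrank (ResidueField S) (CotangentSpace S) + a ≤ d := by exact_mod_cast h4
    omega
  have key : ∀ i : ℕ, i ≤ b → ∃ fs : List R, fs.length = i ∧ (∀ f ∈ fs, f ∈ P) ∧
      Module.supportDim R (R ⧸ (Ideal.ofList hs ⊔ Ideal.ofList fs)) ≤
        ((b - i : ℕ) : WithBot ℕ∞) ∧
      (maximalIdeal S ≤ (Ideal.ofList fs).map (algebraMap R S) ∨
        i ≤ Module.finrank (ResidueField S) (cotSpan P S hPS' fs)) := by
    intro i
    induction i with
    | zero =>
      intro _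
      refine ⟨[], rfl, by simp, ?_, Or.inr (Nat.zero_le _)⟩
      rw [Ideal.ofList_nil, sup_bot_eq, sdq_eq]
      exact hdim
    | succ i ih =>
      intro hi
      obtain ⟨fs, hlen, hfs, hsd, hcase⟩ := ih (by omega)
      have hrad : maximalIdeal R ≤ (Ideal.ofList hs ⊔ Ideal.ofList fs ⊔ P).radical :=
        hm.trans (Ideal.radical_mono (sup_le le_sup_right (le_sup_left.trans le_sup_left)))
      have hsd' : Module.supportDim R (R ⧸ (Ideal.ofList hs ⊔ Ideal.ofList fs)) ≤
          ((b - (i + 1) + 1 : ℕ) : WithBot ℕ∞) := by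
        rwa [show b - (i + 1) + 1 = b - i by omega]
      have hof : ∀ z : R, Ideal.ofList (fs ++ [z]) = Ideal.ofList fs ⊔ Ideal.span {z} := fun z => by
        rw [Ideal.ofList_append, Ideal.ofList_singleton]
      by_cases hA : maximalIdeal S ≤ (Ideal.ofList fs).map (algebraMap R S)
      · obtain ⟨z, hz, -, hzd⟩ := exists_cut (R := R) (T := R) P ∅ Set.finite_empty (by simp)
          (Ideal.ofList hs ⊔ Ideal.ofList fs) (b - (i + 1)) hsd' (by
            rw [Algebra.algebraMap_self, Ideal.map_id]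
            exact hrad)
        refine ⟨fs ++ [z], by simp [hlen], ?_, ?_, Or.inl ?_⟩
        · intro y hy
          rw [List.mem_append, List.mem_singleton] at hy
          rcases hy with hy | rfl
          · exact hfs y hy
          · exact hz
        · rw [hof, ← sup_assoc]
          exact hzd
        · rw [hof]
          exact hA.trans (Ideal.map_mono le_sup_left)
      · have hi' : i ≤ Module.finrank (ResidueField S) (cotSpan P S hPS' fs) :=
          hcase.resolve_left hA
        let X : Ideal R := ((Ideal.ofList fs).map (algebraMap R S) ⊔ maximalIdeal S ^ 2).comap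
          (algebraMap R S)
        have hX : ¬ (P ≤ X) := by
          intro hle
          apply hA
          refine le_of_le_sup_sq S _ ?_
          rw [← hPS]
          refine (Ideal.map_le_iff_le_comap.2 hle).trans (le_of_eq ?_)
          rw [hPS]
        obtain ⟨z, hz, hzX, hzd⟩ := exists_cut_notMem P X hX
          (Ideal.ofList hs ⊔ Ideal.ofList fs) (b - (i + 1)) hsd' hrad
        refine ⟨fs ++ [z], by simp [hlen], ?_, ?_, Or.inr ?_⟩
        · intro y hy
          rw [List.mem_append, List.mem_singleton] at hy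
          rcases hy with hy | rfl
          · exact hfs y hy
          · exact hz
        · rw [hof, ← sup_assoc]
          exact hzd
        · have hlt : cotSpan P S hPS' fs < cotSpan P S hPS' (fs ++ [z]) := by
            refine lt_of_le_of_ne (cotSpan_mono P S hPS' fun x hx => List.mem_append_left _ hx) ?_
            intro heq
            apply hzX
            refine mem_of_mem_cotSpan P S hPS' fs ⟨algebraMap R S z, hPS' (Ideal.mem_map_of_mem _ hz)⟩ ?_
            rw [heq]
            exact Submodule.subset_span ⟨z, by simp, hz, rfl⟩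
          exact hi'.trans_lt (Submodule.finrank_lt_finrank_of_lt hlt)
  obtain ⟨fs, hlen, hfs, hsd, hcase⟩ := key b le_rfl
  have hgen : maximalIdeal S ≤ (Ideal.ofList fs).map (algebraMap R S) := by
    rcases hcase with h | h
    · exact h
    · have htop : cotSpan P S hPS' fs = ⊤ := by
        apply Submodule.eq_top_of_finrank_eq
        exact le_antisymm (Submodule.finrank_le _) (hfin.trans h)
      refine le_of_le_sup_sq S _ fun g hg => ?_
      refine mem_of_mem_cotSpan P S hPS' fs ⟨g, hg⟩ ?_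
      rw [htop]
      trivial
  have hrad : maximalIdeal R ≤ (Ideal.ofList fs ⊔ Ideal.ofList hs).radical := by
    apply maximalIdeal_le_radical_of_supportDim
    rw [sup_comm]
    rw [Nat.sub_self] at hsd
    exact hsd
  have hfm : ∀ f ∈ fs, f ∈ maximalIdeal R := fun f hf => le_maximalIdeal hP.ne_top (hfs f hf)
  refine ⟨fs, hlen, hfs, hrad, ⟨?_, ?_⟩, ?_⟩
  · have h1 := SR.isWeaklyRegular_of_sop hd (fs ++ hs) (by rw [List.length_append]; omega) (by
      intro z hz
      rw [List.mem_append] at hz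
      rcases hz with hz | hz
      · exact hfm z hz
      · exact hhs z hz) (by rw [Ideal.ofList_append]; exact hrad)
    rw [isWeaklyRegular_append_iff] at h1
    exact h1.1
  · intro htop
    have h2 : Ideal.ofList fs ≤ maximalIdeal R := Ideal.span_le.2 hfm
    have h3 : (1 : R) ∈ (Ideal.ofList fs • ⊤ : Submodule R R) := htop ▸ trivial
    rw [smul_eq_mul, Ideal.mul_top] at h3
    exact (maximalIdeal.isMaximal R).ne_top (Ideal.eq_top_of_isUnit_mem _ (h2 h3) isUnit_one)
  · exact exists_denominator P (Ideal.ofList fs) S (hPS.le.trans hgen)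

end Vale.Agent.P177.SL
end

section

/-!
P177, block B7: generic complete intersections in `P`, lifted along `S → S/E = R`.
-/

namespace Vale.Agent.P177.SL

open RingTheory.Sequence IsLocalRing Function Pointwise

universe u

/-- lifting a regular sequence along `S → S/E = R`. -/
theorem lift_ci {S R : Type u} [CommRing S] [CommRing R] (Φ : S →+* R) (hΦ : Surjective Φ)
    (E : S) (hE : RingHom.ker Φ = Ideal.span {E}) (hEr : E ∈ nonZeroDivisors S) (P : Ideal R)
    (fs : List R) (hreg : IsWeaklyRegular R fs) (hfP : ∀ f ∈ fs, f ∈ P)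
    (hs : ∃ s, s ∉ P ∧ ∀ x ∈ P, s * x ∈ Ideal.ofList fs) :
    ∃ fs' : List S, fs'.map Φ = fs ∧ IsWeaklyRegular S (E :: fs') ∧
      Ideal.ofList (E :: fs') = (Ideal.ofList fs).comap Φ ∧
      Ideal.ofList (E :: fs') ≤ P.comap Φ ∧
      ∃ s, s ∉ P.comap Φ ∧ ∀ x ∈ P.comap Φ, s * x ∈ Ideal.ofList (E :: fs') := by
  obtain ⟨fs', rfl⟩ := List.map_surjective_iff.2 hΦ fs
  have h1 : Ideal.ofList (E :: fs') = (Ideal.ofList (fs'.map Φ)).comap Φ := by
    rw [← Ideal.map_ofList, Ideal.comap_map_of_surjective Φ hΦ, Ideal.ofList_cons, ← hE, sup_comm]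
    rfl
  refine ⟨fs', rfl, ?_, h1, ?_, ?_⟩
  · algebraize [Φ]
    rw [isWeaklyRegular_cons_iff]
    constructor
    · intro a b hab
      have h2 : E * (a - b) = 0 := by
        rw [mul_sub, sub_eq_zero]
        exact hab
      have h3 := (mem_nonZeroDivisors_iff_right.1 hEr) (a - b) (by rw [mul_comm]; exact h2)
      exact sub_eq_zero.1 h3
    · have h2 : (E • (⊤ : Submodule S S)) = LinearMap.ker (Algebra.linearMap S R) := by
        ext x
        rw [Submodule.mem_smul_pointwise_iff_exists, LinearMap.mem_ker]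
        have h3 : (Algebra.linearMap S R) x = 0 ↔ x ∈ RingHom.ker Φ := Iff.rfl
        rw [h3, hE, Ideal.mem_span_singleton']
        constructor
        · rintro ⟨b, -, rfl⟩
          exact ⟨b, mul_comm _ _⟩
        · rintro ⟨b, rfl⟩
          exact ⟨b, trivial, mul_comm _ _⟩
      let e : QuotSMulTop E S ≃ₗ[S] R := (Submodule.quotEquivOfEq _ _ h2).trans
        ((Algebra.linearMap S R).quotKerEquivOfSurjective hΦ)
      rw [e.isWeaklyRegular_congr, ← isWeaklyRegular_map_algebraMap_iff R R]
      exact hreg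
  · rw [h1]
    refine Ideal.comap_mono ?_
    rw [Ideal.ofList, Ideal.span_le]
    exact fun x hx => hfP x hx
  · obtain ⟨s, hsP, hs⟩ := hs
    obtain ⟨s', rfl⟩ := hΦ s
    refine ⟨s', hsP, fun x hx => ?_⟩
    rw [h1, Ideal.mem_comap, map_mul]
    exact hs _ hx

/-- **generic complete intersection, lifted to `S`**. -/
theorem exists_generic_ci_lift {S R : Type u} [CommRing S] [IsLocalRing S] [CommRing R]
    [IsRegularLocalRing R] (Φ : S →+* R) (hΦ : Surjective Φ)
    (E : S) (hE : RingHom.ker Φ = Ideal.span {E}) (hEr : E ∈ nonZeroDivisors S) (P : Ideal R)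
    [hP : P.IsPrime] (hs : List R) (hhs : ∀ h ∈ hs, h ∈ maximalIdeal R) (a b d : ℕ)
    (hd : ringKrullDim R = d) (ha : ringKrullDim (R ⧸ P) = a) (hl : hs.length = a)
    (hab : a + b = d) (hm : maximalIdeal R ≤ (P ⊔ Ideal.ofList hs).radical)
    (hdim : ringKrullDim (R ⧸ Ideal.ofList hs) ≤ (b : WithBot ℕ∞)) :
    ∃ fs : List S, fs.length = b ∧ (∀ f ∈ fs, Φ f ∈ P) ∧ IsWeaklyRegular S (E :: fs) ∧
      Ideal.ofList (E :: fs) ≤ P.comap Φ ∧
      (∃ s, s ∉ P.comap Φ ∧ ∀ x ∈ P.comap Φ, s * x ∈ Ideal.ofList (E :: fs)) ∧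
      maximalIdeal S ≤ (Ideal.ofList (E :: fs) ⊔ (Ideal.ofList hs).comap Φ).radical := by
  obtain ⟨fs, hfl, hfP, hfm, hreg, hsP⟩ :=
    exists_generic_ci P hs hhs a b d hd ha hl hab hm hdim
  obtain ⟨fs', rfl, h1, h2, h3, h4⟩ := lift_ci Φ hΦ E hE hEr P fs hreg.toIsWeaklyRegular hfP hsP
  refine ⟨fs', by rw [← hfl, List.length_map], fun f hf => hfP _ (List.mem_map.2 ⟨f, hf, rfl⟩),
    h1, h3, h4, ?_⟩
  have hloc : IsLocalHom Φ := IsLocalHom.of_surjective Φ hΦ
  have h5 : maximalIdeal S ≤ (maximalIdeal R).comap Φ := by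
    intro x hx
    rw [Ideal.mem_comap, mem_maximalIdeal, mem_nonunits_iff]
    intro hu
    exact (mem_nonunits_iff.1 ((mem_maximalIdeal x).1 hx)) (isUnit_of_map_unit Φ x hu)
  refine h5.trans ((Ideal.comap_mono hfm).trans ?_)
  rw [Ideal.comap_radical]
  refine Ideal.radical_mono ?_
  intro x hx
  rw [Ideal.mem_comap] at hx
  obtain ⟨y, hy, z, hz, hyz⟩ := Submodule.mem_sup.1 hx
  obtain ⟨z', rfl⟩ := hΦ z
  have h6 : x - z' ∈ Ideal.ofList (E :: fs') := by
    rw [h2, Ideal.mem_comap, map_sub, ← hyz, add_sub_cancel_right]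
    exact hy
  have h7 : x = (x - z') + z' := by ring
  rw [h7]
  exact add_mem ((le_sup_left : _ ≤ Ideal.ofList (E :: fs') ⊔ _) h6)
    ((le_sup_right : _ ≤ Ideal.ofList (E :: fs') ⊔ (Ideal.ofList hs).comap Φ) hz)

end Vale.Agent.P177.SL
end

section

/-!
P177, block LEV: the relations.
-/

namespace Vale.Agent.P177.Lev

open Vale.Agent.P202.Mix WittVector Polynomial

universe u

variable {p : ℕ} [Fact p.Prime] {k : Type u} [Field k] [CharP k p] {r : ℕ}
variable {Λ : Type u} [CommRing Λ] {ψ : Λ →+* WittVector p (Rp p k r)}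

section

variable {C : Type u} [CommRing C] [Algebra (Rp p k r) C]

theorem xi_mem_xiM (N : ℕ) : (p : WittVector p C) - teichmuller p (tC p k r C) ∈
    xiM p k r C N := Ideal.subset_span (Set.mem_insert _ _)

theorem p_pow_mem_xiM (N : ℕ) : (p : WittVector p C) ^ N ∈ xiM p k r C N :=
  Ideal.subset_span (Set.mem_insert_of_mem _ rfl)

theorem mem_xiM_iff (N : ℕ) (x : WittVector p C) : x ∈ xiM p k r C N ↔
    toB p C (tC p k r C) x ∈ Ideal.span {(p : Bt p C (tC p k r C)) ^ N} := by
  constructor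
  · intro hx
    have hle : xiM p k r C N ≤ (Ideal.span {(p : Bt p C (tC p k r C)) ^ N}).comap
        (toB p C (tC p k r C)) := by
      rw [xiM, Ideal.span_le]
      rintro y (rfl | rfl)
      · rw [SetLike.mem_coe, Ideal.mem_comap]
        have : toB p C (tC p k r C) ((p : WittVector p C) - teichmuller p (tC p k r C)) = 0 :=
          Ideal.Quotient.eq_zero_iff_mem.2 (Ideal.mem_span_singleton_self _)
        rw [this]
        exact zero_mem _
      · rw [SetLike.mem_coe, Ideal.mem_comap, map_pow, map_natCast]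
        exact Ideal.mem_span_singleton_self _
    exact hle hx
  · intro hx
    obtain ⟨c, hc⟩ := Ideal.mem_span_singleton'.1 hx
    obtain ⟨w, rfl⟩ := toB_surjective p C (tC p k r C) c
    have h2 : toB p C (tC p k r C) (x - w * (p : WittVector p C) ^ N) = 0 := by
      rw [map_sub, map_mul, map_pow, map_natCast, hc, sub_self]
    have h3 : x - w * (p : WittVector p C) ^ N ∈
        Ideal.span {(p : WittVector p C) - teichmuller p (tC p k r C)} :=
      Ideal.Quotient.eq_zero_iff_mem.1 h2
    have h4 : Ideal.span {(p : WittVector p C) - teichmuller p (tC p k r C)} ≤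
        xiM p k r C N := by
      rw [Ideal.span_singleton_le_iff_mem]
      exact xi_mem_xiM N
    have := add_mem (h4 h3) (Ideal.mul_mem_left _ w (p_pow_mem_xiM N))
    rwa [sub_add_cancel] at this

theorem mem_xiM_iff_exists (N : ℕ) (x : WittVector p C) : x ∈ xiM p k r C N ↔
    ∃ v w, x = ((p : WittVector p C) - teichmuller p (tC p k r C)) * v +
      (p : WittVector p C) ^ N * w := by
  rw [xiM, Ideal.mem_span_pair]
  constructor
  · rintro ⟨a, b, h⟩
    exact ⟨a, b, by rw [← h]; ring⟩
  · rintro ⟨a, b, rfl⟩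
    exact ⟨a, b, by ring⟩

theorem toB_eval {s : ℕ} (c : Fin s → C) (f : MvPolynomial (Fin s) Λ) :
    toB p C (tC p k r C) (MvPolynomial.eval₂ (laW ψ C) (fun l => teichmuller p (c l)) f) =
      MvPolynomial.eval₂ (laB ψ C) (fun l => te p C (tC p k r C) (c l)) f := by
  rw [MvPolynomial.hom_eval₂]
  rfl

theorem toB_eval_poly (c : C) (f : Λ[X]) :
    toB p C (tC p k r C) (Polynomial.eval₂ (laW ψ C) (teichmuller p c) f) =
      Polynomial.eval₂ (laB ψ C) (te p C (tC p k r C) c) f := by
  rw [Polynomial.hom_eval₂]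
  rfl

theorem eval_toMv {s : ℕ} (c : Fin s → WittVector p C) (l : Fin s) (f : Λ[X]) :
    MvPolynomial.eval₂ (laW ψ C) c (Polynomial.toMvPolynomial l f) =
      Polynomial.eval₂ (laW ψ C) (c l) f := by
  rw [Polynomial.toMvPolynomial]
  change (MvPolynomial.eval₂Hom (laW ψ C) c) (aeval (MvPolynomial.X l) f) = _
  rw [aeval_def, hom_eval₂, MvPolynomial.coe_eval₂Hom, MvPolynomial.eval₂_X]
  congr 1
  ext x
  simp

end

section

variable {s D : ℕ} {G : Fin s → Λ[X]} {E : MvPolynomial (Fin s) Λ} {g : Λ} {I r0 : ℕ}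
  (d : CData.{u} ψ (D := D) G E g I r0) (π : Fin s → Fin D)

/-- the honest relations. -/
theorem relG_of (l : Fin s) : Polynomial.eval₂ (laW ψ d.C) (teichmuller p (d.c l (π l))) (G l) ∈
    xiM p k r d.C (I + 1) := by
  rw [mem_xiM_iff, toB_eval_poly]
  have h := eval_mem_of_mem d π (f := Polynomial.toMvPolynomial l (G l))
    (Ideal.subset_span ⟨l, rfl⟩)
  rw [← toB_eval (C := d.C) (fun j => d.c j (π j)), eval_toMv, toB_eval_poly] at h
  exact h

/-- relations multiplied by `E` -/
theorem rel_of {f : MvPolynomial (Fin s) Λ}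
    (hf : E * f ∈ Ideal.span (Set.range fun j => Polynomial.toMvPolynomial j (G j))) :
    teichmuller p (d.δ π) * MvPolynomial.eval₂ (laW ψ d.C)
      (fun l => teichmuller p (d.c l (π l))) f ∈ xiM p k r d.C (I + 1) := by
  rw [mem_xiM_iff, map_mul, toB_eval (C := d.C) (fun j => d.c j (π j))]
  have h := eval_mem_of_mem d π hf
  rw [MvPolynomial.eval₂_mul] at h
  have h4 := Ideal.add_mem _ (Ideal.mul_mem_right (MvPolynomial.eval₂ (laB ψ d.C)
    (fun l => te p d.C (tC p k r d.C) (d.c l (π l))) f) _ (d.hδ π)) h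
  rw [sub_mul, sub_add_cancel] at h4
  exact h4

end

section

variable {C : Type u} [CommRing C] [CharP C p] [PerfectRing C p] [Algebra (Rp p k r) C]

end

end Vale.Agent.P177.Lev
end
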