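import Mathlib
import Vale.Agent.P177.Bd4.B5
import Vale.Agent.P177.Bd4.B2
import Vale.Agent.P177.Bd4.B8
import Vale.Agent.P177.Bd4.B6
import Vale.Agent.P177.Bd4.B3
import Vale.Agent.P177.Bd4.B7
import Vale.Agent.P177.Bd4.B1
import Vale.Agent.P177.Bd4.B4
attribute [-instance] DenselyNormedField.toNontriviallyNormedField RCLike.toDenselyNormedField DenselyNormedField.toNormedField NontriviallyNormedField.toNormedField NormedField.toNormedDivisionRing littleWedderburn NormedDivisionRing.toDivisionRing NormedField.toField IdemCommSemiring.toCommSemiring KleeneAlgebra.toIdemSemiring DivisionRing.toDivisionSemiring IdemSemiring.toSemiring SemiRingCat.instSemiringObjForgetRingHomCarrier CommSemiRingCat.FilteredColimits.colimitCommSemiring BooleanRing.toRing CommCStarAlgebra.toNormedCommRing NormedField.toNormedCommRing CommCStarAlgebra.toCStarAlgebra CStarAlgebra.toNormedRing NormedCommRing.toNormedRing NormedDivisionRing.toNormedRing NormedCommRing.toSeminormedCommRing NormedRing.toSeminormedRing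 SeminormedCommRing.toSeminormedRing Field.toEuclideanDomain BooleanRing.toCommRing EuclideanDomain.toCommRing NormedCommRing.toCommRing SeminormedCommRing.toCommRing NormedRing.toRing SeminormedRing.toRing LeftPreLieRing.instLieAdmissibleRing RightPreLieRing.instLieAdmissibleRing CommSemiring.toNonAssocCommSemiring NonAssocCommRing.toNonAssocCommSemiring NonAssocCommSemiring.toNonAssocSemiring NonAssocRing.toNonAssocSemiring CommCStarAlgebra.toNonUnitalCommCStarAlgebra CStarAlgebra.toNonUnitalCStarAlgebra NonUnitalCommCStarAlgebra.toNonUnitalCStarAlgebra NonUnitalCommCStarAlgebra.toNonUnitalNormedCommRing NormedCommRing.toNonUnitalNormedCommRing NonUnitalCStarAlgebra.toNonUnitalNormedRing NonUnitalNormedCommRing.toNonUnitalNormedRing NormedRing.toNonUnitalNormedRing CommRing.toAddCommGroupWithOne NonAssocRing.toAddCommGroupWithOne AddCommGroupWithOne.toAddCommMonoidWithOne LinearOrderedAddCommGroupWithTop.instLinearOrderedAddCommMonoidWithTop NonUnitalNormedCommRing.toNonUnitalSeminormedCommRing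 SeminormedCommRing.toNonUnitalSeminormedCommRing NonUnitalNormedRing.toNonUnitalSeminormedRing NonUnitalSeminormedCommRing.toNonUnitalSeminormedRing SeminormedRing.toNonUnitalSeminormedRing LeftPreLieRing.toNonUnitalNonAssocRing LieAdmissibleRing.toNonUnitalNonAssocRing RightPreLieRing.toNonUnitalNonAssocRing LinearOrderedAddCommGroupWithTop.toAddCommMonoid NonUnitalNormedCommRing.toNonUnitalCommRing NonUnitalSeminormedCommRing.toNonUnitalCommRing NonUnitalNormedRing.toNonUnitalRing NonUnitalSeminormedRing.toNonUnitalRing Ring.toNonUnitalRing NonUnitalRing.toNonUnitalSemiring Semiring.toNonUnitalSemiring NonAssocCommRing.toNonUnitalNonAssocCommRing NonUnitalRing.toNonUnitalNonAssocRing NonAssocCommSemiring.toNonUnitalNonAssocCommSemiring NonUnitalNonAssocCommSemiring.toNonUnitalNonAssocSemiring NonUnitalSemiring.toNonUnitalNonAssocSemiring Pi.nonUnitalNonAssocSemiring AddCommMonCat.FilteredColimits.colimitAddCommMonoid MulSemiringAction.toDistribMulAction CategoryTheory.CommGrpObj.mk CategoryTheory.CommGrpObj.toGrpObj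 CategoryTheory.Preadditive.instGrpObj CategoryTheory.instBraidedCategoryType CategoryTheory.Abelian.toPreadditive CategoryTheory.BimonObj.toMonObj CategoryTheory.CommRingObj.toRingObj CategoryTheory.GrpObj.toMonObj CategoryTheory.HopfObj.toBimonObj CategoryTheory.RingObj.toMonObj MonTypeEquivalenceMon.monMonoid GradedMonoid.GradeZero.smul SSet.stdSimplex.instFunLikeObjOppositeSimplexCategoryMkOpFinHAddNatOfNat LinearOrderedAddCommGroupWithTop.toSubNegMonoid AddCommGroupWithOne.toAddGroupWithOne SemiNormedGrp.str NormedCommGroup.toNormedGroup NormedCommGroup.toSeminormedCommGroup NormedGroup.toSeminormedGroup SeminormedCommGroup.toSeminormedGroup instNonUnitalCStarAlgebraForall instCommGroupOfIsSimpleGroupOfIsNilpotent CommGroup.toGroup CommGrpTypeEquivalenceCommGrp.commGrpCommGroup GrpTypeEquivalenceGrp.grpGroup NormedCommGroup.toCommGroup NormedGroup.toGroup SeminormedCommGroup.toCommGroup SeminormedGroup.toGroup Bialgebra.toAlgebra CommSemiring.toBialgebra CommSemiring.toHopfAlgebra HopfAlgebra.toHopfAlgebraStruct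 HopfAlgebraStruct.toBialgebra NormedAlgebra.toAlgebra LieAdmissibleRing.instLieRing instDistribSMul instSMulZeroClass NormedAlgebra.id NonUnitalNormedRing.toNormedAddCommGroup Pi.nonAssocSemiring instCoeTOfCoeDep Algebra.TensorProduct.instCommRing ContDiffMapSupportedInClass.toDFunLike RKHS.instFunLike TestFunctionClass.toDFunLike Complex.instRCLike Real.instRCLike LieRing.toAddCommGroup LieAdmissibleAlgebra.toModule Algebra.TensorProduct.instRing TensorProduct.instModuleFstSnd LeftPreLieAlgebra.toModule LieAlgebra.toModule NormedSpace.toModule RightPreLieAlgebra.toModule MonCat.monoidObj RightPreLieAlgebra.instLieAdmissibleAlgebra Algebra.TensorProduct.instCommSemiring BoxIntegral.Box.instMembershipForallReal Pi.nonUnitalSemiring LinearOrderedCommGroupWithZero.toLinearOrderedCommMonoidWithZero RingCat.FilteredColimits.colimitRing AddOpposite.instAddZero instCoeTC AlgebraicGeometry.Scheme.instPreorderCarrierCarrierCommRingCat Algebra.TensorProduct.instNonAssocRing instCoeHTC instCoeHTCT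 Algebra.TensorProduct.instNonUnitalRing instCoeTCOfCoe instNonUnitalAlgHomClassOfNonUnitalAlgEquivClass AlgHom.instNonUnitalAlgHomClassOfAlgHomClass CompleteAtomicBooleanAlgebra.toCompleteBooleanAlgebra CompleteAtomicBooleanAlgebra.toCompletelyDistribLattice ContinuousAddMonoidHom.instCoeOutOfAddMonoidHomClassOfContinuousMapClass ContinuousMonoidHom.instCoeOutOfMonoidHomClassOfContinuousMapClass HomeomorphClass.instCoeOutHomeomorph IsometryClass.instCoeOutIsometryEquiv CompleteLinearOrder.toConditionallyCompleteLinearOrderBot ConditionallyCompleteLinearOrderBot.toConditionallyCompleteLinearOrder TopologicalSpace.Compacts.instSetLike CompleteLinearOrder.toLinearOrder ConditionallyCompleteLinearOrder.toLinearOrder LinearOrderedAddCommGroupWithTop.toLinearOrder LinearOrderedAddCommMonoidWithTop.toLinearOrder LinearOrderedCommMonoidWithZero.toLinearOrder CompleteBooleanAlgebra.toCompleteLattice boolToProp CompleteBooleanAlgebra.toBooleanAlgebra CompleteBooleanAlgebra.toCompleteDistribLattice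 CompletelyDistribLattice.toCompleteDistribLattice NonUnitalSeminormedRing.toSeminormedAddCommGroup NormedAddCommGroup.toSeminormedAddCommGroup BooleanAlgebra.toBiheytingAlgebra CompleteDistribLattice.toBiheytingAlgebra CompleteDistribLattice.toCoframe CompleteDistribLattice.toFrame CompleteLinearOrder.toBiheytingAlgebra CompletelyDistribLattice.toBiheytingAlgebra Algebra.TensorProduct.instNonAssocSemiring Quaternion.instDivisionRing Algebra.TensorProduct.instNonUnitalSemiring ProfiniteAddGrp.addGroup BialgEquivClass.toBialgHomClass OrderDual.instDivisionSemiring Pi.instBotForall BiheytingAlgebra.toCoheytingAlgebra BiheytingAlgebra.toHeytingAlgebra BooleanAlgebra.toGeneralizedBooleanAlgebra CompleteLinearOrder.toCompleteLattice Order.Coframe.toCoheytingAlgebra Order.Coframe.toCompleteLattice Order.Frame.toCompleteLattice Order.Frame.toHeytingAlgebra CoheytingAlgebra.toGeneralizedCoheytingAlgebra GeneralizedBooleanAlgebra.toGeneralizedCoheytingAlgebra HeytingAlgebra.toGeneralizedHeytingAlgebra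 ConditionallyCompleteLinearOrder.toConditionallyCompleteLattice LinearOrderedCommGroupWithZero.toCommGroupWithZero Semifield.toCommGroupWithZero instConditionallyCompletePartialOrderSup CompleteLattice.toCompleteSemilatticeSup ConditionallyCompleteLattice.toConditionallyCompletePartialOrder ConditionallyCompletePartialOrder.toConditionallyCompletePartialOrderInf ConditionallyCompletePartialOrder.toConditionallyCompletePartialOrderSup Algebra.TensorProduct.instNonUnitalNonAssocRing instDistribLatticeOfLinearOrder BooleanAlgebra.toDistribLattice ChainCompletePartialOrder.instOfCompleteLattice ChainCompletePartialOrder.instOmegaCompletePartialOrder ChainCompletePartialOrder.toPartialOrder CompleteLattice.toLattice CompleteLattice.toPartialOrder' CompletePartialOrder.toOmegaCompletePartialOrder CompleteSemilatticeSup.toPartialOrder ConditionallyCompletePartialOrderInf.toPartialOrder ConditionallyCompletePartialOrderSup.toPartialOrder DistribLattice.toLattice GeneralizedBooleanAlgebra.toDistribLattice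 GeneralizedCoheytingAlgebra.toDistribLattice GeneralizedCoheytingAlgebra.toLattice GeneralizedHeytingAlgebra.toDistribLattice GeneralizedHeytingAlgebra.toLattice LinearOrder.toLattice OmegaCompletePartialOrder.toPartialOrder SemilatticeInf.toPartialOrder Order.Coframe.toDistribLattice Order.Frame.toDistribLattice Pi.mulZeroOneClass CommGroupWithZero.toGroupWithZero DivisionSemiring.toGroupWithZero TopRep.hV1 AlgHom.instContinuousLinearMapClassOfAlgHomClass AlgHomClass.linearMapClass BialgHomClass.toCoalgHomClass CoalgEquivClass.toCoalgHomClass CoalgHomClass.toSemilinearMapClass ContinuousSemilinearEquivClass.continuousSemilinearMapClass ContinuousSemilinearMapClass.toSemilinearMapClass NonUnitalAlgHomClass.instLinearMapClass NonUnitalAlgHomClass.instSemilinearMapClassOfNonUnitalAlgSemiHomClassToMonoidHomRingHom PositiveLinearMap.instContinuousLinearMapClassComplexOfLinearMapClassOfOrderHomClass RingHomClass.toLinearMapClassNNRat RingHomClass.toLinearMapClassRat SemilinearIsometryClass.toContinuousSemilinearMapClass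 SemilinearIsometryClass.toSemilinearMapClass Pi.addMonoidWithOne Pi.normedRing CommGroupWithZero.toCommMonoidWithZero LinearOrderedCommMonoidWithZero.toCommMonoidWithZero LeftPreLieAlgebra.toSMulCommClass LieAdmissibleAlgebra.toSMulCommClass RightPreLieAlgebra.toSMulCommClass CentroidHomClass.toAddMonoidHomClass MulSemiringActionSemiHomClass.toDistribMulActionSemiHomClass NonUnitalAlgSemiHomClass.toDistribMulActionSemiHomClass AlgEquivClass.toAlgHomClass BialgHomClass.toAlgHomClass AbsoluteValue.mulHomClass Invertible.toNeZero LinearOrderedCommMonoidWithZero.toIsBotZeroClass NeZero.of_gt' Nat.AtLeastTwo.toNeZero GroupWithZero.toMonoidWithZero Algebra.TensorProduct.instNonUnitalNonAssocSemiring CategoryTheory.Mat_.fintype TwoSidedIdeal.instIsTwoSidedCoeOrderHomIdealAsIdeal ValuationClass.toMonoidWithZeroHomClass OrderDual.instPow_1 Std.DTreeMap.Raw.instSingletonSigma OrderAddMonoidHom.instAddMonoidHomClass CategoryTheory.Limits.Concrete.instUniqueToTypeTerminal PadicComplex.normedField Pi.instTopForall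 MonoidWithZero.toSemigroupWithZero NonUnitalNonAssocSemiring.toMulZeroClass SemigroupWithZero.toMulZeroClass Action.instMulAction Torsor.toMulAction Action.FintypeCat.instMulActionObjFiniteOf GradedMonoid.GradeZero.mulAction OrderRingHom.instRingHomClass Ideal.Quotient.normedCommRing Ideal.Quotient.semiNormedCommRing BialgEquivClass.toCoalgEquivClass SubfieldClass.toSubringClass NormedAddCommGroup.toNormedAddGroup Nat.instNontrivial Nat.instOne Nat.Prime.one_lt' Preorder.smallCategory CategoryTheory.Groupoid.toCategory CategoryTheory.StrictBicategory.category AddHom.addHomClass instCharZeroOfIsSemireal instIsSemirealOfIsStrictOrderedRingOfExistsAddOfLE FloorSemiring.instCharZero IsRealClosed.toIsSemireal IsStrictOrderedRing.toCharZero NumberField.to_charZero RCLike.charZero_rclike Pi.instOne NonUnitalNormedRing.toMetricSpace NormedAddCommGroup.toMetricSpace NormedAddGroup.toMetricSpace NormedAddGroup.toSeminormedAddGroup NormedCommGroup.toMetricSpace NormedDivisionRing.toMetricSpace NormedField.toMetricSpace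 NormedGroup.toMetricSpace NormedRing.toMetricSpace SeminormedAddCommGroup.toSeminormedAddGroup TopologicalSpace.UpgradedIsCompletelyMetrizableSpace.toMetricSpace AddMonCat.addMonoidObj Pi.mulZeroClass MulOpposite.instMulOne Fin.completeLinearOrder StarSubalgebra.commCStarAlgebra SubfieldClass.toNormedField SubringClass.toNormedCommRing SubringClass.toSeminormedCommRing CategoryTheory.instCategoryObj EMetricSpace.toPseudoEMetricSpace IsValuativeTopology.instValuedValueGroupWithZeroOfIsUniformAddGroup MetricSpace.toEMetricSpace MetricSpace.toPseudoMetricSpace NonUnitalSeminormedRing.toPseudoMetricSpace PseudoEMetricSpace.toUniformSpace PseudoMetricSpace.toPseudoEMetricSpace PseudoMetricSpace.toUniformSpace SeminormedAddCommGroup.toPseudoMetricSpace SeminormedAddGroup.toPseudoMetricSpace SeminormedCommGroup.toPseudoMetricSpace SeminormedGroup.toPseudoMetricSpace SeminormedRing.toPseudoMetricSpace UniformSpace.toTopologicalSpace UpgradedStandardBorel.toTopologicalSpace Valued.toUniformSpace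 WithIdeal.instTopologicalSpace WithIdeal.instUniformSpace TopologicalSpace.UpgradedIsCompletelyPseudoMetrizableSpace.toPseudoMetricSpace TensorProduct.instNormedAddCommGroup SubfieldClass.toDivisionRing SubfieldClass.toField SubringClass.toCommRing SetLike.GradeZero.instCommRing Semigrp.str StarSubalgebra.cstarAlgebra SubalgebraClass.normedRing SubringClass.toNormedRing CommMonTypeEquivalenceCommMon.commMonCommMonoid MulEquivClass.toMonoidWithZeroHomClass MulRingSeminormClass.toMonoidWithZeroHomClass SubalgebraClass.seminormedRing SubringClass.toSeminormedRing NonUnitalAlgHomClass.toNonUnitalRingHomClass RingEquivClass.toNonUnitalRingHomClass SemilatSupCat.isSemilatticeSup instSubsingleton IsEmpty.instSubsingleton Unique.instSubsingleton Group.IsPerfect.subsingleton_of_isMulCommutative Pi.distribSMul' SubringClass.toRing SetLike.GradeZero.instRing SemilinearIsometryEquivClass.toSemilinearIsometryClass Monoid.End.instMonoidHomClass BialgHomClass.toMonoidHomClass MulCharClass.toMonoidHomClass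 MulDistribMulActionSemiHomClass.toMonoidHomClass CategoryTheory.instFinCategoryOfFintypeOfIsThin FinEnum.instFintype SetLike.instFintype Unique.fintype CategoryTheory.FinCategory.fintypeObj LeftPreLieAlgebra.toIsScalarTower LieAdmissibleAlgebra.toIsScalarTower LieRinehartAlgebra.toIsScalarTower RightPreLieAlgebra.toIsScalarTower NonUnitalAlgSemiHomClass.toMulHomClass Fin.instBiheytingAlgebra RootedTree.orderBot Algebra.TensorProduct.right_isScalarTower IsStrictOrderedRing.noZeroDivisors NormMulClass.toNoZeroDivisors instRingHomSurjectiveForallEvalRingHom instCoeOutOfCoeFun TensorProduct.instDistribMulAction AbsoluteValue.zeroHomClass Pi.mulOneClass Pi.commMagma OneHom.oneHomClass FiniteDimensional.finiteDimensional_quotient Pi.smulZeroClass' instIsRightCancelAddOfAddRightReflectLE Std.LinearOrderPackage.toLinearPreorderPackage Std.LinearPreorderPackage.toPreorderPackage Pi.distribMulAction' instMulActionSemiHomClassMulActionHom CommMonCat.str FirstOrder.Language.instDecidableEqFunctions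 FirstOrder.Language.instDecidableEqRelations PartOrdEmb.str AlgHomClass.toRingHomClass MulSemiringActionSemiHomClass.toRingHomClass RingEquivClass.toRingHomClass Fin.instCoheytingAlgebra Fin.instHeytingAlgebra Pi.instIsRightCancelAdd forall_prop_decidable Array.instDecidableForallForallMemOfDecidablePred Finset.decidableDforallFinset Fintype.decidableForallFintype Multiset.decidableDforallMultiset Option.decidableForallMem Vector.instDecidableForallForallMemOfDecidablePred NumberField.instFiniteDimensional Pi.subNegZeroMonoid FinEnum.decEq FunLike.toDecidableEq RCLike.toDecidableEq Pi.instMaxForall_mathlib instIsDedekindDomainOfIsDomainOfIsDedekindRing IsDedekindDomainDvr.isDedekindDomain IsPrincipalIdealRing.isDedekindDomain AddQuantale.instAddLeftMono LinearOrderedAddCommGroupWithTop.toIsOrderedAddMonoid LinOrd.str AddCommGroupWithOne.toAddCommGroup ENormedAddCommMonoid.toESeminormedAddCommMonoid NormedAddCommGroup.toAddCommGroup NormedAddCommGroup.toENormedAddCommMonoid SeminormedAddCommGroup.toAddCommGroup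 NonUnitalStarSubalgebra.nonUnitalCStarAlgebra NonUnitalStarSubalgebra.nonUnitalCommCStarAlgebra NonUnitalSubalgebraClass.nonUnitalNormedRing Pi.monoidWithZero Pi.normedAddCommGroup Pi.subNegMonoid ConvexCone.instAddMemClass PerfectClosure.instDivisionRing PerfectClosure.instField instIsDomain DivisionRing.isDomain EuclideanDomain.instIsDomain Field.isDomain IsDedekindDomain.toIsDomain IsStrictOrderedRing.isDomain String.Slice.Pos.instLinearOrderPackage RCLike.innerProductSpace TensorProduct.isScalarTower_right Module.Finite.tensorProduct AlgebraicGeometry.instOrderTopCarrierCarrierCommRingCatOfIsIntegral AddSubgroupClass.normedAddCommGroup NonUnitalSubalgebraClass.nonUnitalSeminormedRing Submodule.normedAddCommGroup SubringClass.toNonAssocCommRing SubringClass.toNonAssocRing Submodule.Quotient.normedAddCommGroup Field.henselian Field.instIsLocalRing HenselianLocalRing.toIsLocalRing IsDiscreteValuationRing.toIsLocalRing IsRegularLocalRing.instOfIsLocalRingOfIsDomainOfIsPrincipalIdealRing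 ValuationRing.isLocalRing MonoidWithZero.toMulActionWithZero MulZeroClass.toSMulWithZero ENormedCommMonoid.toESeminormedCommMonoid NormedCommGroup.toENormedCommMonoid SubringClass.toNegMemClass IsRegularRing.toIsNoetherian SimpleGraph.TripartiteFromTriangles.graph.instDecidableRelAdj Set.instNoZeroDivisors AddSubgroupClass.seminormedAddCommGroup NonUnitalSubringClass.toNonUnitalNonAssocCommRing NonUnitalSubringClass.toNonUnitalNonAssocRing NonUnitalSubringClass.toNonUnitalRing Submodule.seminormedAddCommGroup RingConeClass.toSubsemiringClass SubringClass.toSubsemiringClass decidableEq_of_subsingleton Vector.instHMul Pi.commMonoidWithZero -- iprune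

set_option linter.all false

section

/-!
Systems of parameters and the height inequality for a pair of maps of regular local rings whose
maximal ideals generate the maximal ideal of the target.
-/

namespace Vale.Agent.P177

open IsLocalRing RingTheory.Sequence Function

universe u

/-- Parameters for a quotient of a noetherian local ring. -/
theorem exists_parameters {R : Type u} [CommRing R] [IsLocalRing R] [IsNoetherianRing R]
    (P : Ideal R) (hP : P ≠ ⊤) (n : ℕ) (hn : Module.supportDim R (R ⧸ P) = (n : WithBot ℕ∞)) :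
    ∃ xs : List R, xs.length = n ∧ (∀ x ∈ xs, x ∈ maximalIdeal R) ∧
      maximalIdeal R ≤ (P ⊔ Ideal.ofList xs).radical := by
  have hnt : Nontrivial (R ⧸ P) := Ideal.Quotient.nontrivial_iff.2 hP
  have hloc : IsLocalRing (R ⧸ P) :=
    .of_surjective' (Ideal.Quotient.mk P) Ideal.Quotient.mk_surjective
  obtain ⟨s, hs, hcard⟩ :=
    Ideal.exists_finset_card_eq_height_of_isNoetherianRing (maximalIdeal (R ⧸ P))
  have hdim : ((maximalIdeal (R ⧸ P)).height : WithBot ℕ∞) = (n : WithBot ℕ∞) := by
    rw [IsLocalRing.maximalIdeal_height_eq_ringKrullDim, ← hn,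
      Module.supportDim_quotient_eq_ringKrullDim]
  have hcard' : s.card = n := by
    have h1 : ((s.card : ℕ∞) : WithBot ℕ∞) = (n : WithBot ℕ∞) := by rw [hcard, hdim]
    exact_mod_cast h1
  have hrad : maximalIdeal (R ⧸ P) ≤ (Ideal.span (s : Set (R ⧸ P))).radical := by
    rw [Ideal.radical_eq_sInf]
    refine le_sInf ?_
    rintro q ⟨hq1, hq⟩
    exact hs.2 ⟨hq, hq1⟩ (le_maximalIdeal hq.ne_top)
  refine ⟨s.toList.map (surjInv (Ideal.Quotient.mk_surjective (I := P))), by simpa using hcard',
    ?_, ?_⟩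
  · intro x hx
    rw [List.mem_map] at hx
    obtain ⟨y, hy, rfl⟩ := hx
    have hy' : y ∈ maximalIdeal (R ⧸ P) := hs.1.2 (Ideal.subset_span (by simpa using hy))
    rw [mem_maximalIdeal, mem_nonunits_iff]
    intro hu
    rw [mem_maximalIdeal, mem_nonunits_iff] at hy'
    apply hy'
    rw [← surjInv_eq (Ideal.Quotient.mk_surjective (I := P)) y]
    exact hu.map _
  intro x hx
  have h1 : Ideal.Quotient.mk P x ∈ maximalIdeal (R ⧸ P) := by
    have h2 : (maximalIdeal R).map (Ideal.Quotient.mk P) = maximalIdeal (R ⧸ P) :=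
      map_maximalIdeal_of_surjective _ Ideal.Quotient.mk_surjective
    rw [← h2]
    exact Ideal.mem_map_of_mem _ hx
  obtain ⟨k, hk⟩ := hrad h1
  refine ⟨k, ?_⟩
  have h3 : Ideal.span (s : Set (R ⧸ P)) ≤ (Ideal.ofList (s.toList.map
      (surjInv (Ideal.Quotient.mk_surjective (I := P))))).map (Ideal.Quotient.mk P) := by
    rw [Ideal.span_le]
    intro y hy
    rw [← surjInv_eq (Ideal.Quotient.mk_surjective (I := P)) y]
    apply Ideal.mem_map_of_mem
    apply Ideal.subset_span
    exact List.mem_map.2 ⟨y, by simpa using hy, rfl⟩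
  have h4 := h3 hk
  rw [← map_pow, Ideal.mem_map_iff_of_surjective _ Ideal.Quotient.mk_surjective] at h4
  obtain ⟨y, hy, hxy⟩ := h4
  rw [eq_comm, Ideal.Quotient.mk_eq_mk_iff_sub_mem] at hxy
  have h5 := Ideal.add_mem _ (Ideal.mem_sup_left hxy) (Ideal.mem_sup_right hy)
  rwa [sub_add_cancel] at h5

/-- Height inequality. -/
theorem height_le_of_sup {R T : Type u} [CommRing R] [CommRing T] [IsRegularLocalRing R]
    [IsRegularLocalRing T] (i₁ i₂ : R →+* T) {d t a : ℕ} (hd : ringKrullDim R = d)
    (ht : ringKrullDim T = t)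
    (hsup : (maximalIdeal R).map i₁ ⊔ (maximalIdeal R).map i₂ = maximalIdeal T)
    (ha : 2 * d ≤ t + a) (Q : Ideal T) [hQ : Q.IsPrime] (r₁ r₂ q : ℕ)
    (h1 : (Q.comap i₁).height = r₁) (h2 : (Q.comap i₂).height = r₂) (hq : Q.height = q) :
    r₁ + r₂ ≤ q + a := by
  obtain ⟨zs, -, -, hzl, hzh, hzd, -⟩ := exists_ci ht Q
  obtain ⟨ws, -, -, hwl, hwh, hwd, -⟩ := exists_ci hd (Q.comap i₁)
  obtain ⟨vs, -, -, hvl, hvh, hvd, -⟩ := exists_ci hd (Q.comap i₂)
  obtain ⟨xs, hxl, hxm, hx⟩ := exists_parameters (Q.comap i₁)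
    (Ideal.comap_ne_top i₁ hQ.ne_top) _ hwd
  obtain ⟨ys, hyl, hym, hy⟩ := exists_parameters (Q.comap i₂)
    (Ideal.comap_ne_top i₂ hQ.ne_top) _ hvd
  have hcov : ∀ (i : R →+* T) (us : List R),
      maximalIdeal R ≤ (Q.comap i ⊔ Ideal.ofList us).radical →
      (maximalIdeal R).map i ≤ (Q ⊔ Ideal.ofList (us.map i)).radical := by
    intro i us hus
    refine (Ideal.map_mono hus).trans ((Ideal.map_radical_le _).trans (Ideal.radical_mono ?_))
    rw [Ideal.map_sup]
    refine sup_le_sup Ideal.map_comap_le ?_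
    rw [Ideal.map_ofList]
  have hFL : FL (xs.map i₁ ++ ys.map i₂) (T ⧸ Q) := by
    unfold FL
    rw [Ideal.annihilator_quotient]
    refine hsup.ge.trans (sup_le ((hcov i₁ xs hx).trans (Ideal.radical_mono ?_))
      ((hcov i₂ ys hy).trans (Ideal.radical_mono ?_)))
    · rw [Ideal.ofList_append]
      exact sup_le_sup le_rfl le_sup_left
    · rw [Ideal.ofList_append]
      exact sup_le_sup le_rfl le_sup_right
  have hmem : ∀ z ∈ xs.map i₁ ++ ys.map i₂, z ∈ maximalIdeal T := by
    intro z hz
    rw [List.mem_append, List.mem_map, List.mem_map] at hz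
    rw [← hsup]
    rcases hz with ⟨x, hx, rfl⟩ | ⟨y, hy, rfl⟩
    · exact Ideal.mem_sup_left (Ideal.mem_map_of_mem _ (hxm x hx))
    · exact Ideal.mem_sup_right (Ideal.mem_map_of_mem _ (hym y hy))
  have hle := supportDim_le_length _ hmem _ hFL
  rw [hzd, List.length_append, List.length_map, List.length_map, hxl, hyl] at hle
  have hle' : t - zs.length ≤ (d - ws.length) + (d - vs.length) := by exact_mod_cast hle
  rw [h1] at hwh
  rw [h2] at hvh
  rw [hq] at hzh
  have e1 : r₁ = ws.length := by exact_mod_cast hwh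
  have e2 : r₂ = vs.length := by exact_mod_cast hvh
  have e3 : q = zs.length := by exact_mod_cast hzh
  omega

end Vale.Agent.P177
end

section

/-!
The associativity formula for the Koszul Euler characteristic.
-/

namespace Vale.Agent.P177

open CategoryTheory TensorProduct Function IsLocalRing RingTheory.Sequence Pointwise

universe u

section vanish

variable {B : Type u} [CommRing B] [IsLocalRing B] [IsNoetherianRing B]

theorem eul_eq_zero_of_dim_lt (zs : List B) (hzs : ∀ z ∈ zs, z ∈ maximalIdeal B) (X : Type u)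
    [AddCommGroup X] [Module B X] [Module.Finite B X] (hX : FL zs X)
    (hd : Module.supportDim B X < (zs.length : WithBot ℕ∞)) : eul zs X = 0 := by
  induction zs generalizing X with
  | nil =>
    have h1 : Module.supportDim B X = ⊥ := by
      by_contra hne
      rw [← ne_eq, Module.supportDim_ne_bot_iff_nontrivial] at hne
      have h2 : (0 : WithBot ℕ∞) ≤ Module.supportDim B X := by
        have h3 := (Module.supportDim_ne_bot_iff_nontrivial B X).2 hne
        generalize Module.supportDim B X = c at h3 ⊢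
        induction c using WithBot.recBotCoe with
        | bot => exact absurd rfl h3
        | coe a => exact_mod_cast bot_le
      rw [List.length_nil] at hd
      exact absurd h2 (not_le.2 (by exact_mod_cast hd))
    rw [Module.supportDim_eq_bot_iff_subsingleton] at h1
    exact eul_subsingleton _ X
  | cons z zs ih =>
    obtain ⟨n, Γ, hΓ, hreg⟩ := exists_torsion_pow X z
    have hzs' : ∀ y ∈ zs, y ∈ maximalIdeal B := fun y hy => hzs y (List.mem_cons_of_mem _ hy)
    have hex : Exact Γ.subtype Γ.mkQ := LinearMap.exact_subtype_mkQ Γ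
    have hadd := eul_add (z :: zs) Γ.subtype Γ.mkQ (Submodule.injective_subtype _)
      (Submodule.mkQ_surjective _) hex hX
    have hFLΓ : FL (z :: zs) Γ := hX.of_injective Γ.subtype (Submodule.injective_subtype _)
    have hFLΓ' : FL zs Γ := hFLΓ.of_pow n hΓ
    have hFLQ : FL (z :: zs) (X ⧸ Γ) := hX.of_surjective Γ.mkQ (Submodule.mkQ_surjective _)
    rw [eul_cons_eq_zero z zs Γ hFLΓ', zero_add] at hadd
    have htors : Subsingleton (Submodule.torsionBy B (X ⧸ Γ) z) := by
      refine subsingleton_of_forall_eq 0 ?_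
      rintro ⟨x, hx⟩
      apply Subtype.ext
      rw [isSMulRegular_iff_right_eq_zero_of_smul] at hreg
      exact hreg x hx
    have h2 : eul (z :: zs) (X ⧸ Γ) = eul zs (QuotSMulTop z (X ⧸ Γ)) := by
      change eul zs (QuotSMulTop z (X ⧸ Γ)) - eul zs (Submodule.torsionBy B (X ⧸ Γ) z) = _
      rw [eul_subsingleton zs (Submodule.torsionBy B (X ⧸ Γ) z), sub_zero]
    rw [hadd, h2]
    apply ih hzs' _ hFLQ.quot
    have h3 := Module.supportDim_quotSMulTop_succ_eq_supportDim hreg (hzs z List.mem_cons_self)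
    have h4 : Module.supportDim B (X ⧸ Γ) < ((z :: zs).length : WithBot ℕ∞) :=
      lt_of_le_of_lt (Module.supportDim_le_of_surjective Γ.mkQ (Submodule.mkQ_surjective _)) hd
    rw [← h3, List.length_cons] at h4
    push_cast at h4
    generalize Module.supportDim B (QuotSMulTop z (X ⧸ Γ)) = a at h4 ⊢
    induction a using WithBot.recBotCoe with
    | bot => exact WithBot.bot_lt_coe _
    | coe a =>
      have h7 : a + 1 < ((zs.length : ℕ∞) + 1) := by exact_mod_cast h4
      have h8 : a < (zs.length : ℕ∞) := by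
        by_contra hcon
        rw [not_lt] at hcon
        exact absurd h7 (not_lt.2 (by gcongr))
      exact_mod_cast h8

end vanish

section locLen

variable {T : Type u} [CommRing T]

/-- Length of the localization at a prime. -/
noncomputable def locLen (Q : Ideal T) [Q.IsPrime] (X : Type u) [AddCommGroup X] [Module T X] :
    ℕ∞ :=
  Module.length (Localization.AtPrime Q) (Localization.AtPrime Q ⊗[T] X)

theorem locLen_add (Q : Ideal T) [Q.IsPrime] {X' X X'' : Type u} [AddCommGroup X'] [Module T X']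
    [AddCommGroup X] [Module T X] [AddCommGroup X''] [Module T X'']
    (f : X' →ₗ[T] X) (g : X →ₗ[T] X'') (hf : Injective f) (hg : Surjective g) (h : Exact f g) :
    locLen Q X = locLen Q X' + locLen Q X'' := by
  have hflat : Module.Flat T (Localization.AtPrime Q) := IsLocalization.flat _ Q.primeCompl
  obtain ⟨h1, h2, h3⟩ := baseChange_ses (B := Localization.AtPrime Q) f g hf hg h
  exact Module.length_eq_add_of_exact _ _ h1 h2 h3

theorem locLen_congr (Q : Ideal T) [Q.IsPrime] {X Y : Type u} [AddCommGroup X] [Module T X]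
    [AddCommGroup Y] [Module T Y] (e : X ≃ₗ[T] Y) : locLen Q X = locLen Q Y :=
  (e.baseChange T (Localization.AtPrime Q) _ _).length_eq

/-- an element outside `Q` killing `X` -/
theorem locLen_eq_zero (Q : Ideal T) [Q.IsPrime] (X : Type u) [AddCommGroup X] [Module T X]
    (a : T) (ha : a ∉ Q) (h : ∀ x : X, a • x = 0) : locLen Q X = 0 := by
  unfold locLen
  rw [Module.length_eq_zero_iff]
  have hu : IsUnit (algebraMap T (Localization.AtPrime Q) a) :=
    IsLocalization.map_units (Localization.AtPrime Q) (⟨a, ha⟩ : Q.primeCompl)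
  refine subsingleton_of_forall_eq 0 fun z => ?_
  have h1 : algebraMap T (Localization.AtPrime Q) a • z = 0 := by
    induction z using TensorProduct.induction_on with
    | zero => exact smul_zero _
    | tmul b x =>
      rw [TensorProduct.smul_tmul', smul_eq_mul, ← Algebra.smul_def, TensorProduct.smul_tmul, h,
        TensorProduct.tmul_zero]
    | add x y hx hy => rw [smul_add, hx, hy, add_zero]
  obtain ⟨v, hv⟩ := hu
  rw [← hv] at h1
  have h2 := congrArg (fun t => (v⁻¹ : (Localization.AtPrime Q)ˣ) • t) h1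
  simpa [Units.smul_def, smul_smul] using h2

theorem locLen_self (Q : Ideal T) [Q.IsPrime] : locLen Q (T ⧸ Q) = 1 := by
  unfold locLen
  have hm : Q.map (algebraMap T (Localization.AtPrime Q)) =
      maximalIdeal (Localization.AtPrime Q) :=
    IsLocalization.AtPrime.map_eq_maximalIdeal Q (Localization.AtPrime Q)
  have e : (Localization.AtPrime Q ⊗[T] (T ⧸ Q)) ≃ₗ[Localization.AtPrime Q]
      (Localization.AtPrime Q ⧸ maximalIdeal (Localization.AtPrime Q)) :=
    (Algebra.TensorProduct.quotIdealMapEquivTensorQuot _ Q).symm.toLinearEquiv ≪≫ₗ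
      Submodule.quotEquivOfEq _ _ hm
  rw [e.length_eq, Module.length_eq_one_iff]
  exact isSimpleModule_iff_quot_maximal.mpr ⟨_, inferInstance, ⟨LinearEquiv.refl _ _⟩⟩

end locLen

section assoc

variable {T : Type u} [CommRing T] [IsLocalRing T] [IsNoetherianRing T]

/-- The associativity formula. -/
theorem assoc_formula (zs : List T) (hzs : ∀ z ∈ zs, z ∈ maximalIdeal T)
    (W : Finset (PrimeSpectrum T))
    (hW : ∀ Q ∈ W, Module.supportDim T (T ⧸ Q.asIdeal) = (zs.length : WithBot ℕ∞))
    (X : Type u) [AddCommGroup X] [Module T X] [Module.Finite T X] (hX : FL zs X)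
    (hcov : ∀ Q ∈ Module.support T X, (zs.length : WithBot ℕ∞) ≤
      Module.supportDim T (T ⧸ Q.asIdeal) → Q ∈ W) :
    (∀ Q ∈ W, locLen Q.asIdeal X ≠ ⊤) ∧
      eul zs X = ∑ Q ∈ W, ((locLen Q.asIdeal X).toNat : ℤ) * eul zs (T ⧸ Q.asIdeal) := by
  classical
  suffices H : ∀ (X : Type u) [AddCommGroup X] [Module T X] (_ : Module.Finite T X), FL zs X →
      (∀ Q ∈ Module.support T X, (zs.length : WithBot ℕ∞) ≤
        Module.supportDim T (T ⧸ Q.asIdeal) → Q ∈ W) →
      (∀ Q ∈ W, locLen Q.asIdeal X ≠ ⊤) ∧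
      eul zs X = ∑ Q ∈ W, ((locLen Q.asIdeal X).toNat : ℤ) * eul zs (T ⧸ Q.asIdeal) from
    H X inferInstance hX hcov
  intro X _ _ hfin
  induction hfin using IsNoetherianRing.induction_on_isQuotientEquivQuotientPrime T with
  | subsingleton N =>
    intro _ _
    have h0 : ∀ Q : PrimeSpectrum T, locLen Q.asIdeal N = 0 := fun Q =>
      locLen_eq_zero Q.asIdeal N 1 (fun h => Q.2.ne_top ((Ideal.eq_top_iff_one _).2 h))
        (fun x => Subsingleton.elim _ _)
    refine ⟨fun Q _ => by rw [h0]; simp, ?_⟩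
    rw [eul_subsingleton]
    symm
    apply Finset.sum_eq_zero
    intro Q _
    rw [h0]
    simp
  | quotient N P e =>
    intro hFL hcov
    have hFL' : FL zs (T ⧸ P.1) := hFL.of_surjective e.toLinearMap e.surjective
    have hPmem : P ∈ Module.support T N := by
      rw [e.support_eq, support_quotient_prime]
    -- vanishing of the other local lengths
    have hzero : ∀ Q ∈ W, Q ≠ P → locLen Q.asIdeal N = 0 := by
      intro Q hQ hne
      rw [locLen_congr Q.asIdeal e]
      have hnle : ¬ P.asIdeal ≤ Q.asIdeal := by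
        intro hle
        have hlt : P.asIdeal < Q.asIdeal := lt_of_le_of_ne hle
          (fun h => hne (PrimeSpectrum.ext h.symm))
        have h1 := supportDim_quotient_strict hlt zs.length (hW Q hQ).ge
        have h2 := supportDim_le_length zs hzs (T ⧸ P.asIdeal) hFL'
        have h3 := h1.trans h2
        have h4 : zs.length + 1 ≤ zs.length := by exact_mod_cast h3
        omega
      obtain ⟨a, haP, haQ⟩ := Set.not_subset.1 hnle
      refine locLen_eq_zero Q.asIdeal _ a haQ (fun x => ?_)
      obtain ⟨x, rfl⟩ := Ideal.Quotient.mk_surjective x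
      change Ideal.Quotient.mk P.asIdeal (a * x) = 0
      exact Ideal.Quotient.eq_zero_iff_mem.2 (Ideal.mul_mem_right _ _ haP)
    have hone : locLen P.asIdeal N = 1 := by
      rw [locLen_congr P.asIdeal e, locLen_self]
    refine ⟨?_, ?_⟩
    · intro Q hQ
      by_cases hQP : Q = P
      · rw [hQP, hone]
        simp
      · rw [hzero Q hQ hQP]
        simp
    · rw [eul_congr zs e]
      by_cases hP : P ∈ W
      · rw [Finset.sum_eq_single_of_mem P hP]
        · rw [hone]
          simp
        · intro Q hQ hne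
          rw [hzero Q hQ hne]
          simp
      · have hd : Module.supportDim T (T ⧸ P.asIdeal) < (zs.length : WithBot ℕ∞) := by
          by_contra hcon
          exact hP (hcov P hPmem (not_lt.1 hcon))
        rw [eul_eq_zero_of_dim_lt zs hzs _ hFL' hd]
        symm
        apply Finset.sum_eq_zero
        intro Q hQ
        rw [hzero Q hQ (fun h => hP (h ▸ hQ))]
        simp
  | exact N₁ N₂ N₃ f g hf hg h ih1 ih3 =>
    intro hFL hcov
    obtain ⟨a1, a2⟩ := ih1 (hFL.of_injective f hf)
      (fun Q hQ => hcov Q (Module.support_subset_of_injective f hf hQ))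
    obtain ⟨b1, b2⟩ := ih3 (hFL.of_surjective g hg)
      (fun Q hQ => hcov Q (Module.support_subset_of_surjective g hg hQ))
    have hadd : ∀ Q ∈ W, locLen Q.asIdeal N₂ = locLen Q.asIdeal N₁ + locLen Q.asIdeal N₃ :=
      fun Q _ => locLen_add Q.asIdeal f g hf hg h
    refine ⟨?_, ?_⟩
    · intro Q hQ
      rw [hadd Q hQ]
      exact WithTop.add_ne_top.2 ⟨a1 Q hQ, b1 Q hQ⟩
    · rw [eul_add zs f g hf hg h hFL, a2, b2, ← Finset.sum_add_distrib]
      refine Finset.sum_congr rfl fun Q hQ => ?_
      rw [hadd Q hQ, ENat.toNat_add (a1 Q hQ) (b1 Q hQ)]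
      push_cast
      ring

end assoc

end Vale.Agent.P177
end

section

/-!
The local contributions.
-/

namespace Vale.Agent.P177

open CategoryTheory TensorProduct Function IsLocalRing RingTheory.Sequence Pointwise

universe u

section

theorem ringKrullDim_le_add_of_radical (L₁ L₂ U : Type u) [CommRing L₁] [CommRing L₂] [CommRing U]
    [IsRegularLocalRing L₁] [IsRegularLocalRing L₂] [IsLocalRing U] [IsNoetherianRing U]
    [Algebra L₁ U]
    [Algebra L₂ U] [IsLocalHom (algebraMap L₁ U)] [IsLocalHom (algebraMap L₂ U)] (r₁ r₂ : ℕ)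
    (h₁ : ringKrullDim L₁ = r₁) (h₂ : ringKrullDim L₂ = r₂)
    (h : maximalIdeal U ≤ ((maximalIdeal L₁).map (algebraMap L₁ U) ⊔
      (maximalIdeal L₂).map (algebraMap L₂ U)).radical) :
    ringKrullDim U ≤ ((r₁ + r₂ : ℕ) : WithBot ℕ∞) := by
  obtain ⟨s₁, hs₁, hl₁⟩ := exists_list_maximalIdeal L₁
  obtain ⟨s₂, hs₂, hl₂⟩ := exists_list_maximalIdeal L₂
  have e₁ : s₁.length = r₁ := by rw [h₁] at hl₁; exact_mod_cast hl₁
  have e₂ : s₂.length = r₂ := by rw [h₂] at hl₂; exact_mod_cast hl₂
  have k₁ : (maximalIdeal L₁).map (algebraMap L₁ U) ≤ maximalIdeal U :=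
    ((IsLocalRing.local_hom_TFAE (algebraMap L₁ U)).out 0 2).mp ‹_›
  have k₂ : (maximalIdeal L₂).map (algebraMap L₂ U) ≤ maximalIdeal U :=
    ((IsLocalRing.local_hom_TFAE (algebraMap L₂ U)).out 0 2).mp ‹_›
  have hof : Ideal.ofList (s₁.map (algebraMap L₁ U) ++ s₂.map (algebraMap L₂ U)) =
      (maximalIdeal L₁).map (algebraMap L₁ U) ⊔ (maximalIdeal L₂).map (algebraMap L₂ U) := by
    rw [Ideal.ofList_append, ← hs₁, ← hs₂, Ideal.map_ofList, Ideal.map_ofList]
  have hmem : ∀ z ∈ s₁.map (algebraMap L₁ U) ++ s₂.map (algebraMap L₂ U),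
      z ∈ maximalIdeal U := by
    intro z hz
    have h1 : z ∈ Ideal.ofList (s₁.map (algebraMap L₁ U) ++ s₂.map (algebraMap L₂ U)) :=
      Ideal.subset_span hz
    rw [hof] at h1
    exact (sup_le k₁ k₂) h1
  have hFL : FL (s₁.map (algebraMap L₁ U) ++ s₂.map (algebraMap L₂ U)) U := by
    unfold FL
    rw [hof]
    exact h.trans (Ideal.radical_mono le_sup_right)
  have h5 := supportDim_le_length _ hmem U hFL
  rw [Module.supportDim_self_eq_ringKrullDim, List.length_append, List.length_map,
    List.length_map, e₁, e₂] at h5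
  exact h5

theorem maximalIdeal_le_radical_of_minimal {T : Type u} [CommRing T] (I Q : Ideal T) [hQp : Q.IsPrime]
    (hQ : Q ∈ I.minimalPrimes) :
    maximalIdeal (Localization.AtPrime Q) ≤
      (I.map (algebraMap T (Localization.AtPrime Q))).radical := by
  rw [Ideal.radical_eq_sInf]
  refine le_sInf ?_
  rintro q ⟨hq, hqp⟩
  have h1 : I ≤ q.comap (algebraMap T (Localization.AtPrime Q)) := Ideal.map_le_iff_le_comap.1 hq
  have h2 : q ≤ maximalIdeal (Localization.AtPrime Q) := le_maximalIdeal hqp.ne_top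
  have h3 : q.comap (algebraMap T (Localization.AtPrime Q)) ≤ Q := by
    have h4 := Ideal.comap_mono (f := algebraMap T (Localization.AtPrime Q)) h2
    have h5 : (maximalIdeal (Localization.AtPrime Q)).comap
        (algebraMap T (Localization.AtPrime Q)) = Q :=
      IsLocalization.AtPrime.comap_maximalIdeal (Localization.AtPrime Q) Q
    rwa [h5] at h4
  have hqc : (q.comap (algebraMap T (Localization.AtPrime Q))).IsPrime :=
    Ideal.IsPrime.comap _
  have h6 : Q ≤ q.comap (algebraMap T (Localization.AtPrime Q)) := hQ.2 ⟨hqc, h1⟩ h3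
  rw [← IsLocalization.AtPrime.map_eq_maximalIdeal Q (Localization.AtPrime Q),
    Ideal.map_le_iff_le_comap]
  exact h6

end

section

variable {R₁ R₂ T : Type u} [CommRing R₁] [CommRing R₂] [CommRing T]
    [IsRegularLocalRing R₁] [IsRegularLocalRing R₂] [IsRegularLocalRing T]
    [Algebra R₁ T] [Algebra R₂ T] [Module.Flat R₁ T] [Module.Flat R₂ T]

/-- The local Euler characteristic. -/
noncomputable def locEul (Q : Ideal T) [Q.IsPrime] (n : ℕ) (X Y : Type u) [AddCommGroup X]
    [Module T X] [AddCommGroup Y] [Module T Y] : ℤ :=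
  ∑ j ∈ Finset.range n, (-1 : ℤ) ^ j * ((locLen Q (TorM T j X Y)).toNat : ℤ)

omit [IsRegularLocalRing T] in
theorem locEul_eq (Q : Ideal T) [Q.IsPrime] (n : ℕ) (X Y : Type u) [AddCommGroup X]
    [Module T X] [AddCommGroup Y] [Module T Y] :
    locEul Q n X Y = eulerTor (Localization.AtPrime Q) n (Localization.AtPrime Q ⊗[T] X)
      (Localization.AtPrime Q ⊗[T] Y) := by
  have hflat : Module.Flat T (Localization.AtPrime Q) := IsLocalization.flat _ Q.primeCompl
  unfold locEul eulerTor
  refine Finset.sum_congr rfl fun j _ => ?_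
  obtain ⟨e⟩ := exists_tor_flat_iso (C := Localization.AtPrime Q) j
    (TensorProduct.isBaseChange T X (Localization.AtPrime Q))
    (TensorProduct.isBaseChange T Y (Localization.AtPrime Q))
  rw [e.length_eq]
  rfl

theorem local_value (a : ℕ) (hLoc : LocPos.{u} a) (N M : Type u) [AddCommGroup N] [Module R₁ N]
    [Module.Finite R₁ N] [AddCommGroup M] [Module R₂ M] [Module.Finite R₂ M]
    (Q : Ideal T) [hQp : Q.IsPrime]
    (hQ : Q ∈ ((Module.annihilator R₁ N).map (algebraMap R₁ T) ⊔
      (Module.annihilator R₂ M).map (algebraMap R₂ T)).minimalPrimes)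
    (r₁ r₂ q : ℕ) (h₁ : (Q.comap (algebraMap R₁ T)).height = r₁)
    (h₂ : (Q.comap (algebraMap R₂ T)).height = r₂) (hq : Q.height = q)
    (hb : r₁ + r₂ ≤ q + a) (n : ℕ) (hn : q + 1 ≤ n) :
    ∃ b : ℕ, r₁ + r₂ = q + b ∧ 0 ≤ locEul Q n (T ⊗[R₁] N) (T ⊗[R₂] M) ∧
      ∀ (P₁ P₂ : ℕ) (p₁ : PrimeSpectrum R₁) (p₂ : PrimeSpectrum R₂), p₁ ∈ Module.support R₁ N →
        p₂ ∈ Module.support R₂ M → p₁.asIdeal ≤ Q.comap (algebraMap R₁ T) →
        p₂.asIdeal ≤ Q.comap (algebraMap R₂ T) → p₁.asIdeal.height = P₁ →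
        p₂.asIdeal.height = P₂ →
        (r₁ - P₁) + (r₂ - P₂) ≤ b ∧ (b ≤ (r₁ - P₁) + (r₂ - P₂) →
          0 < locEul Q n (T ⊗[R₁] N) (T ⊗[R₂] M)) := by
  have hUreg : IsRegularLocalRing (Localization.AtPrime Q) :=
    isRegularLocalRing_localization T Q (Localization.AtPrime Q)
  obtain ⟨L₁, _, _, _, D₁⟩ := exists_locData R₁ T Q
  obtain ⟨L₂, _, _, _, D₂⟩ := exists_locData R₂ T Q
  have i1 := D₁.reg
  have i2 := D₂.reg
  have i3 := D₁.flat
  have i4 := D₂.flat
  have i5 := D₁.loc
  have i6 := D₂.loc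
  have i7 := D₁.isloc
  have i8 := D₂.isloc
  have i9 := D₁.tower
  have i10 := D₂.tower
  have d₁ : ringKrullDim L₁ = r₁ := by rw [D₁.dim, h₁]; rfl
  have d₂ : ringKrullDim L₂ = r₂ := by rw [D₂.dim, h₂]; rfl
  have dU : ringKrullDim (Localization.AtPrime Q) = q := by
    rw [IsLocalization.AtPrime.ringKrullDim_eq_height Q, hq]; rfl
  -- the radical condition
  have hrad := maximalIdeal_le_radical_of_minimal _ Q hQ
  have hmap₁ : ∀ I : Ideal R₁, (I.map (algebraMap R₁ T)).map
      (algebraMap T (Localization.AtPrime Q)) =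
      (I.map (algebraMap R₁ L₁)).map (algebraMap L₁ (Localization.AtPrime Q)) := by
    intro I
    rw [Ideal.map_map, Ideal.map_map, ← IsScalarTower.algebraMap_eq,
      ← IsScalarTower.algebraMap_eq]
  have hmap₂ : ∀ I : Ideal R₂, (I.map (algebraMap R₂ T)).map
      (algebraMap T (Localization.AtPrime Q)) =
      (I.map (algebraMap R₂ L₂)).map (algebraMap L₂ (Localization.AtPrime Q)) := by
    intro I
    rw [Ideal.map_map, Ideal.map_map, ← IsScalarTower.algebraMap_eq,
      ← IsScalarTower.algebraMap_eq]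
  rw [Ideal.map_sup, hmap₁, hmap₂] at hrad
  have hFP : FP L₁ L₂ (Localization.AtPrime Q) (L₁ ⊗[R₁] N) (L₂ ⊗[R₂] M) := by
    unfold FP
    refine hrad.trans (Ideal.radical_mono (sup_le_sup ?_ ?_))
    · exact Ideal.map_mono (map_annihilator_le N)
    · exact Ideal.map_mono (map_annihilator_le M)
  -- dimension bound
  have hle₁ : (Module.annihilator R₁ N).map (algebraMap R₁ L₁) ≤ maximalIdeal L₁ := by
    rw [← IsLocalization.AtPrime.map_eq_maximalIdeal (Q.comap (algebraMap R₁ T)) L₁]
    apply Ideal.map_mono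
    rw [← Ideal.map_le_iff_le_comap]
    exact le_sup_left.trans hQ.1.2
  have hle₂ : (Module.annihilator R₂ M).map (algebraMap R₂ L₂) ≤ maximalIdeal L₂ := by
    rw [← IsLocalization.AtPrime.map_eq_maximalIdeal (Q.comap (algebraMap R₂ T)) L₂]
    apply Ideal.map_mono
    rw [← Ideal.map_le_iff_le_comap]
    exact le_sup_right.trans hQ.1.2
  have hdim := ringKrullDim_le_add_of_radical L₁ L₂ (Localization.AtPrime Q) r₁ r₂ d₁ d₂
    (hrad.trans (Ideal.radical_mono (sup_le_sup (Ideal.map_mono hle₁) (Ideal.map_mono hle₂))))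
  rw [dU] at hdim
  have hqle : q ≤ r₁ + r₂ := by exact_mod_cast hdim
  obtain ⟨b, hbq⟩ := Nat.exists_eq_add_of_le hqle
  have hba : b ≤ a := by omega
  obtain ⟨c1, c2, c3⟩ := hLoc L₁ L₂ (Localization.AtPrime Q) r₁ r₂ q b d₁ d₂ dU hbq hba
    (L₁ ⊗[R₁] N) (L₂ ⊗[R₂] M) hFP
  -- comparison
  obtain ⟨e₁⟩ := exists_cancel_loc (R := R₁) (T := T) Q L₁ N
  obtain ⟨e₂⟩ := exists_cancel_loc (R := R₂) (T := T) Q L₂ M
  have hval : locEul Q n (T ⊗[R₁] N) (T ⊗[R₂] M) =
      eulerTor (Localization.AtPrime Q) (q + 1) (Localization.AtPrime Q ⊗[L₁] (L₁ ⊗[R₁] N))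
        (Localization.AtPrime Q ⊗[L₂] (L₂ ⊗[R₂] M)) := by
    rw [locEul_eq, eulerTor_congr e₁ e₂]
    apply eulerTor_shrink _ _ _ _ hn
    intro j hj
    exact regular_tor_vanish _ q dU _ _ j hj
  rw [hval]
  refine ⟨b, hbq, c2, ?_⟩
  intro P₁ P₂ p₁ p₂ hp₁ hp₂ hp₁Q hp₂Q hP₁ hP₂
  have k₁ := le_supportDim_localization R₁ (Q.comap (algebraMap R₁ T)) p₁.asIdeal hp₁Q L₁ N hp₁
    r₁ P₁ h₁ hP₁
  have k₂ := le_supportDim_localization R₂ (Q.comap (algebraMap R₂ T)) p₂.asIdeal hp₂Q L₂ M hp₂
    r₂ P₂ h₂ hP₂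
  exact ⟨c1 _ _ k₁ k₂, c3 _ _ k₁ k₂⟩

end

end Vale.Agent.P177
end

section

/-!
Quotients of regular local rings with injective conormal map; smooth algebras.
-/

namespace Vale.Agent.P177

open Function IsLocalRing RingTheory.Sequence Pointwise

universe u

section lemK

end lemK

section lemS

end lemS

section ess

theorem liftAlgHom_alg {R E S P : Type*} [CommRing R] [CommRing E] [CommRing S] [CommRing P]
    [Algebra R E] [Algebra E S] [Algebra R S] [IsScalarTower R E S] [Algebra R P] {M : Submonoid E}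
    [IsLocalization M S] (f : E →ₐ[R] P) (hf : ∀ y : M, IsUnit (f y)) (x : E) :
    (IsLocalization.liftAlgHom (M := M) (S := S) (f := f) hf) (algebraMap E S x) = f x := by
  rw [IsLocalization.liftAlgHom_apply]
  exact IsLocalization.lift_eq _ _

end ess

end Vale.Agent.P177
end

section

/-!
Transfer of Euler characteristics from `T` to the localizations of a `T`-algebra `B`.
-/

namespace Vale.Agent.P177

open CategoryTheory TensorProduct Function IsLocalRing RingTheory.Sequence Pointwise

universe u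

variable {R₁ T B₁ B : Type u} [CommRing R₁] [CommRing T] [CommRing B₁] [CommRing B]
  [Algebra R₁ T] [Algebra R₁ B₁] [Algebra T B] [Algebra B₁ B] [Algebra R₁ B]
  [IsScalarTower R₁ B₁ B] [IsScalarTower R₁ T B] [Algebra.IsPushout R₁ T B₁ B]
  [Module.Flat T B]

/-- Comparison of `Tor` over `T`, over `B` and over the localizations of `B`. -/
theorem exists_tor_transfer (V : Type u) [AddCommGroup V] [Module R₁ V] [Module B₁ V]
    [IsScalarTower R₁ B₁ V] (H : Type u) [AddCommGroup H] [Module T H] (n : ℕ) :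
    ∃ (M : Type u) (_ : AddCommGroup M) (_ : Module T M) (_ : Module B M)
      (_ : IsScalarTower T B M), Nonempty (TorM T n H (T ⊗[R₁] V) ≃ₗ[T] M) ∧
      Nonempty (TorM B n (B ⊗[T] H) (B ⊗[B₁] V) ≃ₗ[B] M) ∧
      ∀ m : MaximalSpectrum B, Nonempty (TorM (Localization.AtPrime m.asIdeal) n
        (Localization.AtPrime m.asIdeal ⊗[B] (B ⊗[T] H))
        (Localization.AtPrime m.asIdeal ⊗[B] (B ⊗[B₁] V)) ≃ₗ[Localization.AtPrime m.asIdeal]
        Localization.AtPrime m.asIdeal ⊗[B] M) := by
  obtain ⟨M, i1, i2, i3, i4, ⟨e1⟩, ⟨e2⟩⟩ := tor_bc_common (S := T) (B := B) n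
    (TensorProduct.isBaseChange T H B) (B ⊗[B₁] V)
  have e3 : (B ⊗[B₁] V) ≃ₗ[T] (T ⊗[R₁] V) := Algebra.IsPushout.cancelBaseChange R₁ T B₁ B V
  refine ⟨M, i1, i2, i3, i4, ⟨(torCongrRight n H e3).symm ≪≫ₗ e1⟩, ⟨e2⟩, fun m => ?_⟩
  obtain ⟨e4⟩ := exists_tor_flat_iso (A := B) (C := Localization.AtPrime m.asIdeal) n
    (TensorProduct.isBaseChange B (B ⊗[T] H) (Localization.AtPrime m.asIdeal))
    (TensorProduct.isBaseChange B (B ⊗[B₁] V) (Localization.AtPrime m.asIdeal))
  exact ⟨e4 ≪≫ₗ e2.baseChange B (Localization.AtPrime m.asIdeal) _ _⟩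

/-- The Euler characteristic over `T` as a sum over maximal ideals of `B`. -/
theorem eulerTor_eq_sum (V : Type u) [AddCommGroup V] [Module R₁ V] [Module B₁ V]
    [IsScalarTower R₁ B₁ V] (H : Type u) [AddCommGroup H] [Module T H]
    (hlen : ∀ n, Module.length T (TorM T n H (T ⊗[R₁] V)) ≠ ⊤) (S : Finset (MaximalSpectrum B))
    (hS : ∀ m : MaximalSpectrum B, m ∉ S → ∀ n, Subsingleton (Localization.AtPrime m.asIdeal ⊗[B]
      TorM B n (B ⊗[T] H) (B ⊗[B₁] V))) (N : ℕ) :
    eulerTor T N H (T ⊗[R₁] V) = ∑ m ∈ S, ((Module.length T (B ⧸ m.asIdeal)).toNat : ℤ) *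
      eulerTor (Localization.AtPrime m.asIdeal) N
        (Localization.AtPrime m.asIdeal ⊗[B] (B ⊗[T] H))
        (Localization.AtPrime m.asIdeal ⊗[B] (B ⊗[B₁] V)) := by
  have key : ∀ n, ((Module.length T (TorM T n H (T ⊗[R₁] V))).toNat : ℤ) =
      ∑ m ∈ S, ((Module.length T (B ⧸ m.asIdeal)).toNat : ℤ) *
        ((Module.length (Localization.AtPrime m.asIdeal) (TorM (Localization.AtPrime m.asIdeal) n
        (Localization.AtPrime m.asIdeal ⊗[B] (B ⊗[T] H))
        (Localization.AtPrime m.asIdeal ⊗[B] (B ⊗[B₁] V)))).toNat : ℤ) := by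
    intro n
    obtain ⟨M, _, _, _, _, ⟨e1⟩, ⟨e2⟩, e3⟩ := exists_tor_transfer (R₁ := R₁) (T := T) (B₁ := B₁)
      (B := B) V H n
    have h1 : Module.length T M ≠ ⊤ := by
      rw [← e1.length_eq]
      exact hlen n
    have h2 : IsFiniteLength B M := by
      have h3 := Module.length_ne_top_iff.1 h1
      rw [isFiniteLength_iff_isNoetherian_isArtinian] at h3 ⊢
      obtain ⟨h4, h5⟩ := h3
      exact ⟨isNoetherian_of_tower T h4, isArtinian_of_tower T h5⟩
    have h3 := length_eq_sum (T := T) S M h2 (fun m hm => by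
      have := hS m hm n
      exact (e2.baseChange B (Localization.AtPrime m.asIdeal) _ _).symm.toEquiv.subsingleton)
    have h4 : ∀ m ∈ S, Module.length T (B ⧸ m.asIdeal) *
        Module.length (Localization.AtPrime m.asIdeal)
          (Localization.AtPrime m.asIdeal ⊗[B] M) ≠ ⊤ := by
      intro m hm htop
      apply h1
      rw [h3, eq_top_iff, ← htop]
      exact Finset.single_le_sum (f := fun m : MaximalSpectrum B =>
        Module.length T (B ⧸ m.asIdeal) * Module.length (Localization.AtPrime m.asIdeal)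
          (Localization.AtPrime m.asIdeal ⊗[B] M)) (fun _ _ => bot_le) hm
    rw [e1.length_eq, h3, ENat.toNat_sum h4]
    push_cast
    refine Finset.sum_congr rfl fun m _ => ?_
    obtain ⟨e4⟩ := e3 m
    rw [ENat.toNat_mul, e4.length_eq]
    push_cast
    rfl
  unfold eulerTor
  rw [Finset.sum_congr rfl fun n _ => by rw [key n, Finset.mul_sum]]
  rw [Finset.sum_comm]
  refine Finset.sum_congr rfl fun m _ => ?_
  rw [Finset.mul_sum]
  refine Finset.sum_congr rfl fun n _ => ?_
  ring

end Vale.Agent.P177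
end

section

/-!
Finite modules over complete rings; a lemma of Krull and Akizuki.
-/

namespace Vale.Agent.P177

open CategoryTheory TensorProduct Function IsLocalRing RingTheory.Sequence Pointwise

universe u

theorem isPrecomplete_of_finite {R : Type u} [CommRing R] (I : Ideal R) [IsPrecomplete I R]
    (M : Type u) [AddCommGroup M] [Module R M] [Module.Finite R M] : IsPrecomplete I M := by
  rw [← AdicCompletion.of_surjective_iff]
  intro x
  obtain ⟨y, rfl⟩ := AdicCompletion.ofTensorProduct_surjective_of_finite I M x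
  induction y using TensorProduct.induction_on with
  | zero => exact ⟨0, by rw [map_zero, map_zero]⟩
  | tmul a m =>
    obtain ⟨r, rfl⟩ := AdicCompletion.of_surjective I R a
    refine ⟨r • m, ?_⟩
    rw [AdicCompletion.ofTensorProduct_tmul, map_smul]
    exact (algebraMap_smul (AdicCompletion I R) r (AdicCompletion.of I M m)).symm
  | add x y hx hy =>
    obtain ⟨a, ha⟩ := hx
    obtain ⟨b, hb⟩ := hy
    exact ⟨a + b, by rw [map_add, map_add, ha, hb]⟩

section KA

variable {A : Type u} [CommRing A] [IsLocalRing A]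

theorem maximalIdeal_le_radical_of_ne_bot
    (hprime : ∀ q : Ideal A, q.IsPrime → q ≠ ⊥ → q = maximalIdeal A) (I : Ideal A) (hI : I ≠ ⊥) :
    maximalIdeal A ≤ I.radical := by
  rw [Ideal.radical_eq_sInf]
  refine le_sInf ?_
  rintro q ⟨hIq, hq⟩
  refine (hprime q hq ?_).ge
  rintro rfl
  exact hI (le_bot_iff.1 hIq)

variable [IsNoetherianRing A] [IsDomain A]
  (hprime : ∀ q : Ideal A, q.IsPrime → q ≠ ⊥ → q = maximalIdeal A)
  {U : Type u} [CommRing U] [IsDomain U] [Algebra A U] (hinj : Injective (algebraMap A U))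
  (hU : ∀ u : U, ∃ a : A, a ≠ 0 ∧ ∃ c : A, a • u = algebraMap A U c)

omit [IsLocalRing A] [IsNoetherianRing A] [IsDomain U] in
include hU in
theorem exists_common_multiple (M : Submodule A U) (hM : M.FG) :
    ∃ c : A, c ≠ 0 ∧ ∀ m ∈ M, ∃ d : A, c • m = algebraMap A U d := by
  induction M, hM using Submodule.fg_induction with
  | singleton x =>
    obtain ⟨a, ha, c, hc⟩ := hU x
    refine ⟨a, ha, fun m hm => ?_⟩
    obtain ⟨e, rfl⟩ := Submodule.mem_span_singleton.1 hm
    exact ⟨e * c, by rw [smul_comm, hc, map_mul, Algebra.smul_def]⟩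
  | sup N₁ N₂ hN₁ hN₂ h1 h2 =>
    obtain ⟨c1, hc1, hd1⟩ := h1
    obtain ⟨c2, hc2, hd2⟩ := h2
    refine ⟨c1 * c2, mul_ne_zero hc1 hc2, fun m hm => ?_⟩
    obtain ⟨x, hx, y, hy, rfl⟩ := Submodule.mem_sup.1 hm
    obtain ⟨d1, h3⟩ := hd1 x hx
    obtain ⟨d2, h4⟩ := hd2 y hy
    refine ⟨c2 * d1 + c1 * d2, ?_⟩
    rw [smul_add, mul_smul, mul_smul, smul_comm c1 c2 x, h3, h4, Algebra.smul_def,
      Algebra.smul_def, map_add, map_mul, map_mul]

include hprime hinj hU in
theorem length_quotSMulTop_eq (M : Submodule A U) (hM : M.FG) (h1M : (1 : U) ∈ M) (x : A)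
    (hx0 : x ≠ 0) : (Module.length A (QuotSMulTop x M)).toNat =
      (Module.length A (QuotSMulTop x A)).toNat ∧
      Module.length A (QuotSMulTop x M) ≠ ⊤ := by
  have hfin : Module.Finite A M := Module.Finite.iff_fg.2 hM
  let f : A →ₗ[A] M := (Algebra.linearMap A U).codRestrict M (fun a => by
    rw [Algebra.linearMap_apply, Algebra.algebraMap_eq_smul_one]
    exact M.smul_mem a h1M)
  have hf : Injective f := fun a b hab => hinj (congrArg Subtype.val hab)
  have hex : Exact f (LinearMap.range f).mkQ := by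
    intro x
    rw [Submodule.mkQ_apply, Submodule.Quotient.mk_eq_zero]
    rfl
  obtain ⟨c, hc0, hc⟩ := exists_common_multiple hU M hM
  have hFLQ : FL ([] : List A) (M ⧸ LinearMap.range f) := by
    unfold FL
    rw [Ideal.ofList_nil, sup_bot_eq]
    apply maximalIdeal_le_radical_of_ne_bot hprime
    intro hbot
    apply hc0
    have h3 : c ∈ Module.annihilator A (M ⧸ LinearMap.range f) := by
      rw [Module.mem_annihilator]
      intro v
      obtain ⟨⟨m, hm⟩, rfl⟩ := Submodule.mkQ_surjective _ v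
      rw [← map_smul, Submodule.mkQ_apply, Submodule.Quotient.mk_eq_zero]
      obtain ⟨d, hd⟩ := hc m hm
      exact ⟨d, Subtype.ext hd.symm⟩
    rw [hbot] at h3
    exact h3
  have hFLx : ∀ (N : Type u) [AddCommGroup N] [Module A N], FL [x] N := by
    intro N _ _
    unfold FL
    apply maximalIdeal_le_radical_of_ne_bot hprime
    intro hbot
    apply hx0
    have h3 : x ∈ Module.annihilator A N ⊔ Ideal.ofList [x] :=
      Ideal.mem_sup_right (by rw [Ideal.ofList_singleton]; exact Ideal.mem_span_singleton_self x)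
    rw [hbot] at h3
    exact h3
  have hadd := eul_add [x] f (LinearMap.range f).mkQ hf (Submodule.mkQ_surjective _) hex
    (hFLx M)
  rw [eul_cons_eq_zero x [] (M ⧸ LinearMap.range f) hFLQ, add_zero] at hadd
  have htors : ∀ (N : Type u) [AddCommGroup N] [Module A N],
      (∀ n : N, x • n = 0 → n = 0) → eul [x] N =
      ((Module.length A (QuotSMulTop x N)).toNat : ℤ) := by
    intro N _ _ hN
    have : Subsingleton (Submodule.torsionBy A N x) := by
      refine subsingleton_of_forall_eq 0 ?_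
      rintro ⟨y, hy⟩
      exact Subtype.ext (hN y hy)
    change eul [] (QuotSMulTop x N) - eul [] (Submodule.torsionBy A N x) = _
    rw [eul_subsingleton [] (Submodule.torsionBy A N x), sub_zero]
    rfl
  rw [htors M (by
      rintro ⟨m, hm⟩ h
      have h3 : x • m = 0 := congrArg Subtype.val h
      apply Subtype.ext
      rw [Algebra.smul_def] at h3
      exact (mul_eq_zero.1 h3).resolve_left fun h4 => hx0 ((map_eq_zero_iff _ hinj).1 h4)),
    htors A (fun n hn => (mul_eq_zero.1 hn).resolve_left hx0)] at hadd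
  refine ⟨by exact_mod_cast hadd, ?_⟩
  exact ((hFLx M).quot (z := x) (zs := [])).length_ne_top

include hprime hinj hU in
/-- The lemma of Krull and Akizuki. -/
theorem exists_fg_add (x : A) (hx0 : x ≠ 0) :
    ∃ M₀ : Submodule A U, M₀.FG ∧ ∀ u : U, ∃ m ∈ M₀, ∃ u' : U, u = m + x • u' := by
  let π : U →ₗ[A] QuotSMulTop x U := Submodule.mkQ _
  let φ : Submodule A U → ℕ := fun M => (Module.length A (M.map π)).toNat
  have hquot : ∀ M : Submodule A U, M.FG → (1 : U) ∈ M →
      Module.length A (M.map π) ≤ Module.length A (QuotSMulTop x M) := by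
    intro M _ _
    let g0 : M →ₗ[A] M.map π := π.restrict (fun m hm => Submodule.mem_map_of_mem hm)
    let g : QuotSMulTop x M →ₗ[A] M.map π := Submodule.liftQ _ g0 (by
      intro y hy
      rw [Submodule.mem_smul_pointwise_iff_exists] at hy
      obtain ⟨y, -, rfl⟩ := hy
      apply Subtype.ext
      change π (x • (y : U)) = 0
      rw [Submodule.mkQ_apply, Submodule.Quotient.mk_eq_zero]
      exact Submodule.smul_mem_pointwise_smul _ x _ trivial)
    refine Module.length_le_of_surjective g ?_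
    rintro ⟨_, m, hm, rfl⟩
    exact ⟨Submodule.Quotient.mk ⟨m, hm⟩, rfl⟩
  have hne : ∀ M : Submodule A U, M.FG → (1 : U) ∈ M → Module.length A (M.map π) ≠ ⊤ := by
    intro M hM h1 htop
    apply (length_quotSMulTop_eq hprime hinj hU M hM h1 x hx0).2
    rw [eq_top_iff, ← htop]
    exact hquot M hM h1
  have hbd : ∀ M : Submodule A U, M.FG → (1 : U) ∈ M →
      φ M ≤ (Module.length A (QuotSMulTop x A)).toNat := by
    intro M hM h1
    obtain ⟨h3, h4⟩ := length_quotSMulTop_eq hprime hinj hU M hM h1 x hx0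
    rw [← h3]
    exact ENat.toNat_le_toNat (hquot M hM h1) h4
  have hmax : ∃ M₀ : Submodule A U, (M₀.FG ∧ (1 : U) ∈ M₀) ∧
      ∀ M : Submodule A U, M.FG → (1 : U) ∈ M → φ M ≤ φ M₀ := by
    by_contra hcon
    push Not at hcon
    have h3 : ∀ k : ℕ, ∃ M : Submodule A U, (M.FG ∧ (1 : U) ∈ M) ∧ k ≤ φ M := by
      intro k
      induction k with
      | zero => exact ⟨Submodule.span A {1}, ⟨Submodule.fg_span_singleton _,
          Submodule.mem_span_singleton_self _⟩, Nat.zero_le _⟩
      | succ k ih =>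
        obtain ⟨M, hM, hk⟩ := ih
        obtain ⟨M', hM', h1', hlt⟩ := hcon M hM
        exact ⟨M', ⟨hM', h1'⟩, by omega⟩
    obtain ⟨M, hM, hk⟩ := h3 ((Module.length A (QuotSMulTop x A)).toNat + 1)
    have := hbd M hM.1 hM.2
    omega
  obtain ⟨M₀, ⟨hM₀, h1M₀⟩, hmax⟩ := hmax
  refine ⟨M₀, hM₀, fun u => ?_⟩
  have hM₁ : (M₀ ⊔ Submodule.span A {u}).FG := hM₀.sup (Submodule.fg_span_singleton _)
  have h1M₁ : (1 : U) ∈ M₀ ⊔ Submodule.span A {u} := Submodule.mem_sup_left h1M₀
  have hle : M₀.map π ≤ (M₀ ⊔ Submodule.span A {u}).map π := Submodule.map_mono le_sup_left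
  have heq : M₀.map π = (M₀ ⊔ Submodule.span A {u}).map π := by
    by_contra hcon
    have hfl := Module.length_ne_top_iff.1 (hne _ hM₁ h1M₁)
    rw [isFiniteLength_iff_isNoetherian_isArtinian] at hfl
    obtain ⟨_, _⟩ := hfl
    have h3 : (M₀.map π).comap ((M₀ ⊔ Submodule.span A {u}).map π).subtype ≠ ⊤ := by
      intro htop
      apply hcon
      apply le_antisymm hle
      intro y hy
      have h4 : (⟨y, hy⟩ : (M₀ ⊔ Submodule.span A {u}).map π) ∈
          (M₀.map π).comap ((M₀ ⊔ Submodule.span A {u}).map π).subtype := htop ▸ trivial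
      exact h4
    have h4 := Submodule.length_lt h3
    rw [(Submodule.comapSubtypeEquivOfLe hle).length_eq] at h4
    have h5 := hmax _ hM₁ h1M₁
    have h6 : φ M₀ < φ (M₀ ⊔ Submodule.span A {u}) := by
      rw [← ENat.natCast_toNat (hne _ hM₀ h1M₀), ← ENat.natCast_toNat (hne _ hM₁ h1M₁)] at h4
      exact_mod_cast h4
    omega
  have h7 : π u ∈ M₀.map π := by
    rw [heq]
    exact Submodule.mem_map_of_mem (Submodule.mem_sup_right (Submodule.mem_span_singleton_self u))
  obtain ⟨m, hm, hmu⟩ := h7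
  have h8 : π (u - m) = 0 := by rw [map_sub, hmu, sub_self]
  rw [Submodule.mkQ_apply, Submodule.Quotient.mk_eq_zero,
    Submodule.mem_smul_pointwise_iff_exists] at h8
  obtain ⟨u', -, hu'⟩ := h8
  exact ⟨m, hm, u', by rw [hu']; ring⟩

end KA

end Vale.Agent.P177
end

section

/-!
The normalization of a complete one dimensional local domain is a discrete valuation ring, finite
over it.
-/

namespace Vale.Agent.P177

open CategoryTheory TensorProduct Function IsLocalRing RingTheory.Sequence Pointwise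

universe u

section KA

variable {A : Type u} [CommRing A] [IsLocalRing A] [IsNoetherianRing A] [IsDomain A]
  (hprime : ∀ q : Ideal A, q.IsPrime → q ≠ ⊥ → q = maximalIdeal A)
  {U : Type u} [CommRing U] [IsDomain U] [Algebra A U] (hinj : Injective (algebraMap A U))
  (hU : ∀ u : U, ∃ a : A, a ≠ 0 ∧ ∃ c : A, a • u = algebraMap A U c)

include hprime hinj hU in
theorem isNoetherianRing_of_ka : IsNoetherianRing U := by
  refine ⟨fun (I : Ideal U) => ?_⟩
  by_cases hI : I = ⊥
  · rw [hI]; exact Submodule.fg_bot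
  obtain ⟨u, huI, hu0⟩ := Submodule.exists_mem_ne_zero_of_ne_bot hI
  obtain ⟨a, ha0, c, hc⟩ := hU u
  have hcI : algebraMap A U c ∈ I := by
    rw [← hc, Algebra.smul_def]
    exact Ideal.mul_mem_left I _ huI
  have hc0 : c ≠ 0 := by
    rintro rfl
    rw [map_zero, Algebra.smul_def] at hc
    rcases mul_eq_zero.1 hc with h | h
    · exact ha0 ((map_eq_zero_iff _ hinj).1 h)
    · exact hu0 h
  obtain ⟨M₀, hM₀, hM⟩ := exists_fg_add hprime hinj hU c hc0
  have hfin : Module.Finite A M₀ := Module.Finite.iff_fg.2 hM₀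
  have hN : (M₀ ⊓ I.restrictScalars A).FG := Submodule.FG.of_le hM₀ inf_le_left
  obtain ⟨s, hs⟩ := hN
  classical
  refine ⟨insert (algebraMap A U c) s, le_antisymm ?_ ?_⟩
  · rw [Submodule.span_le]
    intro y hy
    rw [Finset.coe_insert, Set.mem_insert_iff] at hy
    rcases hy with rfl | hy
    · exact hcI
    · have h3 : y ∈ M₀ ⊓ I.restrictScalars A := hs ▸ Submodule.subset_span hy
      exact h3.2
  · intro y hy
    obtain ⟨m, hm, u', rfl⟩ := hM y
    have hcu : c • u' ∈ Submodule.span U
        ((insert (algebraMap A U c) s : Finset U) : Set U) := by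
      rw [Algebra.smul_def, mul_comm]
      exact Submodule.smul_mem _ _ (Submodule.subset_span (by simp))
    refine Submodule.add_mem _ ?_ hcu
    have hcuI : c • u' ∈ I := by
      rw [Algebra.smul_def]
      exact Ideal.mul_mem_right _ I hcI
    have hmI : m ∈ I := by
      have h4 := I.sub_mem hy hcuI
      rwa [add_sub_cancel_right] at h4
    have h3 : m ∈ Submodule.span A (s : Set U) := by
      rw [hs]
      exact ⟨hm, hmI⟩
    have h4 : Submodule.span A (s : Set U) ≤ (Submodule.span U
        ((insert (algebraMap A U c) s : Finset U) : Set U)).restrictScalars A := by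
      rw [Submodule.span_le]
      intro z hz
      exact Submodule.subset_span (by simp [Finset.mem_coe.1 hz])
    exact h4 h3

variable [Algebra.IsIntegral A U]

omit [IsNoetherianRing A] [IsDomain A] in
include hinj in
theorem map_ne_top_of_integral : (maximalIdeal A).map (algebraMap A U) ≠ ⊤ := by
  obtain ⟨Q, hQ, hQA⟩ := Ideal.exists_ideal_over_prime_of_isIntegral_of_isDomain (S := U)
    (maximalIdeal A) (by
      rw [(RingHom.injective_iff_ker_eq_bot _).1 hinj]
      exact bot_le)
  intro htop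
  apply hQ.ne_top
  rw [eq_top_iff, ← htop, Ideal.map_le_iff_le_comap, hQA]

include hprime hinj hU in
/-- Over a complete ring, `U` is finite. -/
theorem finite_of_complete [IsAdicComplete (maximalIdeal A) A] (hne : maximalIdeal A ≠ ⊥) :
    Module.Finite A U := by
  have hnoeth := isNoetherianRing_of_ka hprime hinj hU
  have hH : IsHausdorff ((maximalIdeal A).map (algebraMap A U)) U :=
    IsHausdorff.of_isDomain _ (map_ne_top_of_integral hinj)
  have hH' : IsHausdorff (maximalIdeal A) U := IsHausdorff.map_algebraMap_iff.1 hH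
  obtain ⟨x, hx, hx0⟩ := Submodule.exists_mem_ne_zero_of_ne_bot hne
  obtain ⟨M₀, hM₀, hM⟩ := exists_fg_add hprime hinj hU x hx0
  have hfin : Module.Finite A M₀ := Module.Finite.iff_fg.2 hM₀
  have hprec : IsPrecomplete (maximalIdeal A) M₀ := isPrecomplete_of_finite _ _
  have hsurj : Surjective M₀.subtype := by
    apply surjective_of_mkQ_comp_surjective (I := maximalIdeal A)
    intro y
    obtain ⟨u, rfl⟩ := Submodule.mkQ_surjective _ y
    obtain ⟨m, hm, u', rfl⟩ := hM u
    refine ⟨⟨m, hm⟩, ?_⟩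
    rw [map_add]
    have h3 : (Submodule.mkQ (maximalIdeal A • ⊤ : Submodule A U)) (x • u') = 0 := by
      rw [Submodule.mkQ_apply, Submodule.Quotient.mk_eq_zero]
      exact Submodule.smul_mem_smul hx trivial
    rw [h3, add_zero]
    rfl
  exact Module.Finite.of_surjective M₀.subtype hsurj

end KA

section localring

/-- A domain finite over a complete local ring is local. -/
theorem isLocalRing_of_finite (A : Type u) [CommRing A] [IsLocalRing A] [IsNoetherianRing A]
    [IsAdicComplete (maximalIdeal A) A]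
    (U : Type u) [CommRing U] [IsDomain U] [Algebra A U] [Module.Finite A U] :
    IsLocalRing U := by
  set J := (maximalIdeal A).map (algebraMap A U) with hJ
  have hprec : IsPrecomplete (maximalIdeal A) U := isPrecomplete_of_finite _ _
  have hhaus : IsHausdorff (maximalIdeal A) U := inferInstance
  have hcomp : IsAdicComplete (maximalIdeal A) U := { hprec, hhaus with }
  have hJc : IsAdicComplete J U := (IsAdicComplete.map_algebraMap_iff _ _).2 hcomp
  have hjac : J ≤ Ideal.jacobson ⊥ := IsAdicComplete.le_jacobson_bot J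
  have hunit : ∀ a : U, IsUnit (Ideal.Quotient.mk J a) → IsUnit a := by
    intro a ha
    obtain ⟨b, hb⟩ := ha.exists_right_inv
    obtain ⟨b, rfl⟩ := Ideal.Quotient.mk_surjective b
    rw [← map_mul, ← map_one (Ideal.Quotient.mk J), Ideal.Quotient.eq] at hb
    have h3 := Ideal.mem_jacobson_bot.1 (hjac hb) 1
    have h4 : (a * b - 1) * 1 + 1 = a * b := by ring
    rw [h4] at h3
    exact isUnit_of_mul_isUnit_left h3
  have hart : IsArtinianRing (U ⧸ J) := by
    have h1 : FL ([] : List A) (U ⧸ J) := by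
      unfold FL
      refine le_trans ?_ Ideal.le_radical
      refine le_trans ?_ le_sup_left
      intro a ha
      rw [Module.mem_annihilator]
      intro x
      obtain ⟨x, rfl⟩ := Ideal.Quotient.mk_surjective x
      have h4 : a • x ∈ J := by
        rw [Algebra.smul_def]
        exact Ideal.mul_mem_right _ _ (Ideal.mem_map_of_mem _ ha)
      exact Ideal.Quotient.eq_zero_iff_mem.2 h4
    have hfin : Module.Finite A (U ⧸ J) := inferInstance
    have h2 := Module.length_ne_top_iff.1 h1.length_ne_top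
    rw [isFiniteLength_iff_isNoetherian_isArtinian] at h2
    exact isArtinian_of_tower A h2.2
  refine IsLocalRing.of_isUnit_or_isUnit_one_sub_self fun a => ?_
  -- an idempotent modulo `J`
  obtain ⟨n, y, hy⟩ := IsArtinian.exists_pow_succ_smul_dvd (Ideal.Quotient.mk J a) (1 : U ⧸ J)
  simp only [smul_eq_mul, mul_one, Nat.succ_eq_add_one] at hy
  set α := Ideal.Quotient.mk J a with hα
  have hk : ∀ k : ℕ, α ^ n = α ^ (n + k) * y ^ k := by
    intro k
    induction k with
    | zero => simp
    | succ k ih =>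
      rw [ih, pow_add α n k, ← hy]
      ring
  have hidem := hk n
  obtain ⟨c, hc⟩ : ∃ c, c = y ^ n := ⟨_, rfl⟩
  rw [← hc, pow_add] at hidem
  -- `α ^ n = α ^ n * α ^ n * c`
  obtain ⟨e, he⟩ := Ideal.Quotient.mk_surjective (α ^ n * c)
  have hee : e ^ 2 - e ∈ J := by
    rw [← Ideal.Quotient.eq_zero_iff_mem, map_sub, map_pow, he]
    have : (α ^ n * c) ^ 2 = α ^ n * α ^ n * c * c := by ring
    rw [this, ← hidem, sub_self]
  have hhens : HenselianRing U J := inferInstance
  obtain ⟨E, hE, hEe⟩ := hhens.is_henselian (Polynomial.X ^ 2 - Polynomial.X)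
    (by monicity!) e (by simpa using hee) (by
      have h5 : (Polynomial.derivative (Polynomial.X ^ 2 - Polynomial.X : Polynomial U)).eval e =
          2 * e - 1 := by
        simp only [Polynomial.derivative_sub, Polynomial.derivative_X_pow,
          Polynomial.derivative_X, Polynomial.eval_sub, Polynomial.eval_mul,
          Polynomial.eval_pow, Polynomial.eval_X, Polynomial.eval_one]
        norm_num
      rw [h5]
      refine IsUnit.of_mul_eq_one (Ideal.Quotient.mk J (2 * e - 1)) ?_
      rw [← map_mul]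
      have h6 : (2 * e - 1) * (2 * e - 1) = 1 + 4 * (e ^ 2 - e) := by ring
      rw [h6, map_add, map_mul, Ideal.Quotient.eq_zero_iff_mem.2 hee, mul_zero, add_zero, map_one])
  have hE2 : E * (E - 1) = 0 := by
    have h7 : E ^ 2 - E = 0 := by simpa using hE
    rw [← h7]; ring
  have hEe' : Ideal.Quotient.mk J E = α ^ n * c := by
    rw [← he, Ideal.Quotient.eq]
    exact hEe
  rcases mul_eq_zero.1 hE2 with h0 | h1
  · -- `α` is nilpotent
    right
    apply hunit
    rw [map_sub, map_one]
    apply IsNilpotent.isUnit_one_sub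
    refine ⟨n, ?_⟩
    change α ^ n = 0
    rw [hidem, mul_assoc, ← hEe', h0, map_zero, mul_zero]
  · left
    apply hunit
    change IsUnit α
    have h8 : α ^ n * c = 1 := by
      rw [← hEe', sub_eq_zero.1 h1, map_one]
    rcases Nat.eq_zero_or_pos n with hn | hn
    · -- `n = 0`
      subst hn
      rw [zero_add, pow_one, pow_zero] at hy
      exact IsUnit.of_mul_eq_one _ hy
    · have h9 : IsUnit (α ^ n) := IsUnit.of_mul_eq_one _ h8
      exact (isUnit_pow_iff (by omega)).1 h9

end localring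

/-- The normalization of a complete one dimensional local domain. -/
theorem exists_dvr (A : Type u) [CommRing A] [IsLocalRing A] [IsNoetherianRing A] [IsDomain A]
    [IsAdicComplete (maximalIdeal A) A]
    (hprime : ∀ q : Ideal A, q.IsPrime → q ≠ ⊥ → q = maximalIdeal A)
    (hne : maximalIdeal A ≠ ⊥) :
    ∃ (V : Type u) (_ : CommRing V) (_ : IsDomain V) (_ : IsDiscreteValuationRing V)
      (_ : Algebra A V), Module.Finite A V ∧ Injective (algebraMap A V) ∧
      ∃ c : A, c ≠ 0 ∧ ∀ v : V, ∃ d : A, c • v = algebraMap A V d := by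
  let K := FractionRing A
  let V := integralClosure A K
  have hinj : Injective (algebraMap A V) := by
    have h1 : Injective (algebraMap A K) := IsFractionRing.injective A K
    have h2 : algebraMap A K = (algebraMap V K).comp (algebraMap A V) :=
      IsScalarTower.algebraMap_eq A V K
    rw [h2, RingHom.coe_comp] at h1
    exact Injective.of_comp h1
  have hU : ∀ u : V, ∃ a : A, a ≠ 0 ∧ ∃ c : A, a • u = algebraMap A V c := by
    intro u
    obtain ⟨c, ⟨a, ha⟩, hca⟩ := IsLocalization.exists_mk'_eq (nonZeroDivisors A) (u : K)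
    refine ⟨a, nonZeroDivisors.ne_zero ha, c, ?_⟩
    apply Subtype.ext
    change a • (u : K) = algebraMap A K c
    rw [← hca, Algebra.smul_def, mul_comm]
    exact IsLocalization.mk'_spec K c ⟨a, ha⟩
  have hint : Algebra.IsIntegral A V := inferInstance
  have hfin : Module.Finite A V := finite_of_complete hprime hinj hU hne
  have hnoeth : IsNoetherianRing V := isNoetherianRing_of_ka hprime hinj hU
  have hloc : IsLocalRing V := isLocalRing_of_finite A V
  have hic : IsIntegrallyClosed V := integralClosure.isIntegrallyClosedOfFiniteExtension K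
  have hmax : ∀ P : Ideal V, P ≠ ⊥ → P.IsPrime → P = maximalIdeal V := by
    intro P hP hPp
    have h1 : P.comap (algebraMap A V) ≠ ⊥ := fun h => hP (Ideal.eq_bot_of_comap_eq_bot h)
    have h2 := hprime (P.comap (algebraMap A V)) (Ideal.comap_isPrime _ _) h1
    have h3 : P.IsMaximal := by
      apply Ideal.isMaximal_of_isIntegral_of_isMaximal_comap (R := A)
      rw [h2]
      infer_instance
    exact IsLocalRing.eq_maximalIdeal h3
  have h5 : IsIntegrallyClosed V ∧ ∀ P : Ideal V, P ≠ ⊥ → P.IsPrime → P = maximalIdeal V :=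
    ⟨hic, hmax⟩
  have hpid : IsPrincipalIdealRing V :=
    ((tfae_of_isNoetherianRing_of_isLocalRing_of_isDomain V).out 3 0).mp h5
  have hdvr : IsDiscreteValuationRing V :=
    { hpid, hloc with
      not_a_field' := by
        intro hbot
        obtain ⟨x, hx, hx0⟩ := Submodule.exists_mem_ne_zero_of_ne_bot hne
        have h1 : algebraMap A V x ∈ maximalIdeal V := by
          have h2 : ((maximalIdeal V).comap (algebraMap A V)) = maximalIdeal A :=
            IsLocalRing.eq_maximalIdeal (Ideal.isMaximal_comap_of_isIntegral_of_isMaximal _)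
          rw [← h2] at hx
          exact hx
        rw [hbot, Ideal.mem_bot, map_eq_zero_iff _ hinj] at h1
        exact hx0 h1 }
  obtain ⟨c, hc0, hc⟩ := exists_common_multiple hU (⊤ : Submodule A V) Module.Finite.fg_top
  exact ⟨V, inferInstance, inferInstance, hdvr, inferInstance, hfin, hinj, c, hc0,
    fun v => hc v trivial⟩

end Vale.Agent.P177
end

section

/-!
The local contributions, with a local hypothesis at one prime only.
-/

namespace Vale.Agent.P177

open CategoryTheory TensorProduct Function IsLocalRing RingTheory.Sequence Pointwise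

universe u

section

variable {R₁ R₂ T : Type u} [CommRing R₁] [CommRing R₂] [CommRing T]
    [IsRegularLocalRing R₁] [IsRegularLocalRing R₂] [IsRegularLocalRing T]
    [Algebra R₁ T] [Algebra R₂ T] [Module.Flat R₁ T] [Module.Flat R₂ T]

variable (R₁ R₂) in
/-- Local positivity at the prime `Q`. -/
def LocPosAt (N M : Type u) [AddCommGroup N] [Module R₁ N] [AddCommGroup M] [Module R₂ M]
    (Q : Ideal T) [Q.IsPrime] : Prop :=
  ∀ (L₁ L₂ : Type u) [CommRing L₁] [CommRing L₂] [Algebra R₁ L₁] [Algebra R₂ L₂]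
    [Algebra L₁ (Localization.AtPrime Q)] [Algebra L₂ (Localization.AtPrime Q)],
    LocData R₁ T Q L₁ → LocData R₂ T Q L₂ →
    ∀ (r₁ r₂ q b : ℕ), ringKrullDim L₁ = r₁ → ringKrullDim L₂ = r₂ →
    ringKrullDim (Localization.AtPrime Q) = q → r₁ + r₂ = q + b →
    FP L₁ L₂ (Localization.AtPrime Q) (L₁ ⊗[R₁] N) (L₂ ⊗[R₂] M) →
    (∀ e g : ℕ, (e : WithBot ℕ∞) ≤ Module.supportDim L₁ (L₁ ⊗[R₁] N) →
      (g : WithBot ℕ∞) ≤ Module.supportDim L₂ (L₂ ⊗[R₂] M) → e + g ≤ b) ∧
    0 ≤ eulerTor (Localization.AtPrime Q) (q + 1) (Localization.AtPrime Q ⊗[L₁] (L₁ ⊗[R₁] N))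
      (Localization.AtPrime Q ⊗[L₂] (L₂ ⊗[R₂] M)) ∧
    (∀ e g : ℕ, (e : WithBot ℕ∞) ≤ Module.supportDim L₁ (L₁ ⊗[R₁] N) →
      (g : WithBot ℕ∞) ≤ Module.supportDim L₂ (L₂ ⊗[R₂] M) → b ≤ e + g →
      0 < eulerTor (Localization.AtPrime Q) (q + 1)
        (Localization.AtPrime Q ⊗[L₁] (L₁ ⊗[R₁] N)) (Localization.AtPrime Q ⊗[L₂] (L₂ ⊗[R₂] M)))

end

end Vale.Agent.P177
end

section

/-!
Local positivity at a prime lying over the maximal ideals.
-/

namespace Vale.Agent.P177

open CategoryTheory TensorProduct Function IsLocalRing RingTheory.Sequence Pointwise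

universe u

section

variable {R₁ R₂ T : Type u} [CommRing R₁] [CommRing R₂] [CommRing T]
    [IsRegularLocalRing R₁] [IsRegularLocalRing R₂] [IsRegularLocalRing T]
    [Algebra R₁ T] [Algebra R₂ T] [Module.Flat R₁ T] [Module.Flat R₂ T]

end

end Vale.Agent.P177
end

section

/-!
P177, block B8, part 4: `χ_D (X, D ⊗ A) = χ_R (A, P) * χ_E (k, Y)` for `X = Y ⊗[Λ] P`, `P` flat
over the local ring `Λ`.
-/

namespace Vale.Agent.P177.B8

open Vale.Agent.P202.Mix Vale.Agent.P177.Mass TensorProduct IsLocalRing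
open scoped ENNReal

universe u

variable {Λ R E D : Type u} [CommRing Λ] [CommRing R] [CommRing E] [CommRing D]
  [Algebra Λ R] [Algebra Λ E] [Algebra R D] [Algebra E D]

/-- Lengths of isomorphic modules over `D` and `E`. -/
theorem len_addEquiv (LE : AddLen E) (LD : AddLen D)
    (hL : ∀ (M : Type u) [AddCommGroup M] [Module D M],
      LD.len M = @AddLen.len E _ LE M _ (Module.compHom M (algebraMap E D)))
    {M N : Type u} [AddCommGroup M] [Module D M] [AddCommGroup N] [Module E N] (e : M ≃+ N)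
    (he : ∀ (a : E) (x : M), e (algebraMap E D a • x) = a • e x) : LD.len M = LE.len N := by
  rw [hL M]
  let _ := Module.compHom M (algebraMap E D)
  exact Vale.Agent.P177.Mass.len_congr LE { e with map_smul' := he }

variable {P : Type u} [AddCommGroup P] [Module R P] [Module Λ P] [IsScalarTower Λ R P]
  {Y : Type u} [AddCommGroup Y] [Module E Y] [Module Λ Y] [IsScalarTower Λ E Y]
  {X : Type u} [AddCommGroup X] [Module D X] [Module R X] [IsScalarTower R D X]
  [Module E X] [IsScalarTower E D X]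
  {K : Type u} [AddCommGroup K] [Module R K] {F : Type u} [AddCommGroup F] [Module R F]

/-- the `E`-linear map `E ⊗ (P ⊗ K) → E ⊗ (P ⊗ F)` attached to `f : K → F`. -/
noncomputable def dd (Λ E P : Type u) [CommRing Λ] [CommRing E] [Algebra Λ R] [Algebra Λ E]
    [AddCommGroup P] [Module R P] [Module Λ P] [IsScalarTower Λ R P] (f : K →ₗ[R] F) :
    E ⊗[Λ] (P ⊗[R] K) →ₗ[E] E ⊗[Λ] (P ⊗[R] F) :=
  ((f.lTensor P).restrictScalars Λ).baseChange E

/-- The isomorphism of (E ⊗ (P ⊗ K)) ⊗ Y with Y ⊗ (P ⊗ K). -/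
noncomputable def cE (Λ E P Y : Type u) [CommRing Λ] [CommRing E] [Algebra Λ R] [Algebra Λ E]
    [AddCommGroup P] [Module R P] [Module Λ P] [IsScalarTower Λ R P] [AddCommGroup Y] [Module E Y]
    [Module Λ Y] [IsScalarTower Λ E Y] (K : Type u) [AddCommGroup K] [Module R K] :
    (E ⊗[Λ] (P ⊗[R] K)) ⊗[E] Y ≃ₗ[E] Y ⊗[Λ] (P ⊗[R] K) :=
  (TensorProduct.comm E _ _).trans (AlgebraTensorModule.cancelBaseChange Λ E E Y (P ⊗[R] K))

theorem cE_tmul (a : E) (t : P ⊗[R] K) (y : Y) :
    cE (Λ := Λ) (E := E) (P := P) (Y := Y) K ((a ⊗ₜ t) ⊗ₜ y) = (a • y) ⊗ₜ t := rfl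

theorem cE_nat (f : K →ₗ[R] F) (z : (E ⊗[Λ] (P ⊗[R] K)) ⊗[E] Y) :
    cE (Λ := Λ) (E := E) (P := P) (Y := Y) F ((dd Λ E P f).rTensor Y z) =
      ((f.lTensor P).restrictScalars Λ).lTensor Y
        (cE (Λ := Λ) (E := E) (P := P) (Y := Y) K z) := by
  induction z using TensorProduct.induction_on with
  | zero => simp only [map_zero]
  | tmul w y =>
    induction w using TensorProduct.induction_on with
    | zero => simp only [TensorProduct.zero_tmul, map_zero]
    | tmul a t =>
      rw [LinearMap.rTensor_tmul, cE_tmul, LinearMap.lTensor_tmul]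
      unfold dd
      rw [LinearMap.baseChange_tmul, cE_tmul]
    | add a b ha hb => simp only [TensorProduct.add_tmul, map_add, ha, hb]
  | add a b ha hb => simp only [map_add, ha, hb]

/-- The isomorphism of (D ⊗ K) ⊗ X with X ⊗ K. -/
noncomputable def cD (D X : Type u) [CommRing D] [Algebra R D] [AddCommGroup X] [Module D X]
    [Module R X] [IsScalarTower R D X] (K : Type u) [AddCommGroup K] [Module R K] :
    (D ⊗[R] K) ⊗[D] X ≃ₗ[D] X ⊗[R] K :=
  (TensorProduct.comm D _ _).trans (AlgebraTensorModule.cancelBaseChange R D D X K)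

theorem cD_tmul (a : D) (k : K) (x : X) :
    cD (R := R) D X K ((a ⊗ₜ k) ⊗ₜ x) = (a • x) ⊗ₜ k := rfl

theorem cD_nat (f : K →ₗ[R] F) (z : (D ⊗[R] K) ⊗[D] X) :
    cD (R := R) D X F ((f.baseChange D).rTensor X z) = f.lTensor X (cD (R := R) D X K z) := by
  induction z using TensorProduct.induction_on with
  | zero => simp only [map_zero]
  | tmul w y =>
    induction w using TensorProduct.induction_on with
    | zero => simp only [TensorProduct.zero_tmul, map_zero]
    | tmul a t =>
      rw [LinearMap.rTensor_tmul, cD_tmul, LinearMap.lTensor_tmul, LinearMap.baseChange_tmul,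
        cD_tmul]
    | add a b ha hb => simp only [TensorProduct.add_tmul, map_add, ha, hb]
  | add a b ha hb => simp only [map_add, ha, hb]

/-- The comparison of (E ⊗ (P ⊗ K)) ⊗ Y with (D ⊗ K) ⊗ X. -/
noncomputable def TData.cmp (T : TData (Λ := Λ) (R := R) (E := E) P Y X)
    (K : Type u) [AddCommGroup K] [Module R K] :
    (E ⊗[Λ] (P ⊗[R] K)) ⊗[E] Y ≃+ (D ⊗[R] K) ⊗[D] X :=
  ((cE (Λ := Λ) (E := E) (P := P) (Y := Y) K).toAddEquiv.trans (T.equ K)).trans
    (cD (R := R) D X K).symm.toAddEquiv

theorem TData.cD_cmp (T : TData (Λ := Λ) (R := R) (E := E) P Y X)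
    (z : (E ⊗[Λ] (P ⊗[R] K)) ⊗[E] Y) :
    cD (R := R) D X K (T.cmp K z) =
      T.bet K (cE (Λ := Λ) (E := E) (P := P) (Y := Y) K z) :=
  (cD (R := R) D X K).apply_symm_apply _

theorem TData.cmp_smul (T : TData (Λ := Λ) (R := R) (E := E) P Y X) (a : E)
    (z : (E ⊗[Λ] (P ⊗[R] K)) ⊗[E] Y) :
    T.cmp (D := D) K (a • z) = algebraMap E D a • T.cmp K z := by
  apply (cD (R := R) D X K).injective
  rw [T.cD_cmp, map_smul, T.bet_smul (D := D) K, map_smul, T.cD_cmp]

theorem TData.cmp_nat (T : TData (Λ := Λ) (R := R) (E := E) P Y X) (f : K →ₗ[R] F)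
    (z : (E ⊗[Λ] (P ⊗[R] K)) ⊗[E] Y) :
    T.cmp (D := D) F ((dd Λ E P f).rTensor Y z) = (f.baseChange D).rTensor X (T.cmp K z) := by
  apply (cD (R := R) D X F).injective
  rw [T.cD_cmp, cE_nat, T.bet_nat, cD_nat, T.cD_cmp]

/-- comparison of lengths. -/
theorem TData.len_cmp (T : TData (Λ := Λ) (R := R) (E := E) P Y X) (LE : AddLen E) (LD : AddLen D)
    (hL : ∀ (M : Type u) [AddCommGroup M] [Module D M],
      LD.len M = @AddLen.len E _ LE M _ (Module.compHom M (algebraMap E D)))
    (K : Type u) [AddCommGroup K] [Module R K] :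
    LD.len ((D ⊗[R] K) ⊗[D] X) = LE.len ((E ⊗[Λ] (P ⊗[R] K)) ⊗[E] Y) := by
  refine len_addEquiv LE LD hL (T.cmp K).symm fun a x => ?_
  apply (T.cmp (D := D) K).injective
  rw [AddEquiv.apply_symm_apply, T.cmp_smul, AddEquiv.apply_symm_apply]

theorem len_ker_semi (LE : AddLen E) (LD : AddLen D)
    (hL : ∀ (M : Type u) [AddCommGroup M] [Module D M],
      LD.len M = @AddLen.len E _ LE M _ (Module.compHom M (algebraMap E D)))
    {A B A' B' : Type u} [AddCommGroup A] [Module D A] [AddCommGroup B] [Module D B]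
    [AddCommGroup A'] [Module E A'] [AddCommGroup B'] [Module E B'] (φ : A →ₗ[D] B)
    (ψ : A' →ₗ[E] B') (eA : A' ≃+ A) (eB : B' ≃+ B)
    (hs : ∀ (a : E) (x : A'), eA (a • x) = algebraMap E D a • eA x)
    (hn : ∀ x, eB (ψ x) = φ (eA x)) :
    LD.len (LinearMap.ker φ) = LE.len (LinearMap.ker ψ) := by
  have h1 : ∀ x : LinearMap.ker φ, eA.symm x.1 ∈ LinearMap.ker ψ := by
    intro x
    rw [LinearMap.mem_ker]
    apply eB.injective
    rw [hn, AddEquiv.apply_symm_apply, map_zero]
    exact x.2
  have h2 : ∀ x : LinearMap.ker ψ, eA x.1 ∈ LinearMap.ker φ := by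
    intro x
    rw [LinearMap.mem_ker, ← hn, show ψ x.1 = 0 from x.2, map_zero]
  let e : LinearMap.ker φ ≃+ LinearMap.ker ψ :=
    { toFun := fun x => ⟨eA.symm x.1, h1 x⟩
      invFun := fun x => ⟨eA x.1, h2 x⟩
      left_inv := fun x => Subtype.ext (eA.apply_symm_apply x.1)
      right_inv := fun x => Subtype.ext (eA.symm_apply_apply x.1)
      map_add' := fun x y => Subtype.ext (map_add eA.symm x.1 y.1) }
  refine len_addEquiv LE LD hL e fun a x => ?_
  apply Subtype.ext
  change eA.symm (algebraMap E D a • x.1) = a • eA.symm x.1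
  apply eA.injective
  rw [AddEquiv.apply_symm_apply, hs, AddEquiv.apply_symm_apply]

/-! ### Flatness -/

theorem flat_finsupp_tensor [Module.Flat Λ P] (ι : Type u) :
    Module.Flat Λ (P ⊗[R] (ι →₀ R)) := by
  classical
  have h1 : Module.Flat Λ (ι →₀ P) :=
    Module.Flat.of_linearEquiv (finsuppLEquivDirectSum Λ P ι)
  exact Module.Flat.of_linearEquiv
    ((TensorProduct.finsuppScalarRight R R P ι).restrictScalars Λ)

/-! ### The homology over `Λ` -/

theorem len_tor_abs (LE : AddLen E) (LD : AddLen D)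
    (hL : ∀ (M : Type u) [AddCommGroup M] [Module D M],
      LD.len M = @AddLen.len E _ LE M _ (Module.compHom M (algebraMap E D)))
    (K F : ℕ → Type u) [∀ i, AddCommGroup (K i)]
    [∀ i, Module D (K i)] [∀ i, AddCommGroup (F i)] [∀ i, Module D (F i)]
    (hF : ∀ i, Module.Flat D (F i))
    (f : ∀ i, K (i + 1) →ₗ[D] F i) (g : ∀ i, F i →ₗ[D] K i) (hf : ∀ i, Function.Injective (f i))
    (hg : ∀ i, Function.Surjective (g i)) (h : ∀ i, Function.Exact (f i) (g i)) (X : Type u)
    [AddCommGroup X] [Module D X] (i : ℕ)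
    {C' G' : Type u} [AddCommGroup C'] [Module E C']
    [AddCommGroup G'] [Module E G'] (ψ : C' →ₗ[E] G')
    (eA : C' ≃+ K (i + 1) ⊗[D] X) (eB : G' ≃+ F i ⊗[D] X)
    (hs : ∀ (a : E) (x : C'), eA (a • x) = algebraMap E D a • eA x)
    (hn : ∀ x, eB (ψ x) = (f i).rTensor X (eA x)) :
    LD.len (TorM D (i + 1) X (K 0)) = LE.len (LinearMap.ker ψ) := by
  obtain ⟨e1⟩ := tor_symm (R := D) (i + 1) X (K 0)
  obtain ⟨e2⟩ := tor_syz K F f g hf hg h X i
  exact ((Vale.Agent.P177.Mass.len_congr LD e1).trans (Vale.Agent.P177.Mass.len_congr LD e2)).trans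
    (len_ker_semi LE LD hL ((f i).rTensor X) ψ eA eB hs hn)

section Seq

variable (K F : ℕ → Type u) [∀ i, AddCommGroup (K i)] [∀ i, Module R (K i)]
  [∀ i, AddCommGroup (F i)] [∀ i, Module R (F i)]
  (f : ∀ i, K (i + 1) →ₗ[R] F i) (g : ∀ i, F i →ₗ[R] K i)

theorem len_tor_D [Module.Flat R D] [∀ i, Module.Flat R (F i)]
    (hf : ∀ i, Function.Injective (f i))
    (hg : ∀ i, Function.Surjective (g i)) (h : ∀ i, Function.Exact (f i) (g i))
    (LE : AddLen E) (LD : AddLen D)
    (hL : ∀ (M : Type u) [AddCommGroup M] [Module D M],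
      LD.len M = @AddLen.len E _ LE M _ (Module.compHom M (algebraMap E D)))
    (i : ℕ) {X : Type u} [AddCommGroup X] [Module D X]
    {C' G' : Type u} [AddCommGroup C'] [Module E C']
    [AddCommGroup G'] [Module E G'] (ψ : C' →ₗ[E] G')
    (eA : C' ≃+ (D ⊗[R] (K (i + 1))) ⊗[D] X) (eB : G' ≃+ (D ⊗[R] (F i)) ⊗[D] X)
    (hs : ∀ (a : E) (x : C'), eA (a • x) = algebraMap E D a • eA x)
    (hn : ∀ x, eB (ψ x) = ((f i).baseChange D).rTensor X (eA x)) :
    LD.len (TorM D (i + 1) X (D ⊗[R] (K 0))) = LE.len (LinearMap.ker ψ) :=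
  len_tor_abs LE LD hL (fun i => D ⊗[R] (K i)) (fun i => D ⊗[R] (F i)) (fun _ => inferInstance)
    (fun i => (f i).baseChange D) (fun i => (g i).baseChange D)
    (fun i => Module.Flat.lTensor_preserves_injective_linearMap (M := D) (f i) (hf i))
    (fun i => LinearMap.lTensor_surjective D (hg i))
    (fun i => lTensor_exact D (h i) (hg i)) X i ψ eA eB hs hn

end Seq

end Vale.Agent.P177.B8
end

section

/-!
P177: the flag formula for the module `Y ⊗[Λ] L`, `Y = M s / N s`, `L` an `R`-module which is free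
over `Λ`; the pieces are given up to `η ^ k`.
-/

namespace Vale.Agent.P177.Ap

open Vale.Agent.P177.Flag Vale.Agent.P177.PI TensorProduct

universe u v w

section Gen

variable {W : Type w} [CommRing W] {G : Type v} [AddCommGroup G] {n : ℕ}

variable {F : RFam W G} {τ : ∀ j : ℕ, (Fin j → Fin n) → W} {d : ℕ → G} {good : G → Prop} {η : W}

variable {R : Type*} [CommRing R] {D : Type u} [CommRing D] {q : D}
  {θ : ∀ (X : Type u) [AddCommGroup X] [Module D X], ℝ}
  {Adm : ∀ (X : Type u) [AddCommGroup X] [Module D X], Prop}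

/-- **The flag formula**, for a ring `D` additively generated by products of elements coming from
`W` and `R` (for example `D = R ⊗ W`); the pieces are given up to `η ^ k`. -/
theorem theta_sum_genK (k : ℕ) (iR : R →+* D) (iW : W →+* D)
    (hgen : ∀ y : D, y ∈ AddSubgroup.closure {z : D | ∃ (r : R) (a : W), z = iW a * iR r})
    (Θ : IsTheta (iW η) q θ Adm)
    (h : FDataE F τ d good η) (hn : 0 < n) {s : G}
    (hs : good s) (hs1 : ∀ j < n, good (s + d j - d (j + 1)))
    (hs2 : ∀ j < n, good (s - d (j + 1)))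
    (hcol : ∀ j < n, ColN F τ d (j + 1) (s + d j))
    (hsko : ∀ j < n, SkoN F τ d j (s + d j - d (j + 1)))
    {X : Type u} [AddCommGroup X] [Module D X] (hq : ∀ x : X, q • x = 0)
    (e : X ≃+ (Fin n → Gr F s))
    (heW : ∀ (a : W) (x : X), e (iW a • x) = a • e x)
    (A : R → Matrix (Fin n) (Fin n) W)
    (heR : ∀ (r : R) (x : X) (i), e (iR r • x) i = ∑ l, A r i l • e x l)
    (c : R → ℕ → W) (hEig : ∀ r, EigNA F τ d η (A r) (c r))
    (N : ℕ → Type u) [∀ j, AddCommGroup (N j)] [∀ j, Module D (N j)]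
    (hN : ∀ j < n, Adm (N j)) (hNq : ∀ j < n, ∀ m : N j, q • m = 0)
    (π : ∀ j, Gr F (s + d j - d (j + 1)) →+ N j)
    (hπ : ∀ j < n, ∀ m : N j, ∃ g, π j g = iW η ^ k • m)
    (hπ0 : ∀ j < n, ∀ x, π j x = 0 → η ^ k • x = 0)
    (hπW : ∀ j < n, ∀ (a : W) (x), π j (a • x) = iW a • π j x)
    (hπR : ∀ j < n, ∀ (r : R) (x), π j (c r j • x) = iR r • π j x) :
    Adm X ∧ θ X = ∑ j ∈ Finset.range n, θ (N j) := by
  classical
  have key : ∀ y : D, ∃ (A' : Matrix (Fin n) (Fin n) W) (c' : ℕ → W),
      (∀ (x : X) (i), e (y • x) i = ∑ l, A' i l • e x l) ∧ EigNA F τ d η A' c' ∧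
      ∀ j < n, ∀ x, π j (c' j • x) = y • π j x := by
    intro y
    refine AddSubgroup.closure_induction (p := fun y _ =>
      ∃ (A' : Matrix (Fin n) (Fin n) W) (c' : ℕ → W),
      (∀ (x : X) (i), e (y • x) i = ∑ l, A' i l • e x l) ∧ EigNA F τ d η A' c' ∧
      ∀ j < n, ∀ x, π j (c' j • x) = y • π j x) ?_ ?_ ?_ ?_ (hgen y)
    · rintro _ ⟨r, a, rfl⟩
      refine ⟨a • A r, a • c r, fun x i => ?_, (hEig r).smul a, fun j hj x => ?_⟩
      · rw [mul_smul, heW, Pi.smul_apply, heR, Finset.smul_sum]
        refine Finset.sum_congr rfl fun l _ => ?_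
        rw [smul_smul, Matrix.smul_apply, smul_eq_mul]
      · rw [mul_smul, ← hπR j hj, ← hπW j hj, smul_smul, Pi.smul_apply, smul_eq_mul]
    · refine ⟨0, 0, fun x i => ?_, EigNA.zero, fun j _ x => ?_⟩
      · rw [zero_smul, AddEquiv.map_zero, Pi.zero_apply]
        simp
      · rw [Pi.zero_apply, zero_smul, zero_smul, AddMonoidHom.map_zero]
    · rintro y z _ _ ⟨A1, c1, h1, h2, h3⟩ ⟨A2, c2, h4, h5, h6⟩
      refine ⟨A1 + A2, c1 + c2, fun x i => ?_, h2.add h5, fun j hj x => ?_⟩
      · rw [add_smul, AddEquiv.map_add, Pi.add_apply, h1, h4, ← Finset.sum_add_distrib]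
        refine Finset.sum_congr rfl fun l _ => ?_
        rw [Matrix.add_apply, add_smul]
      · rw [Pi.add_apply, add_smul, AddMonoidHom.map_add, h3 j hj, h6 j hj, add_smul]
    · rintro y _ ⟨A1, c1, h1, h2, h3⟩
      refine ⟨(-1 : W) • A1, (-1 : W) • c1, fun x i => ?_, h2.smul _, fun j hj x => ?_⟩
      · rw [neg_smul, AddEquiv.map_neg, Pi.neg_apply, h1, ← Finset.sum_neg_distrib]
        refine Finset.sum_congr rfl fun l _ => ?_
        rw [Matrix.smul_apply, smul_eq_mul, neg_one_mul, neg_smul]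
      · rw [Pi.smul_apply, smul_eq_mul, neg_one_mul, neg_smul, AddMonoidHom.map_neg, h3 j hj,
          neg_smul]
  have key' : ∀ y : D, ∃ (A' : Matrix (Fin n) (Fin n) W) (c' : ℕ → W),
      (∀ (x : X) (i), e (y • x) i = ∑ l, A' i l • e x l) ∧ EigNA F τ d η A' c' ∧
      (∀ j < n, ∀ x, π j (c' j • x) = y • π j x) ∧
      (y = iW η → ∀ j, c' j = η) := by
    intro y
    by_cases hy : y = iW η
    · refine ⟨η • 1, fun _ => η, fun x i => ?_, EigNA.one η, fun j hj x => ?_, fun _ _ => rfl⟩
      · rw [hy, heW, Pi.smul_apply]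
        simp [Matrix.smul_apply, Matrix.one_apply]
      · rw [hy]
        exact hπW j hj η x
    · obtain ⟨A', c', h1, h2, h3⟩ := key y
      exact ⟨A', c', h1, h2, h3, fun h => absurd h hy⟩
  choose A' c' h1 h2 h3 h4 using key'
  exact IsTheta.flagWK k Θ h hn hs hs1 hs2 hcol hsko hq e A' h1 c' (fun r => h2 r)
    (fun x i => by rw [heW, Pi.smul_apply]) (h4 _ rfl) N hN hNq π hπ hπ0
    (fun j hj r x => h3 r j hj x)

end Gen

section Tensor

variable {Λ R L : Type*} [CommRing Λ] [CommRing R] [Algebra Λ R] [AddCommGroup L] [Module R L]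
  [Module Λ L] [IsScalarTower Λ R L] {n : ℕ} (b : Module.Basis (Fin n) Λ L)
  (Y : Type*) [AddCommGroup Y] [Module Λ Y]

/-- `Y ⊗ L = Y ^ n`. -/
noncomputable def tenPi : Y ⊗[Λ] L ≃ₗ[Λ] (Fin n → Y) :=
  (TensorProduct.congr (LinearEquiv.refl Λ Y) b.equivFun).trans
    (TensorProduct.piScalarRight Λ Λ Y (Fin n))

theorem tenPi_tmul (y : Y) (l : L) (i : Fin n) : tenPi b Y (y ⊗ₜ l) i = b.repr l i • y := by
  simp [tenPi]

theorem tenPi_tmul_smul (r : R) (y : Y) (l : L) (i : Fin n) :
    tenPi b Y (y ⊗ₜ (r • l)) i = ∑ j, actMat b r i j • tenPi b Y (y ⊗ₜ l) j := by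
  rw [tenPi_tmul]
  have h1 : b.repr (r • l) i = ∑ j, actMat b r i j * b.repr l j := by
    conv_lhs => rw [← b.sum_repr l, Finset.smul_sum]
    rw [map_sum, Finsupp.finsetSum_apply]
    refine Finset.sum_congr rfl fun j _ => ?_
    rw [actMat_apply, smul_comm, map_smul, Finsupp.smul_apply, smul_eq_mul, mul_comm]
  rw [h1, Finset.sum_smul]
  exact Finset.sum_congr rfl fun j _ => by rw [tenPi_tmul, mul_smul]

end Tensor

section Main

variable {W : Type w} [CommRing W] {G : Type v} [AddCommGroup G] {n : ℕ}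

variable {F : RFam W G} {τ : ∀ j : ℕ, (Fin j → Fin n) → W} {d : ℕ → G} {good : G → Prop} {η : W}

variable {D : Type u} [CommRing D] {q : D}
  {θ : ∀ (X : Type u) [AddCommGroup X] [Module D X], ℝ}
  {Adm : ∀ (X : Type u) [AddCommGroup X] [Module D X], Prop}

variable {Λ R L : Type*} [CommRing Λ] [CommRing R] [Algebra Λ R] [AddCommGroup L] [Module R L]
  [Module Λ L] [IsScalarTower Λ R L] (b : Module.Basis (Fin n) Λ L)
  {Y : Type*} [AddCommGroup Y] [Module Λ Y]

/-- **The flag formula for `X = Y ⊗[Λ] L`**, `Y = M s / N s`. -/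
theorem theta_tensor (k : ℕ) (iR : R →+* D) (iW : W →+* D) (φ : Λ →+* W)
    (hgen : ∀ y : D, y ∈ AddSubgroup.closure {z : D | ∃ (r : R) (a : W), z = iW a * iR r})
    (Θ : IsTheta (iW η) q θ Adm)
    (h : FDataE F τ d good η) (hn : 0 < n) {s : G}
    (hs : good s) (hs1 : ∀ j < n, good (s + d j - d (j + 1)))
    (hs2 : ∀ j < n, good (s - d (j + 1)))
    (hcol : ∀ j < n, ColN F τ d (j + 1) (s + d j))
    (hsko : ∀ j < n, SkoN F τ d j (s + d j - d (j + 1)))
    (eY : Y ≃+ Gr F s) (hY : ∀ (a : Λ) (y : Y), eY (a • y) = φ a • eY y)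
    {X : Type u} [AddCommGroup X] [Module D X] (hq : ∀ x : X, q • x = 0)
    (eX : Y ⊗[Λ] L ≃+ X)
    (heXR : ∀ (r : R) (y : Y) (l : L), eX (y ⊗ₜ (r • l)) = iR r • eX (y ⊗ₜ l))
    (heXW : ∀ (a : W) (y : Y) (l : L), eX (eY.symm (a • eY y) ⊗ₜ l) = iW a • eX (y ⊗ₜ l))
    (c : R → ℕ → W) (hEig : ∀ r, EigNA F τ d η ((actMat b r).map φ) (c r))
    (N : ℕ → Type u) [∀ j, AddCommGroup (N j)] [∀ j, Module D (N j)]
    (hN : ∀ j < n, Adm (N j)) (hNq : ∀ j < n, ∀ m : N j, q • m = 0)
    (π : ∀ j, Gr F (s + d j - d (j + 1)) →+ N j)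
    (hπ : ∀ j < n, ∀ m : N j, ∃ g, π j g = iW η ^ k • m)
    (hπ0 : ∀ j < n, ∀ x, π j x = 0 → η ^ k • x = 0)
    (hπW : ∀ j < n, ∀ (a : W) (x), π j (a • x) = iW a • π j x)
    (hπR : ∀ j < n, ∀ (r : R) (x), π j (c r j • x) = iR r • π j x) :
    Adm X ∧ θ X = ∑ j ∈ Finset.range n, θ (N j) := by
  classical
  -- the coordinates
  let eP : (Fin n → Y) ≃+ (Fin n → Gr F s) := AddEquiv.piCongrRight fun _ => eY
  have heP : ∀ v i, eP v i = eY (v i) := fun _ _ => rfl
  let e : X ≃+ (Fin n → Gr F s) :=
    (eX.symm.trans (tenPi b Y).toAddEquiv).trans eP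
  have he : ∀ (z : Y ⊗[Λ] L) (i), e (eX z) i = eY (tenPi b Y z i) := by
    intro z i
    show eY ((tenPi b Y) (eX.symm (eX z)) i) = _
    rw [AddEquiv.symm_apply_apply]
  have hind : ∀ (P : X → Prop), (∀ y l, P (eX (y ⊗ₜ l))) → P 0 → (∀ x x', P x → P x' → P (x + x')) →
      ∀ x, P x := by
    intro P h1 h0 h2 x
    obtain ⟨z, rfl⟩ := eX.surjective x
    induction z using TensorProduct.induction_on with
    | zero => rwa [eX.map_zero]
    | tmul y l => exact h1 y l
    | add z z' hz hz' => rw [eX.map_add]; exact h2 _ _ hz hz'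
  have he0 : e 0 = 0 := e.map_zero
  have hea : ∀ x x', e (x + x') = e x + e x' := fun x x' => e.map_add x x'
  refine theta_sum_genK k iR iW hgen Θ h hn hs hs1 hs2 hcol hsko hq e ?_
    (fun r => (actMat b r).map φ) ?_ c hEig N hN hNq π hπ hπ0 hπW hπR
  · intro a x
    refine hind (fun x => e (iW a • x) = a • e x) ?_ ?_ ?_ x
    · intro y l
      funext i
      rw [← heXW, he, Pi.smul_apply, he, tenPi_tmul, tenPi_tmul, hY, hY, AddEquiv.apply_symm_apply,
        smul_comm]
    · rw [smul_zero, he0, smul_zero]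
    · intro x x' hx hx'
      rw [smul_add, hea, hx, hx', hea, smul_add]
  · intro r x
    refine hind (fun x => ∀ i, e (iR r • x) i = ∑ l, (actMat b r).map φ i l • e x l) ?_ ?_ ?_ x
    · intro y l i
      rw [← heXR, he, tenPi_tmul_smul, map_sum]
      refine Finset.sum_congr rfl fun j _ => ?_
      rw [he, hY, Matrix.map_apply]
    · intro i
      rw [smul_zero, he0]
      simp
    · intro x x' hx hx' i
      rw [smul_add, hea, Pi.add_apply, hx, hx', hea, ← Finset.sum_add_distrib]
      exact Finset.sum_congr rfl fun l _ => by rw [Pi.add_apply, smul_add]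

end Main

end Vale.Agent.P177.Ap
end

section

/-!
P177, (K), part 4: the Witt vector side.  `C` as an algebra over `W(C)`; the reduction of
`WI J / E WI J` modulo `p` is `J / e J`, `e` the reduction of `E`.
-/

namespace Vale.Agent.P177.KM

open WittVector Vale.Agent.P202.Mix Vale.Agent.P177.Mass Vale.Agent.P177.PI Vale.Agent.P177.Perf
open scoped ENNReal

universe u

variable (p : ℕ) [hp : Fact p.Prime] {C : Type u} [CommRing C]

/-- `C` as an algebra over `W(C)`. -/
noncomputable abbrev algW (C : Type u) [CommRing C] : Algebra (WittVector p C) C :=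
  (WittVector.constantCoeff (p := p) (R := C)).toAlgebra

theorem algW_smul_def (w : WittVector p C) (x : C) :
    let := algW p C
    w • x = w.coeff 0 * x := rfl

section red

variable [CharP C p] [PerfectRing C p]

/-- `p` is regular on `WI J / E WI J` if the reduction of `E` is regular. -/
theorem wi_p_reg {J : Ideal C} (hJ : IsPerf p J) {E : WittVector p C}
    (hE : E.coeff 0 ∈ nonZeroDivisors C) {x w : WittVector p C} (hw : w ∈ WI p J)
    (h : (p : WittVector p C) * x = E * w) : ∃ w' ∈ WI p J, x = E * w' := by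
  have h0 : w.coeff 0 = 0 := by
    have h1 := congrArg (WittVector.constantCoeff (p := p) (R := C)) h
    rw [map_mul, map_mul, map_natCast, CharP.cast_eq_zero, zero_mul] at h1
    exact (mem_nonZeroDivisors_iff_left.1 hE) _ h1.symm
  obtain ⟨w', hw', rfl⟩ := exists_p_mul_of_coeff_zero p hJ hw h0
  refine ⟨w', hw', ?_⟩
  have h2 : (p : WittVector p C) * (x - E * w') = 0 := by
    rw [mul_sub, h]; ring
  exact sub_eq_zero.1 (p_reg p _ h2)

/-- reduction modulo `(p, E)`. -/
theorem wi_mod {J : Ideal C} (hJ : IsPerf p J) {E : WittVector p C} {x : WittVector p C}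
    (hx : x ∈ WI p J) {a : C} (ha : a ∈ J) (h : x.coeff 0 = E.coeff 0 * a) :
    ∃ v ∈ WI p J, x = E * teichmuller p a + (p : WittVector p C) * v := by
  have h1 : x - E * teichmuller p a ∈ WI p J :=
    sub_mem hx (Ideal.mul_mem_left _ _ (te_mem_WI p ha))
  have h2 : (x - E * teichmuller p a).coeff 0 = 0 := by
    have h3 : WittVector.constantCoeff (x - E * teichmuller p a) = 0 := by
      rw [map_sub, map_mul]
      show x.coeff 0 - E.coeff 0 * (teichmuller p a).coeff 0 = 0
      rw [teichmuller_coeff_zero, h, sub_self]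
    exact h3
  obtain ⟨v, hv, hv'⟩ := exists_p_mul_of_coeff_zero p hJ h1 h2
  exact ⟨v, hv, by rw [← hv']; ring⟩

end red

section quot

variable [CharP C p] [PerfectRing C p]

/-- `W(C) / (p, [y_l])` and `C / (y_l)` have the same length over `W(C)`. -/
theorem len_W_quot {n : ℕ} (L : AddLen (WittVector p C)) (y : Fin n → C) (I : Ideal (WittVector p C))
    (hI : I = Ideal.span {(p : WittVector p C)} ⊔
      Ideal.span (Set.range fun l => teichmuller p (y l))) :
    letI := algW p C
    L.len (C ⧸ Ideal.span (Set.range y)) = L.len (WittVector p C ⧸ I) := by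
  let := algW p C
  let f : WittVector p C →ₗ[WittVector p C] C ⧸ Ideal.span (Set.range y) :=
    (Ideal.span (Set.range y)).mkQ.restrictScalars (WittVector p C) ∘ₗ
      (Algebra.linearMap (WittVector p C) C)
  have hf : Function.Surjective f := by
    intro x
    obtain ⟨x, rfl⟩ := Ideal.Quotient.mk_surjective x
    refine ⟨teichmuller p x, ?_⟩
    show Ideal.Quotient.mk _ ((teichmuller p x).coeff 0) = _
    rw [teichmuller_coeff_zero]
  have hk : LinearMap.ker f = I := by
    ext x
    rw [LinearMap.mem_ker]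
    show Ideal.Quotient.mk _ (x.coeff 0) = 0 ↔ _
    rw [Ideal.Quotient.eq_zero_iff_mem, hI]
    constructor
    · intro h
      rw [Submodule.mem_span_range_iff_exists_fun] at h
      obtain ⟨c, hc⟩ := h
      have h2 : WittVector.constantCoeff (x - ∑ l, teichmuller p (c l) * teichmuller p (y l)) =
          0 := by
        rw [map_sub, map_sum]
        have h3 : ∀ l, WittVector.constantCoeff (p := p)
            (teichmuller p (c l) * teichmuller p (y l)) = c l • y l := by
          intro l
          rw [map_mul]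
          show (teichmuller p (c l)).coeff 0 * (teichmuller p (y l)).coeff 0 = _
          rw [teichmuller_coeff_zero, teichmuller_coeff_zero, smul_eq_mul]
        rw [Finset.sum_congr rfl fun l _ => h3 l, hc]
        exact sub_self _
      have h4 : x - ∑ l, teichmuller p (c l) * teichmuller p (y l) ∈
          Ideal.span {(p : WittVector p C)} := by
        rw [← WittVector.ker_constantCoeff]
        exact h2
      have h5 : x = (x - ∑ l, teichmuller p (c l) * teichmuller p (y l)) +
        ∑ l, teichmuller p (c l) * teichmuller p (y l) := by ring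
      rw [h5]
      refine Submodule.add_mem_sup h4 (Ideal.sum_mem _ fun l _ => ?_)
      exact Ideal.mul_mem_left _ _ (Ideal.subset_span ⟨l, rfl⟩)
    · intro h
      have h2 : I ≤ (Ideal.span (Set.range y)).comap (WittVector.constantCoeff (p := p)) := by
        rw [hI]
        refine sup_le ?_ ?_
        · rw [Ideal.span_singleton_le_iff_mem, Ideal.mem_comap, map_natCast,
            CharP.cast_eq_zero]
          exact zero_mem _
        · rw [Ideal.span_le]
          rintro _ ⟨l, rfl⟩
          show (teichmuller p (y l)).coeff 0 ∈ Ideal.span (Set.range y)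
          rw [teichmuller_coeff_zero]
          exact Ideal.subset_span ⟨l, rfl⟩
      exact h2 (by rw [hI]; exact h)
  rw [← Vale.Agent.P177.Mass.len_congr L (f.quotKerEquivOfSurjective hf), hk]

end quot

end Vale.Agent.P177.KM
end

section

/-!
P177, (N6): the equation `E([c]) = p - G` with `p - G = (p - [t]) z + p ^ M w` has `z` a unit, and
`E([c])`, `p` is a regular sequence with `(E([c]), p ^ N) = (p - [t], p ^ N)` on `WI J`.
-/

namespace Vale.Agent.P177.NatC

open Vale.Agent.P177.Perf Vale.Agent.P177.PI WittVector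

universe u v

variable (p : ℕ) [hp : Fact p.Prime] {C : Type u} [CommRing C] [CharP C p] [PerfectRing C p]

theorem isUnit_of_coeff_zero {z : WittVector p C} (h : IsUnit (z.coeff 0)) : IsUnit z := by
  have h1 : IsUnit (teichmuller p (z.coeff 0)) := h.map (teichmuller p)
  have h2 : (z - teichmuller p (z.coeff 0)).coeff 0 = 0 := by
    have h3 : WittVector.constantCoeff (z - teichmuller p (z.coeff 0)) = 0 := by
      rw [map_sub]
      change z.coeff 0 - (teichmuller p (z.coeff 0)).coeff 0 = 0
      rw [teichmuller_coeff_zero, sub_self]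
    exact h3
  rw [← WittVector.mem_span_p_iff_coeff_zero_eq_zero] at h2
  have h4 : Ideal.span {(p : WittVector p C)} ≤ Ideal.jacobson ⊥ :=
    IsAdicComplete.le_jacobson_bot _
  obtain ⟨u, hu⟩ := h1
  have h5 := Ideal.mem_jacobson_bot.1 (h4 h2) (↑u⁻¹ : WittVector p C)
  have h6 : (z - teichmuller p (z.coeff 0)) * (↑u⁻¹ : WittVector p C) + 1 =
      z * (↑u⁻¹ : WittVector p C) := by
    rw [← hu, sub_mul, Units.mul_inv]; ring
  rw [h6] at h5
  exact (Units.isUnit_mul_units _ _).1 h5

section unit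

variable {C' : Type v} [CommRing C'] [CharP C' p] [PerfectRing C' p] (f : C →+* C')

/-- the leading coefficient of `z`. -/
theorem exists_coeff_z {Jc : Ideal C} (hJc : IsPerf p Jc) {G : WittVector p C}
    (hG : G ∈ WI p Jc) {t : C'} {M : ℕ} (hM : 2 ≤ M) {z w : WittVector p C'}
    (h : (p : WittVector p C') - WittVector.map f G =
      ((p : WittVector p C') - teichmuller p t) * z + (p : WittVector p C') ^ M * w) :
    f (G.coeff 0) = t * z.coeff 0 ∧ ∃ a ∈ Jc, ∃ y, z.coeff 0 = 1 - f a + t * y := by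
  obtain ⟨N, rfl⟩ : ∃ N, M = N + 2 := ⟨M - 2, by omega⟩
  obtain ⟨hG0, G1, hG1, hGe⟩ := exists_of_mem_WI p hJc hG
  obtain ⟨z1, hz1⟩ : ∃ z1, z = teichmuller p (z.coeff 0) + (p : WittVector p C') * z1 := by
    have h1 : (z - teichmuller p (z.coeff 0)).coeff 0 = 0 := by
      have h2 : WittVector.constantCoeff (z - teichmuller p (z.coeff 0)) = 0 := by
        rw [map_sub]
        change z.coeff 0 - (teichmuller p (z.coeff 0)).coeff 0 = 0
        rw [teichmuller_coeff_zero, sub_self]
      exact h2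
    rw [← WittVector.mem_span_p_iff_coeff_zero_eq_zero, Ideal.mem_span_singleton'] at h1
    obtain ⟨y, hy⟩ := h1
    exact ⟨y, by linear_combination -hy⟩
  have hW : WittVector.map f G = teichmuller p (f (G.coeff 0)) +
      (p : WittVector p C') * WittVector.map f G1 := by
    have h1 := congrArg (WittVector.map f) hGe
    rwa [map_add, map_mul, map_natCast, map_teichmuller] at h1
  have hcc : ∀ x : WittVector p C', WittVector.constantCoeff x = x.coeff 0 := fun _ => rfl
  have h0 : f (G.coeff 0) = t * z.coeff 0 := by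
    have h1 := congrArg WittVector.constantCoeff h
    rw [map_sub, map_add, map_mul, map_mul, map_sub, map_pow, map_natCast, CharP.cast_eq_zero,
      zero_pow (by omega), zero_mul, add_zero, zero_sub, zero_sub, hcc, hcc, hcc, map_coeff,
      teichmuller_coeff_zero] at h1
    linear_combination -h1
  refine ⟨h0, G1.coeff 0, coeff_zero_mem p hJc hG1, z1.coeff 0, ?_⟩
  have h2 : (p : WittVector p C') * (1 - WittVector.map f G1) = p * (z - teichmuller p t * z1 +
      p ^ (N + 1) * w) := by
    have h3 : teichmuller p t * teichmuller p (z.coeff 0) = teichmuller p (f (G.coeff 0)) := by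
      rw [h0, map_mul]
    have h4 : teichmuller p t * z = teichmuller p t * teichmuller p (z.coeff 0) +
        p * (teichmuller p t * z1) := by
      conv_lhs => rw [hz1]
      ring
    rw [hW] at h
    linear_combination h - h4 - h3
  have h3 : 1 - WittVector.map f G1 = z - teichmuller p t * z1 + p ^ (N + 1) * w := by
    have h5 : (1 - WittVector.map f G1 - (z - teichmuller p t * z1 + p ^ (N + 1) * w)) *
        (p : WittVector p C') = 0 := by
      linear_combination h2
    exact sub_eq_zero.1 (WittVector.eq_zero_of_p_mul_eq_zero _ h5)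
  have h4 := congrArg WittVector.constantCoeff h3
  rw [map_sub, map_add, map_sub, map_mul, map_mul, map_pow, map_natCast, CharP.cast_eq_zero,
    zero_pow (Nat.succ_ne_zero N), zero_mul, add_zero, map_one, hcc, hcc, hcc, hcc, map_coeff,
    teichmuller_coeff_zero] at h4
  linear_combination -h4

/-- **(N6)**: `z` is a unit. -/
theorem isUnit_z {Jc : Ideal C} (hJc : IsPerf p Jc) (hrad : Jc ≤ Ideal.jacobson ⊥)
    {G : WittVector p C} (hG : G ∈ WI p Jc) {t : C'} (ht : t ∈ Ideal.jacobson (⊥ : Ideal C'))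
    {M : ℕ} (hM : 2 ≤ M) {z w : WittVector p C'}
    (h : (p : WittVector p C') - WittVector.map f G =
      ((p : WittVector p C') - teichmuller p t) * z + (p : WittVector p C') ^ M * w) :
    IsUnit z := by
  obtain ⟨-, a, ha, y, he⟩ := exists_coeff_z p f hJc hG hM h
  apply isUnit_of_coeff_zero
  rw [he]
  have h1 : IsUnit (1 - a) := by
    have := Ideal.mem_jacobson_bot.1 (hrad ha) (-1)
    convert this using 1
    ring
  obtain ⟨u, hu⟩ := h1.map f
  rw [map_sub, map_one] at hu
  have h2 := Ideal.mem_jacobson_bot.1 ht (y * ↑u⁻¹)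
  have h3 : 1 - f a + t * y = ↑u * (t * (y * ↑u⁻¹) + 1) := by
    rw [← hu]
    have : (u : C') * ↑u⁻¹ = 1 := Units.mul_inv u
    linear_combination -(t * y) * this
  rw [h3]
  exact (Units.isUnit u).mul h2

end unit

section reg

variable {t : C} {E z w : WittVector p C} {M : ℕ}

/-- `p` is regular on `WI J / E`. -/
theorem exists_of_p_mul_E {J : Ideal C} (hJ : IsPerf p J) (ht : t ∈ nonZeroDivisors C)
    (hz : IsUnit z) (hM : 1 ≤ M)
    (hE : E = ((p : WittVector p C) - teichmuller p t) * z + (p : WittVector p C) ^ M * w)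
    {x a : WittVector p C} (ha : a ∈ WI p J) (h : (p : WittVector p C) * x = E * a) :
    ∃ a' ∈ WI p J, a = p * a' ∧ x = E * a' := by
  have hcc : ∀ x : WittVector p C, WittVector.constantCoeff x = x.coeff 0 := fun _ => rfl
  have h0 : a.coeff 0 = 0 := by
    have h1 := congrArg WittVector.constantCoeff h
    rw [hE, map_mul, map_mul, map_add, map_mul, map_mul, map_sub, map_pow, map_natCast,
      CharP.cast_eq_zero, zero_mul, zero_pow (by omega), zero_mul, add_zero, zero_sub, hcc, hcc,
      hcc, teichmuller_coeff_zero] at h1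
    have h2 : IsUnit (z.coeff 0) := hz.map (WittVector.constantCoeff (p := p) (R := C))
    have h3 : t * (z.coeff 0 * a.coeff 0) = 0 := by linear_combination h1
    rw [mul_left_mem_nonZeroDivisors_eq_zero_iff ht] at h3
    exact (h2.mul_right_eq_zero).1 h3
  obtain ⟨a', ha', he⟩ := exists_p_mul_of_coeff_zero p hJ ha h0
  refine ⟨a', ha', he, ?_⟩
  have h5 : (x - E * a') * (p : WittVector p C) = 0 := by
    rw [he] at h
    linear_combination h
  exact sub_eq_zero.1 (WittVector.eq_zero_of_p_mul_eq_zero _ h5)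

/-- `E` is regular. -/
theorem eq_zero_of_E_mul (ht : t ∈ nonZeroDivisors C) (hz : IsUnit z) (hM : 1 ≤ M)
    (hE : E = ((p : WittVector p C) - teichmuller p t) * z + (p : WittVector p C) ^ M * w)
    {a : WittVector p C} (h : E * a = 0) : a = 0 := by
  have key : ∀ n, ∀ a : WittVector p C, E * a = 0 → (p : WittVector p C) ^ n ∣ a := by
    intro n
    induction n with
    | zero => intro a _; simp
    | succ n ih =>
      intro a ha
      have hJ : IsPerf p (⊤ : Ideal C) := fun _ _ _ _ _ _ _ _ => Submodule.mem_top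
      have haT : a ∈ WI p (⊤ : Ideal C) := by
        rw [mem_WI_iff_coeff p hJ]
        intro k
        exact ⟨rt p k (a.coeff k), Submodule.mem_top, (rt_pow p k _).symm⟩
      obtain ⟨a', -, h1, h2⟩ := exists_of_p_mul_E p hJ ht hz hM hE (x := 0) haT
        (by rw [mul_zero, ha])
      obtain ⟨b, hb⟩ := ih a' h2.symm
      exact ⟨b, by rw [h1, hb]; ring⟩
  ext n
  have h1 := key (n + 1) a h
  rw [← sub_zero a] at h1
  exact P202.Mix.coeff_eq_of_dvd_sub h1 (Nat.lt_succ_self n)

end reg

end Vale.Agent.P177.NatC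
end

section

/-!
# The ring `C'` of P177 (structure only; existence in Nat/Zar.lean)

`C' =` localisation at `1 + t C^nat` of `C^nat = C[(t/η)^(1/p^∞)]`.
-/

namespace Vale.Agent.P177.CN

universe u

/-- the ring `C'` attached to `(C, t, η)`. -/
structure NatZ (p : ℕ) [hp : Fact p.Prime] (C : Type u) [CommRing C] [CharP C p] [PerfectRing C p]
    (t η : C) where
  C' : Type u
  [commRing : CommRing C']
  [charP : CharP C' p]
  [perfect : PerfectRing C' p]
  f : C →+* C'
  reg : f t ∈ nonZeroDivisors C'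
  jac : f t ∈ Ideal.jacobson (⊥ : Ideal C')
  dvd : f η ∣ f t
  n1 : ∀ (J : Ideal C), ∀ y ∈ J.map f, ∃ x ∈ J, ∃ z ∈ J.map f, f η * y = f x + f t * z
  n2 : ∀ (J : Ideal C), Vale.Agent.P177.CN.SP p J → ∀ x ∈ J, (∃ z ∈ J.map f, f x = f t * z) →
    ∃ y ∈ J, η ^ 3 * x = t * y

attribute [instance] NatZ.commRing NatZ.charP NatZ.perfect

end Vale.Agent.P177.CN
end

section

/-!
P177, (N6): the annihilators. If `φ E = (p - [t]) z + p ^ M w`, `z` a unit, and `φ 𝔥` is contained in
`(p - [t], p ^ M)`, then `p ^ K ∈ 𝔮 + 𝔥` with `K < M` implies `(p - [t], p ^ K) ⊆ 𝔮 W(C)`.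
-/

namespace Vale.Agent.P177.NatC

open Vale.Agent.P177.Perf Vale.Agent.P177.PI WittVector

universe u v

variable (p : ℕ) [hp : Fact p.Prime] {C : Type u} [CommRing C] [CharP C p] [PerfectRing C p]

/-- `1 - p x` is a unit. -/
theorem isUnit_one_sub_p_mul (x : WittVector p C) : IsUnit (1 - (p : WittVector p C) * x) := by
  apply isUnit_of_coeff_zero
  have h1 : (1 - (p : WittVector p C) * x).coeff 0 = 1 := by
    have h2 : WittVector.constantCoeff (1 - (p : WittVector p C) * x) = 1 := by
      rw [map_sub, map_mul, map_natCast, CharP.cast_eq_zero, zero_mul, sub_zero, map_one]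
    exact h2
  rw [h1]
  exact isUnit_one

/-- the ideal `(p - [t], p ^ M)`. -/
noncomputable def XM (t : C) (M : ℕ) : Ideal (WittVector p C) :=
  Ideal.span {(p : WittVector p C) - teichmuller p t} ⊔ Ideal.span {(p : WittVector p C) ^ M}

omit [CharP C p] [PerfectRing C p] in
theorem mem_XM {t : C} {M : ℕ} {x : WittVector p C} : x ∈ XM p t M ↔
    ∃ a b, x = ((p : WittVector p C) - teichmuller p t) * a + (p : WittVector p C) ^ M * b := by
  unfold XM
  rw [Submodule.mem_sup]
  constructor
  · rintro ⟨y, hy, z, hz, rfl⟩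
    rw [Ideal.mem_span_singleton] at hy hz
    obtain ⟨a, rfl⟩ := hy
    obtain ⟨b, rfl⟩ := hz
    exact ⟨a, b, rfl⟩
  · rintro ⟨a, b, rfl⟩
    exact ⟨_, Ideal.mul_mem_right _ _ (Ideal.mem_span_singleton_self _), _,
      Ideal.mul_mem_right _ _ (Ideal.mem_span_singleton_self _), rfl⟩

variable {S : Type*} [CommRing S] (φ : S →+* WittVector p C)

theorem p_pow_mem_map {t : C} {K M : ℕ} (hKM : K < M) {𝔮 𝔥 : Ideal S} {E : S}
    {z w : WittVector p C} (hz : IsUnit z) (hE𝔮 : E ∈ 𝔮)
    (hE : φ E = ((p : WittVector p C) - teichmuller p t) * z + (p : WittVector p C) ^ M * w)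
    (h𝔥 : ∀ x ∈ 𝔥, φ x ∈ XM p t M) (hpK : (p : S) ^ K ∈ 𝔮 ⊔ 𝔥) :
    (p : WittVector p C) ^ K ∈ 𝔮.map φ ∧ XM p t M ≤ 𝔮.map φ := by
  obtain ⟨u, rfl⟩ := hz
  have hu : (u : WittVector p C) * ↑u⁻¹ = 1 := Units.mul_inv u
  have hξ : (p : WittVector p C) - teichmuller p t = φ E * ↑u⁻¹ -
      (p : WittVector p C) ^ M * (w * ↑u⁻¹) := by
    rw [hE]
    linear_combination -((p : WittVector p C) - teichmuller p t) * hu
  have hφE : φ E ∈ 𝔮.map φ := Ideal.mem_map_of_mem φ hE𝔮
  -- `XM` modulo `p ^ M`
  have hX : ∀ x ∈ XM p t M, ∃ y ∈ 𝔮.map φ, ∃ b, x = y + (p : WittVector p C) ^ M * b := by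
    intro x hx
    obtain ⟨a, b, rfl⟩ := (mem_XM p).1 hx
    refine ⟨φ E * (↑u⁻¹ * a), Ideal.mul_mem_right _ _ hφE, b - w * ↑u⁻¹ * a, ?_⟩
    rw [hξ]; ring
  have hpK' : (p : WittVector p C) ^ K ∈ 𝔮.map φ := by
    obtain ⟨q, hq, h, hh, he⟩ := Submodule.mem_sup.1 hpK
    obtain ⟨y, hy, b, hb⟩ := hX _ (h𝔥 h hh)
    have h1 := congrArg φ he
    rw [map_add, map_pow, map_natCast, hb] at h1
    obtain ⟨N, rfl⟩ : ∃ N, M = K + 1 + N := ⟨M - K - 1, by omega⟩
    obtain ⟨v, hv⟩ := isUnit_one_sub_p_mul p ((p : WittVector p C) ^ N * b)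
    have h2 : (p : WittVector p C) ^ K = (φ q + y) * ↑v⁻¹ := by
      have h3 : (v : WittVector p C) * ↑v⁻¹ = 1 := Units.mul_inv v
      have h4 : (p : WittVector p C) ^ K * v = φ q + y := by
        rw [hv]
        linear_combination -h1
      rw [← h4, mul_assoc, h3, mul_one]
    rw [h2]
    exact Ideal.mul_mem_right _ _ (add_mem (Ideal.mem_map_of_mem φ hq) hy)
  refine ⟨hpK', fun x hx => ?_⟩
  obtain ⟨y, hy, b, rfl⟩ := hX x hx
  refine add_mem hy ?_
  have h5 : (p : WittVector p C) ^ M * b = (p : WittVector p C) ^ K *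
      ((p : WittVector p C) ^ (M - K) * b) := by
    rw [← mul_assoc, ← pow_add, Nat.add_sub_cancel' hKM.le]
  rw [h5]
  exact Ideal.mul_mem_right _ _ hpK'

omit [CharP C p] [PerfectRing C p] in
/-- elements congruent to `φ s`, `s ^ K ∈ 𝔮 + 𝔥`. -/
theorem pow_mem_map_of_sub_mem {t : C} {M : ℕ} {𝔮 𝔥 : Ideal S}
    (hX : XM p t M ≤ 𝔮.map φ) (h𝔥 : ∀ x ∈ 𝔥, φ x ∈ XM p t M) {s : S} {K : ℕ}
    (hs : s ^ K ∈ 𝔮 ⊔ 𝔥) {v : WittVector p C} (hv : φ s - v ∈ XM p t M) : v ^ K ∈ 𝔮.map φ := by
  have h1 : (φ s) ^ K ∈ 𝔮.map φ := by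
    obtain ⟨q, hq, h, hh, he⟩ := Submodule.mem_sup.1 hs
    rw [← map_pow, ← he, map_add]
    exact add_mem (Ideal.mem_map_of_mem φ hq) (hX (h𝔥 h hh))
  have h2 : v ^ K - (φ s) ^ K ∈ 𝔮.map φ := by
    refine Ideal.mem_of_dvd _ (sub_dvd_pow_sub_pow v (φ s) K) ?_
    have := hX hv
    rw [← neg_mem_iff, neg_sub]
    exact this
  have := add_mem h2 h1
  rwa [sub_add_cancel] at this

omit [CharP C p] [PerfectRing C p] in
/-- `[t] ^ K`. -/
theorem te_pow_mem_map {t : C} {K M : ℕ} {𝔮 : Ideal S} (hX : XM p t M ≤ 𝔮.map φ)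
    (hp : (p : WittVector p C) ^ K ∈ 𝔮.map φ) : teichmuller p t ^ K ∈ 𝔮.map φ := by
  have h2 : teichmuller p t ^ K - (p : WittVector p C) ^ K ∈ 𝔮.map φ := by
    refine Ideal.mem_of_dvd _ (sub_dvd_pow_sub_pow _ _ K) ?_
    rw [← neg_mem_iff, neg_sub]
    exact hX ((mem_XM p).2 ⟨1, 0, by ring⟩)
  have := add_mem h2 hp
  rwa [sub_add_cancel] at this

end Vale.Agent.P177.NatC
end

section

/-!
P202 MIX, M15a: the form of `γ = δ + δ'`.
-/

namespace Vale.Agent.P202.Mix

open Polynomial TensorProduct IsLocalRing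
open scoped ENNReal

universe u

section Gf

variable (p : ℕ) [Fact p.Prime] (C : Type u) [CommRing C] [CharP C p] [PerfectRing C p] (t : C)
  (ht : t ∈ nonZeroDivisors C)

include ht

theorem gf_root (δ : C) (G' : Bt p C t) (a K M : ℕ) (hM : a * (p ^ K - 1) ≤ M)
    (h : te p C t δ * te p C t δ - (p : Bt p C t) ^ a * G' * te p C t δ ∈
      Ideal.span {(p : Bt p C t) ^ M}) :
    ∃ δ1 : C, δ = rt p K t ^ (a * (p ^ K - 1)) * δ1 := by
  obtain ⟨G, hG⟩ : ∃ G, G = (p : Bt p C t) ^ a * G' := ⟨_, rfl⟩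
  rw [← hG] at h
  have h1 : ∀ n : ℕ, te p C t δ ^ (n + 1) - G ^ n * te p C t δ ∈
      Ideal.span {(p : Bt p C t) ^ M} := by
    intro n
    induction n with
    | zero =>
      rw [zero_add, pow_one, pow_zero, one_mul, sub_self]
      exact zero_mem _
    | succ n ih =>
      have h2 : te p C t δ ^ (n + 1 + 1) - G ^ (n + 1) * te p C t δ =
          te p C t δ * (te p C t δ ^ (n + 1) - G ^ n * te p C t δ) +
            G ^ n * (te p C t δ * te p C t δ - G * te p C t δ) := by ring
      rw [h2]
      exact add_mem (Ideal.mul_mem_left _ _ ih) (Ideal.mul_mem_left _ _ h)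
  have hp1 : 1 ≤ p ^ K := Nat.one_le_pow _ _ (Fact.out : p.Prime).pos
  have h2 := h1 (p ^ K - 1)
  rw [Nat.sub_add_cancel hp1] at h2
  have h3 : te p C t (δ ^ p ^ K) ∈ Ideal.span {(p : Bt p C t) ^ (a * (p ^ K - 1))} := by
    rw [te_pow]
    have h4 : Ideal.span {(p : Bt p C t) ^ M} ≤ Ideal.span {(p : Bt p C t) ^ (a * (p ^ K - 1))} :=
      Ideal.span_singleton_le_span_singleton.2 (pow_dvd_pow _ hM)
    have h5 : G ^ (p ^ K - 1) * te p C t δ ∈ Ideal.span {(p : Bt p C t) ^ (a * (p ^ K - 1))} := by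
      rw [Ideal.mem_span_singleton, hG, mul_pow, ← pow_mul, mul_assoc]
      exact Dvd.intro _ rfl
    have h6 := add_mem (h4 h2) h5
    rwa [sub_add_cancel] at h6
  have h4 := mem_of_te_mem p C t ht _ _ h3
  rw [Ideal.mem_span_singleton'] at h4
  obtain ⟨w, hw⟩ := h4
  refine ⟨rt p K w, ?_⟩
  apply (iterateFrobeniusEquiv C p K).injective
  rw [iterateFrobeniusEquiv_def, iterateFrobeniusEquiv_def, mul_pow, ← pow_mul,
    mul_comm (a * (p ^ K - 1)) (p ^ K), pow_mul, rt_pow_self, rt_pow_self, ← hw, mul_comm]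

theorem gf_cancel (K j : ℕ) (b : Bt p C t) (h : te p C t (rt p K t) ^ j * b = 0) : b = 0 := by
  apply p_pow_mul_eq_zero p C t ht j
  have hp1 : 1 ≤ p ^ K := Nat.one_le_pow _ _ (Fact.out : p.Prime).pos
  have h1 : (p : Bt p C t) ^ j = te p C t (rt p K t) ^ (j * (p ^ K - 1)) *
      te p C t (rt p K t) ^ j := by
    rw [← te_rt_pow_self p C t K, ← pow_mul, ← pow_add]
    congr 1
    calc p ^ K * j = j * ((p ^ K - 1) + 1) := by rw [Nat.sub_add_cancel hp1, mul_comm]
      _ = j * (p ^ K - 1) + j := by ring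
  rw [h1, mul_assoc, h, mul_zero]

theorem gf_sum (δ1 δ1' : C) (G' : Bt p C t) (a K M : ℕ) (hM : a + 1 ≤ M)
    (h : te p C t (rt p K t ^ (a * (p ^ K - 1)) * δ1) +
      te p C t (rt p K t ^ (a * (p ^ K - 1)) * δ1') - (p : Bt p C t) ^ a * G' ∈
      Ideal.span {(p : Bt p C t) ^ M}) :
    te p C t δ1 + te p C t δ1' - te p C t (rt p K t ^ a) * G' ∈ Ideal.span {(p : Bt p C t)} := by
  have hp1 : 1 ≤ p ^ K := Nat.one_le_pow _ _ (Fact.out : p.Prime).pos
  obtain ⟨q, hq⟩ : ∃ q, p ^ K = q + 1 := ⟨p ^ K - 1, by omega⟩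
  obtain ⟨M', rfl⟩ : ∃ M', M = a + 1 + M' := ⟨M - (a + 1), by omega⟩
  have hpt := te_rt_pow_self p C t K
  rw [hq] at hpt h
  rw [Nat.add_sub_cancel, te_mul, te_mul, te_pow, Ideal.mem_span_singleton'] at h
  obtain ⟨b, hb⟩ := h
  rw [te_pow, Ideal.mem_span_singleton']
  obtain ⟨T, hT⟩ : ∃ T, T = te p C t (rt p K t) := ⟨_, rfl⟩
  refine ⟨b * (p : Bt p C t) ^ M' * T ^ a, ?_⟩
  rw [← sub_eq_zero]
  apply gf_cancel p C t ht K (a * q)
  rw [← hT] at hpt hb ⊢
  have h1 : (p : Bt p C t) ^ a = T ^ (a * q) * T ^ a := by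
    rw [← hpt, ← pow_mul, ← pow_add]
    congr 1
    ring
  have h2 : (p : Bt p C t) ^ (a + 1 + M') = T ^ (a * q) * T ^ a * (p * p ^ M') := by
    rw [← h1]
    ring
  rw [h2] at hb
  rw [h1] at hb
  linear_combination hb

/-- conclusion inside `C`. -/
theorem gf_main (δ δ' : C) (W : WittVector p C) (g0 y : C) (hW : W.coeff 0 = g0 + t * y)
    (a I : ℕ) (hI : a * p ^ (a + 1) + a ≤ I)
    (h1 : te p C t δ * te p C t δ - (p : Bt p C t) ^ a * toB p C t W * te p C t δ ∈
      Ideal.span {(p : Bt p C t) ^ (I + 1)})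
    (h2 : te p C t δ' * te p C t δ' - (p : Bt p C t) ^ a * toB p C t W * te p C t δ' ∈
      Ideal.span {(p : Bt p C t) ^ (I + 1)})
    (h3 : te p C t δ + te p C t δ' - (p : Bt p C t) ^ a * toB p C t W ∈
      Ideal.span {(p : Bt p C t) ^ (I + 1)}) :
    ∃ x : C, δ + δ' = t ^ a * (g0 + rt p 1 t * x) := by
  have hpp : p.Prime := Fact.out
  have hle : a * (p ^ (a + 1) - 1) ≤ I + 1 := by
    have : a * (p ^ (a + 1) - 1) ≤ a * p ^ (a + 1) := Nat.mul_le_mul_left _ (Nat.sub_le _ _)
    omega
  obtain ⟨δ1, rfl⟩ := gf_root p C t ht δ _ a (a + 1) (I + 1) hle h1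
  obtain ⟨δ1', rfl⟩ := gf_root p C t ht δ' _ a (a + 1) (I + 1) hle h2
  have h4 := gf_sum p C t ht δ1 δ1' _ a (a + 1) (I + 1) (by omega) h3
  obtain ⟨π, hπ, -, hk⟩ := exists_proj p C t
  rw [← hk, RingHom.mem_ker, map_sub, map_add, map_mul, te, te, te, hπ, hπ, hπ, hπ,
    WittVector.teichmuller_coeff_zero, WittVector.teichmuller_coeff_zero,
    WittVector.teichmuller_coeff_zero, ← map_add, ← map_mul, ← map_sub,
    Ideal.Quotient.eq_zero_iff_mem, Ideal.mem_span_singleton'] at h4
  obtain ⟨x, hx⟩ := h4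
  rw [hW] at hx
  -- exponents
  have hpa : a < p ^ a := Nat.lt_pow_self hpp.one_lt
  have hpk : p ^ a + a ≤ p ^ (a + 1) := by
    have : p ^ (a + 1) = p ^ a * p := pow_succ _ _
    have h2p : p ^ a * 2 ≤ p ^ a * p := Nat.mul_le_mul_left _ hpp.two_le
    omega
  obtain ⟨T, hT⟩ : ∃ T, T = rt p (a + 1) t := ⟨_, rfl⟩
  have hTt : T ^ p ^ (a + 1) = t := by rw [hT, rt_pow_self]
  have hrt : rt p 1 t = T ^ p ^ a := by
    apply (iterateFrobeniusEquiv C p 1).injective
    rw [iterateFrobeniusEquiv_def, iterateFrobeniusEquiv_def, rt_pow_self, ← pow_mul, ← pow_add,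
      hTt]
  rw [← hT] at hx ⊢
  refine ⟨T ^ (p ^ (a + 1) - a - p ^ a) * (x + T ^ a * y), ?_⟩
  have h5 : t ^ a = T ^ (a * (p ^ (a + 1) - 1)) * T ^ a := by
    rw [← hTt, ← pow_mul, ← pow_add]
    congr 1
    obtain ⟨q, hq⟩ : ∃ q, p ^ (a + 1) = q + 1 := ⟨p ^ (a + 1) - 1, by omega⟩
    rw [hq, Nat.add_sub_cancel]
    ring
  have h6 : T ^ a * (T ^ p ^ a * T ^ (p ^ (a + 1) - a - p ^ a)) = t := by
    rw [← pow_add, ← pow_add, ← hTt]
    congr 1
    omega
  have hx' : δ1 + δ1' = T ^ a * g0 + t * (x + T ^ a * y) := by linear_combination -hx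
  rw [← mul_add, hx', h5, hrt]
  linear_combination T ^ (a * (p ^ (a + 1) - 1)) * (x + T ^ a * y) * (-h6)

end Gf

variable {p : ℕ} [Fact p.Prime] {k : Type u} [Field k] [CharP k p] {r : ℕ}
variable {Λ : Type u} [CommRing Λ] [IsLocalRing Λ] {u : Fin r → Λ}
  {ψ : Λ →+* WittVector p (Rp p k r)}
  {red : Λ →+* R0 k r ⧸ Ideal.span {(MvPowerSeries.X 0 : R0 k r)}}
  {ι : Type u} {b : ι → Λ} {β : ι → k} {res : ResidueField Λ →+* k}
variable {A S : Type u} [CommRing A] [CommRing S] [IsLocalRing A] [IsLocalRing S]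
  [IsNoetherianRing A] [IsNoetherianRing S]
  [Algebra Λ A] [Algebra A S] [IsLocalHom (algebraMap Λ A)] [IsLocalHom (algebraMap A S)]

section M15

theorem gf_tC {r0 : ℕ} (d : PExt.{u} p k r r0) : tC p k r d.C ∈ nonZeroDivisors d.C := by
  have := d.flat
  have h := Module.Flat.isSMulRegular_of_nonZeroDivisors (M := d.C)
    (xp_mem_nonZeroDivisors p k r 0)
  rw [mem_nonZeroDivisors_iff_right]
  intro y hy
  apply h
  show xp p k r 0 • y = xp p k r 0 • (0 : d.C)
  rw [smul_zero, Algebra.smul_def, mul_comm]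
  exact hy

/-- evaluation of a polynomial which is a product modulo an ideal. -/
theorem gf_eval {B : Type u} [CommRing B] (J : Ideal B) {D : ℕ} (f : B[X]) (c : Fin D → B)
    (h : ∀ n, (f - ∏ i, (X - Polynomial.C (c i))).coeff n ∈ J) (i : Fin D) : f.eval (c i) ∈ J := by
  have h1 : (f - ∏ i, (X - Polynomial.C (c i))).eval (c i) ∈ J := by
    rw [Polynomial.eval_eq_sum_range]
    exact Ideal.sum_mem _ fun n _ => Ideal.mul_mem_right _ _ (h n)
  rw [Polynomial.eval_sub, Polynomial.eval_prod, Finset.prod_eq_zero (Finset.mem_univ i)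
    (by rw [Polynomial.eval_sub, Polynomial.eval_X, Polynomial.eval_C, sub_self]), sub_zero] at h1
  exact h1

end M15

end Vale.Agent.P202.Mix
end
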