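import Mathlib
import Vale.Agent.P177.Bd4.B4
import Vale.Agent.P177.Bd4.B8
import Vale.Agent.P177.Bd4.B6
import Vale.Agent.P177.Bd4.B1
import Vale.Agent.P177.Bd4.B7
import Vale.Agent.P177.Bd4.B5
import Vale.Agent.P177.Bd4.B3
import Vale.Agent.P177.Bd4.B2
attribute [-instance] CommGroupWithZero.toGroupWithZero Ring.toNonUnitalRing Pi.mulZeroOneClass RCLike.toDenselyNormedField LinearOrderedCommGroupWithZero.toCommGroupWithZero NormedAlgebra.toAlgebra NormedGroup.toGroup BoxIntegral.Box.instMembershipForallReal SeminormedCommRing.toCommRing littleWedderburn NormedCommRing.toCommRing IsometryClass.instCoeOutIsometryEquiv CategoryTheory.Preadditive.instGrpObj NormedRing.toNonUnitalNormedRing SemiRingCat.instSemiringObjForgetRingHomCarrier AddCommGroupWithOne.toAddCommMonoidWithOne NonUnitalCommCStarAlgebra.toNonUnitalNormedCommRing NonUnitalNormedRing.toMetricSpace NonUnitalNormedRing.toNormedAddCommGroup MonTypeEquivalenceMon.monMonoid CommCStarAlgebra.toNonUnitalCommCStarAlgebra Complex.instRCLike HomeomorphClass.instCoeOutHomeomorph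 NonUnitalRing.toNonUnitalNonAssocRing MulSemiringAction.toDistribMulAction NonUnitalAlgHomClass.instSemilinearMapClassOfNonUnitalAlgSemiHomClassToMonoidHomRingHom LeftPreLieRing.instLieAdmissibleRing Bialgebra.toAlgebra NonUnitalNormedCommRing.toNonUnitalCommRing NormedField.toMetricSpace CompleteLinearOrder.toLinearOrder LieAdmissibleRing.toNonUnitalNonAssocRing CommSemiRingCat.FilteredColimits.colimitCommSemiring CategoryTheory.GrpObj.toMonObj KleeneAlgebra.toIdemSemiring RKHS.instFunLike NormedAddGroup.toSeminormedAddGroup LeftPreLieAlgebra.toModule SemilinearIsometryClass.toContinuousSemilinearMapClass SemigroupWithZero.toMulZeroClass NormedField.toField LinearOrderedCommGroupWithZero.toLinearOrderedCommMonoidWithZero NonAssocCommSemiring.toNonUnitalNonAssocCommSemiring NormedCommGroup.toNormedGroup NormedField.toNormedCommRing NormedGroup.toSeminormedGroup NonAssocCommRing.toNonAssocCommSemiring BooleanRing.toCommRing ContinuousSemilinearEquivClass.continuousSemilinearMapClass SeminormedCommGroup.toSeminormedGroup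 CoalgEquivClass.toCoalgHomClass RightPreLieAlgebra.toModule TopologicalSpace.UpgradedIsCompletelyMetrizableSpace.toMetricSpace CategoryTheory.CommRingObj.toRingObj ContinuousSemilinearMapClass.toSemilinearMapClass DenselyNormedField.toNormedField SeminormedAddCommGroup.toAddCommGroup NormedCommGroup.toCommGroup RingCat.FilteredColimits.colimitRing ProfiniteAddGrp.addGroup CoalgHomClass.toSemilinearMapClass NormedAddCommGroup.toMetricSpace HopfAlgebra.toHopfAlgebraStruct CommGroup.toGroup LieAlgebra.toModule SeminormedRing.toRing instCoeTC AddOpposite.instAddZero LinearOrderedCommMonoidWithZero.toLinearOrder Action.instMulAction GrpTypeEquivalenceGrp.grpGroup NormedDivisionRing.toDivisionRing CommSemiring.toNonAssocCommSemiring OrderAddMonoidHom.instAddMonoidHomClass LinearOrderedAddCommGroupWithTop.instLinearOrderedAddCommMonoidWithTop DenselyNormedField.toNontriviallyNormedField Field.toEuclideanDomain NormedAddGroup.toMetricSpace CategoryTheory.RingObj.toMonObj ContDiffMapSupportedInClass.toDFunLike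 LieAdmissibleAlgebra.toModule NormedField.toNormedDivisionRing RingHomClass.toLinearMapClassNNRat LinearOrderedAddCommGroupWithTop.toLinearOrder RightPreLieRing.instLieAdmissibleRing CStarAlgebra.toNormedRing AddCommGroupWithOne.toAddCommGroup NormedGroup.toMetricSpace LinearOrderedCommMonoidWithZero.toCommMonoidWithZero ConditionallyCompleteLinearOrder.toLinearOrder AddCommGroupWithOne.toAddGroupWithOne NormedRing.toRing SeminormedCommRing.toNonUnitalSeminormedCommRing instCoeHTCT instCoeHTC SeminormedAddCommGroup.toSeminormedAddGroup HopfAlgebraStruct.toBialgebra CommSemiring.toBialgebra NormedRing.toMetricSpace NonAssocCommSemiring.toNonAssocSemiring NormedDivisionRing.toMetricSpace NonAssocCommRing.toNonUnitalNonAssocCommRing NonUnitalSeminormedRing.toSeminormedAddCommGroup AddCommMonCat.FilteredColimits.colimitAddCommMonoid NormedAddCommGroup.toAddCommGroup MonoidWithZero.toSemigroupWithZero NormedAddCommGroup.toNormedAddGroup MonCat.monoidObj NonUnitalNonAssocCommSemiring.toNonUnitalNonAssocSemiring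 SeminormedAddGroup.toAddGroup BialgHomClass.toCoalgHomClass RingHomClass.toLinearMapClassRat NormedCommGroup.toSeminormedCommGroup Pi.instTopForall CommRing.toAddCommGroupWithOne CategoryTheory.CommGrpObj.toGrpObj TestFunctionClass.toDFunLike ContinuousAddMonoidHom.instCoeOutOfAddMonoidHomClassOfContinuousMapClass MulSemiringActionSemiHomClass.toDistribMulActionSemiHomClass LieRing.toAddCommGroup instCoeTCOfCoe CStarAlgebra.toNonUnitalCStarAlgebra LinearOrderedAddCommGroupWithTop.toSubNegMonoid NormedCommGroup.toMetricSpace SeminormedCommRing.toSeminormedRing NonUnitalSeminormedCommRing.toNonUnitalCommRing CommMonTypeEquivalenceCommMon.commMonCommMonoid NormedCommRing.toSeminormedCommRing NonUnitalCommCStarAlgebra.toNonUnitalCStarAlgebra ContinuousMonoidHom.instCoeOutOfMonoidHomClassOfContinuousMapClass AlgHom.instContinuousLinearMapClassOfAlgHomClass EuclideanDomain.toCommRing SeminormedCommGroup.toCommGroup NonUnitalSeminormedCommRing.toNonUnitalSeminormedRing instNonUnitalAlgHomClassOfNonUnitalAlgEquivClass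 NormedAddCommGroup.toSeminormedAddCommGroup NonUnitalNormedCommRing.toNonUnitalNormedRing BialgEquivClass.toBialgHomClass NonUnitalNormedRing.toNonUnitalRing instCommGroupOfIsSimpleGroupOfIsNilpotent SeminormedRing.toNonUnitalSeminormedRing CommSemiring.toHopfAlgebra NormedCommRing.toNormedRing GradedMonoid.GradeZero.mulAction CategoryTheory.BimonObj.toMonObj NormedRing.toSeminormedRing NormedCommRing.toNonUnitalNormedCommRing instNonUnitalCStarAlgebraForall NonUnitalNormedRing.toNonUnitalSeminormedRing CategoryTheory.HopfObj.toBimonObj TopRep.hV1 CentroidHomClass.toAddMonoidHomClass CommGrpTypeEquivalenceCommGrp.commGrpCommGroup Torsor.toMulAction SemilinearIsometryClass.toSemilinearMapClass CommCStarAlgebra.toCStarAlgebra RightPreLieRing.toNonUnitalNonAssocRing LieAdmissibleRing.instLieRing ValuationClass.toMonoidWithZeroHomClass NormedSpace.toModule instCoeTOfCoeDep NontriviallyNormedField.toNormedField Action.FintypeCat.instMulActionObjFiniteOf NormedAddGroup.toAddGroup SeminormedGroup.toGroup BooleanRing.toRing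 LinearOrderedAddCommGroupWithTop.toAddCommMonoid instSMulZeroClass NonUnitalSeminormedRing.toNonUnitalRing NonUnitalCStarAlgebra.toNonUnitalNormedRing PositiveLinearMap.instContinuousLinearMapClassComplexOfLinearMapClassOfOrderHomClass SSet.stdSimplex.instFunLikeObjOppositeSimplexCategoryMkOpFinHAddNatOfNat AbsoluteValue.zeroHomClass Pi.normedRing SemiNormedGrp.str NormedDivisionRing.toNormedRing LeftPreLieRing.toNonUnitalNonAssocRing CommCStarAlgebra.toNormedCommRing AlgHomClass.linearMapClass NonUnitalNormedCommRing.toNonUnitalSeminormedCommRing Group.IsPerfect.subsingleton_of_isMulCommutative EMetricSpace.toPseudoEMetricSpace BialgHomClass.toAlgHomClass CompletelyDistribLattice.toCompleteDistribLattice BiheytingAlgebra.toCoheytingAlgebra GeneralizedHeytingAlgebra.toDistribLattice SeminormedGroup.toPseudoMetricSpace HeytingAlgebra.toGeneralizedHeytingAlgebra instCoeT Pi.nonUnitalNonAssocSemiring SetLike.instFintype ConditionallyCompletePartialOrderInf.toPartialOrder BooleanAlgebra.toBiheytingAlgebra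 PseudoMetricSpace.toUniformSpace Std.DTreeMap.Raw.instSingletonSigma CompleteLattice.toPartialOrder' NumberField.to_charZero Quaternion.instDivisionRing ChainCompletePartialOrder.toPartialOrder CategoryTheory.FinCategory.fintypeObj PseudoMetricSpace.toPseudoEMetricSpace instSubsingleton Pi.normedAddCommGroup CompleteBooleanAlgebra.toCompleteDistribLattice NonUnitalSemiring.toNonUnitalNonAssocSemiring CoheytingAlgebra.toGeneralizedCoheytingAlgebra WithIdeal.instTopologicalSpace IsEmpty.instSubsingleton CompleteDistribLattice.toBiheytingAlgebra SeminormedCommGroup.toPseudoMetricSpace MetricSpace.toEMetricSpace UpgradedStandardBorel.toTopologicalSpace BooleanAlgebra.toGeneralizedBooleanAlgebra ChainCompletePartialOrder.instOfCompleteLattice SeminormedAddCommGroup.toPseudoMetricSpace BooleanAlgebra.toDistribLattice TopologicalSpace.Compacts.instSetLike OrderRingHom.instRingHomClass Valued.toUniformSpace UniformSpace.toTopologicalSpace CompleteAtomicBooleanAlgebra.toCompletelyDistribLattice MetricSpace.toPseudoMetricSpace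 TopologicalSpace.UpgradedIsCompletelyPseudoMetrizableSpace.toPseudoMetricSpace ChainCompletePartialOrder.instOmegaCompletePartialOrder CompleteBooleanAlgebra.toBooleanAlgebra Order.Coframe.toCoheytingAlgebra CategoryTheory.Limits.Concrete.instUniqueToTypeTerminal NonUnitalSeminormedRing.toPseudoMetricSpace FinEnum.instFintype SeminormedAddGroup.toPseudoMetricSpace Order.Frame.toHeytingAlgebra instConditionallyCompletePartialOrderSup Order.Coframe.toCompleteLattice OmegaCompletePartialOrder.toPartialOrder CompleteDistribLattice.toCoframe OrderDual.instDivisionSemiring IsValuativeTopology.instValuedValueGroupWithZeroOfIsUniformAddGroup NonUnitalRing.toNonUnitalSemiring Order.Coframe.toDistribLattice CompletePartialOrder.toOmegaCompletePartialOrder CompleteLinearOrder.toBiheytingAlgebra SeminormedRing.toPseudoMetricSpace CategoryTheory.instFinCategoryOfFintypeOfIsThin Pi.mulOneClass CompletelyDistribLattice.toBiheytingAlgebra Order.Frame.toCompleteLattice GeneralizedCoheytingAlgebra.toLattice GeneralizedHeytingAlgebra.toLattice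 WithIdeal.instUniformSpace CompleteDistribLattice.toFrame LinearOrderedAddCommGroupWithTop.toSubtractionMonoid BiheytingAlgebra.toHeytingAlgebra Order.Frame.toDistribLattice Unique.fintype PadicComplex.normedField instDistribSMul CategoryTheory.Abelian.toPreadditive GeneralizedBooleanAlgebra.toGeneralizedCoheytingAlgebra GeneralizedCoheytingAlgebra.toDistribLattice PseudoEMetricSpace.toUniformSpace GeneralizedBooleanAlgebra.toDistribLattice CategoryTheory.Mat_.fintype LieAdmissibleAlgebra.toIsScalarTower CompleteLinearOrder.toCompleteLattice MulEquivClass.toMonoidWithZeroHomClass IsDedekindDomainDvr.isDedekindDomain NormedAddCommGroup.toENormedAddCommMonoid EuclideanDomain.instIsDomain TensorProduct.instModuleFstSnd IsDedekindDomain.toIsDomain Field.isDomain AlgEquivClass.toAlgHomClass CategoryTheory.instBraidedCategoryType CommGroupWithZero.toCommMonoidWithZero ESeminormedAddCommMonoid.toESeminormedAddMonoid Pi.mulZeroClass LieRinehartAlgebra.toIsScalarTower DivisionRing.isDomain LeftPreLieAlgebra.toIsScalarTower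 ENormedAddCommMonoid.toESeminormedAddCommMonoid Field.toGrindField IsStrictOrderedRing.isDomain AddCommMonoidWithOne.toAddCommMonoid ENormedAddMonoid.toESeminormedAddMonoid Pi.nonUnitalSemiring ESeminormedAddCommMonoid.toAddCommMonoid instIsDedekindDomainOfIsDomainOfIsDedekindRing boolToProp RightPreLieAlgebra.toIsScalarTower RightPreLieAlgebra.instLieAdmissibleAlgebra ESeminormedAddMonoid.toAddMonoid AlgebraicGeometry.Scheme.instPreorderCarrierCarrierCommRingCat AddLeftCancelMonoid.toAddMonoid NormedAddGroup.toENormedAddMonoid AddMonCat.addMonoidObj AddCancelMonoid.toAddLeftCancelMonoid AddRightCancelMonoid.toAddMonoid BialgEquivClass.toCoalgEquivClass AddCancelCommMonoid.toAddCommMonoid TwoSidedIdeal.instIsTwoSidedCoeOrderHomIdealAsIdeal CommRing.toGrindCommRing ENormedAddCommMonoid.toENormedAddMonoid AddHom.addHomClass MulRingSeminormClass.toMonoidWithZeroHomClass AddCancelCommMonoid.toAddCancelMonoid instNonemptyOfMonad Fin.instBiheytingAlgebra Invertible.toNeZero ENormedCommMonoid.toESeminormedCommMonoid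 Nat.AtLeastTwo.toNeZero Fin.completeLinearOrder NormedCommGroup.toENormedCommMonoid LinearOrder.toLattice Ring.toGrindRing RCLike.toInnerProductSpaceReal SemilinearIsometryEquivClass.toSemilinearIsometryClass Pi.subtractionMonoid StarSubalgebra.commCStarAlgebra FirstOrder.Language.instDecidableEqRelations StarSubalgebra.cstarAlgebra SubringClass.toNormedCommRing RightPreLieAlgebra.toSMulCommClass MulOpposite.instMulOne LieAdmissibleAlgebra.toSMulCommClass SubringClass.toNormedRing SubalgebraClass.normedRing FirstOrder.Language.instDecidableEqFunctions instMulActionSemiHomClassMulActionHom Pi.addZeroClass AbsoluteValue.mulHomClass MonoidWithZero.toMulActionWithZero AddQuantale.instAddLeftMono SubfieldClass.toNormedField LeftPreLieAlgebra.toSMulCommClass instNontrivialOfCharZero Nat.Prime.one_lt' NoMinOrder.infinite IsAlgClosed.instInfinite ValuationRing.isLocalRing DivisionRing.toNontrivial IsSimpleOrder.toNontrivial instInfiniteOfUncountable NoMaxOrder.infinite Infinite.instNontrivial LinearOrderedAddCommGroupWithTop.toNontrivial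 Field.instIsLocalRing Turing.FinTM2.decidableEqK FirstOrder.Language.instInfiniteOfModelDloOrderOfNonempty Fin.instCoheytingAlgebra EuclideanDomain.toNontrivial NontriviallyNormedField.infinite instInhabitedOfMonad Denumerable.instInfinite Fin.instHeytingAlgebra IsSimpleGroup.toNontrivial IsSimpleAddGroup.toNontrivial NeZero.of_gt' SemilatSupCat.isSemilatticeSup GroupWithZero.toNontrivial IsOrderedRing.toIsStrictOrderedRing PartOrdEmb.str IsStrictOrderedRing.toNontrivial CharZero.infinite IsSimpleRing.instNontrivial Nat.instNontrivial DivisionRing.toDivisionSemiring ConditionallyCompleteLinearOrderBot.toConditionallyCompleteLinearOrder MulDistribMulActionSemiHomClass.toMonoidHomClass Ideal.Quotient.normedCommRing CompleteLinearOrder.toConditionallyCompleteLinearOrderBot RCLike.toDecidableEq Pi.instBotForall BialgHomClass.toMonoidHomClass FunLike.toDecidableEq NonUnitalAlgHomClass.toNonUnitalRingHomClass CommSemiring.toGrindCommSemiring Semifield.toCommGroupWithZero decidableEq_of_subsingleton Semiring.toGrindSemiring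 MulCharClass.toMonoidHomClass instRingHomSurjectiveForallEvalRingHom FinEnum.decEq CategoryTheory.isConnected_of_nonempty_and_subsingleton CommMonCat.str IsStrictOrderedRing.toCharZero CategoryTheory.StrictBicategory.category Torsor.nonempty instIsSemirealOfIsStrictOrderedRingOfExistsAddOfLE Group.instTorsor instCharZeroOfIsSemireal instSMulCommClassOfIsScalarTower CategoryTheory.IsConnected.is_nonempty CategoryTheory.Groupoid.toCategory NonUnitalCommRing.toNonUnitalRing SeminormedAddCommGroup.toNormedAddTorsor NonAssocRing.toAddCommGroupWithOne IsRealClosed.toIsSemireal RCLike.charZero_rclike NormedAddTorsor.toAddTorsor CategoryTheory.IsSifted.instIsConnected CompleteLattice.toLattice SubalgebraClass.seminormedRing Real.instRCLike SubringClass.toSeminormedRing OrderDual.instPow_1 CompleteAtomicBooleanAlgebra.toCompleteBooleanAlgebra AddCommGroup.toGrindIntModule Monoid.End.instMonoidHomClass SubringClass.toSeminormedCommRing instFiniteProp CompleteBooleanAlgebra.toCompleteLattice SubfieldClass.toField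 SubfieldClass.toDivisionRing ConditionallyCompletePartialOrder.toConditionallyCompletePartialOrderInf CompleteSemilatticeInf.toPartialOrder CancelCommMonoid.toLeftCancelMonoid IrreducibleSpace.toNonempty Semiring.toNonUnitalSemiring CancelMonoid.toLeftCancelMonoid Zero.instNonempty infSet_to_nonempty bot_nonempty LinearOrderedAddCommMonoidWithTop.toLinearOrder Group.toCancelMonoid Unique.instInhabited supSet_to_nonempty Preorder.smallCategory CategoryTheory.IsSifted.isSifted_of_hasBinaryCoproducts_and_nonempty CancelCommMonoid.toCancelMonoid One.instNonempty ConnectedSpace.toNonempty CommGroup.toCancelCommMonoid top_nonempty AddCommGroup.toAddCancelCommMonoid NonUnitalNonAssocSemiring.toDistribSMul PositiveLinearMap.instInnerProductSpaceComplexPreGNS AddCommMonoid.toGrindNatModule GradedMonoid.GradeZero.smul Pi.commMagma Pi.instOne IdemCommSemiring.toIdemSemiring Pi.instMaxForall_mathlib MulDistribMulAction.toMulAction SetLike.GradeZero.instCommRing MulActionWithZero.toMulAction MulSemiringAction.toMulDistribMulAction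 Ideal.Quotient.semiNormedCommRing SubfieldClass.toSubringClass IdemCommSemiring.toCommSemiring Pi.distribSMul' NonAssocRing.toNonAssocSemiring Pi.distribMulAction' MulZeroClass.toSMulWithZero Nontrivial.to_nonempty GroupWithZero.toDivisionMonoid DivisionRing.toDivInvMonoid CommGroup.toDivisionCommMonoid IsDomain.toNontrivial Group.toDivisionMonoid Semigrp.str LeftPreLieAlgebra.instLieAdmissibleAlgebra NormedAlgebra.id LieAdmissibleAlgebra.instLieAlgebra IsPrincipalIdealRing.isDedekindDomain Pi.smulZeroClass' CompleteLattice.toCompleteSemilatticeInf RingEquivClass.toNonUnitalRingHomClass GroupWithZero.toMonoidWithZero OneHom.oneHomClass LieAlgebra.ofAssociativeAlgebra GradedMonoid.GradeZero.commMonoid CommGroup.toCommMonoid ENormedCommMonoid.toENormedMonoid DivInvOneMonoid.toDivInvMonoid GradedMonoid.GradeZero.monoid LeftCancelMonoid.toMonoid ESeminormedMonoid.toMonoid NormedGroup.toENormedMonoid ESeminormedCommMonoid.toCommMonoid FloorSemiring.instCharZero RCLike.innerProductSpace RightCancelMonoid.toMonoid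 CancelMonoid.toRightCancelMonoid Nat.instOne ESeminormedCommMonoid.toESeminormedMonoid MulZeroClass.negZeroClass DivisionMonoid.toDivInvMonoid RootedTree.orderBot ENormedMonoid.toESeminormedMonoid DivisionCommMonoid.toCommMonoid CancelCommMonoid.toCommMonoid SaturatedAddSubmonoid.instAddSubmonoidClass LinearOrderedCommMonoidWithZero.toIsBotZeroClass SimpleGraph.TripartiteFromTriangles.graph.instDecidableRelAdj NonUnitalNonAssocSemiring.toMulZeroClass AddQuantale.instAddRightMono DivisionSemiring.toGroupWithZero SetLike.GradeZero.instSemiring Quantale.instMulRightMono LinOrd.str SubringClass.toCommRing SubringClass.toRing SetLike.GradeZero.instRing FiniteDimensional.finiteDimensional_quotient SetLike.GradeZero.instCommSemiring Convex.instPathConnectedSpace ContractibleSpace.instOfNonemptyOfIndiscreteTopology One.ofOfNat1 NormedAddTorsor.toAddTorsor' Group.toDivInvMonoid GeneralizedBooleanAlgebra.toBot GeneralizedCoheytingAlgebra.toOrderBot HeytingAlgebra.toOrderBot ContractibleSpace.instPathConnectedSpace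 CompleteSemilatticeSup.toSupSet InvOneClass.toOne Fin.addCommMonoid AddCancelCommMonoid.toAddLeftCancelMonoid BooleanAlgebra.toTop LinearOrderedAddCommGroupWithTop.toOrderTop NonUnitalAlgHomClass.instLinearMapClass BooleanAlgebra.toBoundedOrder RealTopologicalVectorSpace.contractibleSpace IrreducibleSpace.connectedSpace LinearOrderedAddCommMonoidWithTop.toOrderTop CoheytingAlgebra.toBoundedOrder Fin.addCommGroup Fin.instBoundedOrder HeytingAlgebra.toBoundedOrder AlgebraicGeometry.instOrderTopCarrierCarrierCommRingCatOfIsIntegral GeneralizedBooleanAlgebra.toOrderBot IdemSemiring.toOrderBot ContractibleSpace.instOfNonemptyOfSubsingleton UnitalShelf.toOne LinearOrderedCommMonoidWithZero.toOrderBot CoheytingAlgebra.toOrderTop GeneralizedHeytingAlgebra.toOrderTop ConditionallyCompleteLattice.toInfSet DivInvMonoid.toMonoid BooleanAlgebra.toBot MulSemiringActionSemiHomClass.toRingHomClass SimplyConnectedSpace.instPathConnectedSpace SimplyConnectedSpace.ofContractible PathConnectedSpace.connectedSpace ConditionallyCompleteLattice.toSupSet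 NormedSpace.instPathConnectedSpace Fin.instCommMonoid ConditionallyCompleteLinearOrderBot.toOrderBot Fin.instNontrivial RingConeClass.toSubsemiringClass TensorProduct.isScalarTower_right Algebra.TensorProduct.instNonUnitalRing TensorProduct.instNormedAddCommGroup instCoeOutOfCoeFun AddGroup.toAddCancelMonoid Algebra.TensorProduct.instNonAssocRing SubsemiringClass.toSemiring SubringClass.toNegMemClass Algebra.TensorProduct.right_isScalarTower Algebra.TensorProduct.instNonUnitalNonAssocRing NumberField.instFiniteDimensional Quantale.instMulLeftMono CompleteSemilatticeInf.toInfSet Fin.instInhabited CommGroupWithZero.toDivisionCommMonoid BoundedOrder.toOrderTop DivisionCommMonoid.toDivisionMonoid NonUnitalNonAssocRing.toAddCommGroup instTopologicalSpaceFin Pi.nonAssocRing Nat.Primes.coeNat coePNatNat Nat.Primes.coePNat instIsSemisimpleRingOfSubsingleton IsSemisimpleRing.isSemisimpleModule of_isDiscreteValuationRing smoothSheafCommRing.instLocalRing_stalk instIsSemisimpleModuleOfIsSimpleModule IsSimpleRing.instIsSemisimpleRing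 instIsSimpleModule ValuationRing.of_field CompletePartialOrder.toSupSet ConditionallyCompletePartialOrderSup.toSupSet AlgHom.instRingHomCompTripleComp Set.instAddLeftMono LinearOrder.toDecidableEq TensorProduct.CompatibleSMul.int Zero.ofOfNat0 DistribLattice.toLattice DivInvOneMonoid.toInvOneClass Submodule.instIdemCommSemiring SubtractionCommMonoid.toAddCommMonoid Std.Time.WallTime.instHAddOffset_1 instDistribLatticeOfLinearOrder SemilatticeInf.toPartialOrder DivisionMonoid.toDivInvOneMonoid Fin.instNonUnitalCommRing AddCancelMonoid.toAddRightCancelMonoid Module.FaithfullyFlat.of_isIntegral_of_isDomain IsDedekindDomain.toIsDedekindRing LinearOrderedAddCommGroupWithTop.toIsOrderedAddMonoid ValuationRing.instOfIsLocalRingOfIsBezout SetLike.instFinite ConvexCone.instAddMemClass BoundedOrder.toOrderBot Nat.instAtLeastTwoHAddOfNat Pi.addCommMagma instFiniteCarrierToTopAndTotallyDisconnectedSpaceSecondCountableTopologyOfObj Std.LinearPreorderPackage.toPreorderPackage Algebra.TensorProduct.instCommSemiring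 Std.LinearOrderPackage.toLinearPreorderPackage StarAlgEquivClass.instCoeHead ConditionallyCompletePartialOrderSup.toPartialOrder CoalgHomClass.instCoeToCoalgHom BialgHomClass.instCoeToBialgHom CompletelyPositiveMapClass.instCoeToCompletelyPositiveMap instCoeTailRatOfRatCast NonUnitalStarRingHomClass.instCoeHeadNonUnitalStarRingHom SemilinearMapClass.instCoeToSemilinearMap Pi.instZero CategoryTheory.instCategoryObj DivisionSemiring.toNNRatCast ConditionallyCompleteLinearOrder.toConditionallyCompleteLattice instCoeTailNatOfNatCast DivisionRing.toNNRatCast instCoeHTCTOfCoeTailOfCoeHTC NNRatCast.toCoeTail DivisionRing.toRatCast BialgEquivClass.instCoeToBialgEquiv CoalgEquivClass.instCoeToCoalgEquiv LinearMapClass.instCoeToLinearMap instCoeTailIntOfIntCast StarRingEquivClass.instCoeHead SubNegZeroMonoid.toSubNegMonoid ValuationSubring.instSubringClass Lattice.toSemilatticeInf SemilinearEquivClass.instSemilinearMapClass RingHomInvPair.triples₂ Vector.instHMul GroupWithZero.toDivInvMonoid PerfectClosure.instDivisionRing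 NonAssocRing.toNonUnitalNonAssocRing PerfectClosure.instField Ring.toNonAssocRing IsDedekindDomain.isPrincipalIdealRing IdemSemiring.toCanonicallyOrderedAdd EuclideanDomain.to_principal_ideal_domain CommRing.Pic.instFreeOfSubsingleton IsDedekindDomain.isDedekindDomainDvr IsPrincipalIdealRing.of_isNoetherianRing_of_isBezout NormMulClass.toNoZeroDivisors DivisionSemiring.isPrincipalIdealRing Ring.HasFiniteQuotients.instIsNoetherianRing Finite.of_subsingleton Algebra.IsFiniteSplit.instOfIsSepClosedOfEssFiniteTypeOfFormallyEtale instIsPrincipalIdealRingOfIsSemisimpleRing ValuationRing.toPreValuationRing instIsNoetherianRingOfIsArtinianRing IsDedekindRing.toIsNoetherian IsDedekindDomainDvr.toIsNoetherian IsSimpleModule.instIsNoetherian Multiset.decidableDforallMultiset Vector.instDecidableForallForallMemOfDecidablePred Option.decidableForallMem Module.FaithfullyFlat.toFlat instOfNatAtLeastTwo Module.FaithfullyFlat.self ConditionallyCompletePartialOrderInf.toInfSet Array.instDecidableForallForallMemOfDecidablePred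 ModuleCat.isModule forall_prop_decidable AddTorsor.nonempty Finset.decidableDforallFinset Fintype.decidableForallFintype Pi.subNegZeroMonoid Pi.nonUnitalNonAssocRing AddGroup.instAddTorsor Subsingleton.to_isCancelMulZero CompletePartialOrder.toOrderBot Algebra.TensorProduct.instCommRing Algebra.TensorProduct.instRing CompleteLattice.toBoundedOrder Algebra.TensorProduct.instNonAssocSemiring WittVector.inv_pair₁ AlgebraicGeometry.Scheme.component_nontrivial Pi.subNegMonoid LinearMap.instLoewnerPartialOrder WithTop.linearOrderedAddCommMonoidWithTop TensorProduct.instDistribMulAction IsDomain.of_isSimpleRing CompletePartialOrder.toPartialOrder SubsemiringClass.toCommSemiring Submodule.Quotient.normedAddCommGroup OrderDual.instRightDistribClass instCoeHTCOfCoeHeadOfCoeOTC Unique.instSubsingleton MonoidWithZero.toMonoid Fin.instPartialOrder RingConeClass.toAddGroupConeClass BialgEquivClass.toAlgEquivClass Set.instAddRightMono RingHomInvPair.triples AddGroupConeClass.toAddSubmonoidClass instAlgEquivClassOfNonUnitalAlgEquivClass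 ContinuousAlgEquivClass.toAlgEquivClass LinearOrderedAddCommMonoidWithTop.toAddCommMonoid AlgebraicGeometry.instIsNoetherianRingCarrierStalkCommRingCatPresheafOfIsLocallyNoetherian Pi.normedCommutativeRing ModuleCat.CoextendScalars.hasSMul LinearMap.IsScalarTower.compatibleSMul' SubalgebraClass.toAlgebra isNoetherian_of_subsingleton Module.Free.self Algebra.IsFiniteSplit.instFinitePresentation CentroidHom.instSMulCommClass_1 Module.Finite.self IsAzumaya.toFinite Algebra.instFiniteOfIsQuadraticExtension instCommCStarAlgebraForall instFinitePresentation ValuationRing.instIsBezout FiniteDimensional.finiteDimensional_self instFiniteOfFinitePresentation SetLike.GradeZero.instAlgebraSubtypeMemOfNat RingHom.Finite.instFinite FirstOrder.Language.graph.instSubsingleton PrincipalIdealRing.isNoetherianRing IsStrictOrderedRing.noZeroDivisors isNoetherian_of_finite Algebra.IsQuadraticExtension.toFree IsSemisimpleModule.instIsNoetherianOfFinite Pi.instIsRightCancelAdd SubringClass.toNonAssocRing UniqueFactorizationMonoid.toIsCancelMulZero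 instIsCancelMulZero ConditionallyCompletePartialOrder.toConditionallyCompletePartialOrderSup CommBialgCat.instCommRingObjForgetBialgHomCarrier CategoryTheory.MarkovCategory.toCopyDiscardCategory SubgroupClass.normedGroup CategoryTheory.SymmetricCategory.toBraidedCategory SubsemiringClass.addSubmonoidWithOneClass Pi.instMinForall_mathlib CategoryTheory.CopyDiscardCategory.toSymmetricCategory SubmoduleClass.module' SMulMemClass.toModule CategoryTheory.CartesianMonoidalCategory.toSymmetricCategory SubringClass.toNonAssocCommRing instIsCancelMulZero_1 CategoryTheory.PositiveCategory.toMarkovCategory GCDMonoid.toIsCancelMulZero SubgroupClass.normedCommGroup ConditionallyCompleteLattice.toConditionallyCompletePartialOrder NoZeroDivisors.to_isCancelMulZero IsRegularRing.toIsNoetherian instIsRegularRingOfIsDedekindDomain HenselianLocalRing.toIsLocalRing WithTop.instIsBotZeroClass IsRegularLocalRing.instOfIsLocalRingOfIsDomainOfIsPrincipalIdealRing String.Slice.Pos.instLinearOrderPackage Field.henselian instMonadLiftTOfMonadLift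 instMonadLiftT Pi.instCanonicallyOrderedAddForall RootedTree.semilatticeInf Std.DTreeMap.Raw.instInsertSigma Algebra.TensorProduct.instAddCommGroupWithOne Module.Flat.instOfIsDedekindDomainOfIsTorsionFree ValuationRing.instLinearOrderIdealOfDecidableLE SubringClass.toSubsemiringClass Algebra.TensorProduct.instNonUnitalNonAssocSemiring Algebra.TensorProduct.instNonUnitalSemiring Module.toMulActionWithZero TensorProduct.isScalarTower -- iprune

set_option linter.all false

section

/-!
Integer sequences of Hilbert polynomial type.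
-/

namespace Vale.Agent.P177

open PowerSeries

end Vale.Agent.P177
end

section

/-!
P202 MIX, task M12, part C: the ring `E/n_S E` (helper677).
-/

namespace Vale.Agent.P202.Mix.UL

open TensorProduct IsLocalRing

universe u

variable {p : ℕ} [Fact p.Prime] {k : Type u} [Field k] [CharP k p] {r : ℕ}
variable {Λ : Type u} [CommRing Λ] [IsLocalRing Λ] {u : Fin r → Λ}
  {ψ : Λ →+* WittVector p (Rp p k r)}
  {red : Λ →+* R0 k r ⧸ Ideal.span {(MvPowerSeries.X 0 : R0 k r)}}
  {ι : Type u} {b : ι → Λ} {β : ι → k} {res : ResidueField Λ →+* k}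

variable {A S : Type u} [CommRing A] [CommRing S] [IsLocalRing S] [Algebra Λ A] [Algebra A S]
  [IsLocalHom (algebraMap Λ A)] [IsLocalHom (algebraMap A S)]

end Vale.Agent.P202.Mix.UL
end

section

/-!
P202 MIX, task M12: the additive length on `E = S ⊗_A (A ⊗_Λ B/p^N)` with `L(E/n_S E) = 1`
(helper677).
-/

namespace Vale.Agent.P202.Mix

open Polynomial TensorProduct IsLocalRing UL
open scoped ENNReal

universe u

variable {p : ℕ} [Fact p.Prime] {k : Type u} [Field k] [CharP k p] {r : ℕ}
variable {Λ : Type u} [CommRing Λ] [IsLocalRing Λ] {u : Fin r → Λ}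
  {ψ : Λ →+* WittVector p (Rp p k r)}
  {red : Λ →+* R0 k r ⧸ Ideal.span {(MvPowerSeries.X 0 : R0 k r)}}
  {ι : Type u} {b : ι → Λ} {β : ι → k} {res : ResidueField Λ →+* k}
variable {A S : Type u} [CommRing A] [CommRing S] [IsLocalRing A] [IsLocalRing S]
  [IsNoetherianRing A] [IsNoetherianRing S]
  [Algebra Λ A] [Algebra A S] [IsLocalHom (algebraMap Λ A)] [IsLocalHom (algebraMap A S)]

namespace UL

theorem rsum_zero {R R' J : Type*} [CommRing R] [CommRing R'] (f : R →+* R') [Fintype J]
    (g : J → R) (h : ∑ j, g j = 0) : ∑ j, f (g j) = 0 := by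
  rw [← map_sum, h, map_zero]

theorem tmul_one_alg {K S C : Type u} [CommRing K] [CommRing S] [CommRing C] [Algebra K S]
    [Algebra K C] (x : K) :
    (algebraMap K S x) ⊗ₜ[K] (1 : C) = (1 : S) ⊗ₜ[K] (algebraMap K C x) := by
  rw [Algebra.algebraMap_eq_smul_one, Algebra.algebraMap_eq_smul_one, TensorProduct.smul_tmul]

/-- exponents with support in `F`. -/
noncomputable def toBx {ι : Type u} (F : Finset ι) (q : ℕ) (hq : 0 < q) (φ : F → Fin q) :
    Bx ι q :=
  ⟨Finsupp.embDomain (Function.Embedding.subtype _)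
    (Finsupp.equivFunOnFinite.symm fun i => (φ i : ℕ)), fun i => by
      classical
      rw [Finsupp.embDomain_apply]
      split_ifs with h
      · exact (φ _).2
      · exact hq⟩

theorem toBx_injective {ι : Type u} (F : Finset ι) (q : ℕ) (hq : 0 < q) :
    Function.Injective (toBx F q hq) := by
  intro φ φ' h
  have h1 := Finsupp.embDomain_injective _ (congrArg Subtype.val h)
  have h2 := Finsupp.equivFunOnFinite.symm.injective h1
  funext i
  exact Fin.ext (congrFun h2 i)

theorem toBx_support {ι : Type u} (F : Finset ι) (q : ℕ) (hq : 0 < q) (φ : F → Fin q) :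
    ∀ i ∈ (toBx F q hq φ).1.support, i ∈ F := by
  intro i hi
  rw [toBx, Finsupp.support_embDomain, Finset.mem_map] at hi
  obtain ⟨j, -, rfl⟩ := hi
  exact j.2

end UL

/-- scaling of an additive length. -/
noncomputable def AddLen.divc {R : Type u} [CommRing R] (L : AddLen R) (c : ℝ≥0∞) : AddLen R where
  len M _ _ := L.len M / c
  zero := by rw [L.zero, ENNReal.zero_div]
  add f g hf hg hfg := by rw [L.add f g hf hg hfg, ENNReal.add_div]

end Vale.Agent.P202.Mix
end

section

/-!
The normalized additive length on the modules over `W(C)`, `C` a flat integral perfect algebra of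
finite rank over the perfection of `k[[x_0, .., x_r]]`, `k` perfect.
-/

namespace Vale.Agent.P177.Pos

open Vale.Agent.P202.Mix Vale.Agent.P202.Mix.UL IsLocalRing
open scoped ENNReal

universe u

variable {p : ℕ} [Fact p.Prime] {k : Type u} [Field k] [CharP k p] {r : ℕ}

/-- the homomorphism `k[[x]] → C`. -/
noncomputable def phi0 {r0 : ℕ} (d : PExt.{u} p k r r0) : R0 k r →+* d.C :=
  (algebraMap (Rp p k r) d.C).comp (PerfectClosure.of (R0 k r) p)

/-- the homomorphism `W(C) → C → C/(x)`. -/
noncomputable def ccV {r0 : ℕ} (d : PExt.{u} p k r r0) :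
    WittVector p d.C →+* d.C ⧸ vI p k r d.C :=
  (Ideal.Quotient.mk (vI p k r d.C)).comp (WittVector.constantCoeff (p := p))

theorem constantCoeff_surjective (C : Type u) [CommRing C] :
    Function.Surjective (WittVector.constantCoeff (p := p) : WittVector p C →+* C) := fun c =>
  ⟨WittVector.teichmuller p c, WittVector.teichmuller_coeff_zero p c⟩

theorem ccV_surjective {r0 : ℕ} (d : PExt.{u} p k r r0) : Function.Surjective (ccV d) :=
  Ideal.Quotient.mk_surjective.comp (constantCoeff_surjective d.C)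

end Vale.Agent.P177.Pos
end

section

/-!
The smallness of `C/((x) + γ^(c/q))` for the normalized length on the modules over `W(C)`.
-/

namespace Vale.Agent.P177.Pos

open Vale.Agent.P202.Mix Vale.Agent.P202.Mix.UL IsLocalRing
open scoped ENNReal

universe u

variable {p : ℕ} [Fact p.Prime] {k : Type u} [Field k] [CharP k p] {r : ℕ}

theorem ccV_te {r0 : ℕ} (d : PExt.{u} p k r r0) (c : d.C) :
    ccV d (WittVector.teichmuller p c) = Ideal.Quotient.mk (vI p k r d.C) c := by
  change Ideal.Quotient.mk _ (WittVector.constantCoeff _) = _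
  rw [WittVector.constantCoeff_apply, WittVector.teichmuller_coeff_zero]

theorem ker_constantCoeff (C : Type u) [CommRing C] [CharP C p] [PerfectRing C p] :
    RingHom.ker (WittVector.constantCoeff (p := p) : WittVector p C →+* C) =
      Ideal.span {(p : WittVector p C)} := by
  ext x
  rw [RingHom.mem_ker, WittVector.constantCoeff_apply,
    WittVector.mem_span_p_iff_coeff_zero_eq_zero]

/-- P202-SMALL for the lengths on the `W(C)`-modules. -/
theorem small {r0 : ℕ} (d : PExt.{u} p k r r0) (L : AddLen (WittVector p d.C))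
    (hL : L.len (WittVector p d.C ⧸ RingHom.ker (ccV d)) = 1)
    (g : R0 k r) (Cg : ℕ) (hCg : ∀ q c : ℕ, 1 ≤ q → 1 ≤ c →
      (q : ℝ≥0∞) * ENat.toENNReal (Module.length (R0 k r) (R0 k r ⧸ Ideal.span
        ({(MvPowerSeries.X 0 : R0 k r), g ^ c} ∪
          Set.range fun i : Fin r => (MvPowerSeries.X i.succ : R0 k r) ^ q))) ≤
        (c * Cg * q ^ r : ℕ))
    (a : ℕ) (x γ : d.C) (hγ : γ = tC p k r d.C ^ a *
      (algebraMap (Rp p k r) d.C (PerfectClosure.of (R0 k r) p g) + rt p 1 (tC p k r d.C) * x))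
    (e c : ℕ) (hc : 1 ≤ c) :
    L.len (WittVector p d.C ⧸ (RingHom.ker (ccV d) ⊔
      Ideal.span {WittVector.teichmuller p (rt p e γ) ^ c})) ≤
      (p * c * (a + Cg) : ℕ) / (p : ℝ≥0∞) ^ e := by
  have hp1 : 1 ≤ p := (Fact.out : p.Prime).one_lt.le
  set φe : R0 k r →+* d.C := (lsRt p e).comp (phi0 d) with hφe
  set mk := Ideal.Quotient.mk (vI p k r d.C) with hmkdef
  have hmk : Function.Surjective mk := Ideal.Quotient.mk_surjective
  have hXl : ∀ l, φe (MvPowerSeries.X l) ^ p ^ e = vC p k r d.C l := fun l => lsRt_pow p e _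
  have hx0 : ∀ l, mk (vC p k r d.C l) = 0 := fun l =>
    Ideal.Quotient.eq_zero_iff_mem.mpr (Ideal.subset_span ⟨l, rfl⟩)
  have hmap : ∀ K : Ideal (R0 k r), (∀ j, (MvPowerSeries.X j : R0 k r) ^ p ^ e ∈ K) →
      ∀ y, mk y ∈ K.map (mk.comp φe) → y ∈ K.map φe := by
    intro K hK y hy
    rw [← Ideal.map_map, ← Ideal.mem_comap, Ideal.comap_map_of_surjective' _ hmk, hmkdef,
      Ideal.mk_ker] at hy
    have h1 : vI p k r d.C ≤ K.map φe := by
      rw [vI, Ideal.span_le]
      rintro _ ⟨l, rfl⟩
      rw [SetLike.mem_coe, ← hXl, ← map_pow]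
      exact Ideal.mem_map_of_mem _ (hK l)
    rwa [sup_eq_left.mpr h1] at hy
  have key := ls_main (lsRes L (ccV d)) (mk.comp φe) (p ^ e) (Nat.one_le_pow _ _ hp1) (by
      intro l
      rw [RingHom.comp_apply, ← map_pow, hXl, hx0]) (by
      intro K K' f hK h w hw
      obtain ⟨y, rfl⟩ := hmk w
      rw [RingHom.comp_apply, ← map_mul] at hw
      have h1 := hmap K hK _ hw
      have h2 := ls_colon_C d e K K' f h y h1
      rw [← Ideal.map_map]
      exact Ideal.mem_map_of_mem _ h2) (by
      rw [lsRes_len L _ (ccV_surjective d), ← RingHom.ker_eq_comap_bot, hL]) g Cg hCg p c a hp1 hc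
    (mk (rt p e γ)) (mk (rt p e (phi0 d g + rt p 1 (tC p k r d.C) * x))) (mk (rt p e x) ^ p) (by
      have h1 : rt p 1 (tC p k r d.C) ^ p = tC p k r d.C := by
        have := rt_pow_self p d.C (tC p k r d.C) 1
        rwa [pow_one] at this
      change mk (lsRt p e (phi0 d g + rt p 1 (tC p k r d.C) * x)) ^ p = mk (lsRt p e (phi0 d g)) ^ p +
        mk (lsRt p e (tC p k r d.C)) * mk (lsRt p e x) ^ p
      rw [← map_pow, ← map_pow, add_pow_char, mul_pow, h1, map_add, map_add, map_mul, map_mul,
        map_pow, map_pow, map_pow, map_pow]) (by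
      rw [hγ]
      change mk (lsRt p e (tC p k r d.C ^ a * (phi0 d g + rt p 1 (tC p k r d.C) * x))) =
        mk (lsRt p e (tC p k r d.C)) ^ a * mk (lsRt p e (phi0 d g + rt p 1 (tC p k r d.C) * x))
      rw [map_mul, map_mul, map_pow, map_pow])
  have hJ : (Ideal.span {mk (rt p e γ) ^ c}).comap (ccV d) = RingHom.ker (ccV d) ⊔
      Ideal.span {WittVector.teichmuller p (rt p e γ) ^ c} := by
    have h1 : Ideal.span {mk (rt p e γ) ^ c} =
        (Ideal.span {WittVector.teichmuller p (rt p e γ) ^ c}).map (ccV d) := by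
      rw [Ideal.map_span, Set.image_singleton, map_pow, ccV_te]
    rw [h1, Ideal.comap_map_of_surjective' _ (ccV_surjective d), sup_comm]
  rw [lsRes_len L _ (ccV_surjective d), hJ] at key
  push_cast at key ⊢
  exact key

end Vale.Agent.P177.Pos
end

section

/-!
The mass of a quotient of the Witt vectors of a product of rings, in terms of the components.
-/

namespace Vale.Agent.P177.Pos

open Vale.Agent.P202.Mix Vale.Agent.P177.SL Function TensorProduct Filter
open scoped ENNReal Topology

universe u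

section bc

variable {R R' : Type u} [CommRing R] [CommRing R'] [Algebra R R'] [Module.Flat R R']
  (L : AddLen R')

/-- flat base change of `η M`. -/
theorem bcLen_etaSub (η : R) (M : Type u) [AddCommGroup M] [Module R M] :
    (bcLen R L).len (etaSub η M) = L.len (etaSub (algebraMap R R' η) (R' ⊗[R] M)) := by
  change L.len (R' ⊗[R] (etaSub η M)) = _
  let i : etaSub η M →ₗ[R] M := (etaSub η M).subtype
  let s : M →ₗ[R] etaSub η M := LinearMap.rangeRestrict (LinearMap.lsmul R M η)
  have hi : Injective (i.baseChange R') := by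
    rw [LinearMap.baseChange_eq_ltensor]
    exact Module.Flat.lTensor_preserves_injective_linearMap i (Submodule.injective_subtype _)
  have hs : Surjective (s.baseChange R') := by
    rw [LinearMap.baseChange_eq_ltensor]
    exact LinearMap.lTensor_surjective R' (LinearMap.surjective_rangeRestrict _)
  have hc : ∀ z : R' ⊗[R] M, i.baseChange R' (s.baseChange R' z) = algebraMap R R' η • z := by
    intro z
    induction z with
    | zero => rw [map_zero, map_zero, smul_zero]
    | tmul a x =>
      rw [LinearMap.baseChange_tmul, LinearMap.baseChange_tmul, TensorProduct.smul_tmul',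
        algebraMap_smul, TensorProduct.smul_tmul]
      rfl
    | add x y hx hy => rw [map_add, map_add, hx, hy, smul_add]
  refine len_congr L (LinearEquiv.ofInjective (i.baseChange R') hi ≪≫ₗ LinearEquiv.ofEq _ _ ?_)
  ext z
  constructor
  · rintro ⟨y, rfl⟩
    obtain ⟨w, rfl⟩ := hs y
    exact ⟨w, (hc w).symm⟩
  · rintro ⟨w, rfl⟩
    exact ⟨s.baseChange R' w, hc w⟩

theorem etaSub_congr {R : Type u} [CommRing R] (L : AddLen R) (η : R) {M N : Type u}
    [AddCommGroup M] [Module R M] [AddCommGroup N] [Module R N] (f : M ≃ₗ[R] N) :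
    L.len (etaSub η M) = L.len (etaSub η N) := by
  refine len_congr L (f.submoduleMap (etaSub η M) ≪≫ₗ LinearEquiv.ofEq _ _ ?_)
  exact etaSub_map η f.toLinearMap f.surjective

/-- the base change of a quotient. -/
theorem bcLen_quot (I : Ideal R) :
    (bcLen R L).len (R ⧸ I) = L.len (R' ⧸ I.map (algebraMap R R')) :=
  (len_congr L (Algebra.TensorProduct.quotIdealMapEquivTensorQuot R' I).toLinearEquiv).symm

theorem bcLen_etaSub_quot (η : R) (I : Ideal R) :
    (bcLen R L).len (etaSub η (R ⧸ I)) =
      L.len (etaSub (algebraMap R R' η) (R' ⧸ I.map (algebraMap R R'))) := by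
  rw [bcLen_etaSub]
  exact (etaSub_congr L _ (Algebra.TensorProduct.quotIdealMapEquivTensorQuot R' I).toLinearEquiv).symm

end bc

section mass

variable (p : ℕ) [Fact p.Prime] {ι : Type u} (C : ι → Type u) [∀ e, CommRing (C e)]

theorem compLen_quot (e : ι) (L : AddLen (WittVector p (C e)))
    (I : Ideal (WittVector p (∀ e, C e))) :
    (compLen p C e L).len (WittVector p (∀ e, C e) ⧸ I) =
      L.len (WittVector p (C e) ⧸ I.map (prW p C e)) := by
  let _ := (prW p C e).toAlgebra
  have _ := flat_prW p C e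
  exact bcLen_quot L I

theorem compLen_etaSub_quot (e : ι) (L : AddLen (WittVector p (C e)))
    (η : WittVector p (∀ e, C e)) (I : Ideal (WittVector p (∀ e, C e))) :
    (compLen p C e L).len (etaSub η (WittVector p (∀ e, C e) ⧸ I)) =
      L.len (etaSub (prW p C e η) (WittVector p (C e) ⧸ I.map (prW p C e))) := by
  let _ := (prW p C e).toAlgebra
  have _ := flat_prW p C e
  exact bcLen_etaSub_quot L η I

theorem massU_quot (U : Ultrafilter ι) (L : ∀ e, AddLen (WittVector p (C e)))
    (I : Ideal (WittVector p (∀ e, C e))) :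
    (massU p C U L).len (WittVector p (∀ e, C e) ⧸ I) =
      ulim U fun e => (L e).len (WittVector p (C e) ⧸ I.map (prW p C e)) :=
  ulim_congr U (Eventually.of_forall fun e => compLen_quot p C e (L e) I)

theorem massU_etaSub_quot (U : Ultrafilter ι) (L : ∀ e, AddLen (WittVector p (C e)))
    (η : WittVector p (∀ e, C e)) (I : Ideal (WittVector p (∀ e, C e))) :
    (massU p C U L).len (etaSub η (WittVector p (∀ e, C e) ⧸ I)) =
      ulim U fun e => (L e).len (etaSub (prW p C e η) (WittVector p (C e) ⧸ I.map (prW p C e))) :=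
  ulim_congr U (Eventually.of_forall fun e => compLen_etaSub_quot p C e (L e) η I)

/-- upper bound for the mass of a quotient. -/
theorem etaLen_massU_quot_le (U : Ultrafilter ι) (L : ∀ e, AddLen (WittVector p (C e)))
    (η : WittVector p (∀ e, C e)) (I : Ideal (WittVector p (∀ e, C e))) (b : ℝ≥0∞)
    (h : ∀ᶠ e in (U : Filter ι), (L e).len (WittVector p (C e) ⧸ I.map (prW p C e)) ≤ b) :
    (etaLen (massU p C U L) η).len (WittVector p (∀ e, C e) ⧸ I) ≤ b := by
  refine (etaLen_le _ _ _).trans ?_
  rw [massU_quot]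
  exact ulim_le U h

/-- lower bound for the mass of a quotient. -/
theorem le_etaLen_massU_quot (U : Ultrafilter ι) (L : ∀ e, AddLen (WittVector p (C e)))
    (η : WittVector p (∀ e, C e)) (I : Ideal (WittVector p (∀ e, C e))) (b : ℝ≥0∞)
    (h : ∀ c : ℕ, ∀ᶠ e in (U : Filter ι),
      b ≤ (L e).len (etaSub (prW p C e η ^ c) (WittVector p (C e) ⧸ I.map (prW p C e)))) :
    b ≤ (etaLen (massU p C U L) η).len (WittVector p (∀ e, C e) ⧸ I) := by
  refine le_iInf fun c => ?_
  rw [massU_etaSub_quot]
  refine le_ulim U ((h c).mono fun e he => ?_)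
  rw [map_pow]
  exact he

end mass

section PExt

variable {p : ℕ} [Fact p.Prime] {k : Type u} [Field k] [CharP k p] {r : ℕ}

end PExt

end Vale.Agent.P177.Pos
end

section

/-!
P177, package: the product `C = ∏ C_e` of the levels, its elements `x, c, Θ, η`, the relations over
`W(C)`, the additive length `mass`.
-/

namespace Vale.Agent.P177.Full

open Vale.Agent.P202.Mix Vale.Agent.P177.Lev Vale.Agent.P177.SL WittVector Polynomial Filter
open scoped ENNReal

universe u

section

variable {p : ℕ} [Fact p.Prime] {k : Type u} [Field k] [CharP k p] {r : ℕ}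
variable {Λ : Type u} [CommRing Λ] [IsLocalRing Λ] (ψ : Λ →+* WittVector p (Rp p k r))
variable {Ω : Type u} [Field Ω] [Algebra Λ Ω] {s : ℕ} (b : Fin s → Ω) (F G : Fin s → Λ[X])
    (D : ℕ) (ε : ℝ≥0∞) (Φ : ℕ → ℕ)

/-- A sequence of levels `e + N`, `e ∈ ℕ`, and a nonprincipal ultrafilter. -/
structure Pkg where
  N : ℕ
  U : Ultrafilter (ULift.{u} ℕ)
  ev : ∀ c : ℕ, ∀ᶠ e in (U : Filter (ULift.{u} ℕ)), c ≤ e.down
  lv : ∀ e : ULift.{u} ℕ, Level ψ b F G D ε Φ (e.down + N)

/-- there is a nonprincipal ultrafilter -/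
theorem exists_ultra : ∃ U : Ultrafilter (ULift.{u} ℕ), ∀ c : ℕ,
    ∀ᶠ f in (U : Filter (ULift.{u} ℕ)), c ≤ f.down := by
  have h : (Filter.comap ULift.down.{u} (atTop : Filter ℕ)).NeBot :=
    Filter.comap_neBot fun t ht => by
      obtain ⟨a, ha⟩ := Filter.nonempty_of_mem ht
      exact ⟨⟨a⟩, ha⟩
  refine ⟨Ultrafilter.of (Filter.comap ULift.down.{u} (atTop : Filter ℕ)), fun c => ?_⟩
  exact Ultrafilter.of_le _ ((Filter.eventually_ge_atTop c).comap ULift.down)

/-- the package from a supply of levels -/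
theorem exists_pkg (N : ℕ) (h : ∀ e : ℕ, Nonempty (Level ψ b F G D ε Φ e)) :
    ∃ K : Pkg ψ b F G D ε Φ, K.N = N := by
  obtain ⟨U, hU⟩ := exists_ultra.{u}
  exact ⟨⟨N, U, hU, fun e => (h (e.down + N)).some⟩, rfl⟩

end

namespace Pkg

variable {p : ℕ} [Fact p.Prime] {k : Type u} [Field k] [CharP k p] {r : ℕ}
variable {Λ : Type u} [CommRing Λ] [IsLocalRing Λ] {ψ : Λ →+* WittVector p (Rp p k r)}
variable {Ω : Type u} [Field Ω] [Algebra Λ Ω] {s : ℕ} {b : Fin s → Ω} {F G : Fin s → Λ[X]}
    {D : ℕ} {ε : ℝ≥0∞} {Φ : ℕ → ℕ} (K : Pkg ψ b F G D ε Φ)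

/-- the ring of the level `e` -/
abbrev Ce (e : ULift.{u} ℕ) : Type u := (K.lv e).ext.C

/-- THE ring -/
abbrev C : Type u := ∀ e, K.Ce e

instance instCharP : CharP K.C p := PI.charP_pi p _

instance instPerfect : PerfectRing K.C p := PI.perfectRing_pi p _

/-- the Teichmueller representatives of the `b l` -/
def c (l : Fin s) : K.C := fun e => (K.lv e).c l

/-- the element killing the junk -/
def Θ : K.C := fun e => (K.lv e).Θ

/-- the exponent: `η_e = Θ_e^(1/p^j_e)` -/
def j (e : ULift.{u} ℕ) : ℕ := (K.lv e).j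

/-- the precision -/
def I (e : ULift.{u} ℕ) : ℕ := (K.lv e).I

/-- the error element -/
noncomputable def η : K.C := fun e => rt p (K.j e) (K.Θ e)

/-- the projection to the level `e` -/
noncomputable abbrev pr (e : ULift.{u} ℕ) : WittVector p K.C →+* WittVector p (K.Ce e) :=
  prW p K.Ce e

theorem pr_te (e : ULift.{u} ℕ) (a : K.C) : K.pr e (teichmuller p a) = teichmuller p (a e) :=
  prW_teichmuller p K.Ce e a

theorem pr_ext {x y : WittVector p K.C} (h : ∀ e, K.pr e x = K.pr e y) : x = y :=
  prW_ext p K.Ce h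

theorem exists_pr (x : ∀ e, WittVector p (K.Ce e)) : ∃ y : WittVector p K.C, ∀ e, K.pr e y = x e :=
  PI.exists_prj p x

theorem le_j (e : ULift.{u} ℕ) : e.down + K.N ≤ K.j e := (K.lv e).le_j

theorem le_I (e : ULift.{u} ℕ) : Φ (K.j e) ≤ K.I e := (K.lv e).le_I

/-- the element with components `p ^ n_e`. -/
noncomputable def PP (n : ULift.{u} ℕ → ℕ) : WittVector p K.C :=
  (K.exists_pr fun e => (p : WittVector p (K.Ce e)) ^ n e).choose

theorem pr_PP (n : ULift.{u} ℕ → ℕ) (e : ULift.{u} ℕ) :
    K.pr e (K.PP n) = (p : WittVector p (K.Ce e)) ^ n e :=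
  (K.exists_pr fun e => (p : WittVector p (K.Ce e)) ^ n e).choose_spec e

/-- `(p - [t], P_n)` -/
noncomputable def xiP (n : ULift.{u} ℕ → ℕ) : Ideal (WittVector p K.C) :=
  Ideal.span {(p : WittVector p K.C) - teichmuller p (tC p k r K.C), K.PP n}

theorem mem_xiM_iff {C : Type u} [CommRing C] [Algebra (Rp p k r) C] {M : ℕ}
    {x : WittVector p C} : x ∈ xiM p k r C M ↔ ∃ a b : WittVector p C,
      x = a * ((p : WittVector p C) - teichmuller p (tC p k r C)) + b * (p : WittVector p C) ^ M := by
  rw [xiM, Ideal.mem_span_pair]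
  exact ⟨fun ⟨a, b, h⟩ => ⟨a, b, h.symm⟩, fun ⟨a, b, h⟩ => ⟨a, b, h.symm⟩⟩

/-- membership is checked componentwise -/
theorem mem_xiP {n : ULift.{u} ℕ → ℕ} {x : WittVector p K.C} :
    x ∈ K.xiP n ↔ ∀ e, K.pr e x ∈ xiM p k r (K.Ce e) (n e) := by
  rw [xiP, Ideal.mem_span_pair]
  constructor
  · rintro ⟨a, b, rfl⟩ e
    rw [mem_xiM_iff]
    refine ⟨K.pr e a, K.pr e b, ?_⟩
    rw [map_add, map_mul, map_mul, map_sub, map_natCast, pr_te, pr_PP]
    rfl
  · intro h
    choose a b hab using fun e => mem_xiM_iff.1 (h e)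
    obtain ⟨a', ha'⟩ := K.exists_pr a
    obtain ⟨b', hb'⟩ := K.exists_pr b
    refine ⟨a', b', K.pr_ext fun e => ?_⟩
    rw [map_add, map_mul, map_mul, map_sub, map_natCast, pr_te, pr_PP, ha', hb', hab]
    rfl

/-- `(p - [t], P_n) ⊆ (p - [t], p ^ m)` if `m ≤ n_e` for all `e`. -/
theorem xiP_le_xiM {n : ULift.{u} ℕ → ℕ} {m : ℕ} (h : ∀ e, m ≤ n e) :
    K.xiP n ≤ xiM p k r K.C m := by
  intro x hx
  rw [mem_xiP] at hx
  choose a b hab using fun e => mem_xiM_iff.1 (hx e)
  obtain ⟨a', ha'⟩ := K.exists_pr a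
  obtain ⟨b', hb'⟩ := K.exists_pr fun e => b e * (p : WittVector p (K.Ce e)) ^ (n e - m)
  refine mem_xiM_iff.2 ⟨a', b', K.pr_ext fun e => ?_⟩
  rw [map_add, map_mul, map_mul, map_sub, map_pow, map_natCast, pr_te, ha', hb', hab, mul_assoc (b e),
    ← pow_add, Nat.sub_add_cancel (h e)]
  rfl

theorem pr_laW (e : ULift.{u} ℕ) (a : Λ) : K.pr e (laW ψ K.C a) = laW ψ (K.Ce e) a := by
  ext n
  change (prW p K.Ce e (WittVector.map _ (ψ a))).coeff n = (WittVector.map _ (ψ a)).coeff n
  rw [prW_coeff, WittVector.map_coeff, WittVector.map_coeff]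
  rfl

theorem pr_eval₂ {m : ℕ} (e : ULift.{u} ℕ) (f : MvPolynomial (Fin m) Λ) (a : Fin m → K.C) :
    K.pr e (MvPolynomial.eval₂ (laW ψ K.C) (fun l => teichmuller p (a l)) f) =
      MvPolynomial.eval₂ (laW ψ (K.Ce e)) (fun l => teichmuller p (a l e)) f := by
  have h : (K.pr e).comp (laW ψ K.C) = laW ψ (K.Ce e) := RingHom.ext fun a => K.pr_laW e a
  rw [MvPolynomial.hom_eval₂, h]
  congr 1
  funext l
  exact K.pr_te e _

/-- all relations -/
theorem rel (f : MvPolynomial (Fin s) Λ) (hf : MvPolynomial.aeval b f = 0) :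
    teichmuller p K.Θ * MvPolynomial.eval₂ (laW ψ K.C) (fun l => teichmuller p (K.c l)) f ∈
      K.xiP fun e => K.I e + 1 := by
  rw [mem_xiP]
  intro e
  rw [map_mul, pr_te, pr_eval₂]
  exact (K.lv e).rel f hf

theorem nil (l : Fin s) (h : ∀ i < (F l).natDegree, (F l).coeff i ∈ IsLocalRing.maximalIdeal Λ) :
    K.c l ^ D ∈ Ideal.span (Set.range (xC p k r K.C)) := by
  have h1 : ∀ e, ∃ a : Fin (r + 1) → K.Ce e, ∑ i, a i * xC p k r (K.Ce e) i = K.c l e ^ D :=
    fun e => (Ideal.mem_span_range_iff_exists_fun).1 ((K.lv e).nil l h)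
  choose a ha using h1
  refine (Ideal.mem_span_range_iff_exists_fun).2 ⟨fun i e => a e i, funext fun e => ?_⟩
  rw [Pi.pow_apply, ← ha e, Finset.sum_apply]
  rfl

/-- `t` is a nonzerodivisor in every `C_e` -/
theorem te_reg (e : ULift.{u} ℕ) : tC p k r (K.Ce e) ∈ nonZeroDivisors (K.Ce e) :=
  tC_mem_nonZeroDivisors (K.lv e).ext

theorem t_reg : tC p k r K.C ∈ nonZeroDivisors K.C :=
  PI.mem_nonZeroDivisors_pi (t := fun e => tC p k r (K.Ce e)) K.te_reg

end Pkg

end Vale.Agent.P177.Full
end

section

/-!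
P177, package: regular sequence, roots of the relations, the additive length `mass` over the
product ring.
-/

namespace Vale.Agent.P177.Full

open Vale.Agent.P202.Mix Vale.Agent.P177.Lev Vale.Agent.P177.SL WittVector Polynomial Filter
open scoped ENNReal

universe u

section root

variable {p : ℕ} [hp : Fact p.Prime]

theorem toB_eq_zero_iff' {C : Type u} [CommRing C] {t : C} {M : ℕ} {x : WittVector p C} :
    x ∈ Ideal.span {(p : WittVector p C) - teichmuller p t, (p : WittVector p C) ^ M} ↔
      toB p C t x ∈ Ideal.span {(p : Bt p C t) ^ M} := by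
  constructor
  · intro h
    obtain ⟨a, b, rfl⟩ := Ideal.mem_span_pair.1 h
    rw [map_add, map_mul, map_mul, map_pow, map_natCast]
    have h0 : toB p C t ((p : WittVector p C) - teichmuller p t) = 0 :=
      Ideal.Quotient.eq_zero_iff_mem.2 (Ideal.mem_span_singleton_self _)
    rw [h0, mul_zero, zero_add]
    exact Ideal.mul_mem_left _ _ (Ideal.mem_span_singleton_self _)
  · intro h
    obtain ⟨a, ha⟩ := Ideal.mem_span_singleton'.1 h
    obtain ⟨a, rfl⟩ : ∃ a', toB p C t a' = a := Ideal.Quotient.mk_surjective a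
    have h1 : toB p C t (x - a * (p : WittVector p C) ^ M) = 0 := by
      rw [map_sub, map_mul, map_pow, map_natCast, ha, sub_self]
    obtain ⟨b, hb⟩ := Ideal.mem_span_singleton'.1 (Ideal.Quotient.eq_zero_iff_mem.1 h1)
    rw [Ideal.mem_span_pair]
    exact ⟨b, a, by rw [hb, sub_add_cancel]⟩

/-- roots of Teichmueller annihilators -/
theorem root_xi {C : Type u} [CommRing C] [CharP C p] [PerfectRing C p] {t : C}
    (ht : t ∈ nonZeroDivisors C) (Θ : C) (i M N : ℕ) (h : p ^ i * N ≤ M) (x : WittVector p C)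
    (hx : teichmuller p Θ * x ∈
      Ideal.span {(p : WittVector p C) - teichmuller p t, (p : WittVector p C) ^ M}) :
    teichmuller p (rt p i Θ) * x ∈
      Ideal.span {(p : WittVector p C) - teichmuller p t, (p : WittVector p C) ^ N} := by
  rw [toB_eq_zero_iff'] at hx ⊢
  apply root_closed p C t ht i N
  have h1 : toB p C t (teichmuller p (rt p i Θ) * x) ^ p ^ i =
      toB p C t (teichmuller p Θ * x) * toB p C t x ^ (p ^ i - 1) := by
    rw [← map_pow, mul_pow, ← map_pow (teichmuller p), rt_pow_self, ← map_pow, ← map_mul, mul_assoc,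
      ← pow_succ', Nat.sub_add_cancel (Nat.one_le_pow _ _ hp.out.pos)]
  rw [h1]
  refine Ideal.mul_mem_right _ _ ?_
  exact (Ideal.span_singleton_le_span_singleton.2 (pow_dvd_pow _ h)) hx

end root

namespace Pkg

variable {p : ℕ} [Fact p.Prime] {k : Type u} [Field k] [CharP k p] {r : ℕ}
variable {Λ : Type u} [CommRing Λ] [IsLocalRing Λ] {ψ : Λ →+* WittVector p (Rp p k r)}
variable {Ω : Type u} [Field Ω] [Algebra Λ Ω] {s : ℕ} {b : Fin s → Ω} {F G : Fin s → Λ[X]}
    {D : ℕ} {ε : ℝ≥0∞} {Φ : ℕ → ℕ} (K : Pkg ψ b F G D ε Φ)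

/-- from `[Θ]` to `[η]` -/
theorem η_mem_xiP {x : WittVector p K.C} {M n : ULift.{u} ℕ → ℕ}
    (h : ∀ e, p ^ K.j e * n e ≤ M e) (hx : teichmuller p K.Θ * x ∈ K.xiP M) :
    teichmuller p K.η * x ∈ K.xiP n := by
  rw [mem_xiP] at hx ⊢
  intro e
  have h1 := hx e
  rw [map_mul, pr_te] at h1 ⊢
  exact root_xi (K.te_reg e) (K.Θ e) (K.j e) (M e) (n e) (h e) _ h1

/-- all relations, with the small error `[η]` -/
theorem η_rel {n : ULift.{u} ℕ → ℕ} (h : ∀ e, p ^ K.j e * n e ≤ K.I e + 1)
    (f : MvPolynomial (Fin s) Λ) (hf : MvPolynomial.aeval b f = 0) :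
    teichmuller p K.η * MvPolynomial.eval₂ (laW ψ K.C) (fun l => teichmuller p (K.c l)) f ∈
      K.xiP n :=
  K.η_mem_xiP h (K.rel f hf)

/-- finitely generated ideals of a product are checked componentwise -/
theorem mem_span_image_pi {ι : Type u} {C : ι → Type u} [∀ e, CommRing (C e)] {n : ℕ}
    (a : Fin n → ∀ e, C e) (S : Set (Fin n)) (y : ∀ e, C e) :
    y ∈ Ideal.span (a '' S) ↔ ∀ e, y e ∈ Ideal.span ((fun l => a l e) '' S) := by
  classical
  constructor
  · intro h e
    have h1 := Ideal.mem_map_of_mem (Pi.evalRingHom C e) h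
    rw [Ideal.map_span, Set.image_image] at h1
    exact h1
  · intro h
    have hS : S = ((Finset.univ.filter fun l => l ∈ S : Finset (Fin n)) : Set (Fin n)) := by
      ext l
      simp
    rw [hS] at h ⊢
    have h1 : ∀ e, ∃ f : Fin n → C e, ∑ l ∈ Finset.univ.filter (fun l => l ∈ S), f l • a l e =
        y e := fun e => (Submodule.mem_span_image_finset_iff_exists_fun' (C e)).1 (h e)
    choose f hf using h1
    refine (Submodule.mem_span_image_finset_iff_exists_fun' _).2 ⟨fun l e => f e l, funext fun e => ?_⟩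
    rw [← hf e, Finset.sum_apply]
    rfl

/-- the variables form a regular sequence -/
theorem regular (i : Fin (r + 1)) (y : K.C)
    (h : xC p k r K.C i * y ∈ Ideal.span ((fun l => xC p k r K.C l) '' {l | l < i})) :
    y ∈ Ideal.span ((fun l => xC p k r K.C l) '' {l | l < i}) := by
  rw [mem_span_image_pi (fun l => (xC p k r K.C l : ∀ e, K.Ce e))] at h ⊢
  intro e
  exact variables_regular (K.lv e).ext i (y e) (h e)

/-- THE mass -/
noncomputable def mass : AddLen (WittVector p K.C) :=
  SL.mass p K.Ce K.U (fun e => (K.lv e).L) K.η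

theorem mass_eq_zero (c : ℕ) (M : Type u) [AddCommGroup M] [Module (WittVector p K.C) M]
    (h : ∀ x : M, teichmuller p K.η ^ c • x = 0) : K.mass.len M = 0 :=
  etaLen_eq_zero _ _ c M h

theorem vW_map (e : ULift.{u} ℕ) : (vW p k r K.C).map (K.pr e) = vW p k r (K.Ce e) := by
  rw [vW, vW, Ideal.map_span, Set.image_insert_eq, map_natCast, ← Set.range_comp]
  congr 3
  funext l
  exact K.pr_te e _

theorem mass_vW_le : K.mass.len (WittVector p K.C ⧸ vW p k r K.C) ≤ 1 := by
  refine Pos.etaLen_massU_quot_le p K.Ce K.U _ _ _ 1 (Eventually.of_forall fun e => ?_)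
  have h := K.vW_map e
  rw [pr] at h
  rw [h, (K.lv e).len_one]

theorem le_mass_vW : ε ≤ K.mass.len (WittVector p K.C ⧸ vW p k r K.C) := by
  refine Pos.le_etaLen_massU_quot p K.Ce K.U _ _ _ ε fun c => ?_
  refine (K.ev c).mono fun e he => ?_
  have h := K.vW_map e
  rw [pr] at h
  rw [h, prW_teichmuller]
  refine (K.lv e).len_pos.trans ?_
  exact len_mono _ (etaSub_anti (teichmuller p (K.η e)) (by omega : c ≤ e.down + K.N))

theorem mass_ne_top : K.mass.len (WittVector p K.C ⧸ vW p k r K.C) ≠ ⊤ :=
  ne_top_of_le_ne_top ENNReal.one_ne_top K.mass_vW_le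

end Pkg

end Vale.Agent.P177.Full
end

section

/-!
P177, inner assembly: the data attached to two flags (structure `Core`).
-/

namespace Vale.Agent.P177.Full

open TensorProduct IsLocalRing RingTheory.Sequence Function Vale.Agent.P202.Mix
  Vale.Agent.P177.Flag Vale.Agent.P177.PI Vale.Agent.P177.Lev WittVector
open scoped ENNReal

universe u

/-- `W(k)[[x_1, .., x_d]]` -/
abbrev Sx (p : ℕ) [Fact p.Prime] (k : Type u) [CommRing k] (d : ℕ) : Type u :=
  MvPowerSeries (Fin d) (WittVector p k)

/-- `Λ[[x_1, .., x_d]]` -/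
abbrev Tx (p : ℕ) [Fact p.Prime] (k : Type u) [CommRing k] (r d : ℕ) : Type u :=
  MvPowerSeries (Fin d) (Lam p k r)

/-- all the data used for the two flags `F 0`, `F 1`. -/
structure Core (p : ℕ) [Fact p.Prime] {R : Type u} [CommRing R] [IsRegularLocalRing R]
    [CharP (ResidueField R) p] [PerfectRing (ResidueField R) p] (d : ℕ) (P : Ideal R)
    (hs : List R) (r : ℕ) [IsRegularLocalRing (Lam p (ResidueField R) r)]
    [Algebra (Lam p (ResidueField R) r) R] (Ω : Type u) [Field Ω]
    [Algebra (Lam p (ResidueField R) r) Ω] (F : Fin 2 → FlagMod (Lam p (ResidueField R) r) Ω hs) where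
  /-- the presentation `S = W(k)[[x]] → R` with kernel `(p - g)` -/
  Φ : Sx p (ResidueField R) d →+* R
  g : Sx p (ResidueField R) d
  Φ_surj : Surjective Φ
  Φ_C : ∀ w, Φ (MvPowerSeries.C w) =
    algebraMap (Lam p (ResidueField R) r) R (MvPowerSeries.C w)
  Φ_X : ∀ i, Φ (MvPowerSeries.X i) ∈ maximalIdeal R
  g_mem : g ∈ Ideal.span (Set.range (MvPowerSeries.X : Fin d → Sx p (ResidueField R) d)) ^ 2
  Φ_ker : RingHom.ker Φ = Ideal.span {(p : Sx p (ResidueField R) d) - g}
  /-- `p ^ c0 = α + β` -/
  c0 : ℕ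
  α : R
  β : R
  c0_pos : 1 ≤ c0
  α_mem : α ∈ P
  β_mem : β ∈ Ideal.ofList hs
  α_add : (p : R) ^ c0 = α + β
  α_ne : α ≠ 0
  /-- the integral elements of `Ω` -/
  m : ℕ
  b : Fin m → Ω
  Fp : Fin m → Polynomial (Lam p (ResidueField R) r)
  /-- the indices of the values of the characters -/
  ix : (R →ₐ[Lam p (ResidueField R) r] Ω) → Fin d → Fin m
  ix_spec : ∀ i j l, b (ix ((F i).σ j) l) = (F i).σ j (Φ (MvPowerSeries.X l))
  ix_nil : ∀ i j l, ∀ t < (Fp (ix ((F i).σ j) l)).natDegree,
    (Fp (ix ((F i).σ j) l)).coeff t ∈ maximalIdeal (Lam p (ResidueField R) r)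
  /-- the indices of the Pluecker coordinates -/
  pl : ∀ (i : Fin 2) (j : ℕ), (Fin j → Fin (F i).n) → Fin m
  pl_spec : ∀ i j, j ≤ (F i).n → ∀ t, b (pl i j t) = detT (F i).v j t
  /-- every nonzero `b l` has a cofactor -/
  cof : ∀ l, b l ≠ 0 → ∃ (f : Polynomial (Lam p (ResidueField R) r))
    (γ : Lam p (ResidueField R) r), γ ≠ 0 ∧
      b l * Polynomial.aeval (b l) f = algebraMap (Lam p (ResidueField R) r) Ω γ
  /-- the base -/
  ψ : Lam p (ResidueField R) r →+* WittVector p (Rp p (ResidueField R) r)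
  red : Lam p (ResidueField R) r →+*
    R0 (ResidueField R) r ⧸ Ideal.span {(MvPowerSeries.X 0 : R0 (ResidueField R) r)}
  base : IsBase p (ResidueField R) r (Lam p (ResidueField R) r) (fun i => MvPowerSeries.X i) ψ red
  /-- the levels -/
  G : Fin m → Polynomial (Lam p (ResidueField R) r)
  D : ℕ
  ε : ℝ≥0∞
  gr : ℕ → ℕ
  ε_ne : ε ≠ 0
  gr_le : ∀ j, (j + 2 * c0) * (p ^ j * p ^ j) ≤ gr j
  K : Pkg ψ b Fp G D ε gr
  /-- the start of the levels is large -/
  N_le : 2 * c0 + 2 ≤ K.N
  /-- the homomorphisms `φ_σ : Λ[[x]] → W(C)`, `x_l ↦ [c_l]` -/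
  φ : (R →ₐ[Lam p (ResidueField R) r] Ω) → (Tx p (ResidueField R) r d →+* WittVector p K.C)
  φ_spec : ∀ i j (f : MvPolynomial (Fin d) (Lam p (ResidueField R) r)),
    φ ((F i).σ j) f = MvPolynomial.eval₂ (laW ψ K.C)
      (fun l => teichmuller p (K.c (ix ((F i).σ j) l))) f

end Vale.Agent.P177.Full
end

section

/-!
P177: the eigenflag data with relations up to `η` over a product ring, from the levels.
-/

namespace Vale.Agent.P177.PI

open Vale.Agent.P177.Flag

universe u v w

variable {ι : Type v} {W : Type u} [CommRing W] {V : ι → Type w} [∀ e, CommRing (V e)]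
  {G : Type*} [AddCommGroup G] {n : ℕ}
  {π : ∀ e, W →+* V e} {F : ∀ e, RFam (V e) G}
  {τ : ∀ j : ℕ, (Fin j → Fin n) → W} {d : ℕ → G} {good : G → Prop} {η : W}

/-- `FDataE` over the product from the levels. -/
theorem fDataE_pull [Nonempty ι] (hinj : ∀ x y : W, (∀ e, π e x = π e y) → x = y)
    (h : ∀ e, FDataE (F e) (fun j t => π e (τ j t)) d good (π e η)) :
    FDataE (RFam.pull π F) τ d good η where
  d_zero := by
    obtain ⟨e⟩ := (inferInstance : Nonempty ι)
    exact (h e).d_zero
  mem j t := (RFam.mem_pull_M).2 fun e => (h e).mem j t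
  zero t := hinj _ _ fun e => by rw [(h e).zero t, map_one]
  same j ρ t := (RFam.mem_pull_N).2 fun e => by
    rw [map_mul, Vale.Agent.P177.PI.map_wdg]
    exact (h e).same j ρ t
  incl j ρ t := (RFam.mem_pull_N).2 fun e => by
    rw [map_mul, Vale.Agent.P177.PI.map_wdg]
    exact (h e).incl j ρ t
  step j ρ t := (RFam.mem_pull_N).2 fun e => by
    rw [map_mul, map_sub, map_mul, Vale.Agent.P177.PI.map_wdg]
    exact (h e).step j ρ t
  top i t := (RFam.mem_pull_N).2 fun e => by
    have h1 := (h e).top i t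
    have h2 : (fun l => π e ((Pi.single i (1 : W) : Fin n → W) l)) =
        (Pi.single i (1 : V e) : Fin n → V e) := by
      funext l
      by_cases hl : l = i
      · subst hl
        rw [Pi.single_eq_same, Pi.single_eq_same, map_one]
      · rw [Pi.single_eq_of_ne hl, Pi.single_eq_of_ne hl, map_zero]
    rw [map_mul, Vale.Agent.P177.PI.map_wdg, h2]
    exact h1
  good_add s j hs := by
    obtain ⟨e⟩ := (inferInstance : Nonempty ι)
    exact (h e).good_add s j hs
  inj j hj s hs := inj_pull fun e => (h e).inj j hj s hs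

end Vale.Agent.P177.PI
end

section

/-!
P177, block LEVGLUE: the flag data over the product ring of a package.
-/

namespace Vale.Agent.P177.PI

open WittVector Vale.Agent.P177.Flag

universe u v w

section general

variable {W : Type u} [CommRing W] {G : Type v} [AddCommGroup G] {n : ℕ}
  {F : RFam W G} {τ : ∀ j : ℕ, (Fin j → Fin n) → W} {d : ℕ → G} {good : G → Prop} {η : W}

theorem FDataE.mul_left (h : FDataE F τ d good η) (y : W) : FDataE F τ d good (y * η) where
  d_zero := h.d_zero
  mem := h.mem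
  zero := h.zero
  same j ρ t := by rw [mul_assoc]; exact Ideal.mul_mem_left _ _ (h.same j ρ t)
  incl j ρ t := by rw [mul_assoc]; exact Ideal.mul_mem_left _ _ (h.incl j ρ t)
  step j ρ t := by rw [mul_assoc]; exact Ideal.mul_mem_left _ _ (h.step j ρ t)
  top i t := by rw [mul_assoc]; exact Ideal.mul_mem_left _ _ (h.top i t)
  good_add := h.good_add
  inj := h.inj

theorem EigNA.mul_left {X : Matrix (Fin n) (Fin n) W} {c : ℕ → W} (h : EigNA F τ d η X c)
    (y : W) : EigNA F τ d (y * η) X c := by
  intro j hj ρ t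
  rw [mul_assoc]
  exact Ideal.mul_mem_left _ _ (h j hj ρ t)

/-- change of the scalars. -/
theorem EigNA.congr {X : Matrix (Fin n) (Fin n) W} {c c' : ℕ → W} (h : EigNA F τ d η X c)
    (hmem : ∀ j t, τ j t ∈ F.M (d j)) (y : W)
    (hc : ∀ j < n, ∀ s, ∀ x ∈ F.M s, (y * (c' j - c j)) * x ∈ F.N s) :
    EigNA F τ d (y * η) X c' := by
  intro j hj ρ t
  have h1 : (fun i : Fin n => (∑ l, X i l * τ (j + 1) (Fin.cons l ρ)) -
      c' j * τ (j + 1) (Fin.cons i ρ)) =
      (fun i : Fin n => (∑ l, X i l * τ (j + 1) (Fin.cons l ρ)) -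
        c j * τ (j + 1) (Fin.cons i ρ)) +
      (-(c' j - c j)) • (fun i : Fin n => τ (j + 1) (Fin.cons i ρ)) := by
    funext i
    simp only [Pi.add_apply, Pi.smul_apply, smul_eq_mul]
    ring
  rw [h1, wdg_add, wdg_smul, smul_eq_mul, mul_add]
  refine add_mem ?_ ?_
  · rw [mul_assoc]
    exact Ideal.mul_mem_left _ _ (h j hj ρ t)
  · have h2 := hc j hj _ _ (wdg_mem_M (F := F) hmem (j := j) (s := d (j + 1))
      (v := fun i => τ (j + 1) (Fin.cons i ρ)) (fun i => hmem _ _) t)
    have h3 : y * η * (-(c' j - c j) * wdg (τ j) (fun i => τ (j + 1) (Fin.cons i ρ)) t) =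
        (-η) * ((y * (c' j - c j)) * wdg (τ j) (fun i => τ (j + 1) (Fin.cons i ρ)) t) := by ring
    rw [h3]
    exact Ideal.mul_mem_left _ _ h2

end general

section pull

variable {ι : Type v} {W : Type u} [CommRing W] {V : ι → Type w} [∀ e, CommRing (V e)]
  {G : Type*} [AddCommGroup G] {n : ℕ}
  {π : ∀ e, W →+* V e} {F : ∀ e, RFam (V e) G}
  {τ : ∀ j : ℕ, (Fin j → Fin n) → W} {d : ℕ → G} {good : G → Prop} {η : W}

theorem eigNA_pull {X : Matrix (Fin n) (Fin n) W} {c : ℕ → W}
    (h : ∀ e, EigNA (F e) (fun j t => π e (τ j t)) d (π e η) (X.map (π e)) (fun j => π e (c j))) :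
    EigNA (RFam.pull π F) τ d η X c := by
  intro j hj ρ t
  refine (RFam.mem_pull_N).2 fun e => ?_
  have := h e j hj ρ t
  rw [map_mul, map_wdg]
  simpa [Matrix.map_apply] using this

end pull

end Vale.Agent.P177.PI

namespace Vale.Agent.P177.Full

open Vale.Agent.P202.Mix Vale.Agent.P177.Lev Vale.Agent.P177.SL WittVector Polynomial
open Vale.Agent.P177.Flag
open scoped ENNReal

universe u

theorem rt_eq_rt (p : ℕ) [Fact p.Prime] {C : Type u} [CommRing C] [CharP C p] [PerfectRing C p]
    (n : ℕ) (a : C) : rt p n a = PI.rt p n a := by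
  apply PI.pow_pow_inj p n
  rw [PI.rt_pow]
  exact rt_pow_self _ _ _ _

namespace Pkg

variable {p : ℕ} [Fact p.Prime] {k : Type u} [Field k] [CharP k p] {r : ℕ}
variable {Λ : Type u} [CommRing Λ] [IsLocalRing Λ] {ψ : Λ →+* WittVector p (Rp p k r)}
variable {Ω : Type u} [Field Ω] [Algebra Λ Ω] {s : ℕ} {b : Fin s → Ω} {F G : Fin s → Λ[X]}
    {D : ℕ} {ε : ℝ≥0∞} {Φ : ℕ → ℕ} (K : Pkg ψ b F G D ε Φ) {n : ℕ}

theorem XI_eq_xiM (C : Type u) [CommRing C] [Algebra (Rp p k r) C] (M : ℕ) :
    PI.XI p (tC p k r C) M = xiM p k r C M := by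
  rw [PI.XI, xiM, Ideal.span_insert]

/-- the relations at the level `e`, modulo `p ^ M`, `M p ^ j ≤ I + 1`. -/
theorem lRel (e : ULift.{u} ℕ) {M : ℕ} (hM : p ^ K.j e * M ≤ K.I e + 1) :
    PI.LRel p b (laW ψ (K.Ce e)) (fun l => K.c l e) (tC p k r (K.Ce e)) (K.η e) (K.j e) M where
  rel f hf := by
    rw [XI_eq_xiM]
    exact root_xi (K.te_reg e) (K.Θ e) (K.j e) (K.I e + 1) M hM _ ((K.lv e).rel f hf)
  dvd l hl := by
    obtain ⟨a, ha⟩ := (K.lv e).dvd l hl
    refine ⟨PI.rt p (K.j e) a, ?_⟩
    rw [← PI.rt_mul]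
    change rt p (K.j e) (K.Θ e) = _
    rw [rt_eq_rt]
    congr 1

/-- the ideals generated by the Pluecker coordinates at the level `e`. -/
def IJ (n : ℕ) (ix : ∀ j, (Fin j → Fin n) → Fin s) (e : ULift.{u} ℕ) : Fin n → Ideal (K.Ce e) :=
  PI.IdR n ix fun l => K.c l e

/-- the perfect ideals of the product ring. -/
def J (n : ℕ) (ix : ∀ j, (Fin j → Fin n) → Fin s) (z : Fin n → ℤ) : Ideal K.C :=
  PI.JP p (K.IJ n ix) z

/-- the graded family over the product ring. -/
noncomputable def fam (n : ℕ) (ix : ∀ j, (Fin j → Fin n) → Fin s) (N : ℕ) :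
    PI.RFam (WittVector p K.C) (Fin n → ℤ) :=
  PI.famP p (K.IJ n ix) (tC p k r K.C : ∀ e, K.Ce e) N

theorem isPerf_J (n : ℕ) (ix : ∀ j, (Fin j → Fin n) → Fin s) (z : Fin n → ℤ) :
    PI.IsPerf p (K.J n ix z) := PI.isPerf_JP p _ _

theorem fam_M (ix : ∀ j, (Fin j → Fin n) → Fin s) (N : ℕ) (z : Fin n → ℤ) :
    (K.fam n ix N).M z = PI.WI p (K.J n ix z) := PI.famP_M p _ _ _ _

theorem fam_N (ix : ∀ j, (Fin j → Fin n) → Fin s) (N : ℕ) (z : Fin n → ℤ) :
    (K.fam n ix N).N z = PI.XI p (tC p k r K.C) N * PI.WI p (K.J n ix z) :=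
  PI.famP_N p _ _ _ _

theorem prj_tauW (ix : ∀ j, (Fin j → Fin n) → Fin s) (e : ULift.{u} ℕ) (j : ℕ)
    (t : Fin j → Fin n) : PI.prj p K.Ce e (PI.tauW p n ix K.c j t) =
      PI.tauW p n ix (fun l => K.c l e) j t := by
  unfold PI.tauW
  split_ifs
  · rw [map_one]
  · rw [PI.prj_te]
  · rw [map_zero]

theorem prj_tev (e : ULift.{u} ℕ) (f : MvPolynomial (Fin s) Λ) :
    PI.prj p K.Ce e (PI.tev p (laW ψ K.C) K.c f) =
      PI.tev p (laW ψ (K.Ce e)) (fun l => K.c l e) f :=
  K.pr_eval₂ e f K.c

variable {R : Type u} [CommRing R] [Algebra Λ R] {L : Type u} [AddCommGroup L] [Module Λ L]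
  [Module R L] [IsScalarTower Λ R L] {bL : Module.Basis (Fin n) Λ L} {v : ℕ → Fin n → Ω}
  {σ : Fin n → R →ₐ[Λ] Ω} {ix : ∀ j, (Fin j → Fin n) → Fin s} {N : ℕ}

/-- **LEVGLUE**: the flag data over the product ring. -/
theorem fDataE (hfl : EigFlag bL v σ) (hN0 : 0 < N)
    (hN : ∀ e, N * p ^ K.j e * p ^ K.j e ≤ K.I e + 1)
    (hix : ∀ j, 1 ≤ j → j ≤ n → ∀ t : Fin j → Fin n, b (ix j t) = detT v j t) :
    PI.FDataE (K.fam n ix N) (PI.tauW p n ix K.c) (PI.dg n) (PI.gd n)
      (teichmuller p K.η ^ (2 * n + 1)) := by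
  have hp : 0 < p := (Fact.out : p.Prime).pos
  refine PI.fDataE_pull (fun x y h => PI.prj_ext p h) fun e => ?_
  have h1 := (K.lRel e (M := N * p ^ K.j e) (by rw [mul_comm]; exact hN e)).fDataE_flag p hfl
    (K.te_reg e) (by positivity) (N := N) le_rfl hix
  have h2 : (fun j t => PI.prj p K.Ce e (PI.tauW p n ix K.c j t)) =
      PI.tauW p n ix (fun l => K.c l e) := by
    funext j t
    exact K.prj_tauW ix e j t
  rw [h2, map_pow, PI.prj_te]
  exact h1

/-- **LEVGLUE**: the eigenvalue relations over the product ring. -/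
theorem eigNA (hfl : EigFlag bL v σ) (hN0 : 0 < N)
    (hN : ∀ e, N * p ^ K.j e * p ^ K.j e ≤ K.I e + 1)
    (hix : ∀ j, 1 ≤ j → j ≤ n → ∀ t : Fin j → Fin n, b (ix j t) = detT v j t)
    (x : R) (f : ℕ → MvPolynomial (Fin s) Λ)
    (hf : ∀ j (hj : j < n), MvPolynomial.aeval b (f j) = σ ⟨j, hj⟩ x) :
    PI.EigNA (K.fam n ix N) (PI.tauW p n ix K.c) (PI.dg n) (teichmuller p K.η ^ (2 * n + 1))
      ((actMat bL x).map (laW ψ K.C)) (fun j => PI.tev p (laW ψ K.C) K.c (f j)) := by
  have hp : 0 < p := (Fact.out : p.Prime).pos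
  refine PI.eigNA_pull fun e => ?_
  have h1 := (K.lRel e (M := N * p ^ K.j e) (by rw [mul_comm]; exact hN e)).eigNA_flag p hfl
    (K.te_reg e) (by positivity) (N := N) le_rfl hix x f hf
  have h2 : (fun j t => PI.prj p K.Ce e (PI.tauW p n ix K.c j t)) =
      PI.tauW p n ix (fun l => K.c l e) := by
    funext j t
    exact K.prj_tauW ix e j t
  have h3 : (fun j => PI.prj p K.Ce e (PI.tev p (laW ψ K.C) K.c (f j))) =
      fun j => PI.tev p (laW ψ (K.Ce e)) (fun l => K.c l e) (f j) := by
    funext j
    exact K.prj_tev e (f j)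
  have h4 : ((actMat bL x).map (laW ψ K.C)).map (PI.prj p K.Ce e) =
      (actMat bL x).map (laW ψ (K.Ce e)) := by
    ext i j : 1
    rw [Matrix.map_apply, Matrix.map_apply, Matrix.map_apply]
    exact K.pr_laW e _
  rw [h2, h3, h4, map_pow, PI.prj_te]
  exact h1

/-- **LEVGLUE**: the eigenvalue relations, for scalars `c' j` congruent to the polynomials. -/
theorem eigNA' (hfl : EigFlag bL v σ) (hN0 : 0 < N)
    (hN : ∀ e, N * p ^ K.j e * p ^ K.j e ≤ K.I e + 1)
    (hix : ∀ j, 1 ≤ j → j ≤ n → ∀ t : Fin j → Fin n, b (ix j t) = detT v j t)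
    (x : R) (f : ℕ → MvPolynomial (Fin s) Λ)
    (hf : ∀ j (hj : j < n), MvPolynomial.aeval b (f j) = σ ⟨j, hj⟩ x)
    (c' : ℕ → WittVector p K.C) (m : ℕ)
    (hc' : ∀ j < n, teichmuller p K.η ^ m * (c' j - PI.tev p (laW ψ K.C) K.c (f j)) ∈
      PI.XI p (tC p k r K.C) N) :
    PI.EigNA (K.fam n ix N) (PI.tauW p n ix K.c) (PI.dg n)
      (teichmuller p K.η ^ (m + (2 * n + 1))) ((actMat bL x).map (laW ψ K.C)) c' := by
  rw [pow_add]
  refine (K.eigNA hfl hN0 hN hix x f hf).congr (K.fDataE hfl hN0 hN hix).mem _ ?_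
  intro j hj z y hy
  rw [fam_N]
  rw [fam_M] at hy
  exact Ideal.mul_mem_mul (hc' j hj) hy

theorem fDataE' (hfl : EigFlag bL v σ) (hN0 : 0 < N)
    (hN : ∀ e, N * p ^ K.j e * p ^ K.j e ≤ K.I e + 1)
    (hix : ∀ j, 1 ≤ j → j ≤ n → ∀ t : Fin j → Fin n, b (ix j t) = detT v j t) (m : ℕ) :
    PI.FDataE (K.fam n ix N) (PI.tauW p n ix K.c) (PI.dg n) (PI.gd n)
      (teichmuller p K.η ^ (m + (2 * n + 1))) := by
  rw [pow_add]
  exact (K.fDataE hfl hN0 hN hix).mul_left _

theorem tauAt (e : ULift.{u} ℕ) (i : Fin n) :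
    PI.TauAt p (K.IJ n ix e) (fun j t => PI.prj p K.Ce e (PI.tauW p n ix K.c j t)) (PI.dg n)
      ((i : ℕ) + 1) i := by
  have h2 : (fun j t => PI.prj p K.Ce e (PI.tauW p n ix K.c j t)) =
      PI.tauW p n ix (fun l => K.c l e) := by
    funext j t
    exact K.prj_tauW ix e j t
  rw [h2]
  exact PI.tauAt p i

theorem colN (j : ℕ) (hj : j < n) :
    PI.ColN (K.fam n ix N) (PI.tauW p n ix K.c) (PI.dg n) (j + 1) (PI.sb n + PI.dg n j) :=
  PI.famP_colN p (fun e i => PI.fg_IdR i) (fun e => K.te_reg e) N j hj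
    fun e => K.tauAt e ⟨j, hj⟩

theorem skoN (j : ℕ) (hj : j < n) :
    PI.SkoN (K.fam n ix N) (PI.tauW p n ix K.c) (PI.dg n) j
      (PI.sb n + PI.dg n j - PI.dg n (j + 1)) := by
  refine PI.famP_skoN p (fun e i => PI.fg_IdR i) (fun e => K.te_reg e) N j hj
    (PI.tauW_zero p) fun e h => ?_
  obtain ⟨i, rfl⟩ : ∃ i, j = i + 1 := ⟨j - 1, by omega⟩
  exact K.tauAt e ⟨i, by omega⟩

end Pkg

end Vale.Agent.P177.Full
end

section

/-!
P177, inner assembly: the product of the cofactors of the Pluecker coordinates is, up to `[η]` and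
modulo `(p - [t], P)`, in `WI J`.
-/

namespace Vale.Agent.P177.Full

open TensorProduct IsLocalRing RingTheory.Sequence Function Module Vale.Agent.P177.Flag
  Vale.Agent.P202.Mix Vale.Agent.P177.Lev WittVector
open scoped ENNReal

universe u

namespace Pkg

variable {p : ℕ} [Fact p.Prime] {k : Type u} [Field k] [CharP k p] {r : ℕ}
variable {Λ : Type u} [CommRing Λ] [IsLocalRing Λ] {ψ : Λ →+* WittVector p (Rp p k r)}
variable {Ω : Type u} [Field Ω] [Algebra Λ Ω] {s : ℕ} {b : Fin s → Ω}
    {F G : Fin s → Polynomial Λ} {D : ℕ} {ε : ℝ≥0∞} {Φ : ℕ → ℕ} (K : Pkg ψ b F G D ε Φ) {n : ℕ}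

/-- products of the coordinates are in the ideals `J`. -/
theorem prod_mem_J (ix : ∀ j, (Fin j → Fin n) → Fin s) (z : Fin n → ℤ)
    (t : ∀ i : Fin n, Fin ((i : ℕ) + 1) → Fin n) :
    ∏ i, K.c (ix _ (t i)) ^ (z i).toNat ∈ K.J n ix z := by
  unfold J PI.JP
  rw [Ideal.mem_pi]
  intro e
  refine Perf.le_perfHull ?_
  rw [Finset.prod_apply]
  refine Ideal.prod_mem_prod fun i _ => ?_
  rw [Pi.pow_apply]
  have h1 : K.c (ix _ (t i)) e ∈ K.IJ n ix e i := Ideal.subset_span ⟨t i, rfl⟩
  exact Ideal.pow_mem_pow h1 _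

/-- the relation of the cofactors. -/
theorem exists_gam [IsDomain Λ] (cof : ∀ l, b l ≠ 0 → ∃ (f : Polynomial Λ) (γ : Λ), γ ≠ 0 ∧
      b l * Polynomial.aeval (b l) f = algebraMap Λ Ω γ)
    (ix : ∀ j, (Fin j → Fin n) → Fin s)
    (hix : ∀ i : Fin n, ∃ t : Fin ((i : ℕ) + 1) → Fin n, b (ix _ t) ≠ 0) (z : Fin n → ℤ) :
    ∃ (γ : Λ) (w : WittVector p K.C), γ ≠ 0 ∧ w ∈ PI.WI p (K.J n ix z) ∧
      ∀ m : ULift.{u} ℕ → ℕ, (∀ e, p ^ K.j e * m e ≤ K.I e + 1) →
        teichmuller p K.η * (laW ψ K.C γ - w) ∈ K.xiP m := by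
  choose t ht using hix
  choose f γ hγ hf using fun i => cof _ (ht i)
  let q : Fin n → MvPolynomial (Fin s) Λ := fun i =>
    MvPolynomial.X (ix _ (t i)) * Polynomial.toMvPolynomial (ix _ (t i)) (f i)
  let ev := MvPolynomial.eval₂Hom (laW ψ K.C) fun l => teichmuller p (K.c l)
  refine ⟨∏ i, γ i ^ (z i).toNat, ev (∏ i, q i ^ (z i).toNat), ?_, ?_, ?_⟩
  · exact Finset.prod_ne_zero_iff.2 fun i _ => pow_ne_zero _ (hγ i)
  · have h1 : ev (∏ i, q i ^ (z i).toNat) =
        ev (∏ i, (Polynomial.toMvPolynomial (ix _ (t i)) (f i)) ^ (z i).toNat) *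
          teichmuller p (∏ i, K.c (ix _ (t i)) ^ (z i).toNat) := by
      rw [map_prod, map_prod, map_prod, ← Finset.prod_mul_distrib]
      refine Finset.prod_congr rfl fun i _ => ?_
      rw [map_pow, map_pow, map_pow, ← mul_pow, mul_comm]
      congr 1
      change ev (_ * _) = _
      rw [map_mul, MvPolynomial.coe_eval₂Hom, MvPolynomial.eval₂_X]
    rw [h1]
    exact Ideal.mul_mem_left _ _ (PI.te_mem_WI p (K.prod_mem_J ix z t))
  · intro m hm
    have h1 := K.η_rel hm (MvPolynomial.C (∏ i, γ i ^ (z i).toNat) - ∏ i, q i ^ (z i).toNat) (by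
      rw [map_sub, MvPolynomial.aeval_C, map_prod, map_prod, sub_eq_zero]
      refine Finset.prod_congr rfl fun i _ => ?_
      rw [map_pow, map_pow]
      congr 1
      change _ = MvPolynomial.aeval b (_ * _)
      rw [map_mul, MvPolynomial.aeval_X, ← hf i]
      congr 1
      rw [MvPolynomial.aeval_toMvPolynomial])
    have h2 : MvPolynomial.eval₂ (laW ψ K.C) (fun l => teichmuller p (K.c l))
        (MvPolynomial.C (∏ i, γ i ^ (z i).toNat) - ∏ i, q i ^ (z i).toNat) =
        laW ψ K.C (∏ i, γ i ^ (z i).toNat) - ev (∏ i, q i ^ (z i).toNat) := by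
      rw [MvPolynomial.eval₂_sub, MvPolynomial.eval₂_C]
      rfl
    rw [h2] at h1
    exact h1

end Pkg

namespace Core

variable {p : ℕ} [Fact p.Prime] {R : Type u} [CommRing R] [IsRegularLocalRing R]
    [CharP (ResidueField R) p] [PerfectRing (ResidueField R) p] {d : ℕ} {P : Ideal R}
    {hs : List R} {r : ℕ} [IsRegularLocalRing (Lam p (ResidueField R) r)]
    [Algebra (Lam p (ResidueField R) r) R] {Ω : Type u} [Field Ω]
    [Algebra (Lam p (ResidueField R) r) Ω] {F : Fin 2 → FlagMod (Lam p (ResidueField R) r) Ω hs}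
    (X : Core p d P hs r Ω F)

/-- the relation of the cofactors. -/
theorem exists_gam (i : Fin 2) (z : Fin (F i).n → ℤ) :
    ∃ (γ : Lam p (ResidueField R) r) (w : WittVector p X.K.C), γ ≠ 0 ∧
      w ∈ PI.WI p (X.K.J (F i).n (X.pl i) z) ∧
      ∀ m : ULift.{u} ℕ → ℕ, (∀ e, p ^ X.K.j e * m e ≤ X.K.I e + 1) →
        teichmuller p X.K.η * (laW X.ψ X.K.C γ - w) ∈ X.K.xiP m := by
  have hdom : IsDomain (Lam p (ResidueField R) r) := regular_isDomain _
  refine X.K.exists_gam X.cof (X.pl i) (fun j => ?_) z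
  obtain ⟨t, ht⟩ := (F i).flag.exists_detT_ne_zero ((j : ℕ) + 1) j.2
  refine ⟨t, ?_⟩
  rw [X.pl_spec i _ j.2]
  exact ht

end Core

end Vale.Agent.P177.Full
end
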