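import Mathlib
import Vale.Agent.P177.Bd4.B13
import Vale.Agent.P177.Bd4.B6
import Vale.Agent.P177.Bd4.B1
import Vale.Agent.P177.Bd4.B12
import Vale.Agent.P177.Bd4.B7
import Vale.Agent.P177.Bd4.B9
import Vale.Agent.P177.Bd4.B11
import Vale.Agent.P177.Bd4.B8
import Vale.Agent.P177.Bd4.B4
attribute [-instance] DenselyNormedField.toNontriviallyNormedField RCLike.toDenselyNormedField DenselyNormedField.toNormedField NontriviallyNormedField.toNormedField NormedField.toNormedDivisionRing littleWedderburn NormedDivisionRing.toDivisionRing NormedField.toField KleeneAlgebra.toIdemSemiring SemiRingCat.instSemiringObjForgetRingHomCarrier CommCStarAlgebra.toNormedCommRing NormedField.toNormedCommRing CommCStarAlgebra.toCStarAlgebra CStarAlgebra.toNormedRing NormedCommRing.toNormedRing NormedDivisionRing.toNormedRing BooleanRing.toRing NormedCommRing.toSeminormedCommRing NormedRing.toSeminormedRing SeminormedCommRing.toSeminormedRing Field.toEuclideanDomain BooleanRing.toCommRing EuclideanDomain.toCommRing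 NormedCommRing.toCommRing SeminormedCommRing.toCommRing NormedRing.toRing SeminormedRing.toRing CommCStarAlgebra.toNonUnitalCommCStarAlgebra NonUnitalCommCStarAlgebra.toNonUnitalNormedCommRing NormedCommRing.toNonUnitalNormedCommRing CStarAlgebra.toNonUnitalCStarAlgebra NonUnitalCommCStarAlgebra.toNonUnitalCStarAlgebra NonUnitalCStarAlgebra.toNonUnitalNormedRing NonUnitalNormedCommRing.toNonUnitalNormedRing NormedRing.toNonUnitalNormedRing CommRing.toAddCommGroupWithOne CommSemiring.toNonAssocCommSemiring NonAssocCommRing.toNonAssocCommSemiring NonAssocCommSemiring.toNonAssocSemiring LeftPreLieRing.instLieAdmissibleRing RightPreLieRing.instLieAdmissibleRing AddCommGroupWithOne.toAddCommMonoidWithOne NonUnitalNormedCommRing.toNonUnitalSeminormedCommRing SeminormedCommRing.toNonUnitalSeminormedCommRing NonUnitalNormedRing.toNonUnitalSeminormedRing NonUnitalSeminormedCommRing.toNonUnitalSeminormedRing SeminormedRing.toNonUnitalSeminormedRing LeftPreLieRing.toNonUnitalNonAssocRing LieAdmissibleRing.toNonUnitalNonAssocRing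 RightPreLieRing.toNonUnitalNonAssocRing NonUnitalNormedCommRing.toNonUnitalCommRing NonUnitalSeminormedCommRing.toNonUnitalCommRing NonUnitalNormedRing.toNonUnitalRing NonUnitalSeminormedRing.toNonUnitalRing Ring.toNonUnitalRing NonAssocCommRing.toNonUnitalNonAssocCommRing LinearOrderedAddCommGroupWithTop.instLinearOrderedAddCommMonoidWithTop NonUnitalRing.toNonUnitalNonAssocRing LinearOrderedAddCommGroupWithTop.toAddCommMonoid NonAssocCommSemiring.toNonUnitalNonAssocCommSemiring NonUnitalNonAssocCommSemiring.toNonUnitalNonAssocSemiring NonUnitalSemiring.toNonUnitalNonAssocSemiring CommSemiRingCat.FilteredColimits.colimitCommSemiring AddCommMonCat.FilteredColimits.colimitAddCommMonoid TopologicalSpace.Compacts.instSetLike CategoryTheory.CommGrpObj.toGrpObj CategoryTheory.Preadditive.instGrpObj CategoryTheory.CommGrpObj.mk AddCommGroupWithOne.toAddGroupWithOne NonUnitalNormedRing.toNormedAddCommGroup LinearOrderedAddCommGroupWithTop.toSubNegMonoid CategoryTheory.BimonObj.toMonObj CategoryTheory.CommRingObj.toRingObj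 CategoryTheory.GrpObj.toMonObj CategoryTheory.HopfObj.toBimonObj CategoryTheory.RingObj.toMonObj MonTypeEquivalenceMon.monMonoid NormedCommGroup.toNormedGroup NormedCommGroup.toSeminormedCommGroup NormedGroup.toSeminormedGroup SeminormedCommGroup.toSeminormedGroup MulSemiringAction.toDistribMulAction instCommGroupOfIsSimpleGroupOfIsNilpotent CommGroup.toGroup CommGrpTypeEquivalenceCommGrp.commGrpCommGroup GrpTypeEquivalenceGrp.grpGroup NormedCommGroup.toCommGroup NormedGroup.toGroup SeminormedCommGroup.toCommGroup SeminormedGroup.toGroup LieAdmissibleRing.instLieRing BoxIntegral.Box.instMembershipForallReal LieRing.toAddCommGroup Bialgebra.toAlgebra NormedAlgebra.toAlgebra NormedAddCommGroup.toNormedAddGroup CommSemiring.toBialgebra CommSemiring.toHopfAlgebra HopfAlgebra.toHopfAlgebraStruct HopfAlgebraStruct.toBialgebra ContDiffMapSupportedInClass.toDFunLike RKHS.instFunLike TestFunctionClass.toDFunLike Complex.instRCLike NonUnitalSeminormedRing.toSeminormedAddCommGroup NormedAddCommGroup.toSeminormedAddCommGroup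 SemiNormedGrp.str instDistribSMul LinearOrderedCommGroupWithZero.toLinearOrderedCommMonoidWithZero LinearOrderedCommGroupWithZero.toCommGroupWithZero CommGroupWithZero.toGroupWithZero instSMulZeroClass SSet.stdSimplex.instFunLikeObjOppositeSimplexCategoryMkOpFinHAddNatOfNat NormedAddGroup.toSeminormedAddGroup SeminormedAddCommGroup.toSeminormedAddGroup MonCat.monoidObj instNonUnitalCStarAlgebraForall AddCommGroupWithOne.toAddCommGroup NormedAddCommGroup.toAddCommGroup SeminormedAddCommGroup.toAddCommGroup CompleteAtomicBooleanAlgebra.toCompletelyDistribLattice LinearOrderedCommMonoidWithZero.toCommMonoidWithZero SemigroupWithZero.toMulZeroClass NonUnitalNormedRing.toMetricSpace NormedAddCommGroup.toMetricSpace NormedAddGroup.toMetricSpace NormedCommGroup.toMetricSpace NormedDivisionRing.toMetricSpace NormedField.toMetricSpace NormedGroup.toMetricSpace NormedRing.toMetricSpace TopologicalSpace.UpgradedIsCompletelyMetrizableSpace.toMetricSpace CompleteBooleanAlgebra.toCompleteDistribLattice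 CompletelyDistribLattice.toCompleteDistribLattice NormedAddGroup.toAddGroup SeminormedAddGroup.toAddGroup Action.instMulAction Torsor.toMulAction Action.FintypeCat.instMulActionObjFiniteOf GradedMonoid.GradeZero.mulAction EMetricSpace.toPseudoEMetricSpace IsValuativeTopology.instValuedValueGroupWithZeroOfIsUniformAddGroup MetricSpace.toEMetricSpace MetricSpace.toPseudoMetricSpace NonUnitalSeminormedRing.toPseudoMetricSpace PseudoEMetricSpace.toUniformSpace PseudoMetricSpace.toPseudoEMetricSpace PseudoMetricSpace.toUniformSpace SeminormedAddCommGroup.toPseudoMetricSpace SeminormedAddGroup.toPseudoMetricSpace SeminormedCommGroup.toPseudoMetricSpace SeminormedGroup.toPseudoMetricSpace SeminormedRing.toPseudoMetricSpace UniformSpace.toTopologicalSpace UpgradedStandardBorel.toTopologicalSpace Valued.toUniformSpace WithIdeal.instTopologicalSpace WithIdeal.instUniformSpace TopologicalSpace.UpgradedIsCompletelyPseudoMetrizableSpace.toPseudoMetricSpace RingCat.FilteredColimits.colimitRing CompleteBooleanAlgebra.toBooleanAlgebra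 CompleteDistribLattice.toCoframe CompleteDistribLattice.toFrame CategoryTheory.Limits.Concrete.instUniqueToTypeTerminal LeftPreLieAlgebra.toModule LieAdmissibleAlgebra.toModule LieAlgebra.toModule NormedSpace.toModule RightPreLieAlgebra.toModule BooleanAlgebra.toBiheytingAlgebra CompleteDistribLattice.toBiheytingAlgebra CompleteLinearOrder.toBiheytingAlgebra CompletelyDistribLattice.toBiheytingAlgebra Order.Coframe.toCompleteLattice Order.Frame.toCompleteLattice BooleanAlgebra.toGeneralizedBooleanAlgebra BiheytingAlgebra.toCoheytingAlgebra BiheytingAlgebra.toHeytingAlgebra Order.Coframe.toCoheytingAlgebra Order.Frame.toHeytingAlgebra Pi.instTopForall AddOpposite.instAddZero CoheytingAlgebra.toGeneralizedCoheytingAlgebra GeneralizedBooleanAlgebra.toGeneralizedCoheytingAlgebra HeytingAlgebra.toGeneralizedHeytingAlgebra SubfieldClass.toNormedField instConditionallyCompletePartialOrderSup ChainCompletePartialOrder.instOfCompleteLattice ChainCompletePartialOrder.instOmegaCompletePartialOrder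 ChainCompletePartialOrder.toPartialOrder CompletePartialOrder.toOmegaCompletePartialOrder OmegaCompletePartialOrder.toPartialOrder CommMonTypeEquivalenceCommMon.commMonCommMonoid instNonUnitalAlgHomClassOfNonUnitalAlgEquivClass instSubsingleton Group.IsPerfect.subsingleton_of_isMulCommutative BooleanAlgebra.toDistribLattice ConditionallyCompletePartialOrderInf.toPartialOrder GeneralizedBooleanAlgebra.toDistribLattice GeneralizedCoheytingAlgebra.toDistribLattice GeneralizedCoheytingAlgebra.toLattice GeneralizedHeytingAlgebra.toDistribLattice GeneralizedHeytingAlgebra.toLattice Order.Coframe.toDistribLattice Order.Frame.toDistribLattice IsEmpty.instSubsingleton ProfiniteAddGrp.addGroup TopRep.hV1 CompleteLinearOrder.toLinearOrder ConditionallyCompleteLinearOrder.toLinearOrder LinearOrderedAddCommGroupWithTop.toLinearOrder LinearOrderedCommMonoidWithZero.toLinearOrder CentroidHomClass.toAddMonoidHomClass MulSemiringActionSemiHomClass.toDistribMulActionSemiHomClass OrderAddMonoidHom.instAddMonoidHomClass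 BialgEquivClass.toBialgHomClass CategoryTheory.instFinCategoryOfFintypeOfIsThin FinEnum.instFintype SetLike.instFintype Unique.fintype CategoryTheory.FinCategory.fintypeObj Pi.normedAddCommGroup OrderDual.instDivisionSemiring Quaternion.instDivisionRing AbsoluteValue.zeroHomClass ValuationClass.toMonoidWithZeroHomClass Pi.normedRing Pi.mulZeroOneClass AddHom.addHomClass MulEquivClass.toMonoidWithZeroHomClass MulRingSeminormClass.toMonoidWithZeroHomClass Pi.mulOneClass AlgHom.instContinuousLinearMapClassOfAlgHomClass BialgHomClass.toCoalgHomClass CoalgEquivClass.toCoalgHomClass CoalgHomClass.toSemilinearMapClass ContinuousSemilinearEquivClass.continuousSemilinearMapClass ContinuousSemilinearMapClass.toSemilinearMapClass PositiveLinearMap.instContinuousLinearMapClassComplexOfLinearMapClassOfOrderHomClass RingHomClass.toLinearMapClassNNRat RingHomClass.toLinearMapClassRat SemilinearIsometryClass.toContinuousSemilinearMapClass SemilinearIsometryClass.toSemilinearMapClass AlgHomClass.linearMapClass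 NonUnitalAlgHomClass.instSemilinearMapClassOfNonUnitalAlgSemiHomClassToMonoidHomRingHom CompleteLattice.toPartialOrder' PadicComplex.normedField BialgEquivClass.toCoalgEquivClass NumberField.to_charZero StarSubalgebra.commCStarAlgebra StarSubalgebra.cstarAlgebra SubalgebraClass.normedRing SubringClass.toNormedCommRing SubringClass.toNormedRing SemilinearIsometryEquivClass.toSemilinearIsometryClass NonUnitalRing.toNonUnitalSemiring CategoryTheory.Abelian.toPreadditive Pi.nonUnitalNonAssocSemiring AlgebraicGeometry.Scheme.instPreorderCarrierCarrierCommRingCat AddMonCat.addMonoidObj PartOrdEmb.str Invertible.toNeZero Nat.AtLeastTwo.toNeZero LinearOrderedAddCommGroupWithTop.toSubtractionMonoid boolToProp CompleteLinearOrder.toCompleteLattice RightPreLieAlgebra.instLieAdmissibleAlgebra Nat.instNontrivial MonoidWithZero.toMulActionWithZero Fin.completeLinearOrder CommRing.toGrindCommRing Field.toGrindField CategoryTheory.Mat_.fintype Pi.nonUnitalSemiring Turing.FinTM2.decidableEqK Fin.instBiheytingAlgebra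 MulSemiringAction.toMulDistribMulAction MulActionWithZero.toMulAction MulDistribMulAction.toMulAction ENormedCommMonoid.toESeminormedCommMonoid NormedCommGroup.toENormedCommMonoid Pi.addMonoidWithOne BialgHomClass.toAlgHomClass OrderDual.instPow_1 instInhabitedOfMonad Pi.distribSMul' Pi.mulZeroClass instIsDedekindDomainOfIsDomainOfIsDedekindRing DivisionRing.isDomain EuclideanDomain.instIsDomain Field.isDomain IsDedekindDomain.toIsDomain IsDedekindDomainDvr.isDedekindDomain IsStrictOrderedRing.isDomain Std.DTreeMap.Raw.instSingletonSigma FirstOrder.Language.instDecidableEqFunctions FirstOrder.Language.instDecidableEqRelations FinEnum.decEq FunLike.toDecidableEq RCLike.toDecidableEq decidableEq_of_subsingleton LeftPreLieAlgebra.toIsScalarTower LieAdmissibleAlgebra.toIsScalarTower LieRinehartAlgebra.toIsScalarTower RightPreLieAlgebra.toIsScalarTower OrderRingHom.instRingHomClass MulOpposite.instMulOne LeftPreLieAlgebra.toSMulCommClass LieAdmissibleAlgebra.toSMulCommClass RightPreLieAlgebra.toSMulCommClass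 Ideal.Quotient.normedCommRing TensorProduct.instModuleFstSnd AddCommMonoidWithOne.toAddCommMonoid CategoryTheory.instBraidedCategoryType CommGroupWithZero.toCommMonoidWithZero NeZero.of_gt' AddCancelCommMonoid.toAddCommMonoid ESeminormedAddCommMonoid.toAddCommMonoid ENormedAddCommMonoid.toESeminormedAddCommMonoid NormedAddCommGroup.toENormedAddCommMonoid AddCancelCommMonoid.toAddCancelMonoid AddCancelMonoid.toAddLeftCancelMonoid AddLeftCancelMonoid.toAddMonoid AddRightCancelMonoid.toAddMonoid ENormedAddCommMonoid.toENormedAddMonoid ENormedAddMonoid.toESeminormedAddMonoid ESeminormedAddCommMonoid.toESeminormedAddMonoid ESeminormedAddMonoid.toAddMonoid NormedAddGroup.toENormedAddMonoid Nat.Prime.one_lt' instRingHomSurjectiveForallEvalRingHom Ring.toGrindRing SubfieldClass.toDivisionRing SubfieldClass.toField CommSemiring.toGrindCommSemiring Semiring.toGrindSemiring LeftPreLieAlgebra.instLieAdmissibleAlgebra LieAdmissibleAlgebra.instLieAlgebra LieAlgebra.ofAssociativeAlgebra AddQuantale.instAddLeftMono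 AlgEquivClass.toAlgHomClass instMulActionSemiHomClassMulActionHom Fin.instCoheytingAlgebra Fin.instHeytingAlgebra Torsor.nonempty CategoryTheory.IsConnected.is_nonempty CommMonCat.str Field.instIsLocalRing IsOrderedRing.toIsStrictOrderedRing ValuationRing.isLocalRing LinearOrder.toLattice instInfiniteOfUncountable instNontrivialOfCharZero CategoryTheory.isConnected_of_nonempty_and_subsingleton CharZero.infinite Denumerable.instInfinite DivisionRing.toNontrivial EuclideanDomain.toNontrivial Group.instTorsor GroupWithZero.toNontrivial Infinite.instNontrivial IsAlgClosed.instInfinite IsSimpleAddGroup.toNontrivial IsSimpleGroup.toNontrivial IsSimpleOrder.toNontrivial IsSimpleRing.instNontrivial IsStrictOrderedRing.toNontrivial LinearOrderedAddCommGroupWithTop.toNontrivial NoMaxOrder.infinite NoMinOrder.infinite NontriviallyNormedField.infinite NormedAddTorsor.toAddTorsor SeminormedAddCommGroup.toNormedAddTorsor CategoryTheory.Groupoid.toCategory CategoryTheory.IsSifted.instIsConnected CategoryTheory.StrictBicategory.category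 FirstOrder.Language.instInfiniteOfModelDloOrderOfNonempty SemilatSupCat.isSemilatticeSup Pi.commMagma RCLike.toInnerProductSpaceReal Pi.instBotForall NonUnitalAlgHomClass.toNonUnitalRingHomClass SubalgebraClass.seminormedRing SubringClass.toSeminormedCommRing SubringClass.toSeminormedRing Monoid.End.instMonoidHomClass instSMulCommClassOfIsScalarTower instCharZeroOfIsSemireal IsStrictOrderedRing.toCharZero RCLike.charZero_rclike instIsSemirealOfIsStrictOrderedRingOfExistsAddOfLE IsRealClosed.toIsSemireal DivisionRing.toDivisionSemiring Real.instRCLike SubfieldClass.toSubringClass instFiniteProp NonAssocRing.toAddCommGroupWithOne SetLike.GradeZero.instCommSemiring AddCommGroup.toGrindIntModule CompleteSemilatticeInf.toPartialOrder MulZeroClass.toSMulWithZero SetLike.GradeZero.instSemiring AddCommMonoid.toGrindNatModule CancelCommMonoid.toCancelMonoid CommGroup.toCancelCommMonoid Group.toCancelMonoid Pi.subtractionMonoid CancelCommMonoid.toLeftCancelMonoid CancelMonoid.toLeftCancelMonoid CommGroup.toDivisionCommMonoid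 DivisionRing.toDivInvMonoid Group.toDivisionMonoid GroupWithZero.toDivisionMonoid Pi.smulZeroClass' Semigrp.str Nontrivial.to_nonempty Unique.instInhabited bot_nonempty infSet_to_nonempty supSet_to_nonempty top_nonempty ConnectedSpace.toNonempty IrreducibleSpace.toNonempty One.instNonempty Zero.instNonempty Preorder.smallCategory CategoryTheory.IsSifted.isSifted_of_hasBinaryCoproducts_and_nonempty SaturatedAddSubmonoid.instAddSubmonoidClass PositiveLinearMap.instInnerProductSpaceComplexPreGNS AlgebraicGeometry.instOrderTopCarrierCarrierCommRingCatOfIsIntegral BialgHomClass.toMonoidHomClass MulCharClass.toMonoidHomClass MulDistribMulActionSemiHomClass.toMonoidHomClass Semifield.toCommGroupWithZero Pi.addZeroClass SetLike.GradeZero.instCommRing SubringClass.toRing SetLike.GradeZero.instRing FloorSemiring.instCharZero AbsoluteValue.mulHomClass Ideal.Quotient.semiNormedCommRing CompleteAtomicBooleanAlgebra.toCompleteBooleanAlgebra CompleteLinearOrder.toConditionallyCompleteLinearOrderBot ConditionallyCompleteLinearOrderBot.toConditionallyCompleteLinearOrder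 CompleteBooleanAlgebra.toCompleteLattice ConditionallyCompletePartialOrder.toConditionallyCompletePartialOrderInf OneHom.oneHomClass NonUnitalCommRing.toNonUnitalRing RingConeClass.toSubsemiringClass LinearOrderedAddCommMonoidWithTop.toLinearOrder RootedTree.orderBot CancelCommMonoid.toCommMonoid CancelMonoid.toRightCancelMonoid CommGroup.toCommMonoid DivInvOneMonoid.toDivInvMonoid DivisionCommMonoid.toCommMonoid DivisionMonoid.toDivInvMonoid ENormedCommMonoid.toENormedMonoid ENormedMonoid.toESeminormedMonoid ESeminormedCommMonoid.toCommMonoid ESeminormedCommMonoid.toESeminormedMonoid ESeminormedMonoid.toMonoid LeftCancelMonoid.toMonoid NormedGroup.toENormedMonoid RightCancelMonoid.toMonoid GradedMonoid.GradeZero.commMonoid MulZeroClass.negZeroClass MulSemiringActionSemiHomClass.toRingHomClass Pi.instMaxForall_mathlib SimpleGraph.TripartiteFromTriangles.graph.instDecidableRelAdj ConvexCone.instAddMemClass Semiring.toNonUnitalSemiring DivisionSemiring.toGroupWithZero GroupWithZero.toMonoidWithZero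 Nat.instAtLeastTwoHAddOfNat Pi.distribMulAction' Algebra.TensorProduct.right_isScalarTower TensorProduct.isScalarTower_right SubsemiringClass.toSemiring SubringClass.toNegMemClass Pi.addCommMagma CompleteSemilatticeSup.toPartialOrder IdemCommSemiring.toIdemSemiring NonUnitalAlgSemiHomClass.toDistribMulActionSemiHomClass CommMonoidWithZero.toCommMonoid DivInvMonoid.toMonoid Group.toDivInvMonoid LinOrd.str AddQuantale.instAddRightMono Quantale.instMulRightMono InvOneClass.toOne One.ofOfNat1 UnitalShelf.toOne Fin.addCommGroup BooleanAlgebra.toBot GeneralizedBooleanAlgebra.toBot Fin.addCommMonoid BooleanAlgebra.toBoundedOrder BooleanAlgebra.toTop CoheytingAlgebra.toBoundedOrder CoheytingAlgebra.toOrderTop CompletePartialOrder.toSupSet CompleteSemilatticeSup.toSupSet ConditionallyCompleteLattice.toInfSet ConditionallyCompleteLattice.toSupSet ConditionallyCompleteLinearOrderBot.toOrderBot ConditionallyCompletePartialOrderSup.toSupSet GeneralizedBooleanAlgebra.toOrderBot GeneralizedCoheytingAlgebra.toOrderBot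 GeneralizedHeytingAlgebra.toOrderTop HeytingAlgebra.toBoundedOrder HeytingAlgebra.toOrderBot IdemSemiring.toOrderBot IrreducibleSpace.connectedSpace LinearOrderedAddCommGroupWithTop.toOrderTop LinearOrderedAddCommMonoidWithTop.toOrderTop LinearOrderedCommMonoidWithZero.toOrderBot NormedAddTorsor.toAddTorsor' PathConnectedSpace.connectedSpace RCLike.innerProductSpace ContractibleSpace.instOfNonemptyOfIndiscreteTopology ContractibleSpace.instOfNonemptyOfSubsingleton ContractibleSpace.instPathConnectedSpace Convex.instPathConnectedSpace Fin.instBoundedOrder Fin.instCommMonoid Fin.instNontrivial NormedSpace.instPathConnectedSpace RealTopologicalVectorSpace.contractibleSpace SimplyConnectedSpace.instPathConnectedSpace SimplyConnectedSpace.ofContractible DivisionRing.toNNRatCast DivisionRing.toRatCast DivisionSemiring.toNNRatCast AlgHom.instRingHomCompTripleComp NonUnitalNonAssocSemiring.toDistribSMul Algebra.TensorProduct.instNonAssocRing Algebra.TensorProduct.instNonUnitalRing TensorProduct.instNormedAddCommGroup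 Algebra.TensorProduct.instNonUnitalNonAssocRing instIsSemisimpleModuleOfIsSimpleModule instIsSemisimpleRingOfSubsingleton IsSemisimpleRing.isSemisimpleModule IsSimpleRing.instIsSemisimpleRing instIsSimpleModule SubringClass.toCommRing Module.FaithfullyFlat.of_isIntegral_of_isDomain Module.FaithfullyFlat.self Module.FaithfullyFlat.toFlat of_isDiscreteValuationRing ValuationRing.of_field TensorProduct.CompatibleSMul.int Pi.subNegMonoid Pi.subNegZeroMonoid ConditionallyCompleteLinearOrder.toConditionallyCompleteLattice CompleteLattice.toCompleteSemilatticeSup ConditionallyCompletePartialOrderSup.toPartialOrder instOfNatAtLeastTwo AddCommGroup.toAddCancelCommMonoid CompleteLattice.toCompleteSemilatticeInf LinearOrder.toDecidableEq LinearOrderedCommMonoidWithZero.toIsBotZeroClass Nat.instOne instMonadLiftT instMonadLiftTOfMonadLift Std.Time.WallTime.instHAddOffset_1 Vector.instHMul SMulMemClass.toModule SubmoduleClass.module' Quantale.instMulLeftMono Submodule.instIdemCommSemiring Pi.instMinForall_mathlib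 Set.instAddLeftMono BoundedOrder.toOrderTop RootedTree.semilatticeInf Pi.instCanonicallyOrderedAddForall instTopologicalSpaceFin Std.LinearOrderPackage.toLinearPreorderPackage Std.LinearPreorderPackage.toPreorderPackage Pi.nonAssocRing Algebra.TensorProduct.instCommRing Algebra.TensorProduct.instRing Algebra.TensorProduct.instCommSemiring Algebra.TensorProduct.instNonAssocSemiring CategoryTheory.instCategoryObj Algebra.TensorProduct.instNonUnitalSemiring Algebra.TensorProduct.instNonUnitalNonAssocSemiring Module.Flat.instOfIsDedekindDomainOfIsTorsionFree NumberField.instFiniteDimensional FiniteDimensional.finiteDimensional_quotient SubsemiringClass.toCommSemiring smoothSheafCommRing.instLocalRing_stalk ValuationRing.instOfIsLocalRingOfIsBezout AlgebraicGeometry.Scheme.component_nontrivial IsDedekindDomain.isDedekindDomainDvr IsDedekindDomain.toIsDedekindRing SetLike.instFinite Algebra.TensorProduct.instAddCommGroupWithOne CommRing.Pic.instFreeOfSubsingleton SubgroupClass.normedCommGroup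 SubgroupClass.normedGroup Subsingleton.to_isCancelMulZero instIsCancelMulZero instIsCancelMulZero_1 GCDMonoid.toIsCancelMulZero NoZeroDivisors.to_isCancelMulZero UniqueFactorizationMonoid.toIsCancelMulZero WithTop.linearOrderedAddCommMonoidWithTop Submodule.Quotient.normedAddCommGroup ConditionallyCompleteLattice.toConditionallyCompletePartialOrder ConditionallyCompletePartialOrder.toConditionallyCompletePartialOrderSup instDistribLatticeOfLinearOrder DistribLattice.toLattice SemilatticeInf.toPartialOrder SubringClass.toNonAssocCommRing SubringClass.toNonAssocRing Fin.instNonUnitalCommRing AddTorsor.nonempty Pi.nonUnitalNonAssocRing Zero.ofOfNat0 AddGroup.instAddTorsor CompleteSemilatticeInf.toInfSet CommBialgCat.instCommRingObjForgetBialgHomCarrier instFiniteCarrierToTopAndTotallyDisconnectedSpaceSecondCountableTopologyOfObj Pi.instIsRightCancelAdd forall_prop_decidable Array.instDecidableForallForallMemOfDecidablePred Finset.decidableDforallFinset Fintype.decidableForallFintype Multiset.decidableDforallMultiset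 Option.decidableForallMem Vector.instDecidableForallForallMemOfDecidablePred CommGroupWithZero.toDivisionCommMonoid DivisionCommMonoid.toDivisionMonoid GroupWithZero.toDivInvMonoid -- iprune

set_option linter.all false

section

/-!
P177, inner assembly, part A: the Euler characteristic of the honest module `L ⊗ J^#` is the sum
of the Euler characteristics of the honest modules `H j` of the eigencharacters.
-/

namespace Vale.Agent.P177.Full

open TensorProduct Vale.Agent.P202.Mix Vale.Agent.P177.Flag Vale.Agent.P177.PI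
  Vale.Agent.P177.Ap Vale.Agent.P177.TH
open scoped ENNReal

universe u v w

variable {R Λ L Y : Type u} [CommRing R] [CommRing Λ] [Algebra Λ R] [AddCommGroup L]
  [Module R L] [Module Λ L] [IsScalarTower Λ R L] [AddCommGroup Y] [Module Λ Y] {n : ℕ}
  (b : Module.Basis (Fin n) Λ L)
  {W : Type w} [CommRing W] {G : Type v} [AddCommGroup G]
  {F : RFam W G} {τ : ∀ j : ℕ, (Fin j → Fin n) → W} {dg : ℕ → G} {good : G → Prop} {η : W}
  {D B : Type u} [CommRing D] [CommRing B] [Algebra D B] {α : D} {LD : AddLen D}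

/-- The flag formula for honest modules: `VL = L ⊗ J^#`, `H j` the honest module of the `j`-th
eigencharacter. -/
theorem chi_flag (k : ℕ) (iR : R →+* D) (iW : W →+* D) (ψ : Λ →+* W)
    (hgen : ∀ y : D, y ∈ AddSubgroup.closure {z : D | ∃ (r : R) (a : W), z = iW a * iR r})
    -- TH
    (HB : IsHypersurface D B α) (hη : EtaNull LD (iW η)) {m : ℕ} (hm : 1 ≤ m)
    (A : Type u) [AddCommGroup A] [Module D A] [Module B A] [IsScalarTower D B A]
    (hA : ∀ i, FPn B i A) (nn s' : ℕ) (hs' : s' + 1 ≤ nn) (hVn : Vn D B s' A)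
    -- flag data
    (h : FDataE F τ dg good η) (hn : 0 < n) {s : G}
    (hs : good s) (hs1 : ∀ j < n, good (s + dg j - dg (j + 1)))
    (hs2 : ∀ j < n, good (s - dg (j + 1)))
    (hcol : ∀ j < n, ColN F τ dg (j + 1) (s + dg j))
    (hsko : ∀ j < n, SkoN F τ dg j (s + dg j - dg (j + 1)))
    (eY : Y ≃+ Gr F s) (hY : ∀ (a : Λ) (y : Y), eY (a • y) = ψ a • eY y)
    -- the modules `X` and `VL`
    {X : Type u} [AddCommGroup X] [Module D X] (hq : ∀ x : X, α ^ (m + 1) • x = 0)
    (eX : Y ⊗[Λ] L ≃+ X)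
    (heXR : ∀ (r : R) (y : Y) (l : L), eX (y ⊗ₜ (r • l)) = iR r • eX (y ⊗ₜ l))
    (heXW : ∀ (a : W) (y : Y) (l : L), eX (eY.symm (a • eY y) ⊗ₜ l) = iW a • eX (y ⊗ₜ l))
    {VL : Type u} [AddCommGroup VL] [Module D VL]
    (hVL : ∃ k : ℕ, ∀ v : VL, α • v = 0 → iW η ^ k • v = 0)
    (hVLfin : ∀ i, LD.len (TorM D i VL A) < ⊤) (fL : VL →ₗ[D] X) (hfL : Function.Surjective fL)
    (hkerL : ∀ v, fL v = 0 ↔ ∃ w, v = α ^ (m + 1) • w)
    -- the eigencharacters
    (c : R → ℕ → W) (hEig : ∀ r, EigNA F τ dg η ((actMat b r).map ψ) (c r))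
    (N : ℕ → Type u) [∀ j, AddCommGroup (N j)] [∀ j, Module D (N j)]
    (π : ∀ j, Gr F (s + dg j - dg (j + 1)) →+ N j)
    (hπ : ∀ j < n, ∀ m : N j, ∃ g, π j g = iW η ^ k • m)
    (hπ0 : ∀ j < n, ∀ x, π j x = 0 → η ^ k • x = 0)
    (hπW : ∀ j < n, ∀ (a : W) (x), π j (a • x) = iW a • π j x)
    (hπR : ∀ j < n, ∀ (r : R) (x), π j (c r j • x) = iR r • π j x)
    (H : ℕ → Type u) [∀ j, AddCommGroup (H j)] [∀ j, Module D (H j)]
    (hH : ∀ j < n, ∃ k : ℕ, ∀ v : H j, α • v = 0 → iW η ^ k • v = 0)
    (hHfin : ∀ j < n, ∀ i, LD.len (TorM D i (H j) A) < ⊤) (f : ∀ j, H j →ₗ[D] N j)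
    (hf : ∀ j < n, Function.Surjective (f j))
    (hker : ∀ j < n, ∀ v, f j v = 0 ↔ ∃ w, v = α ^ (m + 1) • w) :
    TH.chi LD nn VL A = ∑ j ∈ Finset.range n, TH.chi LD nn (H j) A := by
  have Θ := isTheta (B := B) (α := α) (L := LD) (η := iW η) HB hη hm A hA nn s' hs' hVn
  have h1 := fun j hj => theta_trunc (B := B) (α := α) (L := LD) (η := iW η) HB hη (m := m) A hA nn (hH j hj)
    (hHfin j hj) (f j) (hf j hj) (hker j hj)
  have h2 := theta_trunc (B := B) (α := α) (L := LD) (η := iW η) HB hη (m := m) A hA nn hVL hVLfin fL hfL hkerL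
  have h3 := theta_tensor b k iR iW ψ hgen Θ h hn hs hs1 hs2 hcol hsko eY hY hq eX heXR heXW
    c hEig N (fun j hj => (h1 j hj).1) (fun j hj x => by
      obtain ⟨v, rfl⟩ := hf j hj x
      rw [← map_smul]
      exact (hker j hj _).2 ⟨v, rfl⟩) π hπ hπ0 hπW hπR
  rw [← h2.2]
  refine h3.2.trans (Finset.sum_congr rfl fun j hj => ?_)
  exact (h1 j (Finset.mem_range.1 hj)).2

end Vale.Agent.P177.Full
end

section

/-!
# P177, ARGLUE: products of powers of ideals generated by variables are monomial, universally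
-/

set_option linter.all false

namespace Vale.Agent.P177.AR

open scoped Pointwise

universe u

/-- the monomial with exponent `e`. -/
def mon {C : Type*} [CommRing C] {s : ℕ} (c : Fin s → C) (e : Fin s → ℕ) : C := ∏ j, c j ^ e j

theorem mon_add {C : Type*} [CommRing C] {s : ℕ} (c : Fin s → C) (e e' : Fin s → ℕ) :
    mon c (e + e') = mon c e * mon c e' := by
  unfold mon
  rw [← Finset.prod_mul_distrib]
  exact Finset.prod_congr rfl fun j _ => by rw [Pi.add_apply, pow_add]

theorem mon_zero {C : Type*} [CommRing C] {s : ℕ} (c : Fin s → C) : mon c 0 = 1 := by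
  simp [mon]

theorem mon_single {C : Type*} [CommRing C] {s : ℕ} (c : Fin s → C) (j : Fin s) :
    mon c (Pi.single j 1) = c j := by
  classical
  unfold mon
  rw [Finset.prod_eq_single j]
  · simp
  · intro i _ hi
    rw [Pi.single_eq_of_ne hi, pow_zero]
  · intro h
    exact absurd (Finset.mem_univ _) h

/-- universal monomial ideals. -/
def MonoGen {s : ℕ} (P : ∀ (C : Type u) [CommRing C], (Fin s → C) → Ideal C) : Prop :=
  ∃ S : Set (Fin s → ℕ), S.Finite ∧ ∀ (C : Type u) [CommRing C] (c : Fin s → C),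
    P C c = Ideal.span (mon c '' S)

theorem MonoGen.mul {s : ℕ} {P Q : ∀ (C : Type u) [CommRing C], (Fin s → C) → Ideal C}
    (hP : MonoGen P) (hQ : MonoGen Q) : MonoGen (fun C _ c => P C c * Q C c) := by
  obtain ⟨S, hS, h1⟩ := hP
  obtain ⟨T, hT, h2⟩ := hQ
  refine ⟨S + T, hS.add hT, fun C _ c => ?_⟩
  show P C c * Q C c = _
  rw [h1, h2, Ideal.span_mul_span']
  congr 1
  ext x
  constructor
  · rintro ⟨_, ⟨e, he, rfl⟩, _, ⟨e', he', rfl⟩, rfl⟩
    exact ⟨e + e', Set.add_mem_add he he', mon_add c e e'⟩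
  · rintro ⟨_, ⟨e, he, e', he', rfl⟩, rfl⟩
    exact ⟨_, ⟨e, he, rfl⟩, _, ⟨e', he', rfl⟩, (mon_add c e e').symm⟩

theorem MonoGen.one {s : ℕ} : MonoGen (fun (C : Type u) [CommRing C] (_ : Fin s → C) =>
    (1 : Ideal C)) := by
  refine ⟨{0}, Set.finite_singleton _, fun C _ c => ?_⟩
  show (1 : Ideal C) = _
  rw [Set.image_singleton, mon_zero, Ideal.span_singleton_one, Ideal.one_eq_top]

theorem MonoGen.pow {s : ℕ} {P : ∀ (C : Type u) [CommRing C], (Fin s → C) → Ideal C}
    (hP : MonoGen P) (n : ℕ) : MonoGen (fun C _ c => P C c ^ n) := by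
  induction n with
  | zero => simpa only [pow_zero] using MonoGen.one
  | succ n ih => simpa only [pow_succ] using ih.mul hP

theorem MonoGen.prod {s : ℕ} {ι : Type} (T : Finset ι)
    {P : ι → ∀ (C : Type u) [CommRing C], (Fin s → C) → Ideal C}
    (hP : ∀ i, MonoGen (P i)) : MonoGen (fun C _ c => ∏ i ∈ T, P i C c) := by
  classical
  induction T using Finset.induction_on with
  | empty => simpa only [Finset.prod_empty] using MonoGen.one
  | insert i T hi ih =>
    simpa only [Finset.prod_insert hi] using (hP i).mul ih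

theorem MonoGen.var {s : ℕ} {κ : Type} [Finite κ] (idx : κ → Fin s) :
    MonoGen (fun (C : Type u) [CommRing C] (c : Fin s → C) =>
      Ideal.span (Set.range fun t => c (idx t))) := by
  classical
  refine ⟨Set.range fun t => (Pi.single (idx t) 1 : Fin s → ℕ), Set.finite_range _,
    fun C _ c => ?_⟩
  show Ideal.span (Set.range fun t => c (idx t)) = _
  rw [← Set.range_comp]
  have h : (fun t => c (idx t)) = mon c ∘ fun t => Pi.single (idx t) 1 := by
    funext t
    exact (mon_single c _).symm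
  rw [h]

/-- enumeration of the generators. -/
theorem MonoGen.exists_fin {s : ℕ} {P : ∀ (C : Type u) [CommRing C], (Fin s → C) → Ideal C}
    (hP : MonoGen P) : ∃ (m : ℕ) (ee : Fin m → Fin s → ℕ),
      ∀ (C : Type u) [CommRing C] (c : Fin s → C),
        P C c = Ideal.span (Set.range fun l => mon c (ee l)) := by
  obtain ⟨S, hS, h⟩ := hP
  obtain ⟨m, ee, hee⟩ := hS.fin_param
  refine ⟨m, ee, fun C _ c => ?_⟩
  rw [h, ← hee.2, ← Set.range_comp]
  rfl

/-- products of powers of ideals generated by variables. -/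
theorem exists_mono_gen {s R : ℕ} {κ : Fin R → Type} [∀ i, Finite (κ i)]
    (idx : ∀ i, κ i → Fin s) (n : Fin R → ℕ) : ∃ (m : ℕ) (ee : Fin m → Fin s → ℕ),
      ∀ (C : Type u) [CommRing C] (c : Fin s → C),
        ∏ i, Ideal.span (Set.range fun t => c (idx i t)) ^ n i =
          Ideal.span (Set.range fun l => mon c (ee l)) :=
  (MonoGen.prod Finset.univ fun i => (MonoGen.var (idx i)).pow (n i)).exists_fin

end Vale.Agent.P177.AR
end

section

/-!
# P177, ARGLUE: almost Artin-Rees for the levels of block LEV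

`J = perfHull (∏ I_i ^ n_i)`, `I_i = (c_(idx i t))_t`, `Y = (t, u_1, .., u_r)`,
`η = Θ^(1/q)`, `q = p ^ j`: `η ^ w (J ∩ perfHull (Y ^ (K + c))) ⊆ perfHull (Y ^ K ∏ I_i ^ n_i)`.
-/

set_option linter.all false

namespace Vale.Agent.P177.AR

open TensorProduct Polynomial WittVector Vale.Agent.P177.PI Vale.Agent.P177.Perf
  Vale.Agent.P202.Mix Vale.Agent.P177.Lev
open scoped ENNReal

universe u

section rt

variable {p : ℕ} [hp : Fact p.Prime] {C : Type*} [CommRing C] [CharP C p] [PerfectRing C p]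

theorem rt_mul' (e : ℕ) (a b : C) : PI.rt p e (a * b) = PI.rt p e a * PI.rt p e b :=
  map_mul (iterateFrobeniusEquiv C p e).symm a b

theorem rt_pow' (e : ℕ) (a : C) (n : ℕ) : PI.rt p e (a ^ n) = PI.rt p e a ^ n :=
  map_pow (iterateFrobeniusEquiv C p e).symm a n

theorem rt_dvd (e : ℕ) {a b : C} (h : a ∣ b) : PI.rt p e a ∣ PI.rt p e b := by
  obtain ⟨c, rfl⟩ := h
  exact ⟨_, rt_mul' e a c⟩

end rt

variable {p : ℕ} [Fact p.Prime] {k : Type u} [Field k] [CharP k p] {r : ℕ}
variable {Λ : Type u} [CommRing Λ] {u : Fin r → Λ} {ψ : Λ →+* WittVector p (Rp p k r)}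
  {red : Λ →+* R0 k r ⧸ Ideal.span {(MvPowerSeries.X 0 : R0 k r)}}

theorem xiM_eq (C : Type u) [CommRing C] [Algebra (Rp p k r) C] (M : ℕ) :
    xiM p k r C M = XI p (tC p k r C) M := by
  rw [xiM, XI, ← Ideal.span_union, Set.singleton_union]

theorem piN_comp_laW (C : Type u) [CommRing C] [Algebra (Rp p k r) C] (N : ℕ) :
    (piN ψ C N).comp (laW ψ C) = algebraMap Λ (BN ψ C N) := rfl

variable [IsLocalRing Λ] {Ω : Type u} [Field Ω] [Algebra Λ Ω] {s : ℕ} {b : Fin s → Ω}
  {F G : Fin s → Λ[X]} {D : ℕ} {ε : ℝ≥0∞} {Φ : ℕ → ℕ}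

/-- the homomorphism `Λ[T]/(G_j(T_j)) → B/p^(I+1)` of a level. -/
noncomputable def PsiL {e : ℕ} (lv : Level.{u} ψ b F G D ε Φ e) :
    FA G →ₐ[Λ] BN ψ lv.ext.C (lv.I + 1) :=
  Ideal.Quotient.liftₐ _ (MvPolynomial.aeval fun j => teN ψ lv.ext.C (lv.I + 1) (lv.c j)) (by
    intro a ha
    have h : Ideal.span (Set.range fun j => Polynomial.toMvPolynomial j (G j)) ≤
        RingHom.ker (MvPolynomial.aeval fun j => teN ψ lv.ext.C (lv.I + 1) (lv.c j) :
          MvPolynomial (Fin s) Λ →ₐ[Λ] BN ψ lv.ext.C (lv.I + 1)) := by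
      rw [Ideal.span_le]
      rintro _ ⟨j, rfl⟩
      rw [SetLike.mem_coe, RingHom.mem_ker]
      refine (aeval_toMv _ j (G j)).trans ?_
      have h1 := lv.relG j
      rw [xiM_eq, ← ker_piN ψ, RingHom.mem_ker, hom_eval₂, piN_comp_laW] at h1
      rw [aeval_def]
      exact h1
    exact h ha)

theorem PsiL_mk {e : ℕ} (lv : Level.{u} ψ b F G D ε Φ e) (f : MvPolynomial (Fin s) Λ) :
    PsiL lv (mkF G f) =
      MvPolynomial.aeval (fun j => teN ψ lv.ext.C (lv.I + 1) (lv.c j)) f := rfl

theorem PsiL_mX {e : ℕ} (lv : Level.{u} ψ b F G D ε Φ e) (ee : Fin s → ℕ) :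
    PsiL lv (mkF G (mX ee)) = piN ψ lv.ext.C (lv.I + 1) (teichmuller p (mon lv.c ee)) := by
  rw [PsiL_mk, mX, mon]
  simp only [map_prod, map_pow, MvPolynomial.aeval_X]
  rfl

/-- **Almost Artin-Rees for the levels.** `c`, `w` depend only on `G` and the exponents. -/
theorem exists_lev_ar [IsNoetherianRing Λ] (hb : IsBase p k r Λ u ψ red) (b : Fin s → Ω)
    (F G : Fin s → Λ[X]) (D : ℕ) (ε : ℝ≥0∞) (Φ : ℕ → ℕ) (hΦ : ∀ j, j * (p ^ j * p ^ j) ≤ Φ j)
    {R : ℕ} {κ : Fin R → Type} [∀ i, Finite (κ i)] (idx : ∀ i, κ i → Fin s)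
    (hidx : ∀ i, ∃ t, b (idx i t) ≠ 0) (n : Fin R → ℕ) :
    ∃ w c : ℕ, ∀ K : ℕ, ∃ e1 : ℕ, ∀ e, e1 ≤ e → ∀ (lv : Level.{u} ψ b F G D ε Φ e)
      (x : lv.ext.C),
      x ∈ perfHull p (∏ i, Ideal.span (Set.range fun t => lv.c (idx i t)) ^ n i) →
      x ∈ perfHull p (Ideal.span (Set.range (xC p k r lv.ext.C)) ^ (K + c)) →
      PI.rt p lv.j lv.Θ ^ w * x ∈ perfHull p (Ideal.span (Set.range (xC p k r lv.ext.C)) ^ K *
        ∏ i, Ideal.span (Set.range fun t => lv.c (idx i t)) ^ n i) := by
  obtain ⟨m, ee, hee⟩ := exists_mono_gen.{u} idx n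
  obtain ⟨c, hc⟩ := exists_linear_one
    (Ideal.span (Set.range fun l => mkF G (mX (ee l))))
    (Ideal.span (Set.range (Fin.cons (p : FA G) fun i => algebraMap Λ (FA G) (u i) :
      Fin (r + 1) → FA G)))
  choose t0 ht0 using hidx
  refine ⟨(∑ i, n i) * (m + 1) + 1, c + (r + 1), fun K => ⟨m + K + c + (r + 1), ?_⟩⟩
  intro e he lv x hx hx'
  rw [hee] at hx ⊢
  rw [← add_assoc] at hx'
  have hj : m + K + c + (r + 1) ≤ lv.j := he.trans lv.le_j
  have hp1 : 1 < p := (Fact.out : p.Prime).one_lt
  have hjp : lv.j ≤ p ^ lv.j := (Nat.lt_pow_self hp1).le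
  have hq1 : 1 ≤ p ^ lv.j := Nat.one_le_pow _ _ (by omega)
  have hI : lv.j * (p ^ lv.j * p ^ lv.j) ≤ lv.I := (hΦ _).trans lv.le_I
  have h1 : K * p ^ lv.j * p ^ lv.j ≤ lv.I + 1 := by
    have h3 : K * (p ^ lv.j * p ^ lv.j) ≤ lv.j * (p ^ lv.j * p ^ lv.j) :=
      Nat.mul_le_mul_right _ (by omega)
    rw [mul_assoc]
    omega
  have h2 : (K + c + (r + 1)) * p ^ lv.j ≤ lv.I + 1 := by
    have h3 : (K + c + (r + 1)) * p ^ lv.j ≤ lv.j * (p ^ lv.j * p ^ lv.j) := by
      refine Nat.mul_le_mul (by omega) ?_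
      exact Nat.le_mul_of_pos_left _ (by omega)
    omega
  -- the multiplier
  set g' : lv.ext.C := ∏ i, lv.c (idx i (t0 i)) ^ n i with hg'
  have hg'mem : g' ∈ Ideal.span (Set.range fun l => mon lv.c (ee l)) := by
    rw [← hee, hg']
    refine Ideal.prod_mem_prod fun i _ => Ideal.pow_mem_pow ?_ _
    exact Ideal.subset_span (Set.mem_range_self (t0 i))
  have hg'dvd : g' ∣ lv.Θ ^ (∑ i, n i) := by
    rw [hg', ← Finset.prod_pow_eq_pow_sum]
    exact Finset.prod_dvd_prod_of_dvd _ _ fun i _ => pow_dvd_pow_of_dvd (lv.dvd _ (ht0 i)) _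
  have key := almost_ar p (A := FA G) (B := BN ψ lv.ext.C (lv.I + 1))
    (fun l => mon lv.c (ee l)) (xC p k r lv.ext.C)
    (tC p k r lv.ext.C) (tC_mem_nonZeroDivisors lv.ext) (Ideal.subset_span ⟨0, rfl⟩) (lv.I + 1)
    (piN ψ lv.ext.C (lv.I + 1)) (piN_surjective ψ lv.ext.C (lv.I + 1))
    (ker_piN ψ lv.ext.C (lv.I + 1))
    (flatC_BN hb lv.ext (lv.I + 1)) (fun j => mkF G (MvPolynomial.X j)) (adjoin_mkF G) G
    (mkF_root G) (PsiL lv) (fun l => mkF G (mX (ee l)))
    (fun l => PsiL_mX lv (ee l))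
    (Fin.cons (p : FA G) fun i => algebraMap Λ (FA G) (u i)) ?_ ?_
    lv.Θ ?_ g' hg'mem c hc K lv.j (by omega) h1 h2 hx hx'
  · -- from the multiplier of `almost_ar` to `η ^ w`
    have hd : PI.rt p lv.j g' ^ (m + 1) * PI.rt p lv.j lv.Θ ∣
        PI.rt p lv.j lv.Θ ^ ((∑ i, n i) * (m + 1) + 1) := by
      rw [pow_succ (PI.rt p lv.j lv.Θ), pow_mul (PI.rt p lv.j lv.Θ)]
      refine mul_dvd_mul (pow_dvd_pow_of_dvd ?_ _) dvd_rfl
      rw [← rt_pow']
      exact rt_dvd _ hg'dvd
    obtain ⟨z, hz⟩ := hd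
    rw [hz, mul_comm _ z, mul_assoc z]
    exact Ideal.mul_mem_left _ _ key
  · intro i
    refine Fin.cases ?_ (fun i => ?_) i
    · rw [Fin.cons_zero, map_natCast]
      have h3 : piN ψ lv.ext.C (lv.I + 1) ((p : WittVector p lv.ext.C) -
          teichmuller p (tC p k r lv.ext.C)) = 0 := by
        rw [← RingHom.mem_ker, ker_piN]
        exact (mem_XI p).2 ⟨1, 0, by ring⟩
      rw [map_sub, map_natCast, sub_eq_zero] at h3
      exact h3
    · rw [Fin.cons_succ, AlgHom.commutes]
      change mkN ψ lv.ext.C (lv.I + 1) (laB ψ lv.ext.C (u i)) = _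
      rw [laB_u hb]
      rfl
  · exact Ideal.subset_span ⟨0, rfl⟩
  · -- `[Θ] ∈ (Ψ(∏ G_j'))`
    have h3 := lv.disc
    rw [xiM_eq, ← ker_piN ψ, ← Ideal.comap_map_of_surjective' _ (piN_surjective ψ lv.ext.C _),
      Ideal.mem_comap, Ideal.map_span, Set.image_singleton, map_prod] at h3
    have h4 : PsiL lv (∏ j, aeval (mkF G (MvPolynomial.X j)) (derivative (G j))) =
        ∏ l, piN ψ lv.ext.C (lv.I + 1) (Polynomial.eval₂ (laW ψ lv.ext.C)
          (teichmuller p (lv.c l)) (derivative (G l))) := by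
      rw [map_prod]
      refine Finset.prod_congr rfl fun l _ => ?_
      rw [hom_eval₂, piN_comp_laW, ← aeval_algHom_apply, ← aeval_def]
      congr 1
      rw [PsiL_mk, MvPolynomial.aeval_X]
      rfl
    rw [h4]
    exact h3

end Vale.Agent.P177.AR
end

section

/-!
P177, (K), part 2: a family of ideals `J b` with exact Koszul complexes `J (b + n - i)`; the Koszul
homology of `J b` has finite length for every additive length which kills `h`-torsion, as soon as
`h (J b ∩ Y_l) ⊆ J b'` for some `l` and `C / Y_l` has finite length.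
-/

namespace Vale.Agent.P177.KM

open Vale.Agent.P202.Mix Vale.Agent.P177.Mass Vale.Agent.P177.PI
open scoped ENNReal

universe u

section Fam

variable {R C : Type u} [CommRing R] [CommRing C] [Algebra R C] {n : ℕ}

/-- multiplication by `c` on an ideal, over a base ring `R`. -/
noncomputable def mulJ (R : Type u) [CommRing R] [Algebra R C] (J : Ideal C) (c : C) :
    ↥J →ₗ[R] ↥J :=
  (LinearMap.lsmul C ↥J c).restrictScalars R

/-- the submodule `J' ∩ J` of `J`. -/
noncomputable def subJ (R : Type u) [CommRing R] [Algebra R C] (J J' : Ideal C) :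
    Submodule R ↥J :=
  (Submodule.comap J.subtype J').restrictScalars R

@[simp] theorem mem_subJ {J J' : Ideal C} {x : ↥J} : x ∈ subJ R J J' ↔ (x : C) ∈ J' := Iff.rfl

/-- Koszul exactness in one degree for a family of ideals. -/
def KosEx (y : Fin n → C) (J : ℕ → Ideal C) (s i : ℕ) : Prop :=
  ∀ v : Finset (Fin n) → C, (∀ S : Finset (Fin n), S.card = i → v S ∈ J (s - i)) →
    (∀ S : Finset (Fin n), S.card ≠ i → v S = 0) → kd y v = 0 →
    ∃ w : Finset (Fin n) → C, (∀ S : Finset (Fin n), S.card = i + 1 → w S ∈ J (s - (i + 1))) ∧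
      (∀ S : Finset (Fin n), S.card ≠ i + 1 → w S = 0) ∧ kd y w = v

theorem kz_mulJ (y : Fin n → C) (J : Ideal C) (v : Finset (Fin n) → ↥J) (S : Finset (Fin n)) :
    (kz (fun l => mulJ R J (y l)) v S : C) = kd y (fun S => (v S : C)) S := by
  rw [kzb_apply]
  unfold kd
  rw [AddSubmonoidClass.coe_finsetSum]
  refine Finset.sum_congr rfl fun l _ => ?_
  rfl

end Fam

section Fin

variable {R C : Type u} [CommRing R] [CommRing C] [Algebra R C] {n : ℕ} (L : AddLen R)

/-- (K1): `J / J'` is finite if `h (J ∩ Y) ⊆ J'` and `C / Y` is finite. -/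
theorem len_quot_subJ_le (h : R) (hL : ∀ (M : Type u) [AddCommGroup M] [Module R M],
      (∀ m : M, h • m = 0) → L.len M = 0)
    (J J' Y : Ideal C) (hJY : ∀ x ∈ J, x ∈ Y → h • x ∈ J') :
    L.len (↥J ⧸ subJ R J J') ≤ L.len (C ⧸ Y) := by
  -- `A = J' ∩ J`, `B = Y ∩ J`
  set A := subJ R J J' with hA
  set B := subJ R J Y with hB
  have h1 : L.len (↥J ⧸ A) ≤ L.len (↥J ⧸ (A ⊔ B)) + 0 := by
    rw [len_sub L (LinearMap.ker (Submodule.factor (le_sup_left : A ≤ A ⊔ B))), add_comm]
    refine add_le_add ?_ ?_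
    · rw [Vale.Agent.P177.Mass.len_congr L ((Submodule.factor (le_sup_left : A ≤ A ⊔ B)).quotKerEquivOfSurjective
        (Submodule.factor_surjective _))]
    · refine (hL _ ?_).le
      rintro ⟨x, hx⟩
      obtain ⟨x, rfl⟩ := Submodule.mkQ_surjective _ x
      have h2 : (A ⊔ B).mkQ x = 0 := hx
      rw [Submodule.mkQ_apply, Submodule.Quotient.mk_eq_zero, Submodule.mem_sup] at h2
      obtain ⟨a, ha, b, hb, rfl⟩ := h2
      refine Subtype.ext ?_
      show h • A.mkQ (a + b) = 0
      rw [← map_smul, Submodule.mkQ_apply, Submodule.Quotient.mk_eq_zero, smul_add]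
      refine add_mem (A.smul_mem _ ha) ?_
      exact hJY b b.2 hb
  rw [add_zero] at h1
  refine h1.trans ((len_quot_le L (le_sup_right : B ≤ A ⊔ B)).trans ?_)
  have h3 : B = LinearMap.ker ((Y.mkQ.restrictScalars R) ∘ₗ (J.subtype.restrictScalars R)) := by
    ext x
    simp [hB, LinearMap.mem_ker, Ideal.Quotient.eq_zero_iff_mem]
  rw [h3]
  exact len_quot_ker L _

/-- a module with `s` generators killed by `I` has length at most `s · len (C / I)`. -/
theorem len_le_of_gen {M : Type u} [AddCommGroup M] [Module C M] [Module R M]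
    [IsScalarTower R C M] {s : ℕ} (g : Fin s → M) (hg : ∀ m : M, ∃ c : Fin s → C, ∑ i, c i • g i = m)
    (I : Ideal C) (hI : ∀ a ∈ I, ∀ i, a • g i = 0) :
    L.len M ≤ ∑ _i : Fin s, L.len (C ⧸ I) := by
  let φ : (Fin s → C) →ₗ[R] M := (Fintype.linearCombination C g).restrictScalars R
  have hφ : Function.Surjective φ := by
    intro m
    obtain ⟨c, hc⟩ := hg m
    exact ⟨c, hc⟩
  let A : Fin s → Submodule R (Fin s → C) := fun i =>
    LinearMap.ker ((I.mkQ.restrictScalars R) ∘ₗ (LinearMap.proj i : (Fin s → C) →ₗ[R] C))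
  have h1 : Finset.univ.inf A ≤ LinearMap.ker φ := by
    intro x hx
    rw [Submodule.mem_finsetInf] at hx
    rw [LinearMap.mem_ker]
    show ∑ i, x i • g i = 0
    refine Finset.sum_eq_zero fun i _ => hI _ ?_ i
    have h2 := hx i (Finset.mem_univ i)
    have h3 : Ideal.Quotient.mk I (x i) = 0 := h2
    exact Ideal.Quotient.eq_zero_iff_mem.1 h3
  calc L.len M = L.len ((Fin s → C) ⧸ LinearMap.ker φ) :=
        (Vale.Agent.P177.Mass.len_congr L (φ.quotKerEquivOfSurjective hφ)).symm
    _ ≤ L.len ((Fin s → C) ⧸ Finset.univ.inf A) := len_quot_le L h1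
    _ ≤ ∑ i : Fin s, L.len ((Fin s → C) ⧸ A i) := len_quot_iInf L _ _
    _ ≤ ∑ _i : Fin s, L.len (C ⧸ I) := Finset.sum_le_sum fun i _ => len_quot_ker L _

theorem len_restrict (I : Ideal C) : L.len (C ⧸ I.restrictScalars R) = L.len (C ⧸ I) :=
  Vale.Agent.P177.Mass.len_congr L (Submodule.Quotient.restrictScalarsEquiv R I)

/-- `len (V / A) = len (B / A) + len (V / B)`. -/
theorem len_quot_quot {V : Type u} [AddCommGroup V] [Module R V] {A B : Submodule R V}
    (h : A ≤ B) : L.len (V ⧸ A) = L.len (↥B ⧸ A.submoduleOf B) + L.len (V ⧸ B) := by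
  have hs := Submodule.factor_surjective h
  rw [len_ker_range L (Submodule.factor h), LinearMap.range_eq_top.2 hs,
    Vale.Agent.P177.Mass.len_congr L (Submodule.topEquiv (R := R) (M := V ⧸ B))]
  congr 1
  let f : ↥B →ₗ[R] ↥(LinearMap.ker (Submodule.factor h)) :=
    LinearMap.codRestrict _ (A.mkQ ∘ₗ B.subtype) (by
      rintro ⟨x, hx⟩
      show B.mkQ x = 0
      rw [Submodule.mkQ_apply, Submodule.Quotient.mk_eq_zero]
      exact hx)
  have hf : Function.Surjective f := by
    rintro ⟨x, hx⟩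
    obtain ⟨x, rfl⟩ := Submodule.mkQ_surjective _ x
    have h2 : B.mkQ x = 0 := hx
    rw [Submodule.mkQ_apply, Submodule.Quotient.mk_eq_zero] at h2
    exact ⟨⟨x, h2⟩, rfl⟩
  have hk : LinearMap.ker f = A.submoduleOf B := by
    ext x
    rw [LinearMap.mem_ker]
    constructor
    · intro h3
      have h4 : A.mkQ (x : V) = 0 := congrArg Subtype.val h3
      rw [Submodule.mkQ_apply, Submodule.Quotient.mk_eq_zero] at h4
      exact h4
    · intro h3
      apply Subtype.ext
      show A.mkQ (x : V) = 0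
      rw [Submodule.mkQ_apply, Submodule.Quotient.mk_eq_zero]
      exact h3
  rw [← hk]
  exact (Vale.Agent.P177.Mass.len_congr L (f.quotKerEquivOfSurjective hf)).symm

/-- `len (I ^ l / I ^ (l + 1))` is finite. -/
theorem len_gr_lt_top (I : Ideal C) (hI : I.FG) (hf : L.len (C ⧸ I) < ⊤) (l : ℕ) :
    L.len (↥(I ^ l) ⧸ (I ^ (l + 1)).submoduleOf (I ^ l)) < ⊤ := by
  obtain ⟨s, g, hg⟩ := Submodule.fg_iff_exists_fin_generating_family.1
    (Ideal.FG.pow hI (n := l))
  have hgm : ∀ i, g i ∈ I ^ l := fun i => by rw [← hg]; exact Submodule.subset_span ⟨i, rfl⟩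
  have h4 := len_le_of_gen (R := R) L (M := ↥(I ^ l) ⧸ (I ^ (l + 1)).submoduleOf (I ^ l))
    (fun i => Submodule.Quotient.mk ⟨g i, hgm i⟩) (by
      intro m
      obtain ⟨⟨y, hy⟩, rfl⟩ := Submodule.Quotient.mk_surjective _ m
      have hy' := hy
      rw [← hg, Submodule.mem_span_range_iff_exists_fun] at hy'
      obtain ⟨c, hc⟩ := hy'
      refine ⟨c, ?_⟩
      simp_rw [← Submodule.Quotient.mk_smul]
      have h5 : ∀ i, (Submodule.Quotient.mk (c i • (⟨g i, hgm i⟩ : ↥(I ^ l))) :
          ↥(I ^ l) ⧸ (I ^ (l + 1)).submoduleOf (I ^ l)) =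
          ((I ^ (l + 1)).submoduleOf (I ^ l)).mkQ (c i • (⟨g i, hgm i⟩ : ↥(I ^ l))) :=
        fun i => rfl
      simp_rw [h5]
      rw [← map_sum]
      show ((I ^ (l + 1)).submoduleOf (I ^ l)).mkQ _ =
        ((I ^ (l + 1)).submoduleOf (I ^ l)).mkQ ⟨y, hy⟩
      congr 1
      apply Subtype.ext
      rw [AddSubmonoidClass.coe_finsetSum]
      exact hc) I (by
      intro a ha i
      rw [← Submodule.Quotient.mk_smul, Submodule.Quotient.mk_eq_zero]
      show a * g i ∈ I ^ (l + 1)
      rw [pow_succ']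
      exact Ideal.mul_mem_mul ha (hgm i))
  refine lt_of_le_of_lt h4 ?_
  rw [Finset.sum_const, nsmul_eq_mul]
  exact ENNReal.mul_lt_top (ENNReal.natCast_lt_top _) hf

/-- `len (C / I ^ l)` is finite if `len (C / I)` is finite. -/
theorem len_pow_lt_top (I : Ideal C) (hI : I.FG) (hf : L.len (C ⧸ I) < ⊤) (l : ℕ) :
    L.len (C ⧸ I ^ l) < ⊤ := by
  induction l with
  | zero =>
    have : Subsingleton (C ⧸ I ^ 0) := by
      rw [pow_zero, Ideal.one_eq_top]
      exact Ideal.Quotient.subsingleton_iff.2 rfl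
    rw [len_subsingleton]
    exact ENNReal.zero_lt_top
  | succ l ih =>
    have hle : (I ^ (l + 1)).restrictScalars R ≤ (I ^ l).restrictScalars R :=
      Ideal.pow_le_pow_right (Nat.le_succ l)
    rw [← len_restrict, len_quot_quot L hle, len_restrict]
    refine ENNReal.add_lt_top.2 ⟨?_, ih⟩
    refine lt_of_eq_of_lt ?_ (len_gr_lt_top L I hI hf l)
    exact Vale.Agent.P177.Mass.len_congr L (Submodule.Quotient.restrictScalarsEquiv R
      ((I ^ (l + 1)).submoduleOf (I ^ l)))

end Fin

end Vale.Agent.P177.KM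
end

section

/-!
P177, (K), part 3: finiteness of the Koszul homology of `J b`, and the families
`J b = perfHull (P Y^b)` (one level) and their products (all levels).
-/

namespace Vale.Agent.P177.KM

open Vale.Agent.P202.Mix Vale.Agent.P177.Mass Vale.Agent.P177.PI Vale.Agent.P177.Perf
open scoped ENNReal

universe u v

section Main

variable {R C : Type u} [CommRing R] [CommRing C] [Algebra R C] {n : ℕ} (L : AddLen R)

/-- `C / Y'` is finite if `C / I` is finite and `I ^ l ≤ Y'`. -/
theorem len_quot_lt_top_of_pow_le (I : Ideal C) (hI : I.FG) (hf : L.len (C ⧸ I) < ⊤) (l : ℕ)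
    (Y : Ideal C) (hY : I ^ l ≤ Y) : L.len (C ⧸ Y) < ⊤ := by
  refine lt_of_le_of_lt ?_ (len_pow_lt_top L I hI hf l)
  rw [← len_restrict, ← len_restrict]
  exact len_quot_le L (show (I ^ l).restrictScalars R ≤ Y.restrictScalars R from hY)

end Main

section Perfect

variable (p : ℕ) [hp : Fact p.Prime] {C : Type u} [CommRing C] [CharP C p] [PerfectRing C p]

/-- `J b = perfHull (P Y^b)`. -/
noncomputable def PJ (P : Ideal C) {n : ℕ} (y : Fin n → C) (b : ℕ) : Ideal C :=
  perfHull p (P * Ideal.span (Set.range y) ^ b)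

omit [PerfectRing C p] in
theorem PJ_antitone (P : Ideal C) {n : ℕ} (y : Fin n → C) : Antitone (PJ p P y) := by
  intro b b' h
  exact perfHull_mono (Ideal.mul_mono_right (Ideal.pow_le_pow_right h))

theorem kosEx_PJ (P : Ideal C) (hP : P.FG) {n : ℕ} (y : Fin n → C) (s : ℕ) (hs : n < s) (i : ℕ) :
    KosEx y (PJ p P y) s i := fun v hv hv0 hz => kos_exact_graded p P hP y s hs i v hv hv0 hz

end Perfect

section Prod

variable {ι : Type v} {C : ι → Type u} [∀ e, CommRing (C e)] {n : ℕ}

/-- the product ideal (Mathlib's `Ideal.pi`). -/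
abbrev piI (J : ∀ e, Ideal (C e)) : Ideal (∀ e, C e) := Ideal.pi J

theorem mem_piI {J : ∀ e, Ideal (C e)} {x : ∀ e, C e} : x ∈ piI J ↔ ∀ e, x e ∈ J e :=
  Iff.rfl

theorem piI_antitone (J : ∀ e, ℕ → Ideal (C e)) (h : ∀ e, Antitone (J e)) :
    Antitone fun b => piI fun e => J e b :=
  fun _ _ hb _ hx e => h e hb (hx e)

theorem kd_pi (y : Fin n → ∀ e, C e) (v : Finset (Fin n) → ∀ e, C e) (S : Finset (Fin n)) (e : ι) :
    kd y v S e = kd (fun l => y l e) (fun S => v S e) S :=
  kd_map (Pi.evalRingHom C e) y v S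

theorem kosEx_piI (y : Fin n → ∀ e, C e) (J : ∀ e, ℕ → Ideal (C e)) (s i : ℕ)
    (h : ∀ e, KosEx (fun l => y l e) (J e) s i) : KosEx y (fun b => piI fun e => J e b) s i := by
  intro v hv hv0 hz
  have h1 := fun e => h e (fun S => v S e) (fun S hS => hv S hS e)
    (fun S hS => by rw [hv0 S hS]; rfl) (by
      funext S
      rw [← kd_pi, hz]
      rfl)
  choose w hw hw0 hwz using h1
  refine ⟨fun S e => w e S, fun S hS e => hw e S hS, fun S hS => ?_, ?_⟩
  · funext e
    exact hw0 e S hS
  · funext S e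
    rw [kd_pi]
    exact congrFun (hwz e) S

end Prod

end Vale.Agent.P177.KM
end

section

/-!
P177, (K), part 5: finiteness of the Koszul homology over the product ring `∏ C_e`, from almost
Artin-Rees at every level.
-/

namespace Vale.Agent.P177.KM

open WittVector Vale.Agent.P202.Mix Vale.Agent.P177.Mass Vale.Agent.P177.PI Vale.Agent.P177.Perf
open scoped ENNReal

universe u

section

variable {R : Type u} [CommRing R] (L : AddLen R)

/-- `L` is zero on the modules killed by `h`. -/
def Kil (h : R) : Prop :=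
  ∀ (M : Type u) [AddCommGroup M] [Module R M], (∀ m : M, h • m = 0) → L.len M = 0

variable {L}

theorem Kil.mul {h h' : R} (h1 : Kil L h) (h2 : Kil L h') : Kil L (h * h') := by
  intro M _ _ hM
  -- `N = {m | h' m = 0}`; `M / N` is killed by `h`
  let f : M →ₗ[R] M := LinearMap.lsmul R M h'
  rw [len_ker_range L f, h2 _ (by
    rintro ⟨m, hm⟩
    exact Subtype.ext hm), h1 _ (by
    rintro ⟨m, x, rfl⟩
    apply Subtype.ext
    show h • h' • x = 0
    rw [smul_smul]
    exact hM x), add_zero]

theorem Kil.pow {h : R} (h1 : Kil L h) (m : ℕ) : Kil L (h ^ m) := by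
  induction m with
  | zero =>
    intro M _ _ hM
    have : Subsingleton M := ⟨fun a b => by
      have ha := hM a
      have hb := hM b
      rw [pow_zero, one_smul] at ha hb
      rw [ha, hb]⟩
    exact len_subsingleton L
  | succ m ih =>
    rw [pow_succ]
    exact ih.mul h1

end

section

variable (p : ℕ) [hp : Fact p.Prime] {C : ℕ → Type u} [∀ e, CommRing (C e)]
  [∀ e, CharP (C e) p] [∀ e, PerfectRing (C e) p] {n : ℕ}

attribute [local instance] charP_pi perfectRing_pi

end

end Vale.Agent.P177.KM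
end

section

/-!
P177, assembly: finiteness of the Koszul masses of the product ideals of the package.
-/

namespace Vale.Agent.P177.Full

open Vale.Agent.P202.Mix Vale.Agent.P177.Lev Vale.Agent.P177.SL Vale.Agent.P177.KM
  Vale.Agent.P177.Mass Vale.Agent.P177.PI Vale.Agent.P177.Perf Vale.Agent.P177.KG
  WittVector Polynomial Filter TensorProduct
open scoped ENNReal

universe u

section Fam

variable {R C : Type u} [CommRing R] [CommRing C] [Algebra R C] {n : ℕ}

/-- (K2) with an arbitrary degree `s`. -/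
theorem len_KH_mulJ_le' (L : AddLen R) (y : Fin n → C) (J : ℕ → Ideal C) (hJ : Antitone J)
    (b s i : ℕ) (hs : b + n ≤ s) (hex : KosEx y J s i) :
    L.len (KH (fun l => mulJ R (J b) (y l)) i) ≤
      ∑ _S ∈ (Finset.univ : Finset (Finset (Fin n))).filter (fun S => S.card = i),
        L.len (↥(J b) ⧸ subJ R (J b) (J (s - i))) := by
  refine len_KH_le L (fun l => mulJ R (J b) (y l)) (fun _ => subJ R (J b) (J (s - i))) i ?_
  intro v hv hv0 hz
  by_cases hi : i < n
  · obtain ⟨w, hw, hw0, hwz⟩ := hex (fun S => (v S : C)) (fun S hS => hv S hS)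
      (fun S hS => by rw [hv0 S hS]; rfl) (by
        funext S
        rw [← kz_mulJ (R := R), hz]
        rfl)
    have hw1 : ∀ S, w S ∈ J b := by
      intro S
      by_cases h : S.card = i + 1
      · exact hJ (by omega) (hw S h)
      · rw [hw0 S h]; exact zero_mem _
    refine ⟨fun S => ⟨w S, hw1 S⟩, fun S hS => Subtype.ext (hw0 S hS), ?_⟩
    funext S
    apply Subtype.ext
    rw [kz_mulJ]
    exact congrFun hwz S
  · obtain ⟨w, hw, hw0, hwz⟩ := hex (fun S => (v S : C)) (fun S hS => hv S hS)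
      (fun S hS => by rw [hv0 S hS]; rfl) (by
        funext S
        rw [← kz_mulJ (R := R), hz]
        rfl)
    have hw1 : ∀ S, w S = 0 := by
      intro S
      refine hw0 S ?_
      have := S.card_le_univ
      rw [Fintype.card_fin] at this
      omega
    refine ⟨0, fun S _ => rfl, ?_⟩
    rw [map_zero]
    funext S
    apply Subtype.ext
    have h1 := congrFun hwz S
    have h2 : w = 0 := funext hw1
    rw [h2, kd_zero] at h1
    exact h1

/-- (K) with an arbitrary degree `s`. -/
theorem len_KH_mulJ_lt_top' (L : AddLen R) (h : R) (hL : Kil L h)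
    (y : Fin n → C) (J : ℕ → Ideal C) (hJ : Antitone J) (b s i : ℕ) (hs : b + n ≤ s)
    (hex : KosEx y J s i) (Y : Ideal C) (hY : L.len (C ⧸ Y) < ⊤)
    (hJY : ∀ x ∈ J b, x ∈ Y → h • x ∈ J (s - i)) :
    L.len (KH (fun l => mulJ R (J b) (y l)) i) < ⊤ := by
  refine lt_of_le_of_lt (len_KH_mulJ_le' L y J hJ b s i hs hex) ?_
  rw [Finset.sum_const, nsmul_eq_mul]
  refine ENNReal.mul_lt_top (ENNReal.natCast_lt_top _) ?_
  exact lt_of_le_of_lt (len_quot_subJ_le L h hL (J b) (J (s - i)) Y hJY) hY

end Fam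

section Pi

variable (p : ℕ) [hp : Fact p.Prime] {ι : Type u} [Nonempty ι] {C : ι → Type u}
  [∀ e, CommRing (C e)] [∀ e, CharP (C e) p] [∀ e, PerfectRing (C e) p] {n : ℕ}

attribute [local instance] charP_pi perfectRing_pi

/-- **(K) over a product ring**, for the ideals `perfHull (P e)`. -/
theorem len_KH_pi_lt_top (L : AddLen (WittVector p (∀ e, C e))) (y : Fin n → ∀ e, C e)
    (P : ∀ e, Ideal (C e)) (hP : ∀ e, (P e).FG) (h : ∀ e, C e) (hh : Kil L (teichmuller p h))
    (hY : L.len (WittVector p (∀ e, C e) ⧸ (Ideal.span {(p : WittVector p (∀ e, C e))} ⊔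
      Ideal.span (Set.range fun l => teichmuller p (y l)))) < ⊤) (B : ℕ)
    (hAR : ∀ e, ∀ x ∈ perfHull p (P e),
      x ∈ perfHull p (Ideal.span (Set.range fun l => y l e) ^ B) →
        h e * x ∈ perfHull p (Ideal.span (Set.range fun l => y l e) ^ (n + 1) * P e)) (i : ℕ) :
    let := algW p (∀ e, C e)
    L.len (KH (fun l => mulJ (WittVector p (∀ e, C e)) (Ideal.pi fun e => perfHull p (P e))
      (y l)) i) < ⊤ := by
  intro _
  set J : ℕ → Ideal (∀ e, C e) := fun b => piI fun e => PJ p (P e) (fun l => y l e) b with hJ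
  have hJa : Antitone J := piI_antitone _ fun e => PJ_antitone p (P e) _
  have h0 : (Ideal.pi fun e => perfHull p (P e)) = J 0 := by
    ext x
    rw [hJ]
    simp only [mem_piI, PJ, pow_zero, mul_one]
  have hY' : L.len ((∀ e, C e) ⧸ Ideal.span (Set.range y)) < ⊤ := by
    rw [len_W_quot p L y _ rfl]
    exact hY
  have hYle : Ideal.span (Set.range y) ^ B ≤ piI fun e =>
      perfHull p (Ideal.span (Set.range fun l => y l e) ^ B) := by
    intro x hx e
    apply le_perfHull
    have h1 := Ideal.mem_map_of_mem (Pi.evalRingHom C e) hx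
    rw [Ideal.map_pow, Ideal.map_span, ← Set.range_comp] at h1
    exact h1
  rw [h0]
  refine len_KH_mulJ_lt_top' L (teichmuller p h) hh y J hJa 0 (n + 1) i (by omega)
    (kosEx_piI y _ _ _ fun e => kosEx_PJ p (P e) (hP e) _ _ (by omega) i)
    (piI fun e => perfHull p (Ideal.span (Set.range fun l => y l e) ^ B))
    (len_quot_lt_top_of_pow_le L _ (Submodule.fg_span (Set.finite_range y)) hY' B _ hYle) ?_
  intro x hx hxY
  have h2 : (teichmuller p h) • x = h * x := by
    rw [algW_smul_def, teichmuller_coeff_zero]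
  rw [h2]
  refine hJa (show n + 1 - i ≤ n + 1 by omega) ?_
  intro e
  have hx' : x e ∈ perfHull p (P e) := by
    have h3 : x e ∈ PJ p (P e) (fun l => y l e) 0 := hx e
    rwa [PJ, pow_zero, mul_one] at h3
  have h4 := hAR e (x e) hx' (hxY e)
  rw [mul_comm (Ideal.span _ ^ _)] at h4
  exact h4

/-- the same in terms of `KC`. -/
theorem len_KC_pi_lt_top (L : AddLen (WittVector p (∀ e, C e))) (y : Fin n → ∀ e, C e)
    (P : ∀ e, Ideal (C e)) (hP : ∀ e, (P e).FG) (h : ∀ e, C e) (hh : Kil L (teichmuller p h))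
    (hY : L.len (WittVector p (∀ e, C e) ⧸ (Ideal.span {(p : WittVector p (∀ e, C e))} ⊔
      Ideal.span (Set.range fun l => teichmuller p (y l)))) < ⊤) (B : ℕ)
    (hAR : ∀ e, ∀ x ∈ perfHull p (P e),
      x ∈ perfHull p (Ideal.span (Set.range fun l => y l e) ^ B) →
        h e * x ∈ perfHull p (Ideal.span (Set.range fun l => y l e) ^ (n + 1) * P e)) (i : ℕ) :
    let := algW p (∀ e, C e)
    (ALen.of L).len ((KC (R := WittVector p (∀ e, C e)) ↥(Ideal.pi fun e => perfHull p (P e))
      (List.ofFn fun l => teichmuller p (y l))).H i) < ⊤ := by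
  intro _
  have h1 := len_KH_pi_lt_top p L y P hP h hh hY B hAR i
  have h2 := len_KH_eq (C := WittVector p (∀ e, C e)) (ALen.of L)
    (fun l => mulJ (WittVector p (∀ e, C e)) (Ideal.pi fun e => perfHull p (P e)) (y l))
    (fun l => teichmuller p (y l)) (fun l v => Subtype.ext (by
      show y l * (v : ∀ e, C e) = (teichmuller p (y l)) • (v : ∀ e, C e)
      rw [algW_smul_def, teichmuller_coeff_zero])) i
  rw [ALen.res_len] at h2
  rw [← h2]
  exact h1

end Pi

section Tail

variable (p : ℕ) [Fact p.Prime] {ι : Type u} (C : ι → Type u) [∀ e, CommRing (C e)]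

/-- the components outside a large set are invisible. -/
theorem kil_massU (U : Ultrafilter ι) (L : ∀ e, AddLen (WittVector p (C e))) (T : ∀ e, C e)
    (hT : ∀ᶠ e in (U : Filter ι), T e = 1) :
    Kil (SL.massU p C U L) (teichmuller p T) := by
  intro M _ _ hM
  refine le_antisymm ?_ zero_le
  refine ulim_le U (hT.mono fun e he => ?_)
  let _ := (prW p C e).toAlgebra
  have hs : Subsingleton (WittVector p (C e) ⊗[WittVector p (∀ e, C e)] M) := by
    refine subsingleton_of_forall_eq 0 fun z => ?_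
    induction z using TensorProduct.induction_on with
    | zero => rfl
    | tmul a m =>
      have h1 : (a : WittVector p (C e)) = teichmuller p T • a := by
        rw [Algebra.smul_def]
        change a = prW p C e (teichmuller p T) * a
        rw [prW_teichmuller, he, map_one, one_mul]
      rw [h1, TensorProduct.smul_tmul, hM, TensorProduct.tmul_zero]
    | add y z hy hz => rw [hy, hz, add_zero]
  have h0 : (compLen p C e (L e)).len M =
      (L e).len (WittVector p (C e) ⊗[WittVector p (∀ e, C e)] M) := rfl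
  rw [h0, SL.len_subsingleton]

theorem Kil.etaLen' {R : Type u} [CommRing R] {L : AddLen R} {h : R} (hL : Kil L h) (η : R) :
    Kil (etaLen L η) h := by
  intro M _ _ hM
  refine le_antisymm ?_ zero_le
  exact (etaLen_le L η M).trans (hL M hM).le

end Tail

namespace Pkg

variable {p : ℕ} [Fact p.Prime] {k : Type u} [Field k] [CharP k p] {r : ℕ}
variable {Λ : Type u} [CommRing Λ] [IsLocalRing Λ] {ψ : Λ →+* WittVector p (Rp p k r)}
variable {Ω : Type u} [Field Ω] [Algebra Λ Ω] {s : ℕ} {b : Fin s → Ω} {F G : Fin s → Λ[X]}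
    {D : ℕ} {ε : ℝ≥0∞} {Φ : ℕ → ℕ} (K : Pkg ψ b F G D ε Φ)

theorem kil_η : Kil K.mass (teichmuller p K.η) := by
  intro M _ _ hM
  refine K.mass_eq_zero 1 M fun x => ?_
  rw [pow_one]
  exact hM x

/-- the element which is `1` at the levels `≥ N` and `0` elsewhere. -/
noncomputable def tl (N : ℕ) : K.C := fun e => if N ≤ e.down then 1 else 0

theorem kil_tl (N : ℕ) : Kil K.mass (teichmuller p (K.tl N)) := by
  refine Kil.etaLen' (kil_massU p K.Ce K.U _ (K.tl N) ?_) _
  refine (K.ev N).mono fun e he => ?_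
  exact if_pos he

/-- the product ideals of the package. -/
noncomputable def JK {R : ℕ} {κ : Fin R → Type} (idx : ∀ i, κ i → Fin s) (n : Fin R → ℕ) :
    Ideal K.C :=
  Ideal.pi fun e => perfHull p (∏ i, Ideal.span (Set.range fun t => (K.lv e).c (idx i t)) ^ n i)

/-- **finiteness of the Koszul masses.** -/
theorem KC_lt_top [IsNoetherianRing Λ] {u' : Fin r → Λ}
    {red : Λ →+* R0 k r ⧸ Ideal.span {(MvPowerSeries.X 0 : R0 k r)}}
    (hb : IsBase p k r Λ u' ψ red) (hΦ : ∀ j, j * (p ^ j * p ^ j) ≤ Φ j)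
    {R : ℕ} {κ : Fin R → Type} [∀ i, Finite (κ i)] (idx : ∀ i, κ i → Fin s)
    (hidx : ∀ i, ∃ t, b (idx i t) ≠ 0) (n : Fin R → ℕ) (i : ℕ) :
    let := algW p K.C
    (ALen.of K.mass).len ((KC (R := WittVector p K.C) ↥(K.JK idx n)
      (List.ofFn fun l => teichmuller p (xC p k r K.C l))).H i) < ⊤ := by
  obtain ⟨w, c, h⟩ := AR.exists_lev_ar hb b F G D ε Φ hΦ idx hidx n
  obtain ⟨e1, h1⟩ := h (r + 1 + 1)
  refine len_KC_pi_lt_top p K.mass (fun l => (xC p k r K.C l : ∀ e, K.Ce e))
    (fun e => ∏ i, Ideal.span (Set.range fun t => (K.lv e).c (idx i t)) ^ n i) (fun e => ?_)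
    (K.tl e1 * K.η ^ w) ?_ ?_ (r + 1 + 1 + c) ?_ i
  · refine Finset.prod_induction _ Ideal.FG (fun _ _ => Ideal.FG.mul) ?_ fun i _ => ?_
    · rw [Ideal.one_eq_top]
      exact ⟨{1}, by simp [Ideal.span_singleton_one]⟩
    · exact Ideal.FG.pow (Submodule.fg_span (Set.finite_range _))
  · have h2 : teichmuller p (K.tl e1 * K.η ^ w) =
        teichmuller p (K.tl e1) * teichmuller p K.η ^ w := by rw [map_mul, map_pow]
    rw [h2]
    exact (K.kil_tl e1).mul (K.kil_η.pow w)
  · have h3 := K.mass_ne_top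
    rw [vW, Ideal.span_insert] at h3
    exact lt_top_iff_ne_top.2 h3
  · intro e x hx hx'
    have h4 : (K.tl e1 * K.η ^ w) e = K.tl e1 e * K.η e ^ w := rfl
    rw [h4]
    by_cases he : e1 ≤ e.down
    · rw [tl, if_pos he, one_mul]
      exact h1 (e.down + K.N) (by omega) (K.lv e) x hx hx'
    · rw [tl, if_neg he, zero_mul, zero_mul]
      exact zero_mem _

end Pkg

end Vale.Agent.P177.Full
end

section

/-!
# P177, block NAT-A: which ideals satisfy `SP`; the case `f = 0`
-/

set_option linter.all false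

namespace Vale.Agent.P177.CN

open Polynomial Vale.Agent.P177.PI Vale.Agent.P177.Perf

universe u v w

section

variable {p : ℕ} [hp : Fact p.Prime] {C : Type u} [CommRing C] [CharP C p] [PerfectRing C p]

theorem perfHull_pow_le (P : Ideal C) (n : ℕ) : perfHull p P ^ n ≤ perfHull p (P ^ n) := by
  induction n with
  | zero => rw [pow_zero, pow_zero, Ideal.one_eq_top, perfHull_top]
  | succ n ih =>
    rw [pow_succ, pow_succ]
    exact (Ideal.mul_mono ih le_rfl).trans perfHull_mul_le

/-- perfect hulls satisfy `SP`. -/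
theorem SP_perfHull (P : Ideal C) : Vale.Agent.P177.CN.SP p (perfHull p P) := by
  intro m b hb
  rw [← pow_mem_perfHull_iff (e := m), rt_pow]
  exact perfHull_pow_le P _ hb

theorem rt_zero (a : C) : rt p 0 a = a := by
  have := rt_pow p 0 a
  rwa [pow_zero, pow_one] at this

theorem SP.one {J : Ideal C} (hJ : Vale.Agent.P177.CN.SP p J) {x : C} (hx : x ∈ J ^ p) : rt p 1 x ∈ J :=
  hJ 1 x (by rwa [pow_one])

/-- extension along any homomorphism of perfect rings. -/
theorem SP.map {C' : Type v} [CommRing C'] [CharP C' p] [PerfectRing C' p] (f : C →+* C')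
    {J : Ideal C} (hJ : Vale.Agent.P177.CN.SP p J) : Vale.Agent.P177.CN.SP p (J.map f) := by
  intro m b hb
  rw [← Ideal.map_pow] at hb
  refine Submodule.span_induction (p := fun b _ => rt p m b ∈ J.map f) ?_ ?_ ?_ ?_ hb
  · rintro _ ⟨a, ha, rfl⟩
    beta_reduce
    have : rt p m (f a) = f (rt p m a) := by
      apply pow_pow_inj p m
      rw [rt_pow, ← map_pow, rt_pow]
    rw [this]
    exact Ideal.mem_map_of_mem _ (hJ m a ha)
  · have : rt p m (0 : C') = 0 := by
      apply pow_pow_inj p m
      rw [rt_pow, zero_pow (pow_ne_zero _ hp.out.ne_zero)]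
    rw [this]
    exact zero_mem _
  · intro x y _ _ hx hy
    have : rt p m (x + y) = rt p m x + rt p m y := by
      apply pow_pow_inj p m
      rw [rt_pow, add_pow_char_pow, rt_pow, rt_pow]
    rw [this]
    exact add_mem hx hy
  · intro r x _ hx
    rw [smul_eq_mul, rt_mul]
    exact Ideal.mul_mem_left _ _ hx

variable {T Θ : C} (E : NatE p C T Θ)

/-- (N1J) for `f = 0`. -/
theorem NatE.n1J0 (J : Ideal C) {x : E.N} (hx : x ∈ J.map (algebraMap C E.N)) :
    ∃ a ∈ J, ∃ y ∈ J.map (algebraMap C E.N),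
      algebraMap C E.N Θ * x = algebraMap C E.N a + algebraMap C E.N T * y := by
  have := E.n1J J 0 hx
  rwa [rt_zero, rt_zero] at this

/-- (N2J) for `f = 0`. -/
theorem NatE.n2J0 {J : Ideal C} (hJ : Vale.Agent.P177.CN.SP p J) (s : C) (hs : s ∣ T) {x : C}
    (hx : x ∈ J) {y : E.N} (hy : y ∈ J.map (algebraMap C E.N))
    (hxy : algebraMap C E.N x = algebraMap C E.N s * y) :
    ∃ x' ∈ J, Θ ^ 3 * x = s * x' := by
  have := E.n2J hJ 0 s (by rwa [rt_zero]) hx hy hxy
  rwa [rt_zero] at this

/-- `T` is a multiple of `Θ` in `C^nat`. -/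
theorem NatE.dvd : algebraMap C E.N Θ ∣ algebraMap C E.N T := ⟨E.w, E.hw.symm⟩


end

section

variable {p : ℕ} [hp : Fact p.Prime] {ι : Type v} [Nonempty ι] {C : ι → Type w}
  [∀ e, CommRing (C e)] [∀ e, CharP (C e) p] [∀ e, PerfectRing (C e) p]

attribute [local instance] charP_pi perfectRing_pi

theorem rt_pi (m : ℕ) (a : ∀ e, C e) (e : ι) : rt p m a e = rt p m (a e) := by
  apply pow_pow_inj p m
  rw [rt_pow, ← Pi.pow_apply, rt_pow]

theorem pow_pi_le (J : ∀ e, Ideal (C e)) (n : ℕ) {b : ∀ e, C e} (hb : b ∈ Ideal.pi J ^ n)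
    (e : ι) : b e ∈ J e ^ n := by
  have h1 : (Ideal.pi J).map (Pi.evalRingHom C e) ≤ J e := by
    rw [Ideal.map_le_iff_le_comap]
    intro x hx
    exact hx e
  have h2 := Ideal.mem_map_of_mem (Pi.evalRingHom C e) hb
  rw [Ideal.map_pow] at h2
  exact Ideal.pow_right_mono h1 n h2

/-- products of ideals with `SP` satisfy `SP`. -/
theorem SP_pi {J : ∀ e, Ideal (C e)} (hJ : ∀ e, Vale.Agent.P177.CN.SP p (J e)) : Vale.Agent.P177.CN.SP p (Ideal.pi J) := by
  intro m b hb e
  rw [rt_pi]
  exact hJ e m _ (pow_pi_le J _ hb e)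

end

end Vale.Agent.P177.CN
end

section

/-!
# P177, block NAT-Z: localisation of `C^nat` at `1 + t C^nat`
-/

set_option linter.all false

namespace Vale.Agent.P177.CN

open Polynomial Vale.Agent.P177.PI

universe u

section loc

variable (p : ℕ) [hp : Fact p.Prime] {N : Type u} [CommRing N] [CharP N p] [PerfectRing N p]

/-- the monoid `1 + t N`. -/
def oneAdd (t : N) : Submonoid N where
  carrier := {m | ∃ b, m = 1 + t * b}
  one_mem' := ⟨0, by ring⟩
  mul_mem' := by
    rintro _ _ ⟨a, rfl⟩ ⟨b, rfl⟩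
    exact ⟨a + b + t * a * b, by ring⟩

include p in
theorem isReduced_locM (M : Submonoid N) : IsReduced (Localization M) := by
  haveI := isReduced_of_perfect p N
  exact isReduced_localizationPreserves M (Localization M) inferInstance

theorem charP_locM (M : Submonoid N) (hM : (0 : N) ∉ M) : CharP (Localization M) p := by
  haveI : Nontrivial (Localization M) := by
    refine ⟨⟨0, 1, fun h => hM ?_⟩⟩
    have h1 : algebraMap N (Localization M) 1 = 0 := by rw [map_one]; exact h.symm
    rw [IsLocalization.map_eq_zero_iff M] at h1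
    obtain ⟨m, hm⟩ := h1
    rw [mul_one] at hm
    rw [← hm]
    exact m.2
  rw [CharP.charP_iff_prime_eq_zero hp.out]
  rw [← map_natCast (algebraMap N (Localization M)), CharP.cast_eq_zero, map_zero]

theorem perfect_locM (M : Submonoid N) (hM : (0 : N) ∉ M) :
    haveI := charP_locM p M hM
    PerfectRing (Localization M) p := by
  haveI := charP_locM p M hM
  haveI := isReduced_locM p M
  refine PerfectRing.ofSurjective (Localization M) p ?_
  intro x
  obtain ⟨⟨a, s⟩, h⟩ := IsLocalization.surj M x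
  have hu : IsUnit (algebraMap N (Localization M) s) := IsLocalization.map_units _ s
  obtain ⟨v, hv⟩ := hu.exists_right_inv
  obtain ⟨q, hq⟩ : ∃ q, p = q + 1 := ⟨p - 1, by have := hp.out.pos; omega⟩
  have hr : ∀ b : N, rt p 1 b ^ p = b := fun b => by
    have := rt_pow p 1 b
    rwa [pow_one] at this
  refine ⟨algebraMap N (Localization M) (rt p 1 (a * s ^ q)) * v, ?_⟩
  rw [frobenius_def, mul_pow, ← map_pow, hr, map_mul]
  have h' : x * algebraMap N (Localization M) s = algebraMap N (Localization M) a := h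
  rw [← h', map_pow]
  have h3 : algebraMap N (Localization M) s * algebraMap N (Localization M) s ^ q * v ^ p = 1 := by
    rw [← pow_succ', ← hq, ← mul_pow, hv, one_pow]
  calc x * algebraMap N (Localization M) s * algebraMap N (Localization M) s ^ q * v ^ p
      = x * (algebraMap N (Localization M) s * algebraMap N (Localization M) s ^ q * v ^ p) := by
        ring
    _ = x := by rw [h3, mul_one]

end loc

section

variable (p : ℕ) [hp : Fact p.Prime] {C : Type u} [CommRing C] [CharP C p] [PerfectRing C p]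

/-- **existence of the ring `C'`**; all the nonzerodivisors of `C` stay nonzerodivisors. -/
theorem exists_natZ_reg {t η : C} (ht : t ∈ nonZeroDivisors C) (hη : η ^ 3 ∉ Ideal.span {t}) :
    ∃ Z : NatZ p C t η, ∀ a ∈ nonZeroDivisors C, Z.f a ∈ nonZeroDivisors Z.C' := by
  have hη0 : η ≠ 0 := by
    rintro rfl
    apply hη
    rw [zero_pow (by norm_num)]
    exact zero_mem _
  obtain ⟨E⟩ := nonempty_natE p t hη0
  set f0 := algebraMap C E.N with hf0
  set M := oneAdd (f0 t) with hMdef
  have hM : (0 : E.N) ∉ M := by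
    rintro ⟨b, hb⟩
    obtain ⟨x', _, hx'⟩ := E.n2J0 (SP_top p) t dvd_rfl (x := 1) Submodule.mem_top
      (y := -b) (by
        have : (⊤ : Ideal C).map (algebraMap C E.N) = ⊤ := Ideal.map_top _
        rw [this]; exact Submodule.mem_top) (by
        rw [map_one]
        linear_combination -hb)
    apply hη
    rw [mul_one] at hx'
    rw [hx']
    exact Ideal.mul_mem_right _ _ (Ideal.mem_span_singleton_self _)
  haveI := charP_locM p M hM
  haveI := perfect_locM p M hM
  set g : E.N →+* Localization M := algebraMap E.N (Localization M) with hg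
  set f : C →+* Localization M := g.comp f0 with hf
  have hfap : ∀ a, f a = g (f0 a) := fun a => rfl
  have hmap : ∀ J : Ideal C, J.map f = (J.map f0).map g := fun J => (Ideal.map_map f0 g).symm
  -- elements of the extension of `J`
  have hJ : ∀ J : Ideal C, ∀ x ∈ J.map f, ∃ y ∈ J.map f0, ∃ b : E.N,
      x * (1 + g (f0 t) * g b) = g y := by
    intro J x hx
    rw [hmap, IsLocalization.mem_map_algebraMap_iff M] at hx
    obtain ⟨⟨⟨y, hy⟩, ⟨s, b, rfl⟩⟩, h⟩ := hx
    refine ⟨y, hy, b, ?_⟩
    rw [← map_one g, ← map_mul, ← map_add]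
    exact h
  have hreg : ∀ a ∈ nonZeroDivisors C, f a ∈ nonZeroDivisors (Localization M) :=
    fun a ha => IsLocalization.map_nonZeroDivisors_le M (Localization M)
      ⟨f0 a, E.reg a ha, rfl⟩
  refine ⟨{
    C' := Localization M
    f := f
    reg := hreg t ht
    jac := ?_
    dvd := ?_
    n1 := ?_
    n2 := ?_ }, hreg⟩
  · rw [Ideal.mem_jacobson_bot]
    intro x
    obtain ⟨⟨a, ⟨s, b, rfl⟩⟩, h⟩ := IsLocalization.surj M x
    have h' : x * g (1 + f0 t * b) = g a := h
    have hu1 : IsUnit (g (1 + f0 t * b)) := IsLocalization.map_units (Localization M)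
      (⟨1 + f0 t * b, b, rfl⟩ : M)
    have hu2 : IsUnit (g (1 + f0 t * (b + a))) := IsLocalization.map_units (Localization M)
      (⟨1 + f0 t * (b + a), b + a, rfl⟩ : M)
    have h3 : (f t * x + 1) * g (1 + f0 t * b) = g (1 + f0 t * (b + a)) := by
      rw [hfap]
      simp only [map_add, map_mul, map_one] at h' ⊢
      linear_combination g (f0 t) * h'
    rw [← h3] at hu2
    exact isUnit_of_mul_isUnit_left hu2
  · rw [hfap, hfap]
    exact map_dvd g E.dvd
  · intro J x hx
    obtain ⟨y, hy, b, h⟩ := hJ J x hx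
    obtain ⟨a, ha, z, hz, h1⟩ := E.n1J0 J hy
    refine ⟨a, ha, g z - f η * g b * x, ?_, ?_⟩
    · refine sub_mem ?_ (Ideal.mul_mem_left _ _ hx)
      rw [hmap]
      exact Ideal.mem_map_of_mem g hz
    · have h2 : g (f0 η) * g y = g (f0 a) + g (f0 t) * g z := by
        rw [← map_mul, h1, map_add, map_mul]
      rw [hfap, hfap, hfap]
      linear_combination g (f0 η) * h + h2
  · rintro J hSP x hx ⟨y, hy, hxy⟩
    obtain ⟨y0, hy0, b, h⟩ := hJ J y hy
    have h1 : g (f0 x * (1 + f0 t * b)) = g (f0 t * y0) := by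
      rw [map_mul, map_mul, map_add, map_one, map_mul, ← h]
      rw [hfap, hfap] at hxy
      rw [hxy]
      ring
    rw [hg, IsLocalization.eq_iff_exists M] at h1
    obtain ⟨⟨s, b', rfl⟩, h2⟩ := h1
    have h2' : (1 + f0 t * b') * (f0 x * (1 + f0 t * b)) = (1 + f0 t * b') * (f0 t * y0) := h2
    refine E.n2J0 hSP t dvd_rfl hx (y := (1 + f0 t * b') * y0 - (b + b' + f0 t * b * b') * f0 x)
      ?_ ?_
    · exact sub_mem (Ideal.mul_mem_left _ _ hy0)
        (Ideal.mul_mem_left _ _ (Ideal.mem_map_of_mem _ hx))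
    · linear_combination h2'

theorem exists_natZ {t η : C} (ht : t ∈ nonZeroDivisors C) (hη : η ^ 3 ∉ Ideal.span {t}) :
    Nonempty (NatZ p C t η) := by
  obtain ⟨Z, _⟩ := exists_natZ_reg p ht hη
  exact ⟨Z⟩

end

end Vale.Agent.P177.CN
end

section

/-!
P177, GD: Koszul masses of `J`, `J'`, `WI J`, `WI J / E`.
-/

namespace Vale.Agent.P177.MN

open Vale.Agent.P177.KG Vale.Agent.P202.Mix Vale.Agent.P177.PI WittVector
open scoped ENNReal

universe u

section J

variable {R C C' : Type u} [CommRing R] [CommRing C] [CommRing C'] [Algebra R C] [Algebra R C']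

/-- `t J` as a submodule of `J`, over the base ring. -/
def tJ (R : Type u) [CommRing R] [Algebra R C] (t : R) (J : Ideal C) : Submodule R ↥J :=
  LinearMap.range (LinearMap.lsmul R ↥J t)

theorem mem_tJ {t : R} {J : Ideal C} {x : ↥J} : x ∈ tJ R t J ↔ ∃ y : ↥J, t • y = x := Iff.rfl

/-- the quotient `J / t J`. -/
abbrev Jt (R : Type u) [CommRing R] [Algebra R C] (t : R) (J : Ideal C) : Type u := ↥J ⧸ tJ R t J

theorem KC_len_Jt (L : ALen R) (t : R) (J : Ideal C)
    (ht : ∀ x ∈ J, algebraMap R C t * x = 0 → x = 0) (xs : List R) (i : ℕ) :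
    L.len ((KC ↥J (t :: xs)).H i) = L.len ((KC (Jt R t J) xs).H i) := by
  refine KC_len_cons L t ?_ (tJ R t J).mkQ (Submodule.mkQ_surjective _) ?_ xs i
  · rintro ⟨x, hx⟩ h
    apply Subtype.ext
    apply ht x hx
    have h1 : t • x = 0 := congrArg Subtype.val h
    rwa [Algebra.smul_def] at h1
  · intro m
    rw [Submodule.mkQ_apply, Submodule.Quotient.mk_eq_zero, mem_tJ]

/-- the map `J / t J → J' / t J'`. -/
def phiJ (f : C →ₐ[R] C') (t : R) (J : Ideal C) (J' : Ideal C') (hJ : ∀ x ∈ J, f x ∈ J') :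
    Jt R t J →ₗ[R] Jt R t J' :=
  Submodule.mapQ (tJ R t J) (tJ R t J')
    { toFun := fun x => ⟨f x, hJ x x.2⟩
      map_add' := fun x y => Subtype.ext (map_add f (x : C) y)
      map_smul' := fun r x => Subtype.ext (map_smul f r (x : C)) } (by
    rintro _ ⟨y, rfl⟩
    refine ⟨⟨f y, hJ y y.2⟩, Subtype.ext ?_⟩
    exact (map_smul f t (y : C)).symm)

/-- the Koszul masses of `J` and `J'` are equal. -/
theorem KC_len_J_eq (L : ALen R) {η : R}
    (hη : ∀ (M : Type u) [AddCommGroup M] [Module R M], (∀ m : M, η • m = 0) → L.len M = 0)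
    (f : C →ₐ[R] C') (t : R) (J : Ideal C) (J' : Ideal C') (hJ : ∀ x ∈ J, f x ∈ J')
    (ht : ∀ x ∈ J, algebraMap R C t * x = 0 → x = 0)
    (ht' : ∀ x ∈ J', algebraMap R C' t * x = 0 → x = 0)
    (h4 : ∀ y ∈ J', ∃ x ∈ J, ∃ z ∈ J', algebraMap R C' η * y = f x + algebraMap R C' t * z)
    (h5 : ∀ x ∈ J, ∀ z ∈ J', f x = algebraMap R C' t * z →
      ∃ w ∈ J, algebraMap R C η ^ 3 * x = algebraMap R C t * w) (xs : List R) (i : ℕ) :
    L.len ((KC ↥J (t :: xs)).H i) = L.len ((KC ↥J' (t :: xs)).H i) := by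
  rw [KC_len_Jt L t J ht, KC_len_Jt L t J' ht']
  have hη3 : ∀ (M : Type u) [AddCommGroup M] [Module R M], (∀ m : M, η ^ 3 • m = 0) →
      L.len M = 0 := by
    intro M _ _ hM
    let f : M →ₗ[R] M := LinearMap.lsmul R M η
    have hstep : ∀ (N : Type u) [AddCommGroup N] [Module R N] (k : ℕ),
        (∀ m : N, η ^ k • m = 0) → L.len N = 0 := by
      intro N _ _ k
      induction k generalizing N with
      | zero =>
        intro h
        have : Subsingleton N := ⟨fun a b => by
          have ha := h a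
          have hb := h b
          rw [pow_zero, one_smul] at ha hb
          rw [ha, hb]⟩
        exact len_subsingleton L
      | succ k ih =>
        intro h
        let g : N →ₗ[R] N := LinearMap.lsmul R N η
        rw [Vale.Agent.P177.KG.len_sub_quot L (LinearMap.ker g), hη _ (by
          rintro ⟨m, hm⟩
          exact Subtype.ext hm), zero_add, Vale.Agent.P177.KG.len_congr L g.quotKerEquivRange]
        refine ih _ ?_
        rintro ⟨m, x, rfl⟩
        apply Subtype.ext
        show η ^ k • η • x = 0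
        rw [smul_smul, ← pow_succ]
        exact h x
    exact hstep M 3 hM
  refine KC_len_eq_of_null L (phiJ f t J J' hJ) (hη3 _ ?_) (hη _ ?_) xs i
  · rintro ⟨m, hm⟩
    obtain ⟨x, rfl⟩ := Submodule.mkQ_surjective _ m
    have h1 : (tJ R t J').mkQ ⟨f x, hJ x x.2⟩ = 0 := hm
    rw [Submodule.mkQ_apply, Submodule.Quotient.mk_eq_zero, mem_tJ] at h1
    obtain ⟨z, hz⟩ := h1
    have h2 : f x = algebraMap R C' t * (z : C') := by
      have h3 : t • (z : C') = f x := congrArg Subtype.val hz
      rw [← h3, Algebra.smul_def]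
    obtain ⟨w, hw, hwe⟩ := h5 x x.2 z z.2 h2
    apply Subtype.ext
    show η ^ 3 • (tJ R t J).mkQ x = 0
    rw [← map_smul, Submodule.mkQ_apply, Submodule.Quotient.mk_eq_zero, mem_tJ]
    refine ⟨⟨w, hw⟩, Subtype.ext ?_⟩
    show t • w = η ^ 3 • (x : C)
    rw [Algebra.smul_def, Algebra.smul_def, map_pow, hwe]
  · intro m
    obtain ⟨m, rfl⟩ := Submodule.mkQ_surjective _ m
    obtain ⟨y, rfl⟩ := Submodule.mkQ_surjective _ m
    obtain ⟨x, hx, z, hz, he⟩ := h4 y y.2
    rw [← map_smul, Submodule.mkQ_apply, Submodule.Quotient.mk_eq_zero]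
    refine ⟨(tJ R t J).mkQ ⟨x, hx⟩, ?_⟩
    show (tJ R t J').mkQ ⟨f x, hJ x hx⟩ = η • (tJ R t J').mkQ y
    rw [← map_smul, ← sub_eq_zero, ← map_sub, Submodule.mkQ_apply,
      Submodule.Quotient.mk_eq_zero, mem_tJ]
    refine ⟨⟨-z, neg_mem hz⟩, Subtype.ext ?_⟩
    show t • (-z) = f x - η • (y : C')
    rw [Algebra.smul_def, Algebra.smul_def, he]
    ring

end J

section W

variable (p : ℕ) [hp : Fact p.Prime] {R C : Type u} [CommRing R] [CommRing C] [CharP C p]
  [PerfectRing C p] [Algebra R C] [Algebra R (WittVector p C)]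

/-- the reduction `WI J → J` over the base ring. -/
noncomputable def redJ (hcomp : ∀ r : R, algebraMap R C r =
      (algebraMap R (WittVector p C) r).coeff 0) {J : Ideal C} (hJ : IsPerf p J) :
    ↥(WI p J) →ₗ[R] ↥J where
  toFun x := ⟨(x : WittVector p C).coeff 0, coeff_zero_mem p hJ x.2⟩
  map_add' x y := Subtype.ext (map_add (WittVector.constantCoeff (p := p) (R := C))
    (x : WittVector p C) y)
  map_smul' r x := by
    apply Subtype.ext
    show (r • (x : WittVector p C)).coeff 0 = r • (x : WittVector p C).coeff 0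
    rw [Algebra.smul_def, Algebra.smul_def, hcomp]
    exact map_mul (WittVector.constantCoeff (p := p) (R := C)) _ _

variable {p}

theorem redJ_surjective (hcomp : ∀ r : R, algebraMap R C r =
      (algebraMap R (WittVector p C) r).coeff 0) {J : Ideal C} (hJ : IsPerf p J) :
    Function.Surjective (redJ p hcomp hJ) := by
  rintro ⟨x, hx⟩
  exact ⟨⟨teichmuller p x, te_mem_WI p hx⟩, Subtype.ext (teichmuller_coeff_zero p x)⟩

/-- `H_i(p :: xs; WI J) = H_i(xs; J)`. -/
theorem KC_len_WI (L : ALen R) (hcomp : ∀ r : R, algebraMap R C r =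
      (algebraMap R (WittVector p C) r).coeff 0) {J : Ideal C} (hJ : IsPerf p J)
    (xs : List R) (i : ℕ) :
    L.len ((KC ↥(WI p J) ((p : R) :: xs)).H i) = L.len ((KC ↥J xs).H i) := by
  refine KC_len_cons L (p : R) ?_ (redJ p hcomp hJ) (redJ_surjective hcomp hJ) ?_ xs i
  · rintro ⟨x, hx⟩ h
    apply Subtype.ext
    have h1 : (p : R) • x = 0 := congrArg Subtype.val h
    rw [Algebra.smul_def, map_natCast] at h1
    exact p_reg p x h1
  · rintro ⟨x, hx⟩
    constructor
    · intro h
      have h0 : x.coeff 0 = 0 := congrArg Subtype.val h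
      obtain ⟨y, hy, hyx⟩ := exists_p_mul_of_coeff_zero p hJ hx h0
      refine ⟨⟨y, hy⟩, Subtype.ext ?_⟩
      show (p : R) • y = x
      rw [Algebra.smul_def, map_natCast, hyx]
    · rintro ⟨y, hy⟩
      rw [← hy, map_smul]
      apply Subtype.ext
      show (p : R) • ((redJ p hcomp hJ y : ↥J) : C) = 0
      rw [Algebra.smul_def, map_natCast, CharP.cast_eq_zero, zero_mul]

/-- `H_i(p :: xs; WI J / E) = H_i(t :: xs; J)` if the reduction of `E` is a unit times `t`. -/
theorem KC_len_WIE (L : ALen R) (hcomp : ∀ r : R, algebraMap R C r =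
      (algebraMap R (WittVector p C) r).coeff 0) {J : Ideal C} (hJ : IsPerf p J) (t : R)
    (ht : algebraMap R C t ∈ nonZeroDivisors C) (E : WittVector p C) (v : Cˣ)
    (hE : E.coeff 0 = v * algebraMap R C t)
    {X : Type u} [AddCommGroup X] [Module R X] (ρ : ↥(WI p J) →ₗ[R] X)
    (hρ : Function.Surjective ρ)
    (hk : ∀ x : ↥(WI p J), ρ x = 0 ↔ ∃ w ∈ WI p J, (x : WittVector p C) = E * w)
    (xs : List R) (i : ℕ) :
    L.len ((KC X ((p : R) :: xs)).H i) = L.len ((KC ↥J (t :: xs)).H i) := by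
  have hEn : E.coeff 0 ∈ nonZeroDivisors C := by
    rw [hE]
    exact mul_mem v.isUnit.mem_nonZeroDivisors ht
  rw [KC_len_Jt L t J fun x _ h => (mem_nonZeroDivisors_iff_left.1 ht) x h]
  -- the map `X → J / t J`
  let g0 : ↥(WI p J) →ₗ[R] Jt R t J := (tJ R t J).mkQ ∘ₗ redJ p hcomp hJ
  have hg0 : ∀ x : ↥(WI p J), g0 x = 0 ↔ ∃ a ∈ J, (x : WittVector p C).coeff 0 =
      E.coeff 0 * a := by
    intro x
    show (tJ R t J).mkQ (redJ p hcomp hJ x) = 0 ↔ _
    rw [Submodule.mkQ_apply, Submodule.Quotient.mk_eq_zero, mem_tJ]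
    constructor
    · rintro ⟨y, hy⟩
      refine ⟨(↑v⁻¹ : C) * y, Ideal.mul_mem_left _ _ y.2, ?_⟩
      have h1 : t • (y : C) = (x : WittVector p C).coeff 0 := congrArg Subtype.val hy
      rw [← h1, hE, Algebra.smul_def]
      have h2 : (v : C) * (↑v⁻¹ : C) = 1 := v.mul_inv
      linear_combination (-(algebraMap R C t) * (y : C)) * h2
    · rintro ⟨a, ha, h⟩
      refine ⟨⟨v * a, Ideal.mul_mem_left _ _ ha⟩, Subtype.ext ?_⟩
      show t • ((v : C) * a) = (x : WittVector p C).coeff 0
      rw [h, hE, Algebra.smul_def]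
      ring
  have hle : LinearMap.ker ρ ≤ LinearMap.ker g0 := by
    intro x hx
    obtain ⟨w, hw, he⟩ := (hk x).1 hx
    refine (hg0 x).2 ⟨w.coeff 0, coeff_zero_mem p hJ hw, ?_⟩
    rw [he]
    exact map_mul (WittVector.constantCoeff (p := p) (R := C)) _ _
  let g : X →ₗ[R] Jt R t J := ((LinearMap.ker ρ).liftQ g0 hle) ∘ₗ
    (ρ.quotKerEquivOfSurjective hρ).symm.toLinearMap
  have hg : ∀ x, g (ρ x) = g0 x := by
    intro x
    have h1 : (ρ.quotKerEquivOfSurjective hρ).symm (ρ x) = (LinearMap.ker ρ).mkQ x := by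
      rw [LinearEquiv.symm_apply_eq]
      rfl
    show ((LinearMap.ker ρ).liftQ g0 hle) ((ρ.quotKerEquivOfSurjective hρ).symm (ρ x)) = _
    rw [h1]
    rfl
  refine KC_len_cons L (p : R) ?_ g ?_ ?_ xs i
  · intro m h
    obtain ⟨x, rfl⟩ := hρ m
    rw [← map_smul] at h
    obtain ⟨w, hw, he⟩ := (hk _).1 h
    have he' : (p : WittVector p C) * (x : WittVector p C) = E * w := by
      rw [← he]
      show _ = (p : R) • (x : WittVector p C)
      rw [Algebra.smul_def, map_natCast]
    obtain ⟨w', hw', he''⟩ := KM.wi_p_reg p hJ hEn hw he'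
    exact (hk x).2 ⟨w', hw', he''⟩
  · intro m
    obtain ⟨y, rfl⟩ := Submodule.mkQ_surjective _ m
    obtain ⟨x, rfl⟩ := redJ_surjective hcomp hJ y
    exact ⟨ρ x, hg x⟩
  · intro m
    obtain ⟨x, rfl⟩ := hρ m
    rw [hg, hg0]
    constructor
    · rintro ⟨a, ha, h⟩
      obtain ⟨w, hw, he⟩ := KM.wi_mod p hJ x.2 ha h
      refine ⟨ρ ⟨w, hw⟩, ?_⟩
      rw [← map_smul, ← sub_eq_zero, ← map_sub]
      refine (hk _).2 ⟨-teichmuller p a, neg_mem (te_mem_WI p ha), ?_⟩
      show (p : R) • w - (x : WittVector p C) = _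
      rw [Algebra.smul_def, map_natCast, he]
      ring
    · rintro ⟨m', hm'⟩
      obtain ⟨w, rfl⟩ := hρ m'
      rw [← map_smul, ← sub_eq_zero, ← map_sub] at hm'
      obtain ⟨w', hw', he⟩ := (hk _).1 hm'
      have he' : (p : R) • (w : WittVector p C) - (x : WittVector p C) = E * w' := he
      rw [Algebra.smul_def, map_natCast] at he'
      refine ⟨-(w'.coeff 0), neg_mem (coeff_zero_mem p hJ hw'), ?_⟩
      have h1 := congrArg (WittVector.constantCoeff (p := p) (R := C)) he'
      rw [map_sub, map_mul, map_mul, map_natCast, CharP.cast_eq_zero, zero_mul, zero_sub] at h1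
      have h2 : -((x : WittVector p C).coeff 0) = E.coeff 0 * w'.coeff 0 := h1
      linear_combination -h2

end W

end Vale.Agent.P177.MN
end

section

/-!
P177, assembly: the Koszul masses of the ideals `J` of the package and of their extensions to the
NAT ring.
-/

namespace Vale.Agent.P177.Full

open TensorProduct IsLocalRing Function Vale.Agent.P202.Mix Vale.Agent.P177.PI
  Vale.Agent.P177.KM Vale.Agent.P177.KG Vale.Agent.P177.NatG Vale.Agent.P177.CN
  Vale.Agent.P177.Perf Vale.Agent.P177.Lev WittVector Polynomial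
open scoped ENNReal

universe u

namespace Pkg

variable {p : ℕ} [hp : Fact p.Prime] {k : Type u} [Field k] [CharP k p] {r : ℕ}
variable {Λ : Type u} [CommRing Λ] [IsLocalRing Λ] {ψ : Λ →+* WittVector p (Rp p k r)}
variable {Ω : Type u} [Field Ω] [Algebra Λ Ω] {s : ℕ} {b : Fin s → Ω} {F G : Fin s → Λ[X]}
    {D : ℕ} {ε : ℝ≥0∞} {Φ : ℕ → ℕ} (K : Pkg ψ b F G D ε Φ)

theorem SP_J (n : ℕ) (ix : ∀ j, (Fin j → Fin n) → Fin s) (z : Fin n → ℤ) : Vale.Agent.P177.CN.SP p (K.J n ix z) :=
  SP_pi fun _ => SP_perfHull _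

/-- **finiteness of the Koszul masses of the ideals of the package.** -/
theorem KC_J_lt_top [IsNoetherianRing Λ] {u' : Fin r → Λ}
    {red : Λ →+* R0 k r ⧸ Ideal.span {(MvPowerSeries.X 0 : R0 k r)}}
    (hb : IsBase p k r Λ u' ψ red) (hΦ : ∀ j, j * (p ^ j * p ^ j) ≤ Φ j)
    (n : ℕ) (ix : ∀ j, (Fin j → Fin n) → Fin s) (z : Fin n → ℤ)
    (hidx : ∀ i : Fin n, ∃ t, b (ix ((i : ℕ) + 1) t) ≠ 0) (q : ℕ) :
    let := algW p K.C
    (ALen.of K.mass).len ((KC (R := WittVector p K.C) ↥(K.J n ix z)
      (List.ofFn fun l => teichmuller p (xC p k r K.C l))).H q) < ⊤ :=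
  K.KC_lt_top hb hΦ (fun (i : Fin n) (t : Fin ((i : ℕ) + 1) → Fin n) => ix (i + 1) t) hidx
    (fun i => (z i).toNat) q

theorem te_coeff_zero_map {C C' : Type u} [CommRing C] [CommRing C'] (f : C →+* C')
    (a : C) : ((WittVector.constantCoeff (p := p) (R := C')).comp (WittVector.map f))
      (teichmuller p a) = f a := by
  rw [RingHom.comp_apply, map_teichmuller]
  exact teichmuller_coeff_zero p (f a)

/-- **finiteness of the Koszul masses of `J C'`.** -/
theorem KC_map_lt_top {η' : K.C} (hη' : Kil K.mass (teichmuller p η'))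
    (Z : NatZ p K.C (tC p k r K.C) η') (J : Ideal K.C) (hJ : Vale.Agent.P177.CN.SP p J)
    (hfin : let := algW p K.C
      ∀ q, (ALen.of K.mass).len ((KC (R := WittVector p K.C) ↥J
        (List.ofFn fun l => teichmuller p (xC p k r K.C l))).H q) < ⊤) :
    let := ((WittVector.constantCoeff (p := p) (R := Z.C')).comp
        (WittVector.map Z.f)).toAlgebra
      ∀ q, (ALen.of K.mass).len ((KC (R := WittVector p K.C) ↥(J.map Z.f)
        (teichmuller p (tC p k r K.C) ::
        List.ofFn fun l : Fin r => teichmuller p (xC p k r K.C l.succ))).H q) < ⊤ := by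
  let _ := algW p K.C
  let _ : Algebra (WittVector p K.C) Z.C' :=
    ((WittVector.constantCoeff (p := p) (R := Z.C')).comp (WittVector.map Z.f)).toAlgebra
  intro _ q
  let fA : K.C →ₐ[WittVector p K.C] Z.C' :=
    { Z.f with
      commutes' := fun w => by
        change Z.f (w.coeff 0) = (WittVector.map Z.f w).coeff 0
        rw [WittVector.map_coeff] }
  have ht : tC p k r K.C ∈ nonZeroDivisors K.C := K.t_reg
  have ht' := Z.reg
  have e1 : ∀ a : K.C, algebraMap (WittVector p K.C) K.C (teichmuller p a) = a := fun a =>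
    teichmuller_coeff_zero p a
  have e2 : ∀ a : K.C, algebraMap (WittVector p K.C) Z.C' (teichmuller p a) = Z.f a := fun a =>
    te_coeff_zero_map Z.f a
  have key := MN.KC_len_J_eq (ALen.of K.mass) (η := teichmuller p η')
    (fun M _ _ hM => hη' M hM) fA (teichmuller p (tC p k r K.C)) J (J.map Z.f)
    (fun x hx => Ideal.mem_map_of_mem Z.f hx)
    (fun x _ h => by
      rw [e1] at h
      exact (mem_nonZeroDivisors_iff_left.1 ht) x h)
    (fun x _ h => by
      rw [e2] at h
      exact (mem_nonZeroDivisors_iff_left.1 ht') x h)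
    (fun y hy => by
      rw [e2, e2]
      obtain ⟨a, ha, z, hz, h⟩ := Z.n1 J y hy
      exact ⟨a, ha, z, hz, h⟩)
    (fun x hx z hz h => by
      rw [e2] at h
      rw [e1, e1]
      obtain ⟨x', hx', h'⟩ := Z.n2 J hJ x hx ⟨z, hz, h⟩
      exact ⟨x', hx', h'⟩)
    (List.ofFn fun l : Fin r => teichmuller p (xC p k r K.C l.succ)) q
  rw [← key]
  have h3 := hfin q
  rw [List.ofFn_succ] at h3
  exact h3

end Pkg

end Vale.Agent.P177.Full
end

section

/-!
# P177, block CUT: `C/J` has one dimension less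

`C` perfect, `t` regular and in the Jacobson radical, `J` a perfect ideal such that a nonzero
element `γ` of `Λ` lies in `W(J)` modulo `(p - [t], p^M)`: then there are `y_1, .., y_r` (one less
than `t, u_1, .., u_r`) with `(t, u)^L ⊆ (y) + J`.
-/

set_option linter.all false

namespace Vale.Agent.P177.NatC

open Vale.Agent.P177.PI WittVector IsLocalRing

universe u

section A

variable {p : ℕ} [hp : Fact p.Prime] {C : Type u} [CommRing C]

/-- the ideal `J : t`. -/
def colT (J : Ideal C) (t : C) : Ideal C where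
  carrier := {c | t * c ∈ J}
  add_mem' := by
    intro a b ha hb
    show t * (a + b) ∈ J
    rw [mul_add]; exact add_mem ha hb
  zero_mem' := by
    show t * 0 ∈ J
    rw [mul_zero]; exact zero_mem _
  smul_mem' := by
    intro c a ha
    show t * (c * a) ∈ J
    rw [mul_left_comm]; exact Ideal.mul_mem_left _ _ ha

theorem mem_colT {J : Ideal C} {t c : C} : c ∈ colT J t ↔ t * c ∈ J := Iff.rfl

theorem le_colT (J : Ideal C) (t : C) : J ≤ colT J t := fun c hc => Ideal.mul_mem_left _ _ hc

theorem isPerf_colT {J : Ideal C} (hJ : IsPerf p J) (t : C) : IsPerf p (colT J t) := by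
  intro a ha b hb i hi c hc
  refine hJ _ ha _ hb i hi _ ?_
  rw [mul_pow, hc, mul_pow, mul_pow]
  have h : t ^ p = t ^ i * t ^ (p - i) := by rw [← pow_add, Nat.add_sub_cancel' hi]
  rw [h]
  ring

variable [CharP C p] [PerfectRing C p]

/-- `[t]` is regular modulo `p - [t]`. -/
theorem exists_of_te_mul {t : C} (ht : t ∈ nonZeroDivisors C) {a b : WittVector p C}
    (h : teichmuller p t * a = ((p : WittVector p C) - teichmuller p t) * b) :
    ∃ c, a = ((p : WittVector p C) - teichmuller p t) * c := by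
  have h1 : (p : Vale.Agent.P202.Mix.Bt p C t) * Vale.Agent.P202.Mix.toB p C t a = 0 := by
    rw [← map_natCast (Vale.Agent.P202.Mix.toB p C t), ← map_mul]
    refine Ideal.Quotient.eq_zero_iff_mem.2 (Ideal.mem_span_singleton'.2 ⟨a + b, ?_⟩)
    linear_combination -h
  have h2 := Vale.Agent.P202.Mix.p_mul_eq_zero p C t ht _ h1
  obtain ⟨c, hc⟩ := Ideal.mem_span_singleton'.1 (Ideal.Quotient.eq_zero_iff_mem.1 h2)
  exact ⟨c, by rw [← hc, mul_comm]⟩

/-- **Lemma A.** `[t]^m x ∈ W(J) + (p - [t], p^M)`, `m < M`, gives `t^m (x_0 + t v) ∈ J`. -/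
theorem exists_mem_of_te_pow {t : C} (ht : t ∈ nonZeroDivisors C) (m : ℕ) :
    ∀ (M : ℕ) (_ : m < M) {J : Ideal C} (_ : IsPerf p J) (x z y w : WittVector p C)
      (_ : z ∈ WI p J) (_ : z = teichmuller p t ^ m * x +
        ((p : WittVector p C) - teichmuller p t) * y + (p : WittVector p C) ^ M * w),
      ∃ v : C, t ^ m * (x.coeff 0 + t * v) ∈ J := by
  have hc : ∀ a b : WittVector p C, (a + b).coeff 0 = a.coeff 0 + b.coeff 0 := fun a b =>
    map_add (WittVector.constantCoeff : WittVector p C →+* C) a b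
  have hc' : ∀ a b : WittVector p C, (a * b).coeff 0 = a.coeff 0 * b.coeff 0 := fun a b =>
    map_mul (WittVector.constantCoeff : WittVector p C →+* C) a b
  have hp0 : ∀ (M : ℕ) (_ : 0 < M) (w : WittVector p C),
      ((p : WittVector p C) ^ M * w).coeff 0 = 0 := by
    intro M hM w
    obtain ⟨n, rfl⟩ : ∃ n, M = n + 1 := ⟨M - 1, by omega⟩
    rw [pow_succ', mul_assoc]
    exact p_mul_coeff_zero p _
  have hxi : ∀ y : WittVector p C, (((p : WittVector p C) - teichmuller p t) * y).coeff 0 =
      -(t * y.coeff 0) := by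
    intro y
    have h1 : WittVector.constantCoeff (((p : WittVector p C) - teichmuller p t) * y) =
        -(t * y.coeff 0) := by
      rw [map_mul, map_sub, map_natCast, CharP.cast_eq_zero, zero_sub]
      change -((teichmuller p t).coeff 0) * y.coeff 0 = _
      rw [teichmuller_coeff_zero]
      ring
    exact h1
  induction m with
  | zero =>
    intro M hM J hJ x z y w hz h
    refine ⟨-y.coeff 0, ?_⟩
    have h1 := (exists_of_mem_WI p hJ hz).1
    rw [h, pow_zero, one_mul, hc, hc, hp0 M hM, hxi] at h1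
    rw [pow_zero, one_mul]
    convert h1 using 1
    ring
  | succ m ih =>
    intro M hM J hJ x z y w hz h
    obtain ⟨h1, z', hz', hzz⟩ := exists_of_mem_WI p hJ hz
    obtain ⟨M', rfl⟩ : ∃ M', M = M' + 1 := ⟨M - 1, by omega⟩
    set s : C := t ^ m * x.coeff 0 - y.coeff 0 with hs
    have hz0 : z.coeff 0 = t * s := by
      rw [h, hc, hc, hp0 _ (by omega), hxi, hc', ← map_pow, teichmuller_coeff_zero, hs]
      ring
    have hsJ : s ∈ colT J t := by
      rw [mem_colT, ← hz0]; exact h1
    have h2 : teichmuller p t * (teichmuller p s + z' - teichmuller p t ^ m * x -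
        (p : WittVector p C) ^ M' * w) = ((p : WittVector p C) - teichmuller p t) *
          (y - z' + (p : WittVector p C) ^ M' * w) := by
      rw [hz0, map_mul (teichmuller p)] at hzz
      linear_combination h - hzz
    obtain ⟨c, hcc⟩ := exists_of_te_mul ht h2
    obtain ⟨v, hv⟩ := ih M' (by omega) (isPerf_colT hJ t) x (teichmuller p s + z') c w
      (add_mem (te_mem_WI p hsJ) (WI_mono p (le_colT J t) hz'))
      (by linear_combination hcc)
    refine ⟨v, ?_⟩
    rw [mem_colT] at hv
    rw [pow_succ', mul_assoc]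
    exact hv

end A

section B

/-- parameters of `Λ/(p, γ)`. -/
theorem exists_params {Λ : Type u} [CommRing Λ] [IsLocalRing Λ] [IsNoetherianRing Λ] {r : ℕ}
    (π : Λ) (hπ : (Ideal.span {π}).IsPrime)
    (hdim : ringKrullDim (Λ ⧸ Ideal.span {π}) ≤ (r + 1 : ℕ)) (γ : Λ) (hγ : γ ∉ Ideal.span {π})
    (hγm : γ ∈ maximalIdeal Λ) :
    ∃ x : Fin r → Λ, (∀ i, x i ∈ maximalIdeal Λ) ∧ ∃ M : ℕ,
      maximalIdeal Λ ^ M ≤ Ideal.span (insert π (insert γ (Set.range x))) := by
  have hπt : Ideal.span {π} ≠ ⊤ := hπ.ne_top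
  have hdom : IsDomain (Λ ⧸ Ideal.span {π}) := Ideal.Quotient.isDomain _
  have hloc : IsLocalRing (Λ ⧸ Ideal.span {π}) :=
    IsLocalRing.of_surjective' (Ideal.Quotient.mk _) Ideal.Quotient.mk_surjective
  set q := Ideal.Quotient.mk (Ideal.span {π}) with hq
  have hlocal : IsLocalHom q := IsLocalHom.of_surjective q Ideal.Quotient.mk_surjective
  have hmm : ∀ a : Λ, a ∈ maximalIdeal Λ → q a ∈ maximalIdeal (Λ ⧸ Ideal.span {π}) := by
    intro a ha
    rw [mem_maximalIdeal, mem_nonunits_iff] at ha ⊢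
    exact fun h => ha (isUnit_of_map_unit q a h)
  have h0 : q γ ∈ nonZeroDivisors (Λ ⧸ Ideal.span {π}) := by
    rw [mem_nonZeroDivisors_iff_ne_zero]
    intro h
    exact hγ (Ideal.Quotient.eq_zero_iff_mem.1 h)
  obtain ⟨hl2, h2⟩ := ch_dim_quot (q γ) h0 (hmm γ hγm) hdim
  obtain ⟨x, hx, M, hM⟩ := ch_params h2
  set q2 := Ideal.Quotient.mk (Ideal.span {q γ}) with hq2
  have hlocal2 : IsLocalHom q2 := IsLocalHom.of_surjective q2 Ideal.Quotient.mk_surjective
  have hs : Function.Surjective (q2.comp q) :=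
    Ideal.Quotient.mk_surjective.comp Ideal.Quotient.mk_surjective
  choose y hy using fun i => hs (x i)
  have hker : RingHom.ker (q2.comp q) ≤ Ideal.span (insert π (insert γ (Set.range y))) := by
    intro a ha
    rw [RingHom.mem_ker, RingHom.comp_apply] at ha
    obtain ⟨c, hc⟩ := Ideal.mem_span_singleton'.1 (Ideal.Quotient.eq_zero_iff_mem.1 ha)
    obtain ⟨c, rfl⟩ := Ideal.Quotient.mk_surjective c
    have h3 : q (a - c * γ) = 0 := by
      rw [map_sub, map_mul, ← hc]
      exact sub_self _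
    have h4 := Ideal.Quotient.eq_zero_iff_mem.1 h3
    have h5 : a = (a - c * γ) + c * γ := by ring
    rw [h5]
    refine add_mem ?_ (Ideal.mul_mem_left _ _ (Ideal.subset_span
      (Set.mem_insert_of_mem _ (Set.mem_insert _ _))))
    exact Ideal.span_mono (Set.singleton_subset_iff.2 (Set.mem_insert _ _)) h4
  refine ⟨y, fun i => ?_, M, ?_⟩
  · have h3 := hx i
    rw [← hy i, mem_maximalIdeal, mem_nonunits_iff] at h3
    rw [mem_maximalIdeal, mem_nonunits_iff]
    exact fun h => h3 (h.map _)
  · have h3 : (maximalIdeal Λ ^ M).map (q2.comp q) ≤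
        (Ideal.span (insert π (insert γ (Set.range y)))).map (q2.comp q) := by
      rw [Ideal.map_pow]
      have h4 : (maximalIdeal Λ).map (q2.comp q) ≤ maximalIdeal _ := by
        rw [Ideal.map_le_iff_le_comap]
        intro a ha
        have h5 := hmm a ha
        rw [mem_maximalIdeal, mem_nonunits_iff] at h5
        rw [Ideal.mem_comap, mem_maximalIdeal, mem_nonunits_iff, RingHom.comp_apply]
        exact fun h => h5 (isUnit_of_map_unit q2 _ h)
      refine (Ideal.pow_right_mono h4 M).trans (hM.trans ?_)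
      rw [Ideal.map_span, Ideal.span_le]
      rintro _ ⟨i, rfl⟩
      refine Ideal.subset_span ⟨y i, ?_, hy i⟩
      exact Set.mem_insert_of_mem _ (Set.mem_insert_of_mem _ ⟨i, rfl⟩)
    rw [Ideal.map_le_iff_le_comap, Ideal.comap_map_of_surjective' _ hs] at h3
    exact h3.trans (sup_le le_rfl hker)

/-- **Lemma C.** -/
theorem exists_cut_of_mem {C : Type u} [CommRing C] {Λ : Type u} [CommRing Λ] [IsLocalRing Λ]
    [IsNoetherianRing Λ] {r : ℕ} (π : Λ) (u : Fin r → Λ)
    (hmax : maximalIdeal Λ = Ideal.span (insert π (Set.range u)))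
    (hπ : (Ideal.span {π}).IsPrime) (bar : Λ →+* C) (hbar : bar π = 0) (t : C)
    (ht : t ∈ Ideal.jacobson (⊥ : Ideal C)) (γ : Λ) (hγ : γ ∉ Ideal.span {π}) (J : Ideal C)
    (m : ℕ) (v : C) (h : t ^ m * (bar γ + t * v) ∈ J) :
    ∃ y : Fin r → C, (∀ j, y j ∈ Ideal.span (insert t (Set.range fun i => bar (u i)))) ∧
      ∃ L : ℕ, Ideal.span (insert t (Set.range fun i => bar (u i))) ^ L ≤
        Ideal.span (Set.range y) ⊔ J := by
  classical
  set Y := Ideal.span (insert t (Set.range fun i => bar (u i))) with hY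
  have htY : t ∈ Y := Ideal.subset_span (Set.mem_insert _ _)
  have huY : ∀ i, bar (u i) ∈ Y := fun i =>
    Ideal.subset_span (Set.mem_insert_of_mem _ ⟨i, rfl⟩)
  have hYfg : Y.FG := Submodule.fg_span (Set.Finite.insert t (Set.finite_range _))
  have hbarm : ∀ a ∈ maximalIdeal Λ, bar a ∈ Ideal.span (Set.range fun i => bar (u i)) := by
    intro a ha
    rw [hmax] at ha
    have h1 := Ideal.mem_map_of_mem bar ha
    rw [Ideal.map_span, Set.image_insert_eq, hbar, ← Set.range_comp] at h1
    rwa [Ideal.span_insert_zero] at h1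
  have hle : Ideal.span (Set.range fun i => bar (u i)) ≤ Y :=
    Ideal.span_mono (Set.subset_insert _ _)
  by_cases hγu : IsUnit γ
  · -- `t ^ m ∈ J`
    have h1 : IsUnit (bar γ + t * v) := by
      obtain ⟨w, hw⟩ := (hγu.map bar).exists_left_inv
      have h2 := (Ideal.mem_jacobson_bot.1 ht) (v * w)
      have h3 : w * (bar γ + t * v) = t * (v * w) + 1 := by
        rw [mul_add, hw]; ring
      rw [← h3] at h2
      exact isUnit_of_mul_isUnit_right h2
    have h2 : t ^ m ∈ J := by
      obtain ⟨w, hw⟩ := h1.exists_right_inv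
      have h3 := Ideal.mul_mem_right w J h
      rwa [mul_assoc, hw, mul_one] at h3
    refine ⟨fun i => bar (u i), huY, ?_⟩
    apply Ideal.exists_pow_le_of_le_radical_of_fg _ hYfg
    rw [hY, Ideal.span_le, Set.insert_subset_iff]
    refine ⟨⟨m, (le_sup_right : J ≤ _) h2⟩, ?_⟩
    rintro _ ⟨i, rfl⟩
    have h3 : bar (u i) ∈ Ideal.span (Set.range fun i => bar (u i)) ⊔ J :=
      (le_sup_left : Ideal.span (Set.range fun i => bar (u i)) ≤ _)
        (Ideal.subset_span (Set.mem_range_self i))
    exact Ideal.le_radical h3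
  · have hγm : γ ∈ maximalIdeal Λ := by rwa [mem_maximalIdeal, mem_nonunits_iff]
    obtain ⟨r', rfl⟩ : ∃ r', r = r' + 1 := by
      rcases Nat.eq_zero_or_pos r with h0 | h0
      · exfalso
        subst h0
        apply hγ
        rw [hmax] at hγm
        simpa using hγm
      · exact ⟨r - 1, by omega⟩
    have hdim : ringKrullDim (Λ ⧸ Ideal.span {π}) ≤ (r' + 1 : ℕ) := by
      have hπt : Ideal.span {π} ≠ ⊤ := hπ.ne_top
      have hdom : IsDomain (Λ ⧸ Ideal.span {π}) := Ideal.Quotient.isDomain _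
      have hloc : IsLocalRing (Λ ⧸ Ideal.span {π}) :=
        IsLocalRing.of_surjective' (Ideal.Quotient.mk _) Ideal.Quotient.mk_surjective
      have h1 : maximalIdeal (Λ ⧸ Ideal.span {π}) =
          Ideal.span (Set.range fun i => Ideal.Quotient.mk (Ideal.span {π}) (u i)) := by
        have h2 := IsLocalRing.map_maximalIdeal_of_surjective
          (Ideal.Quotient.mk (Ideal.span {π})) Ideal.Quotient.mk_surjective
        rw [← h2, hmax, Ideal.map_span, Set.image_insert_eq, ← Set.range_comp]
        have h3 : Ideal.Quotient.mk (Ideal.span {π}) π = 0 :=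
          Ideal.Quotient.eq_zero_iff_mem.2 (Ideal.mem_span_singleton_self _)
        rw [h3, Ideal.span_insert_zero]
        rfl
      rw [← IsLocalRing.maximalIdeal_height_eq_ringKrullDim]
      have h2 : (maximalIdeal (Λ ⧸ Ideal.span {π})).height ≤
          (maximalIdeal (Λ ⧸ Ideal.span {π})).spanFinrank :=
        Ideal.height_le_spanFinrank _ (maximalIdeal.isMaximal _).ne_top
      have h3 : (maximalIdeal (Λ ⧸ Ideal.span {π})).spanFinrank ≤ r' + 1 := by
        rw [h1]
        refine (Submodule.spanFinrank_span_le_ncard_of_finite (Set.finite_range _)).trans ?_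
        rw [← Set.image_univ]
        refine (Set.ncard_image_le Set.finite_univ).trans ?_
        rw [Set.ncard_univ, Nat.card_eq_fintype_card, Fintype.card_fin]
      exact_mod_cast h2.trans (by exact_mod_cast h3)
    obtain ⟨x, hx, M, hM⟩ := exists_params π hπ hdim γ hγ hγm
    set g := bar γ with hg
    have hgY : g ∈ Y := hle (hbarm γ hγm)
    refine ⟨Fin.cons (t + g ^ 2) fun i => bar (x i), ?_, ?_⟩
    · intro j
      refine Fin.cases ?_ (fun i => ?_) j
      · rw [Fin.cons_zero]
        exact add_mem htY (Ideal.pow_mem_of_mem _ hgY _ (by norm_num))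
      · rw [Fin.cons_succ]
        exact hle (hbarm _ (hx i))
    · set 𝔞 := Ideal.span (Set.range (Fin.cons (t + g ^ 2) fun i => bar (x i) :
        Fin (r' + 1) → C)) ⊔ J with h𝔞
      have ha1 : t + g ^ 2 ∈ 𝔞 := (le_sup_left : Ideal.span _ ≤ 𝔞) (Ideal.subset_span ⟨0, rfl⟩)
      have ha2 : ∀ i, bar (x i) ∈ 𝔞 := fun i =>
        (le_sup_left : Ideal.span _ ≤ 𝔞) (Ideal.subset_span ⟨i.succ, rfl⟩)
      have ha3 : t ^ m * (g + t * v) ∈ 𝔞 := (le_sup_right : J ≤ 𝔞) h
      -- powers of `t` modulo `𝔞`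
      have ha4 : ∀ n : ℕ, t ^ n - (-(g ^ 2)) ^ n ∈ 𝔞 := fun n => by
        refine 𝔞.mem_of_dvd (sub_dvd_pow_sub_pow t (-(g ^ 2)) n) ?_
        rw [sub_neg_eq_add]; exact ha1
      have ha5 : (-(g ^ 2)) ^ m * (g - g ^ 2 * v) ∈ 𝔞 := by
        have h1 := 𝔞.mul_mem_right (g + t * v) (ha4 m)
        have h2 := 𝔞.mul_mem_left ((-(g ^ 2)) ^ m * v) ha1
        have h3 : (-(g ^ 2)) ^ m * (g - g ^ 2 * v) = t ^ m * (g + t * v) -
            (t ^ m - (-(g ^ 2)) ^ m) * (g + t * v) - (-(g ^ 2)) ^ m * v * (t + g ^ 2) := by ring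
        rw [h3]
        exact sub_mem (sub_mem ha3 h1) h2
      have ha6 : g ^ (2 * m + 1) * (t * v ^ 2 + 1) ∈ 𝔞 := by
        have h1 := 𝔞.mul_mem_left ((-1) ^ m * (1 + g * v)) ha5
        have h2 := 𝔞.mul_mem_left (g ^ (2 * m + 1) * v ^ 2) ha1
        have h3 : g ^ (2 * m + 1) * (t * v ^ 2 + 1) = (-1) ^ m * (1 + g * v) *
            ((-(g ^ 2)) ^ m * (g - g ^ 2 * v)) + g ^ (2 * m + 1) * v ^ 2 * (t + g ^ 2) := by
          have h4 : ((-1 : C)) ^ m * (-(g ^ 2)) ^ m = g ^ (2 * m) := by
            rw [← mul_pow, neg_one_mul, neg_neg, ← pow_mul]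
          rw [show (-1 : C) ^ m * (1 + g * v) * ((-(g ^ 2)) ^ m * (g - g ^ 2 * v)) =
            ((-1 : C) ^ m * (-(g ^ 2)) ^ m) * ((1 + g * v) * (g - g ^ 2 * v)) by ring, h4]
          ring
        rw [h3]
        exact add_mem h1 h2
      have ha7 : g ^ (2 * m + 1) ∈ 𝔞 := by
        obtain ⟨w, hw⟩ := ((Ideal.mem_jacobson_bot.1 ht) (v ^ 2)).exists_right_inv
        have h1 := 𝔞.mul_mem_right w ha6
        rwa [mul_assoc, hw, mul_one] at h1
      have hgr : g ∈ 𝔞.radical := ⟨_, ha7⟩
      apply Ideal.exists_pow_le_of_le_radical_of_fg _ hYfg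
      rw [hY, Ideal.span_le, Set.insert_subset_iff]
      constructor
      · have h1 : t = (t + g ^ 2) - g ^ 2 := by ring
        rw [SetLike.mem_coe, h1]
        exact sub_mem (Ideal.le_radical ha1) (Ideal.pow_mem_of_mem _ hgr _ (by norm_num))
      · rintro _ ⟨i, rfl⟩
        have h1 : u i ^ M ∈ maximalIdeal Λ ^ M := by
          refine Ideal.pow_mem_pow ?_ M
          rw [hmax]
          exact Ideal.subset_span (Set.mem_insert_of_mem _ ⟨i, rfl⟩)
        have h2 := Ideal.mem_map_of_mem bar (hM h1)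
        rw [Ideal.map_span, map_pow] at h2
        have h3 : Ideal.span (bar '' insert π (insert γ (Set.range x))) ≤ 𝔞.radical := by
          rw [Ideal.span_le]
          rintro _ ⟨a, ha, rfl⟩
          rcases ha with rfl | rfl | ⟨i, rfl⟩
          · rw [hbar]; exact zero_mem _
          · exact hgr
          · exact Ideal.le_radical (ha2 i)
        have h4 := h3 h2
        rw [SetLike.mem_coe, ← Ideal.radical_idem]
        exact ⟨M, h4⟩

end B

section C

variable {p : ℕ} [hp : Fact p.Prime]

/-- **CUT.** If `[η]^k ψ(γ) ∈ W(J) + (p - [t], p^M)`, `η ∣ t`, `t` regular and in the radical,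
`γ ≠ 0` and `M` is large (depending on `γ` and `k` only), then `(t, u)^L ⊆ (y_1, .., y_r) + J` for
`r` elements `y_j ∈ (t, u)`. -/
theorem exists_cut {Λ : Type u} [CommRing Λ] [IsDomain Λ] [IsLocalRing Λ] [IsNoetherianRing Λ]
    {r : ℕ} (u : Fin r → Λ) (hmax : maximalIdeal Λ = Ideal.span (insert (p : Λ) (Set.range u)))
    (hpr : Prime (p : Λ)) (γ : Λ) (hγ : γ ≠ 0) :
    ∃ a : ℕ, ∀ {C : Type u} [CommRing C] [CharP C p] [PerfectRing C p] (ψ : Λ →+* WittVector p C)
      (x : Fin r → C) (_ : ∀ i, ψ (u i) = teichmuller p (x i)) (t : C)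
      (_ : t ∈ nonZeroDivisors C) (_ : t ∈ Ideal.jacobson (⊥ : Ideal C)) (η : C) (_ : η ∣ t)
      (k M : ℕ) (_ : k + a < M) (J : Ideal C) (_ : IsPerf p J) (z : WittVector p C)
      (_ : z ∈ WI p J) (_ : teichmuller p η ^ k * ψ γ - z ∈ XI p t M),
      ∃ y : Fin r → C, (∀ j, y j ∈ Ideal.span (insert t (Set.range x))) ∧
        ∃ L : ℕ, Ideal.span (insert t (Set.range x)) ^ L ≤ Ideal.span (Set.range y) ⊔ J := by
  obtain ⟨a, γ', hγ', rfl⟩ := WfDvdMonoid.max_power_factor hγ hpr.irreducible
  have hγ'' : γ' ∉ Ideal.span {(p : Λ)} := fun h => hγ' (Ideal.mem_span_singleton.1 h)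
  have hprime : (Ideal.span {(p : Λ)}).IsPrime := (Ideal.span_singleton_prime hpr.ne_zero).2 hpr
  refine ⟨a, ?_⟩
  intro C _ _ _ ψ x hx t ht htj η hη k M hM J hJ z hz h
  obtain ⟨w, hw⟩ := hη
  obtain ⟨y, y', hyy⟩ := (mem_XI p).1 h
  -- `[t]^(k+a) ψ(γ') ∈ W(J) + (p - [t], p^M)`
  have hgeom : ∃ G : WittVector p C, (p : WittVector p C) ^ a - teichmuller p t ^ a =
      ((p : WittVector p C) - teichmuller p t) * G := by
    obtain ⟨G, hG⟩ := sub_dvd_pow_sub_pow (p : WittVector p C) (teichmuller p t) a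
    exact ⟨G, hG⟩
  obtain ⟨G, hG⟩ := hgeom
  have h1 : teichmuller p w ^ k * z = teichmuller p t ^ (k + a) * ψ γ' +
      ((p : WittVector p C) - teichmuller p t) * (teichmuller p t ^ k * G * ψ γ' -
        teichmuller p w ^ k * y) + (p : WittVector p C) ^ M * (-(teichmuller p w ^ k * y')) := by
    have h2 : teichmuller p t = teichmuller p η * teichmuller p w := by
      rw [hw, map_mul (teichmuller p)]
    have h3 : ψ ((p : Λ) ^ a * γ') = (p : WittVector p C) ^ a * ψ γ' := by
      rw [map_mul ψ, map_pow ψ, map_natCast]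
    rw [h3] at hyy
    have h4 : teichmuller p t ^ k = teichmuller p η ^ k * teichmuller p w ^ k := by
      rw [h2, mul_pow]
    rw [pow_add]
    linear_combination (-teichmuller p w ^ k) * hyy + teichmuller p t ^ k * ψ γ' * hG -
      (p : WittVector p C) ^ a * ψ γ' * h4
  obtain ⟨v, hv⟩ := exists_mem_of_te_pow ht (k + a) M hM hJ (ψ γ') (teichmuller p w ^ k * z) _ _
    (Ideal.mul_mem_left _ _ hz) h1
  let bar : Λ →+* C := (WittVector.constantCoeff : WittVector p C →+* C).comp ψ
  have hbu : ∀ i, bar (u i) = x i := by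
    intro i
    show WittVector.constantCoeff (ψ (u i)) = x i
    rw [hx]
    exact teichmuller_coeff_zero p (x i)
  have hb0 : bar (p : Λ) = 0 := by
    rw [map_natCast, CharP.cast_eq_zero]
  obtain ⟨y, h2, L, h3⟩ := exists_cut_of_mem (p : Λ) u hmax hprime bar hb0 t htj γ' hγ'' J
    (k + a) v hv
  simp only [hbu] at h2 h3
  exact ⟨y, h2, L, h3⟩

end C

end Vale.Agent.P177.NatC
end

section

/-!
P177, inner assembly: the ideals `J` of the flag family in the honest ring `C'` cut the dimension.
-/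

namespace Vale.Agent.P177.Full

open TensorProduct IsLocalRing RingTheory.Sequence Function Module Vale.Agent.P177.Flag
  Vale.Agent.P202.Mix Vale.Agent.P177.Lev WittVector
open scoped ENNReal

universe u

/-- `p` is a prime element of `W(k)[[u]]`. -/
theorem prime_p_lam (p : ℕ) [Fact p.Prime] (k : Type u) [Field k] [CharP k p] [PerfectRing k p]
    (r : ℕ) : Prime ((p : ℕ) : MvPowerSeries (Fin r) (WittVector p k)) := by
  have h0 : Prime (p : WittVector p k) := (WittVector.irreducible p).prime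
  have h1 : (Ideal.span {(p : WittVector p k)}).IsPrime :=
    (Ideal.span_singleton_prime h0.ne_zero).2 h0
  have hdom : IsDomain (WittVector p k ⧸ Ideal.span {(p : WittVector p k)}) :=
    Ideal.Quotient.isDomain _
  let q := MvPowerSeries.map (σ := Fin r) (Ideal.Quotient.mk (Ideal.span {(p : WittVector p k)}))
  have hp0 : ((p : ℕ) : MvPowerSeries (Fin r) (WittVector p k)) ≠ 0 := by
    intro h
    have h2 := congrArg (MvPowerSeries.constantCoeff) h
    rw [map_natCast, map_zero] at h2
    exact h0.ne_zero h2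
  have hker : RingHom.ker q = Ideal.span {((p : ℕ) : MvPowerSeries (Fin r) (WittVector p k))} := by
    ext f
    rw [RingHom.mem_ker, Ideal.mem_span_singleton]
    constructor
    · intro h
      have h3 : ∀ n, ∃ y, MvPowerSeries.coeff n f = (p : WittVector p k) * y := by
        intro n
        have h4 := congrArg (MvPowerSeries.coeff n) h
        rw [MvPowerSeries.coeff_map, map_zero, Ideal.Quotient.eq_zero_iff_mem,
          Ideal.mem_span_singleton] at h4
        exact h4
      choose y hy using h3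
      let Y : MvPowerSeries (Fin r) (WittVector p k) := fun n => y n
      refine ⟨Y, ?_⟩
      ext1 n
      have h6 : MvPowerSeries.coeff n Y = y n := rfl
      rw [hy n, ← map_natCast (MvPowerSeries.C : WittVector p k →+* _), MvPowerSeries.coeff_C_mul,
        h6]
    · rintro ⟨y, rfl⟩
      rw [map_mul, map_natCast]
      have h5 : ((p : ℕ) : MvPowerSeries (Fin r)
          (WittVector p k ⧸ Ideal.span {(p : WittVector p k)})) = 0 := by
        rw [← map_natCast (MvPowerSeries.C :
            (WittVector p k ⧸ Ideal.span {(p : WittVector p k)}) →+* _),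
          ← map_natCast (Ideal.Quotient.mk (Ideal.span {(p : WittVector p k)})),
          Ideal.Quotient.eq_zero_iff_mem.2 (Ideal.mem_span_singleton_self _), map_zero]
      rw [h5, zero_mul]
  have hd : IsDomain (MvPowerSeries (Fin r)
      (WittVector p k ⧸ Ideal.span {(p : WittVector p k)})) := NoZeroDivisors.to_isDomain _
  rw [← Ideal.span_singleton_prime hp0, ← hker]
  exact RingHom.ker_isPrime q

namespace Pkg

variable {p : ℕ} [Fact p.Prime] {k : Type u} [Field k] [CharP k p] {r : ℕ}
variable {Λ : Type u} [CommRing Λ] [IsLocalRing Λ] {ψ : Λ →+* WittVector p (Rp p k r)}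
variable {Ω : Type u} [Field Ω] [Algebra Λ Ω] {s : ℕ} {b : Fin s → Ω}
    {F G : Fin s → Polynomial Λ} {D : ℕ} {ε : ℝ≥0∞} {Φ : ℕ → ℕ} (K : Pkg ψ b F G D ε Φ) {n : ℕ}

/-- the ideals `J` are closed under roots. -/
theorem sp_Jz (ix : ∀ j, (Fin j → Fin n) → Fin s) (z : Fin n → ℤ) : CN.SP p (K.J n ix z) :=
  CN.SP_pi fun _ => CN.SP_perfHull _

/-- the lower levels do not matter. -/
theorem tl_mul_mem {M0 M : ℕ} {x : WittVector p K.C}
    (hx : x ∈ K.xiP fun e => if M0 ≤ e.down then M else 0) :
    teichmuller p (K.tl M0) * x ∈ xiM p k r K.C M := by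
  refine K.xiP_le_xiM (n := fun _ => M) (fun _ => le_rfl) ?_
  rw [mem_xiP] at hx ⊢
  intro e
  rw [map_mul, pr_te]
  by_cases h : M0 ≤ e.down
  · have h1 := hx e
    rw [if_pos h] at h1
    exact Ideal.mul_mem_left _ _ h1
  · have h1 : K.tl M0 e = 0 := if_neg h
    rw [h1, teichmuller_zero, zero_mul]
    exact zero_mem _

end Pkg

namespace Core

variable {p : ℕ} [Fact p.Prime] {R : Type u} [CommRing R] [IsRegularLocalRing R]
    [CharP (ResidueField R) p] [PerfectRing (ResidueField R) p] {d : ℕ} {P : Ideal R}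
    {hs : List R} {r : ℕ} [IsRegularLocalRing (Lam p (ResidueField R) r)]
    [Algebra (Lam p (ResidueField R) r) R] {Ω : Type u} [Field Ω]
    [Algebra (Lam p (ResidueField R) r) Ω] {F : Fin 2 → FlagMod (Lam p (ResidueField R) r) Ω hs}
    (X : Core p d P hs r Ω F)

theorem le_I_of (M : ℕ) (e : ULift.{u} ℕ) :
    p ^ X.K.j e * (if M + 2 ≤ e.down then M + 1 else 0) ≤ X.K.I e + 1 := by
  by_cases h : M + 2 ≤ e.down
  · rw [if_pos h]
    have h1 := X.K.le_I e
    have h2 := X.gr_le (X.K.j e)
    have h3 := X.K.le_j e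
    have h4 : 1 ≤ p ^ X.K.j e := Nat.one_le_pow _ _ (Fact.out : p.Prime).pos
    calc p ^ X.K.j e * (M + 1) ≤ p ^ X.K.j e * ((X.K.j e + 2 * X.c0) * p ^ X.K.j e) := by
          refine Nat.mul_le_mul_left _ ?_
          calc M + 1 ≤ (X.K.j e + 2 * X.c0) * 1 := by omega
            _ ≤ _ := Nat.mul_le_mul_left _ h4
      _ = (X.K.j e + 2 * X.c0) * (p ^ X.K.j e * p ^ X.K.j e) := by ring
      _ ≤ _ := by omega
  · rw [if_neg h, mul_zero]
    exact Nat.zero_le _

/-- **The dimension of `C'/J'`**: the parameters `t, u` are nilpotent modulo `J'` and `r` elements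
of `(t, u)`. -/
theorem exists_cut (hN : Norm p R r hs) (i : Fin 2) (z : Fin (F i).n → ℤ) :
    ∃ M0 : ℕ, ∀ M, M0 ≤ M → ∀ {C' : Type u} [CommRing C'] [CharP C' p] [PerfectRing C' p]
      (f : X.K.C →+* C') (_ : f (tC p (ResidueField R) r X.K.C) ∈ nonZeroDivisors C')
      (_ : f (tC p (ResidueField R) r X.K.C) ∈ Ideal.jacobson (⊥ : Ideal C'))
      (_ : f (X.K.η * X.K.tl (M + 2)) ∣ f (tC p (ResidueField R) r X.K.C)),
      ∃ y : Fin r → C', (∀ j, y j ∈ Ideal.span (Set.range fun l : Fin (r + 1) =>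
          f (xC p (ResidueField R) r X.K.C l))) ∧
        ∃ L : ℕ, Ideal.span (Set.range fun l : Fin (r + 1) =>
            f (xC p (ResidueField R) r X.K.C l)) ^ L ≤
          Ideal.span (Set.range y) ⊔ (X.K.J (F i).n (X.pl i) z).map f := by
  have hdom : IsDomain (Lam p (ResidueField R) r) := regular_isDomain _
  obtain ⟨γ, w, hγ, hw, hrel⟩ := X.exists_gam i z
  have hmax : maximalIdeal (Lam p (ResidueField R) r) = Ideal.span (insert
      (p : Lam p (ResidueField R) r) (Set.range fun i : Fin r => MvPowerSeries.X i)) := by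
    rw [hN.max, Set.singleton_union]
  obtain ⟨a, ha⟩ := NatC.exists_cut (p := p) (fun i : Fin r => MvPowerSeries.X i) hmax
    (prime_p_lam p (ResidueField R) r) γ hγ
  refine ⟨a + 2, fun M hM C' _ _ _ f h1 h2 h3 => ?_⟩
  have hsp : CN.SP p ((X.K.J (F i).n (X.pl i) z).map f) := (X.K.sp_Jz (X.pl i) z).map f
  have hmem := X.K.tl_mul_mem (M0 := M + 2) (M := M + 1) (hrel _ (X.le_I_of M))
  have h4 : ∀ i : Fin r, ((WittVector.map f).comp (laW X.ψ X.K.C)) (MvPowerSeries.X i) =
      teichmuller p (f (xC p (ResidueField R) r X.K.C i.succ)) := by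
    intro i
    change WittVector.map f (WittVector.map _ (X.ψ (MvPowerSeries.X i))) = _
    rw [X.base.psi_u, WittVector.map_teichmuller, WittVector.map_teichmuller]
  have h7 : WittVector.map f (teichmuller p (X.K.η * X.K.tl (M + 2)) * w) ∈
      PI.WI p ((X.K.J (F i).n (X.pl i) z).map f) :=
    NatC.map_mem_WI p f (X.K.isPerf_J _ _ _) (fun x hx => Ideal.mem_map_of_mem _ hx)
      (Ideal.mul_mem_left _ _ hw)
  have h8 : teichmuller p (f (X.K.η * X.K.tl (M + 2))) ^ 1 *
      ((WittVector.map f).comp (laW X.ψ X.K.C)) γ -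
      WittVector.map f (teichmuller p (X.K.η * X.K.tl (M + 2)) * w) ∈
      PI.XI p (f (tC p (ResidueField R) r X.K.C)) M := by
    rw [PI.XI, ← Ideal.span_insert]
    obtain ⟨x, y, hxy⟩ := Pkg.mem_xiM_iff.1 hmem
    rw [Ideal.mem_span_pair]
    refine ⟨WittVector.map f x, WittVector.map f y * (p : WittVector p C'), ?_⟩
    have h6 := congrArg (WittVector.map f) hxy
    rw [map_add, map_mul, map_mul, map_mul, map_mul, map_sub, map_sub, map_pow,
      map_natCast, map_teichmuller, map_teichmuller, map_teichmuller] at h6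
    rw [pow_one, map_mul (WittVector.map f), map_teichmuller, RingHom.comp_apply, ← mul_sub,
      map_mul f, map_mul (teichmuller p)]
    linear_combination -h6
  obtain ⟨y, hy, L, hL⟩ := ha ((WittVector.map f).comp (laW X.ψ X.K.C))
    (fun i => f (xC p (ResidueField R) r X.K.C i.succ)) h4
    (f (tC p (ResidueField R) r X.K.C)) h1 h2 (f (X.K.η * X.K.tl (M + 2))) h3 1 M (by omega)
    ((X.K.J (F i).n (X.pl i) z).map f) hsp.isPerf _ h7 h8
  have h5 : (insert (f (tC p (ResidueField R) r X.K.C)) (Set.range fun i : Fin r =>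
      f (xC p (ResidueField R) r X.K.C i.succ))) = Set.range fun l : Fin (r + 1) =>
        f (xC p (ResidueField R) r X.K.C l) := by
    ext x
    simp only [Set.mem_insert_iff, Set.mem_range]
    constructor
    · rintro (rfl | ⟨l, rfl⟩)
      · exact ⟨0, rfl⟩
      · exact ⟨l.succ, rfl⟩
    · rintro ⟨l, rfl⟩
      refine Fin.cases (Or.inl rfl) (fun l => Or.inr ⟨l, rfl⟩) l
  rw [h5] at hy hL
  exact ⟨y, hy, L, hL⟩

end Core

end Vale.Agent.P177.Full
end

section

/-!
P177, block INDJ (C): growth of Koszul homology of a module killed by one more element.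
-/

namespace Vale.Agent.P177.KG

open scoped ENNReal

universe u

variable {R : Type u} [CommRing R] (L : ALen R) (M : Type u) [AddCommGroup M] [Module R M]

/-- elements killing `M` kill the Koszul complexes. -/
theorem KC_X_kill {x : R} (hx : ∀ m : M, x • m = 0) (xs : List R) :
    ∀ (i : ℕ) (a : (KC M xs).X i), x • a = 0 := by
  intro i a
  have h0 : ∀ m, (0 : M →ₗ[R] M) m = x • m := fun m => (hx m).symm
  have h1 : ∀ m, (0 : M →ₗ[R] M) m = (0 : R) • m := fun m => (zero_smul R m).symm
  rw [← KCmap_smul x 0 h0 xs i a, KCmap_smul 0 0 h1 xs i a, zero_smul]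

theorem KC_H_kill {x : R} (hx : ∀ m : M, x • m = 0) (xs : List R) (i : ℕ)
    (z : (KC M xs).H i) : x • z = 0 := by
  obtain ⟨a, ha, rfl⟩ := (KC M xs).cl_surj i z
  rw [← map_smul]
  have : x • (⟨a, ha⟩ : (KC M xs).Z i) = 0 := Subtype.ext (KC_X_kill M hx xs i a)
  rw [this, map_zero]

/-- dropping an element which kills `M`. -/
theorem KC_len_drop {x : R} (hx : ∀ m : M, x • m = 0) (xs : List R) (i : ℕ) :
    L.len ((KC M xs).H i) ≤ L.len ((KC M (x :: xs)).H (i + 1)) :=
  len_le_of_surj L ((kfam M).b x xs i) fun z => (kfam M).tor x xs i z (KC_H_kill M hx xs i z)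

end Vale.Agent.P177.KG
end

section

/-!
P177: the Euler characteristic of an ideal `J` equals the one of the ring if the quotient is
smaller.
-/

namespace Vale.Agent.P177.Rho

open Vale.Agent.P202.Mix Vale.Agent.P177.KG Function
open scoped ENNReal

universe u

variable {B : Type u} [CommRing B] (L : AddLen B)

/-- dropping elements which kill `M`. -/
theorem KC_fin_drop (M : Type u) [AddCommGroup M] [Module B M] (ys : List B) :
    ∀ js : List B, (∀ j ∈ js, ∀ m : M, j • m = 0) →
      (∀ q, L.len ((KC M (js ++ ys)).H q) ≠ ⊤) → ∀ q, L.len ((KC M ys).H q) ≠ ⊤ := by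
  intro js
  induction js with
  | nil => exact fun _ h => h
  | cons j js ih =>
    intro hj h
    refine ih (fun j' hj' => hj j' (List.mem_cons_of_mem _ hj')) fun q => ?_
    exact ne_top_of_le_ne_top (h (q + 1)) (KC_len_drop (ALen.of L) M
      (hj j List.mem_cons_self) (js ++ ys) q)

/-- finiteness passes to a list with the same radical. -/
theorem KC_fin_rad (M : Type u) [AddCommGroup M] [Module B M] {tu zs : List B} {l : ℕ}
    (h : ∀ v ∈ tu, v ^ l ∈ Ideal.ofList zs) (hfin : ∀ q, L.len ((KC M tu).H q) ≠ ⊤) (q : ℕ) :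
    L.len ((KC M zs).H q) ≠ ⊤ := by
  have h4 := KC_growth3' (ALen.of L) M h 1 q
  rw [List.map_congr_left (g := id) (fun a _ => pow_one a), List.map_id] at h4
  refine ne_top_of_le_ne_top ?_ h4
  refine ENNReal.mul_ne_top (ENNReal.pow_ne_top (ENNReal.natCast_ne_top _)) ?_
  exact ENNReal.sum_ne_top.2 fun jq _ =>
    ENNReal.mul_ne_top (ENNReal.natCast_ne_top _) (hfin _)

/-- the vanishing of the Euler characteristic of a small module. -/
theorem kchi_small (M : Type u) [AddCommGroup M] [Module B M] (tu ys : List B) {l : ℕ}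
    (h1 : ∀ v ∈ tu, ∃ a ∈ Ideal.ofList ys, ∀ m : M, (v ^ l - a) • m = 0)
    (h2 : ∀ y ∈ ys, y ∈ Ideal.ofList tu) (hfin : ∀ q, L.len ((KC M tu).H q) ≠ ⊤)
    (hlen : ys.length < tu.length) (n : ℕ) (hn : tu.length ≤ n) :
    kchi L (KC M tu) (n + 1) = 0 := by
  choose! a ha ham using h1
  let js : List B := tu.map fun v => v ^ l - a v
  have h3 : ∀ v ∈ tu, v ^ l ∈ Ideal.ofList (js ++ ys) := by
    intro v hv
    have e : v ^ l = (v ^ l - a v) + a v := by ring
    rw [e, Ideal.ofList_append]
    refine Ideal.add_mem _ (Submodule.mem_sup_left (Ideal.subset_span ?_))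
      (Submodule.mem_sup_right (ha v hv))
    exact List.mem_map.2 ⟨v, hv, rfl⟩
  have h4 : ∀ q, L.len ((KC M (js ++ ys)).H q) ≠ ⊤ := KC_fin_rad L M h3 hfin
  have h5 : ∀ q, L.len ((KC M ys).H q) ≠ ⊤ := by
    refine KC_fin_drop L M ys js ?_ h4
    intro j hj m
    obtain ⟨v, hv, rfl⟩ := List.mem_map.1 hj
    exact ham v hv m
  set C : ℝ≥0∞ := ∑ q ∈ Finset.range (ys.length + 1), L.len ((KC M ys).H q) with hC
  have hC1 : C ≠ ⊤ := ENNReal.sum_ne_top.2 fun q _ => h5 q
  have hC2 : ∀ q, L.len ((KC M ys).H q) ≤ C := by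
    intro q
    by_cases hq : q < ys.length + 1
    · exact Finset.single_le_sum (f := fun q => L.len ((KC M ys).H q)) (fun _ _ => zero_le)
        (Finset.mem_range.2 hq)
    · have h6 : L.len ((KC M ys).H q) = 0 := KC_len_eq_zero (ALen.of L) M ys (by omega)
      rw [h6]
      exact zero_le
  refine kchi_eq_zero_of_growth L M n ys.length tu hn hlen hfin
    (((1 * (tu.length + 1)) ^ ys.length * 2 ^ tu.length : ℕ) * C)
    (ENNReal.mul_ne_top (ENNReal.natCast_ne_top _) hC1) fun t i => ?_
  exact KC_growth3_const (ALen.of L) M (l := 1) (fun y hy => by rw [pow_one]; exact h2 y hy)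
    hC2 t i

/-- the Euler characteristic of `J`. -/
theorem kchi_ideal (J : Ideal B) (tu ys : List B) {l : ℕ}
    (h1 : ∀ v ∈ tu, v ^ l ∈ Ideal.ofList ys ⊔ J) (h2 : ∀ y ∈ ys, y ∈ Ideal.ofList tu)
    (hJ : ∀ q, L.len ((KC J tu).H q) ≠ ⊤) (hB : ∀ q, L.len ((KC B tu).H q) ≠ ⊤)
    (hlen : ys.length < tu.length) (n : ℕ) (hn : tu.length < n) :
    kchi L (KC J tu) (n + 1) = kchi L (KC B tu) (n + 1) := by
  have hex : Function.Exact J.subtype (Submodule.mkQ J) := by
    rw [LinearMap.exact_iff, Submodule.ker_mkQ, Submodule.range_subtype]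
  have hs := KCses (M := J) (N := B) (K := B ⧸ J) J.injective_subtype (Submodule.mkQ_surjective J)
    hex tu
  have hM : ∀ q, L.len ((KC (B ⧸ J) tu).H q) ≠ ⊤ := by
    intro q
    cases q with
    | zero =>
      exact ne_top_of_le_ne_top (hB 0) (KC_len_right_zero (ALen.of L)
        J.injective_subtype (Submodule.mkQ_surjective J) hex tu)
    | succ q =>
      exact ne_top_of_le_ne_top (ENNReal.add_ne_top.2 ⟨hB (q + 1), hJ q⟩)
        (KC_len_right (ALen.of L) J.injective_subtype (Submodule.mkQ_surjective J) hex tu q)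
  have h3 := kchi_add L hs hJ hB n (KC_H_subsingleton _ _ hn)
  have h4 : kchi L (KC (B ⧸ J) tu) (n + 1) = 0 := by
    refine kchi_small L (B ⧸ J) tu ys (l := l) ?_ h2 hM hlen n hn.le
    intro v hv
    obtain ⟨a, ha, j, hj, haj⟩ := Submodule.mem_sup.1 (h1 v hv)
    refine ⟨a, ha, fun m => ?_⟩
    obtain ⟨m, rfl⟩ := Submodule.mkQ_surjective J m
    rw [← map_smul, Submodule.mkQ_apply, Submodule.Quotient.mk_eq_zero, ← haj,
      add_sub_cancel_left]
    exact J.mul_mem_right _ hj
  rw [h3, h4, add_zero]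

end Vale.Agent.P177.Rho
end

section

/-!
P177: the Euler characteristic of `J` over a perfect ring `C`, through the ring `C'`.
-/

namespace Vale.Agent.P177.Rho

open Vale.Agent.P202.Mix Vale.Agent.P177.KG Vale.Agent.P177.KM Vale.Agent.P177.PI
  Vale.Agent.P177.CN Vale.Agent.P177.MN Function WittVector IsLocalRing
open scoped ENNReal

universe u

/-- an additive length as an `AddLen` -/
noncomputable def ofA {R : Type u} [CommRing R] (L : ALen R) : AddLen R := ⟨L.len, L.zero, L.add⟩

variable {p : ℕ} [hp : Fact p.Prime]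

section

theorem map_XI {C : Type u} [CommRing C] {C' : Type u} [CommRing C'] (f : C →+* C') (t : C) (M : ℕ) {x : WittVector p C}
    (h : x ∈ XI p t M) : WittVector.map f x ∈ XI p (f t) M := by
  obtain ⟨y, y', rfl⟩ := (mem_XI p).1 h
  refine (mem_XI p).2 ⟨WittVector.map f y, WittVector.map f y', ?_⟩
  rw [map_add, map_mul, map_mul, map_sub, map_pow, map_natCast, WittVector.map_teichmuller]

/-- **The Euler characteristic of `J`** (there is an exponent `a` depending only on `γ`). -/
theorem kchi_nat {Λ : Type u} [CommRing Λ] [IsDomain Λ] [IsLocalRing Λ] [IsNoetherianRing Λ]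
    {r : ℕ} (u : Fin r → Λ) (hmax : maximalIdeal Λ = Ideal.span (insert (p : Λ) (Set.range u)))
    (hpr : Prime (p : Λ)) (γ : Λ) (hγ : γ ≠ 0) :
    ∃ a : ℕ, ∀ {C : Type u} [CommRing C] [CharP C p] [PerfectRing C p]
      (ψ : Λ →+* WittVector p C) (x : Fin (r + 1) → C)
      (_ : ∀ i, ψ (u i) = teichmuller p (x (Fin.succ i))) (_ : x 0 ∈ nonZeroDivisors C) (η : C)
      (_ : NatZ p C (x 0) η) (L : AddLen (WittVector p C))
      (_ : ∀ (M : Type u) [AddCommGroup M] [Module (WittVector p C) M],
        (∀ m : M, teichmuller p η • m = 0) → L.len M = 0)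
      (M : ℕ) (_ : 1 + a < M) (J : Ideal C) (_ : Vale.Agent.P177.CN.SP p J) (z : WittVector p C)
      (_ : z ∈ WI p J) (_ : teichmuller p η * ψ γ - z ∈ XI p (x 0) M)
      (_ : letI := algW p C
        ∀ i, L.len ((KC (R := WittVector p C) J (List.ofFn fun l => teichmuller p (x l))).H i) ≠ ⊤)
      (_ : letI := algW p C
        ∀ i, L.len ((KC (R := WittVector p C) C (List.ofFn fun l => teichmuller p (x l))).H i) ≠ ⊤)
      (n : ℕ) (_ : r + 1 < n),
      letI := algW p C
      kchi L (KC (R := WittVector p C) J (List.ofFn fun l => teichmuller p (x l))) (n + 1) =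
        kchi L (KC (R := WittVector p C) C (List.ofFn fun l => teichmuller p (x l))) (n + 1) := by
  obtain ⟨a, ha⟩ := NatC.exists_cut (p := p) u hmax hpr γ hγ
  refine ⟨a, ?_⟩
  intro C _ _ _ ψ x hx ht η Z L hL M hM J hJ z hz hzz hfJ hfC n hn
  let _ := algW p C
  -- the cut over `C'`
  obtain ⟨y, hy, l, hl⟩ := ha ((WittVector.map Z.f).comp ψ) (fun i => Z.f (x i.succ)) (fun i => by
      rw [RingHom.comp_apply, hx, WittVector.map_teichmuller]) (Z.f (x 0)) Z.reg Z.jac (Z.f η)
      Z.dvd 1 M hM (J.map Z.f) (hJ.map Z.f).isPerf (WittVector.map Z.f z)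
      (NatC.map_mem_WI p Z.f hJ.isPerf (fun c hc => Ideal.mem_map_of_mem _ hc) hz) (by
        have h1 := map_XI Z.f (x 0) M hzz
        rw [map_sub, map_mul, WittVector.map_teichmuller] at h1
        rw [pow_one]
        exact h1)
  let B := Z.C'
  let _ : Algebra (WittVector p C) B := (Z.f.comp (WittVector.constantCoeff)).toAlgebra
  let f' : C →ₐ[WittVector p C] B := { Z.f with commutes' := fun _ => rfl }
  have hte : ∀ c : C, algebraMap (WittVector p C) C (teichmuller p c) = c :=
    fun c => teichmuller_coeff_zero p c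
  have hte' : ∀ c : C, algebraMap (WittVector p C) B (teichmuller p c) = Z.f c := fun c => by
    change Z.f (constantCoeff (teichmuller p c)) = _
    congr 1
  let xs : List (WittVector p C) := List.ofFn fun l => teichmuller p (x l)
  have hxs : xs = teichmuller p (x 0) :: List.ofFn fun i : Fin r => teichmuller p (x i.succ) :=
    List.ofFn_succ
  let LB : AddLen B := ofA ((ALen.of L).res B)
  let xB : List B := List.ofFn fun l => algebraMap (WittVector p C) B (teichmuller p (x l))
  -- transfer to `C'`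
  have key : ∀ (I : Ideal C) (_ : Vale.Agent.P177.CN.SP p I) (i : ℕ), L.len ((KC (R := WittVector p C) I xs).H i) =
      L.len ((KC (R := WittVector p C) (I.map Z.f) xs).H i) := by
    intro I hI i
    rw [hxs]
    refine KC_len_J_eq (ALen.of L) (η := teichmuller p η) hL f' (teichmuller p (x 0)) I
      (I.map Z.f) (fun c hc => Ideal.mem_map_of_mem _ hc) ?_ ?_ ?_ ?_ _ i
    · intro c _ h
      rw [hte] at h
      exact (mem_nonZeroDivisors_iff_left.1 ht) c h
    · intro c _ h
      rw [hte'] at h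
      exact (mem_nonZeroDivisors_iff_left.1 Z.reg) c h
    · intro y hy
      obtain ⟨c, hc, w, hw, h⟩ := Z.n1 I y hy
      refine ⟨c, hc, w, hw, ?_⟩
      rw [hte', hte']
      exact h
    · intro c hc w hw h
      rw [hte'] at h
      obtain ⟨d, hd, h1⟩ := Z.n2 I hI c hc ⟨w, hw, h⟩
      refine ⟨d, hd, ?_⟩
      rw [hte, hte]
      exact h1
  have hres : ∀ (V : Type u) [AddCommGroup V] [Module (WittVector p C) V] [Module B V]
      [IsScalarTower (WittVector p C) B V] (i : ℕ), LB.len ((KC (R := B) V xB).H i) =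
        L.len ((KC (R := WittVector p C) V xs).H i) := fun V _ _ _ _ i =>
    KC_len_res (C := B) (V := V) (ALen.of L) (fun l => teichmuller p (x l)) i
  have hJB : ∀ i, L.len ((KC (R := WittVector p C) J xs).H i) =
      LB.len ((KC (R := B) (J.map Z.f) xB).H i) := fun i => by
    rw [key J hJ i, hres]
  have hCB : ∀ i, L.len ((KC (R := WittVector p C) C xs).H i) =
      LB.len ((KC (R := B) B xB).H i) := by
    intro i
    have h1 := key ⊤ (SP_top p) i
    rw [Ideal.map_top] at h1
    have h2 : L.len ((KC (R := WittVector p C) (⊤ : Ideal C) xs).H i) =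
        L.len ((KC (R := WittVector p C) C xs).H i) :=
      KC_len_congr (ALen.of L) ((Submodule.topEquiv (R := C) (M := C)).restrictScalars
        (WittVector p C)) xs i
    have h3 : L.len ((KC (R := WittVector p C) (⊤ : Ideal B) xs).H i) =
        L.len ((KC (R := WittVector p C) B xs).H i) :=
      KC_len_congr (ALen.of L) ((Submodule.topEquiv (R := B) (M := B)).restrictScalars
        (WittVector p C)) xs i
    rw [← h2, h1, h3, hres]
  have hlenB : xB.length = r + 1 := List.length_ofFn
  have hxB : ∀ v ∈ xB, v ∈ Ideal.span (insert (Z.f (x 0)) (Set.range fun i : Fin r =>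
      Z.f (x i.succ))) := by
    intro v hv
    obtain ⟨j, rfl⟩ := (List.mem_ofFn' _ _).1 hv
    change algebraMap (WittVector p C) B (teichmuller p (x j)) ∈ _
    rw [hte']
    refine Fin.cases ?_ (fun j => ?_) j
    · exact Ideal.subset_span (Set.mem_insert _ _)
    · exact Ideal.subset_span (Set.mem_insert_of_mem _ ⟨j, rfl⟩)
  have hspan : Ideal.span (insert (Z.f (x 0)) (Set.range fun i : Fin r => Z.f (x i.succ))) ≤
      Ideal.ofList xB := by
    rw [Ideal.span_le, Set.insert_subset_iff]
    refine ⟨Ideal.subset_span ((List.mem_ofFn' _ _).2 ⟨0, hte' _⟩), ?_⟩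
    rintro _ ⟨i, rfl⟩
    exact Ideal.subset_span ((List.mem_ofFn' _ _).2 ⟨i.succ, hte' _⟩)
  have main := kchi_ideal LB (J.map Z.f) xB (List.ofFn y) (l := l) (fun v hv => by
      have h1 := hl (Ideal.pow_mem_pow (hxB v hv) l)
      have h2 : Ideal.span (Set.range y) = Ideal.ofList (List.ofFn y) := by
        rw [Ideal.ofList]
        congr 1
        ext v
        exact (List.mem_ofFn' _ _).symm
      rwa [h2] at h1) (fun w hw => by
      obtain ⟨j, rfl⟩ := (List.mem_ofFn' _ _).1 hw
      exact hspan (hy j)) (fun q => by rw [← hJB]; exact hfJ q)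
    (fun q => by rw [← hCB]; exact hfC q) (by rw [hlenB, List.length_ofFn]; omega) n
    (by rw [hlenB]; exact hn)
  have e1 : kchi L (KC (R := WittVector p C) J xs) (n + 1) =
      kchi LB (KC (R := B) (J.map Z.f) xB) (n + 1) :=
    Finset.sum_congr rfl fun i _ => by rw [hJB]
  have e2 : kchi L (KC (R := WittVector p C) C xs) (n + 1) =
      kchi LB (KC (R := B) B xB) (n + 1) :=
    Finset.sum_congr rfl fun i _ => by rw [hCB]
  change kchi L (KC (R := WittVector p C) J xs) (n + 1) =
    kchi L (KC (R := WittVector p C) C xs) (n + 1)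
  rw [e1, e2, main]

end

end Vale.Agent.P177.Rho
end

section

/-!
P177, block LEV: the additive length on the modules over `W(C)` with `L(W(C)/(p, [t], [u])) = 1`.
-/

namespace Vale.Agent.P177.Lev

open Vale.Agent.P202.Mix Vale.Agent.P202.Mix.UL WittVector
open scoped ENNReal

universe u

variable {p : ℕ} [Fact p.Prime] {k : Type u} [Field k] [CharP k p] {r : ℕ}

section vW

variable {C : Type u} [CommRing C] [CharP C p] [PerfectRing C p] [Algebra (Rp p k r) C]

theorem mem_vW_iff (x : WittVector p C) : x ∈ vW p k r C ↔ x.coeff 0 ∈ vI p k r C := by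
  constructor
  · intro hx
    have hle : vW p k r C ≤ (vI p k r C).comap (constantCoeff : WittVector p C →+* C) := by
      rw [vW, Ideal.span_le]
      rintro y (rfl | ⟨l, rfl⟩)
      · rw [SetLike.mem_coe, Ideal.mem_comap, map_natCast, CharP.cast_eq_zero]
        exact zero_mem _
      · rw [SetLike.mem_coe, Ideal.mem_comap]
        change (teichmuller p (xC p k r C l)).coeff 0 ∈ _
        rw [teichmuller_coeff_zero]
        exact Ideal.subset_span ⟨l, rfl⟩
    exact hle hx
  · intro hx
    obtain ⟨c, hc⟩ := (Ideal.mem_span_range_iff_exists_fun).1 hx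
    have h1 : x - ∑ l, teichmuller p (c l) * teichmuller p (xC p k r C l) ∈
        Ideal.span {(p : WittVector p C)} := by
      rw [← ker_constantCoeff, RingHom.mem_ker, map_sub, map_sum, sub_eq_zero]
      change x.coeff 0 = _
      rw [← hc]
      refine Finset.sum_congr rfl fun l _ => ?_
      rw [map_mul]
      change _ = (teichmuller p (c l)).coeff 0 * (teichmuller p (xC p k r C l)).coeff 0
      rw [teichmuller_coeff_zero, teichmuller_coeff_zero]
      rfl
    have h2 : Ideal.span {(p : WittVector p C)} ≤ vW p k r C :=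
      Ideal.span_mono (Set.singleton_subset_iff.2 (Set.mem_insert _ _))
    have h3 : ∑ l, teichmuller p (c l) * teichmuller p (xC p k r C l) ∈ vW p k r C :=
      Ideal.sum_mem _ fun l _ => Ideal.mul_mem_left _ _
        (Ideal.subset_span (Set.mem_insert_of_mem _ ⟨l, rfl⟩))
    have := add_mem (h2 h1) h3
    rwa [sub_add_cancel] at this

/-- `W(C)/(p, [t], [u]) = C/(t, u)`. -/
theorem exists_vW_equiv : ∃ θ : (WittVector p C ⧸ vW p k r C) ≃+* (C ⧸ vI p k r C),
    ∀ x, θ (Ideal.Quotient.mk _ x) = Ideal.Quotient.mk _ (x.coeff 0) := by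
  let f : WittVector p C →+* C ⧸ vI p k r C :=
    (Ideal.Quotient.mk (vI p k r C)).comp constantCoeff
  have hker : RingHom.ker f = vW p k r C := by
    ext x
    rw [RingHom.mem_ker, mem_vW_iff]
    exact Ideal.Quotient.eq_zero_iff_mem
  have hs : Function.Surjective f := by
    intro y
    obtain ⟨c, rfl⟩ := Ideal.Quotient.mk_surjective y
    refine ⟨teichmuller p c, ?_⟩
    change Ideal.Quotient.mk _ ((teichmuller p c).coeff 0) = _
    rw [teichmuller_coeff_zero]
  refine ⟨(Ideal.quotEquivOfEq hker.symm).trans (RingHom.quotientKerEquivOfSurjective hs),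
    fun x => rfl⟩

theorem te_add_sub_mem (a b : C) : teichmuller p (a + b) - (teichmuller p a + teichmuller p b) ∈
    vW p k r C := by
  rw [mem_vW_iff]
  have : (teichmuller p (a + b) - (teichmuller p a + teichmuller p b)).coeff 0 =
      constantCoeff (teichmuller p (a + b) - (teichmuller p a + teichmuller p b)) := rfl
  rw [this, map_sub, RingHom.map_add constantCoeff]
  change (teichmuller p (a + b)).coeff 0 - ((teichmuller p a).coeff 0 +
    (teichmuller p b).coeff 0) ∈ _
  rw [teichmuller_coeff_zero, teichmuller_coeff_zero, teichmuller_coeff_zero, sub_self]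
  exact zero_mem _

end vW

section Range

theorem range_gen' [PerfectRing k p] {W : Type*} [CommRing W]
    (ω : Rp p k r →+* W) (hω : ∀ l, ω (xp p k r l) = 0) (G : Subring W)
    (h0 : ∀ c : k, ω (kR p k r c) ∈ G)
    (h2 : ∀ e l, ω (rt p e (xp p k r l)) ∈ G) (g : Rp p k r) : ω g ∈ G := by
  obtain ⟨n, h, hg⟩ := exists_pow_of g
  obtain ⟨B, hB⟩ := exists_box r (p ^ n)
  have h3 := Ideal.mem_map_of_mem (PerfectClosure.of (R0 k r) p) (ps_decomp (p ^ n) B hB h)
  rw [Ideal.map_span, ← Set.range_comp, Ideal.mem_span_range_iff_exists_fun] at h3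
  obtain ⟨c, hc⟩ := h3
  have h4 : g = (∑ m ∈ B, rt p n (kR p k r (MvPowerSeries.coeff m h)) *
      ∏ l, rt p n (xp p k r l) ^ m l) + ∑ l, rt p n (c l) * xp p k r l := by
    refine rt_inj (e := n) ?_
    rw [add_pow_char_pow, sum_pow_char_pow, sum_pow_char_pow, hg]
    have e1 : ∀ m ∈ B, (rt p n (kR p k r (MvPowerSeries.coeff m h)) *
        ∏ l, rt p n (xp p k r l) ^ m l) ^ p ^ n =
        PerfectClosure.of (R0 k r) p (MvPowerSeries.monomial m (MvPowerSeries.coeff m h)) := by
      intro m _
      rw [mul_pow, rt_pow_self, ← Finset.prod_pow, monomial_eq, map_mul, map_prod]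
      refine congrArg₂ _ rfl (Finset.prod_congr rfl fun l _ => ?_)
      rw [← pow_mul, mul_comm, pow_mul, rt_pow_self, map_pow]
      rfl
    have e2 : ∀ l ∈ (Finset.univ : Finset (Fin (r + 1))), (rt p n (c l) * xp p k r l) ^ p ^ n =
        c l * (PerfectClosure.of (R0 k r) p ∘ fun l => (MvPowerSeries.X l : R0 k r) ^ p ^ n) l := by
      intro l _
      rw [mul_pow, rt_pow_self, Function.comp_apply, map_pow]
      rfl
    rw [Finset.sum_congr rfl e1, Finset.sum_congr rfl e2, hc, map_sub, map_sum]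
    ring
  rw [h4, map_add, map_sum, map_sum]
  refine add_mem (sum_mem fun m _ => ?_) (sum_mem fun l _ => ?_)
  · rw [map_mul, map_prod]
    refine mul_mem ?_ (prod_mem fun l _ => ?_)
    · have e3 : rt p n (kR p k r (MvPowerSeries.coeff m h)) =
          kR p k r (rt p n (MvPowerSeries.coeff m h)) := (rt_map (kR p k r) n _).symm
      rw [e3]
      exact h0 _
    · rw [map_pow]
      exact pow_mem (h2 _ _) _
  · rw [map_mul, hω, mul_zero]
    exact zero_mem _

end Range

section Main

variable (p k r) in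
/-- the base ring of the tower. -/
abbrev Sb : Type u := MvPolynomial (Fin (r + 1)) (WittVector p k)

variable (p k r) in
/-- `Sb → k`. -/
noncomputable def sk : Sb p k r →+* k :=
  (constantCoeff : WittVector p k →+* k).comp MvPolynomial.constantCoeff

omit [CharP k p] in
theorem sk_surj : Function.Surjective (sk p k r) := by
  intro y
  refine ⟨MvPolynomial.C (teichmuller p y), ?_⟩
  change (constantCoeff : WittVector p k →+* k)
    (MvPolynomial.constantCoeff (MvPolynomial.C (teichmuller p y))) = y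
  rw [MvPolynomial.constantCoeff_C]
  exact teichmuller_coeff_zero p y

variable (p k r) in
/-- `Sb → W(C)`. -/
noncomputable def sW (C : Type u) [CommRing C] [Algebra (Rp p k r) C] :
    Sb p k r →+* WittVector p C :=
  MvPolynomial.eval₂Hom (WittVector.map (kC p k r C) : WittVector p k →+* WittVector p C)
    fun l => teichmuller p (xC p k r C l)

theorem sW_X (C : Type u) [CommRing C] [Algebra (Rp p k r) C] (l : Fin (r + 1)) :
    sW p k r C (MvPolynomial.X l) = teichmuller p (xC p k r C l) :=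
  MvPolynomial.eval₂Hom_X' (WittVector.map (kC p k r C) : WittVector p k →+* WittVector p C) _ l

theorem sW_C (C : Type u) [CommRing C] [Algebra (Rp p k r) C] (a : WittVector p k) :
    sW p k r C (MvPolynomial.C a) = WittVector.map (kC p k r C) a :=
  MvPolynomial.eval₂Hom_C (WittVector.map (kC p k r C) : WittVector p k →+* WittVector p C) _ a

/-- modulo the variables `Sb` acts through `k`. -/
theorem mk_sW (C : Type u) [CommRing C] [Algebra (Rp p k r) C] (s : Sb p k r) :
    Ideal.Quotient.mk (vI p k r C) ((sW p k r C s).coeff 0) = kCb p k r C (sk p k r s) := by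
  have h : ((Ideal.Quotient.mk (vI p k r C)).comp constantCoeff).comp (sW p k r C) =
      (kCb p k r C).comp (sk p k r) := by
    refine MvPolynomial.ringHom_ext (fun a => ?_) fun l => ?_
    · change Ideal.Quotient.mk (vI p k r C) ((sW p k r C (MvPolynomial.C a)).coeff 0) =
        kCb p k r C (constantCoeff (MvPolynomial.constantCoeff (MvPolynomial.C a)))
      rw [sW_C, MvPolynomial.constantCoeff_C, WittVector.map_coeff]
      rfl
    · change Ideal.Quotient.mk (vI p k r C) ((sW p k r C (MvPolynomial.X l)).coeff 0) =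
        kCb p k r C (constantCoeff (MvPolynomial.constantCoeff (MvPolynomial.X l)))
      rw [sW_X, MvPolynomial.constantCoeff_X, map_zero, map_zero, teichmuller_coeff_zero,
        Ideal.Quotient.eq_zero_iff_mem]
      exact Ideal.subset_span ⟨l, rfl⟩
  exact RingHom.congr_fun h s

/-- **The additive length on `W(C)`-modules.** -/
theorem exists_len_witt [PerfectRing k p] {r0 : ℕ} (d : PExt.{u} p k r r0) :
    ∃ L : AddLen (WittVector p d.C), L.len (WittVector p d.C ⧸ vW p k r d.C) = 1 := by
  classical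
  let algS : Algebra (Sb p k r) (WittVector p d.C) := (sW p k r d.C).toAlgebra
  let a : Fin (r + 1) → Sb p k r := fun i => MvPolynomial.X i
  obtain ⟨f, hf⟩ := exists_lift p (Sb p k r) a (T := WittVector p d.C)
    (fun i e => teichmuller p (rt p e (xC p k r d.C i)))
    (fun i => by rw [rt_zero_exp]; exact (sW_X d.C i).symm)
    (fun i e => by rw [← map_pow, rt_succ_pow])
  let _ : Algebra (RootAlg p (Sb p k r) a) (WittVector p d.C) := f.toRingHom.toAlgebra
  have hst : IsScalarTower (Sb p k r) (RootAlg p (Sb p k r) a) (WittVector p d.C) :=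
    IsScalarTower.of_algebraMap_eq fun s => (f.commutes s).symm
  obtain ⟨T, hT1, hT2⟩ := exists_rootTower p (Sb p k r) a
  obtain ⟨θ, hθ⟩ := exists_vW_equiv (p := p) (k := k) (r := r) (C := d.C)
  let 𝔪 : Ideal (Sb p k r) := RingHom.ker (sk p k r)
  have h𝔪 : 𝔪.IsMaximal := RingHom.ker_isMaximal_of_surjective _ sk_surj
  have hsm : ∀ (y : RootAlg p (Sb p k r) a) (z : WittVector p d.C ⧸ vW p k r d.C),
      y • z = Ideal.Quotient.mk _ (f y) * z := fun y z => Algebra.smul_def y z
  have hsmS : ∀ (s : Sb p k r) (z : WittVector p d.C ⧸ vW p k r d.C),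
      s • z = Ideal.Quotient.mk _ (sW p k r d.C s) * z := fun s z => Algebra.smul_def s z
  have hkill : ∀ s ∈ 𝔪, ∀ x : WittVector p d.C ⧸ vW p k r d.C, s • x = 0 := by
    intro s hs x
    have h1 : Ideal.Quotient.mk (vW p k r d.C) (sW p k r d.C s) = 0 := by
      apply θ.injective
      rw [hθ, mk_sW, map_zero, RingHom.mem_ker.1 hs, map_zero]
    rw [hsmS, h1, zero_mul]
  have hlf : LFr (Sb p k r) (RootAlg p (Sb p k r) a) (WittVector p d.C)
      (WittVector p d.C ⧸ vW p k r d.C) := by
    refine lfr_of_smul_eq_zero _ 𝔪 ?_ _ fun s hs x => ?_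
    · rw [length_residue 𝔪]
      exact ENat.one_ne_top
    · have h1 := hkill s hs x
      rw [← h1, ← algebraMap_smul (WittVector p d.C) s x]
      congr 1
      exact f.commutes s
  have hL0 : (T.totLen (WittVector p d.C)).len (WittVector p d.C ⧸ vW p k r d.C) =
      T.lam (WittVector p d.C ⧸ vW p k r d.C) := by
    rw [T.totLen_eq _ _ hlf, T.lenR_eq]
  -- Teichmueller
  let ω : d.C →+* WittVector p d.C ⧸ vW p k r d.C :=
    { toFun := fun c => Ideal.Quotient.mk _ (teichmuller p c)
      map_one' := by rw [map_one, map_one]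
      map_mul' := fun a b => by rw [map_mul, map_mul]
      map_zero' := by rw [teichmuller_zero, map_zero]
      map_add' := fun a b => by
        rw [← map_add, Ideal.Quotient.eq]
        exact te_add_sub_mem a b }
  have hω : ∀ c, ω c = Ideal.Quotient.mk _ (teichmuller p c) := fun c => rfl
  have hωs : Function.Surjective ω := by
    intro z
    obtain ⟨x, rfl⟩ := Ideal.Quotient.mk_surjective z
    refine ⟨x.coeff 0, ?_⟩
    apply θ.injective
    rw [hω, hθ, hθ, teichmuller_coeff_zero]
  have hωr : ∀ i e, ω (rt p e (xC p k r d.C i)) =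
      Ideal.Quotient.mk _ (f (rx p (Sb p k r) a i e)) := by
    intro i e
    rw [hω, hf]
  have hωx : ∀ l, ω (xC p k r d.C l) = 0 := by
    intro l
    rw [hω, Ideal.Quotient.eq_zero_iff_mem]
    exact Ideal.subset_span (Set.mem_insert_of_mem _ ⟨l, rfl⟩)
  -- upper bound
  have hup : T.lam (WittVector p d.C ⧸ vW p k r d.C) ≤ r0 := by
    refine lam_le_of_cover 𝔪 T hkill (∅, 0) (fun i => ⟨Finset.empty_subset _, Nat.zero_le _⟩)
      ?_ ?_ r0 fun X hX' => ?_
    · rw [hT1, rsub]
      simp
    · rw [hT2]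
      simp
    · obtain ⟨s, rfl⟩ := hX'
      choose c hc using hωs
      obtain ⟨v, hv⟩ := d.fin (s.image c)
      refine ⟨fun j => ω (v j), Submodule.span_le.mpr fun x hx => ?_⟩
      have h3 : ∀ y ∈ Submodule.span (Rp p k r) (Set.range v),
          ω y ∈ Submodule.span (RootAlg p (Sb p k r) a) (Set.range fun j => ω (v j)) := by
        intro y hy
        induction hy using Submodule.span_induction with
        | mem y hy =>
          obtain ⟨j, rfl⟩ := hy
          exact Submodule.subset_span ⟨j, rfl⟩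
        | zero => rw [map_zero]; exact zero_mem _
        | add y z _ _ hy hz => rw [map_add]; exact add_mem hy hz
        | smul g y _ hy =>
          have h4 := range_gen' (ω.comp (algebraMap (Rp p k r) d.C)) (fun l => hωx l)
            ((Ideal.Quotient.mk (vW p k r d.C)).comp f.toRingHom).range
            (fun y => ⟨algebraMap (Sb p k r) (RootAlg p (Sb p k r) a)
                (MvPolynomial.C (teichmuller p y)), by
              change Ideal.Quotient.mk _ (f (algebraMap (Sb p k r) (RootAlg p (Sb p k r) a) _)) = _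
              rw [f.commutes]
              change Ideal.Quotient.mk _ (sW p k r d.C _) = _
              rw [sW_C, map_teichmuller]
              rfl⟩)
            (fun e l => ⟨rx p (Sb p k r) a l e, by
              change Ideal.Quotient.mk _ (f _) = ω (algebraMap _ _ (rt p e (xp p k r l)))
              rw [← hωr]
              exact congrArg ω (rt_map (algebraMap (Rp p k r) d.C) e (xp p k r l)).symm⟩) g
          obtain ⟨z, hz⟩ := h4
          rw [Algebra.smul_def, map_mul]
          change ω.comp (algebraMap (Rp p k r) d.C) g * _ ∈ _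
          rw [← hz]
          change Ideal.Quotient.mk _ (f z) * ω y ∈ _
          rw [← hsm]
          exact Submodule.smul_mem _ _ hy
      have h5 := h3 (c x) (hv (Finset.mem_coe.mpr (Finset.mem_image_of_mem c hx)))
      rwa [hc] at h5
  -- lower bound
  have hlow : 1 ≤ T.lam (WittVector p d.C ⧸ vW p k r d.C) := by
    refine one_le_lam 𝔪 T 1 fun i => ?_
    obtain ⟨F, e⟩ := i
    have hq : 0 < p ^ e := pow_pos (Fact.out : p.Prime).pos e
    refine ⟨ULift.{u} (F → Fin (p ^ e)), inferInstance, fun φ =>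
      (toBx F (p ^ e) hq φ.down).1.prod fun i m => rx p (Sb p k r) a i e ^ m, ?_, fun φ => ?_,
      fun c hc => ?_⟩
    · rw [hT2, Fintype.card_ulift, Fintype.card_fun, Fintype.card_fin, Fintype.card_coe, pow_mul]
    · rw [hT1]
      exact prod_mem fun i hi => pow_mem (rx_mem_rsub p (Sb p k r) a
        (toBx_support F _ hq φ.down i hi)) _
    · let _ : Algebra k (d.C ⧸ vI p k r d.C) := (kCb p k r d.C).toAlgebra
      have hli := (li_k d e).comp (fun φ : ULift.{u} (F → Fin (p ^ e)) =>
        toBx F (p ^ e) hq φ.down) fun x y h => ULift.down_injective (toBx_injective F _ hq h)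
      have hli2 := Fintype.linearIndependent_iff.mp hli (fun φ => sk p k r (c φ)) ?_ 
      · exact fun φ => hli2 φ
      have h6 := congrArg θ hc
      rw [map_zero, map_sum] at h6
      rw [← h6]
      refine Finset.sum_congr rfl fun φ _ => ?_
      rw [hsmS, hsm, mul_one, map_mul, hθ, mk_sW, Algebra.smul_def]
      refine congrArg₂ _ rfl ?_
      have h7 : f ((toBx F (p ^ e) hq φ.down).1.prod fun i m => rx p (Sb p k r) a i e ^ m) =
          teichmuller p (∏ l, rt p e (vC p k r d.C l) ^ (toBx F (p ^ e) hq φ.down).1 l) := by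
        rw [Finsupp.prod_fintype _ _ (fun i => pow_zero _), map_prod, map_prod]
        refine Finset.prod_congr rfl fun l _ => ?_
        rw [map_pow, hf, map_pow]
        rfl
      rw [h7, hθ, teichmuller_coeff_zero]
      rfl
  have h0 : T.lam (WittVector p d.C ⧸ vW p k r d.C) ≠ 0 := (zero_lt_one.trans_le hlow).ne'
  have htop : T.lam (WittVector p d.C ⧸ vW p k r d.C) ≠ ⊤ :=
    ne_top_of_le_ne_top (ENNReal.natCast_ne_top r0) hup
  refine ⟨(T.totLen (WittVector p d.C)).divc (T.lam (WittVector p d.C ⧸ vW p k r d.C)), ?_⟩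
  change (T.totLen (WittVector p d.C)).len (WittVector p d.C ⧸ vW p k r d.C) / _ = 1
  rw [hL0, ENNReal.div_self h0 htop]

end Main

end Vale.Agent.P177.Lev
end

section

/-!
P177, block RHO: the Euler characteristic of the perfect ideals of the package.
-/

namespace Vale.Agent.P177.Full.Pkg

open Vale.Agent.P202.Mix Vale.Agent.P177.Lev Vale.Agent.P177.SL Vale.Agent.P177.KG
  Vale.Agent.P177.KM Vale.Agent.P177.PI Vale.Agent.P177.CN Vale.Agent.P177.MN Vale.Agent.P177.Rho
  WittVector Polynomial Filter Function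
open scoped ENNReal

universe u

variable {p : ℕ} [Fact p.Prime] {k : Type u} [Field k] [CharP k p] {r : ℕ}
variable {Λ : Type u} [CommRing Λ] [IsLocalRing Λ] {ψ : Λ →+* WittVector p (Rp p k r)}
variable {Ω : Type u} [Field Ω] [Algebra Λ Ω] {s : ℕ} {b : Fin s → Ω} {F G : Fin s → Λ[X]}
    {D : ℕ} {ε : ℝ≥0∞} {Φ : ℕ → ℕ} (K : Pkg ψ b F G D ε Φ)

theorem η_pow_notMem (hε : ε ≠ 0) (n : ℕ) : K.η ^ n ∉ Ideal.span {tC p k r K.C} := by
  intro h
  obtain ⟨y, hy⟩ := Ideal.mem_span_singleton'.1 h
  have h1 : K.mass.len (WittVector p K.C ⧸ vW p k r K.C) = 0 := by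
    refine K.mass_eq_zero n _ fun x => ?_
    obtain ⟨w, rfl⟩ := Ideal.Quotient.mk_surjective x
    change Ideal.Quotient.mk _ (teichmuller p K.η ^ n * w) = 0
    rw [Ideal.Quotient.eq_zero_iff_mem, ← map_pow, ← hy, map_mul (teichmuller p), mul_assoc,
      mul_comm (teichmuller p (tC p k r K.C)), ← mul_assoc]
    refine Ideal.mul_mem_left _ _ (Ideal.subset_span (Set.mem_insert_of_mem _ ⟨0, rfl⟩))
  exact hε (le_antisymm (h1 ▸ K.le_mass_vW) bot_le)

/-- the ring `C'` exists. -/
theorem nonempty_natZ (hε : ε ≠ 0) : Nonempty (NatZ p K.C (tC p k r K.C) K.η) :=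
  Vale.Agent.P177.CN.exists_natZ p K.t_reg (K.η_pow_notMem hε 3)

/-- the list of the Teichmueller representatives of the variables. -/
noncomputable abbrev xs : List (WittVector p K.C) :=
  List.ofFn fun l => teichmuller p (xC p k r K.C l)

theorem take_xs (i : ℕ) (hi : i < r + 1) : Ideal.ofList (K.xs.take i) =
    Ideal.span ((fun l => teichmuller p (xC p k r K.C l)) '' {l | l < ⟨i, hi⟩}) := by
  rw [Ideal.ofList]
  congr 1
  ext v
  rw [Set.mem_ofPred_eq, List.mem_take_iff_getElem]
  constructor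
  · rintro ⟨j, hj, rfl⟩
    rw [List.length_ofFn] at hj
    refine ⟨⟨j, by omega⟩, ?_, ?_⟩
    · exact Fin.mk_lt_mk.2 (by omega)
    · rw [List.getElem_ofFn]
  · rintro ⟨l, hl, rfl⟩
    refine ⟨l, ?_, ?_⟩
    · rw [List.length_ofFn]
      have h1 : l < (⟨i, hi⟩ : Fin (r + 1)) := hl
      rw [Fin.lt_def] at h1
      have := l.2
      simp only at h1
      omega
    · exact List.getElem_ofFn _

theorem weaklyRegular_xs : letI := algW p K.C
    RingTheory.Sequence.IsWeaklyRegular (R := WittVector p K.C) K.C K.xs := by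
  let _ := algW p K.C
  refine ⟨fun i hi => ?_⟩
  have hi' : i < r + 1 := by
    have := hi
    rwa [List.length_ofFn] at this
  rw [isSMulRegular_on_quot_iff_lsmul_comap_le]
  intro y hy
  rw [Submodule.mem_comap] at hy
  have e : ∀ c : K.C, c ∈ (Ideal.ofList (K.xs.take i) • (⊤ : Submodule (WittVector p K.C) K.C)) ↔
      c ∈ Ideal.span ((fun l => xC p k r K.C l) '' {l | l < ⟨i, hi'⟩}) := by
    intro c
    rw [Ideal.smul_top_eq_map, take_xs K i hi', Ideal.map_span, Set.image_image]
    have h2 : (fun l => algebraMap (WittVector p K.C) K.C (teichmuller p (xC p k r K.C l))) =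
        fun l => xC p k r K.C l := by
      funext l
      exact teichmuller_coeff_zero p _
    rw [h2]
    exact Iff.rfl
  rw [e] at hy ⊢
  refine K.regular ⟨i, hi'⟩ y ?_
  have h3 : LinearMap.lsmul (WittVector p K.C) K.C K.xs[i] y = xC p k r K.C ⟨i, hi'⟩ * y := by
    change K.xs[i] • y = _
    rw [algW_smul_def, List.getElem_ofFn, teichmuller_coeff_zero]
  rwa [h3] at hy

theorem len_KC_C_succ (i : ℕ) : letI := algW p K.C
    K.mass.len ((KC (R := WittVector p K.C) K.C K.xs).H (i + 1)) = 0 := by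
  let _ := algW p K.C
  have := KC_H_succ_subsingleton K.xs K.C K.weaklyRegular_xs i
  exact SL.len_subsingleton _

theorem len_KC_C_zero : letI := algW p K.C
    K.mass.len ((KC (R := WittVector p K.C) K.C K.xs).H 0) =
      K.mass.len (WittVector p K.C ⧸ vW p k r K.C) := by
  let _ := algW p K.C
  let g : WittVector p K.C →ₗ[WittVector p K.C] (KC (R := WittVector p K.C) K.C K.xs).H 0 :=
    u0 K.C K.xs ∘ₗ Algebra.linearMap (WittVector p K.C) K.C
  have hg : Function.Surjective g := by
    refine (u0_surjective K.C K.xs).comp fun c => ?_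
    exact ⟨teichmuller p c, teichmuller_coeff_zero p c⟩
  have hk : LinearMap.ker g = vW p k r K.C := by
    ext w
    rw [LinearMap.mem_ker, mem_vW_iff]
    change w.coeff 0 ∈ LinearMap.ker (u0 K.C K.xs) ↔ _
    rw [ker_u0, Ideal.smul_top_eq_map]
    change w.coeff 0 ∈ (Ideal.ofList K.xs).map (algebraMap (WittVector p K.C) K.C) ↔ _
    have h1 : (Ideal.ofList K.xs).map (algebraMap (WittVector p K.C) K.C) =
        UL.vI p k r K.C := by
      rw [Ideal.ofList, Ideal.map_span, UL.vI]
      congr 1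
      ext c
      constructor
      · rintro ⟨v, hv, rfl⟩
        obtain ⟨l, rfl⟩ := (List.mem_ofFn' _ _).1 hv
        exact ⟨l, (teichmuller_coeff_zero p _).symm⟩
      · rintro ⟨l, rfl⟩
        exact ⟨_, (List.mem_ofFn' _ _).2 ⟨l, rfl⟩, teichmuller_coeff_zero p _⟩
    rw [h1]
  rw [← len_congr K.mass (g.quotKerEquivOfSurjective hg),
    len_congr K.mass (Submodule.quotEquivOfEq _ _ hk)]

theorem kchi_C (n : ℕ) : letI := algW p K.C
    kchi K.mass (KC (R := WittVector p K.C) K.C K.xs) (n + 1) =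
      (K.mass.len (WittVector p K.C ⧸ vW p k r K.C)).toReal := by
  let _ := algW p K.C
  rw [kchi, Finset.sum_range_succ', Finset.sum_eq_zero, len_KC_C_zero K]
  · simp
  · intro i _
    rw [K.len_KC_C_succ]
    simp

theorem len_KC_C_ne_top (i : ℕ) : letI := algW p K.C
    K.mass.len ((KC (R := WittVector p K.C) K.C K.xs).H i) ≠ ⊤ := by
  cases i with
  | zero => rw [len_KC_C_zero K]; exact K.mass_ne_top
  | succ i => rw [K.len_KC_C_succ]; exact ENNReal.zero_ne_top

section gen

/-- replace the first components by the whole rings. -/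
noncomputable def Jp (Je : ∀ e, Ideal (K.Ce e)) (e0 : ℕ) (e : ULift.{u} ℕ) : Ideal (K.Ce e) :=
  if e0 ≤ e.down then Je e else ⊤

theorem SP_Jp (Je : ∀ e, Ideal (K.Ce e)) (hJe : ∀ e, Vale.Agent.P177.CN.SP p (Je e)) (e0 : ℕ)
    (e : ULift.{u} ℕ) : Vale.Agent.P177.CN.SP p (K.Jp Je e0 e) := by
  unfold Jp
  split_ifs
  · exact hJe e
  · exact SP_top p

theorem le_Jp (Je : ∀ e, Ideal (K.Ce e)) (e0 : ℕ) : Ideal.pi Je ≤ Ideal.pi (K.Jp Je e0) := by
  intro x hx e
  change x e ∈ K.Jp Je e0 e
  unfold Jp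
  split_ifs
  · exact hx e
  · exact Submodule.mem_top

/-- the first levels are invisible -/
theorem len_KC_Jp (Je : ∀ e, Ideal (K.Ce e)) (e0 : ℕ) (i : ℕ) : letI := algW p K.C
    K.mass.len ((KC (R := WittVector p K.C) (Ideal.pi Je : Ideal K.C) K.xs).H i) =
      K.mass.len ((KC (R := WittVector p K.C) (Ideal.pi (K.Jp Je e0) : Ideal K.C) K.xs).H i) := by
  let _ := algW p K.C
  let f : (Ideal.pi Je : Ideal K.C) →ₗ[WittVector p K.C] (Ideal.pi (K.Jp Je e0) : Ideal K.C) :=
    (Submodule.inclusion (K.le_Jp Je e0)).restrictScalars (WittVector p K.C)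
  refine KC_len_eq_of_inj (ALen.of K.mass) f (Submodule.inclusion_injective (K.le_Jp Je e0)) ?_ K.xs i
  refine K.kil_tl e0 _ fun m => ?_
  obtain ⟨x, rfl⟩ := Submodule.mkQ_surjective _ m
  rw [← map_smul, Submodule.mkQ_apply, Submodule.Quotient.mk_eq_zero]
  refine ⟨⟨K.tl e0 * x.1, fun e => ?_⟩, Subtype.ext ?_⟩
  · change K.tl e0 e * x.1 e ∈ Je e
    have h1 : x.1 e ∈ K.Jp Je e0 e := x.2 e
    unfold tl
    unfold Jp at h1
    split_ifs with h
    · rw [if_pos h] at h1
      rw [one_mul]
      exact h1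
    · rw [zero_mul]
      exact zero_mem _
  · change K.tl e0 * x.1 = (teichmuller p (K.tl e0)).coeff 0 * x.1
    rw [teichmuller_coeff_zero]

theorem mem_xiM_of_le {C : Type u} [CommRing C] [Algebra (Rp p k r) C] {m M : ℕ} (h : m ≤ M)
    {x : WittVector p C} (hx : x ∈ xiM p k r C M) : x ∈ xiM p k r C m := by
  obtain ⟨a, c, rfl⟩ := Vale.Agent.P177.Full.Pkg.mem_xiM_iff.1 hx
  exact Vale.Agent.P177.Full.Pkg.mem_xiM_iff.2 ⟨a, c * (p : WittVector p C) ^ (M - m), by
    rw [mul_assoc c, ← pow_add, Nat.sub_add_cancel h]⟩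

/-- **RHO for a product of `SP`-ideals** -/
theorem kchi_pi [IsDomain Λ] [IsNoetherianRing Λ] {u' : Fin r → Λ}
    (hmax : IsLocalRing.maximalIdeal Λ = Ideal.span (insert (p : Λ) (Set.range u')))
    (hpr : Prime (p : Λ)) (hψ : ∀ i, ψ (u' i) = teichmuller p (xp p k r i.succ))
    (hε : ε ≠ 0) (Je : ∀ e, Ideal (K.Ce e)) (hJe : ∀ e, Vale.Agent.P177.CN.SP p (Je e)) (γ : Λ) (hγ : γ ≠ 0)
    (z : WittVector p K.C) (hz : z ∈ WI p (Ideal.pi Je)) (n : ULift.{u} ℕ → ℕ)
    (hn : ∀ M, ∃ e0 : ℕ, ∀ e : ULift.{u} ℕ, e0 ≤ e.down → M ≤ n e)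
    (hzz : teichmuller p K.η * laW ψ K.C γ - z ∈ K.xiP n)
    (hfin : letI := algW p K.C
      ∀ i, K.mass.len ((KC (R := WittVector p K.C) (Ideal.pi Je : Ideal K.C) K.xs).H i) ≠ ⊤)
    (m : ℕ) (hm : r + 1 < m) : letI := algW p K.C
    kchi K.mass (KC (R := WittVector p K.C) (Ideal.pi Je : Ideal K.C) K.xs) (m + 1) =
      (K.mass.len (WittVector p K.C ⧸ vW p k r K.C)).toReal := by
  let _ := algW p K.C
  obtain ⟨Z⟩ := K.nonempty_natZ hε
  obtain ⟨a, ha⟩ := kchi_nat (p := p) u' hmax hpr γ hγ
  obtain ⟨e0, he0⟩ := hn (2 + a)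
  have hlaW : ∀ i, laW ψ K.C (u' i) = teichmuller p (xC p k r K.C i.succ) := by
    intro i
    change WittVector.map _ (ψ (u' i)) = _
    rw [hψ, WittVector.map_teichmuller]
  -- the ideal `J⁺` and the element `z⁺`
  have hSP := K.SP_Jp Je hJe e0
  let zp : WittVector p K.C := teichmuller p (K.tl e0) * z +
    teichmuller p (1 - K.tl e0) * (teichmuller p K.η * laW ψ K.C γ)
  have htl : ∀ e, e0 ≤ e.down → K.tl e0 e = 1 := fun e h => if_pos h
  have htl' : ∀ e, ¬ e0 ≤ e.down → K.tl e0 e = 0 := fun e h => if_neg h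
  have hzp : ∀ e, e0 ≤ e.down → K.pr e zp = K.pr e z := by
    intro e h
    rw [map_add, map_mul, map_mul, pr_te, pr_te, Pi.sub_apply, htl e h, Pi.one_apply, sub_self,
      map_one, WittVector.teichmuller_zero, one_mul, zero_mul, add_zero]
  have hzp' : ∀ e, ¬ e0 ≤ e.down → K.pr e zp = K.pr e (teichmuller p K.η * laW ψ K.C γ) := by
    intro e h
    rw [map_add, map_mul, map_mul _ (teichmuller p (1 - K.tl e0)), pr_te, pr_te, Pi.sub_apply,
      htl' e h, Pi.one_apply, sub_zero, map_one, WittVector.teichmuller_zero, one_mul, zero_mul,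
      zero_add]
  have h1 : zp ∈ WI p (Ideal.pi (K.Jp Je e0)) := by
    rw [mem_WI_pi p fun e => (hSP e).isPerf]
    intro e
    by_cases h : e0 ≤ e.down
    · have h2 := (mem_WI_pi p fun e => (hJe e).isPerf).1 hz e
      change K.pr e zp ∈ WI p (K.Jp Je e0 e)
      rw [hzp e h, Jp, if_pos h]
      exact h2
    · change K.pr e zp ∈ WI p (K.Jp Je e0 e)
      rw [Jp, if_neg h]
      exact NatR.mem_WI_top p _
  have h2 : teichmuller p K.η * laW ψ K.C γ - zp ∈ XI p (xC p k r K.C 0) (2 + a) := by
    have h3 : teichmuller p K.η * laW ψ K.C γ - zp ∈ K.xiP fun _ => 2 + a := by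
      rw [mem_xiP]
      intro e
      by_cases h : e0 ≤ e.down
      · rw [map_sub, hzp e h, ← map_sub]
        exact mem_xiM_of_le (he0 e h) (K.mem_xiP.1 hzz e)
      · rw [map_sub, hzp' e h, sub_self]
        exact zero_mem _
    have h4 := K.xiP_le_xiM (m := 2 + a) (fun _ => le_rfl) h3
    rw [← XI_eq_xiM] at h4
    exact h4
  have h5 := ha (laW ψ K.C) (xC p k r K.C) hlaW K.t_reg K.η Z K.mass K.kil_η (2 + a) (by omega)
    (Ideal.pi (K.Jp Je e0)) (SP_pi hSP) zp h1 h2
    (fun i => by rw [← K.len_KC_Jp Je e0 i]; exact hfin i) K.len_KC_C_ne_top m hm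
  have h6 : kchi K.mass (KC (R := WittVector p K.C) (Ideal.pi Je : Ideal K.C) K.xs) (m + 1) =
      kchi K.mass (KC (R := WittVector p K.C) (Ideal.pi (K.Jp Je e0) : Ideal K.C) K.xs)
        (m + 1) := kchi_congr K.mass (K.len_KC_Jp Je e0) _
  change kchi K.mass (KC (R := WittVector p K.C) (Ideal.pi Je : Ideal K.C) K.xs) (m + 1) = _
  rw [h6]
  exact h5.trans (K.kchi_C m)

end gen

end Vale.Agent.P177.Full.Pkg
end
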