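import Mathlib
import Vale.Agent.P177.Bd4.B5
import Vale.Agent.P177.Bd4.B8
import Vale.Agent.P177.Bd4.B2
import Vale.Agent.P177.Bd4.B12
import Vale.Agent.P177.Bd4.B11
import Vale.Agent.P177.Bd4.B13
import Vale.Agent.P177.Bd4.B3
attribute [-instance] DenselyNormedField.toNontriviallyNormedField RCLike.toDenselyNormedField DenselyNormedField.toNormedField NontriviallyNormedField.toNormedField NormedField.toNormedDivisionRing littleWedderburn NormedDivisionRing.toDivisionRing NormedField.toField KleeneAlgebra.toIdemSemiring SemiRingCat.instSemiringObjForgetRingHomCarrier CommSemiRingCat.FilteredColimits.colimitCommSemiring LeftPreLieRing.instLieAdmissibleRing RightPreLieRing.instLieAdmissibleRing BooleanRing.toRing CommCStarAlgebra.toCStarAlgebra CommCStarAlgebra.toNormedCommRing NormedField.toNormedCommRing CStarAlgebra.toNormedRing NormedCommRing.toNormedRing NormedDivisionRing.toNormedRing LinearOrderedAddCommGroupWithTop.instLinearOrderedAddCommMonoidWithTop LinearOrderedAddCommGroupWithTop.toAddCommMonoid NormedCommRing.toSeminormedCommRing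 NormedRing.toSeminormedRing SeminormedCommRing.toSeminormedRing Field.toEuclideanDomain CommCStarAlgebra.toNonUnitalCommCStarAlgebra CStarAlgebra.toNonUnitalCStarAlgebra NonUnitalCommCStarAlgebra.toNonUnitalCStarAlgebra BooleanRing.toCommRing EuclideanDomain.toCommRing NormedCommRing.toCommRing SeminormedCommRing.toCommRing NormedRing.toRing SeminormedRing.toRing NonUnitalCommCStarAlgebra.toNonUnitalNormedCommRing NormedCommRing.toNonUnitalNormedCommRing NonUnitalCStarAlgebra.toNonUnitalNormedRing NonUnitalNormedCommRing.toNonUnitalNormedRing NormedRing.toNonUnitalNormedRing AddCommMonCat.FilteredColimits.colimitAddCommMonoid LieAdmissibleRing.instLieRing CategoryTheory.CommGrpObj.mk CategoryTheory.CommGrpObj.toGrpObj CategoryTheory.Preadditive.instGrpObj CategoryTheory.instBraidedCategoryType CategoryTheory.Abelian.toPreadditive Pi.nonUnitalNonAssocSemiring MonCat.monoidObj NonAssocCommRing.toNonAssocCommSemiring CommSemiring.toNonAssocCommSemiring NonAssocCommSemiring.toNonAssocSemiring LeftPreLieRing.toNonUnitalNonAssocRing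 LieAdmissibleRing.toNonUnitalNonAssocRing RightPreLieRing.toNonUnitalNonAssocRing CommRing.toAddCommGroupWithOne NonAssocRing.toAddCommGroupWithOne AddCommGroupWithOne.toAddCommMonoidWithOne NonUnitalNormedCommRing.toNonUnitalSeminormedCommRing SeminormedCommRing.toNonUnitalSeminormedCommRing NonUnitalNormedRing.toNonUnitalSeminormedRing NonUnitalSeminormedCommRing.toNonUnitalSeminormedRing SeminormedRing.toNonUnitalSeminormedRing CategoryTheory.BimonObj.toMonObj CategoryTheory.CommRingObj.toRingObj CategoryTheory.GrpObj.toMonObj CategoryTheory.HopfObj.toBimonObj CategoryTheory.RingObj.toMonObj SSet.stdSimplex.instFunLikeObjOppositeSimplexCategoryMkOpFinHAddNatOfNat TopologicalSpace.Compacts.instSetLike MonTypeEquivalenceMon.monMonoid NonUnitalCommRing.toNonUnitalRing NonUnitalNormedCommRing.toNonUnitalCommRing NonUnitalSeminormedCommRing.toNonUnitalCommRing NonUnitalNormedRing.toNonUnitalRing NonUnitalSeminormedRing.toNonUnitalRing Ring.toNonUnitalRing NonAssocCommRing.toNonUnitalNonAssocCommRing NonUnitalRing.toNonUnitalNonAssocRing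 instCoeT CommSemiring.toNonUnitalCommSemiring NonUnitalRing.toNonUnitalSemiring Semiring.toNonUnitalSemiring NonAssocCommSemiring.toNonUnitalNonAssocCommSemiring NonUnitalCommSemiring.toNonUnitalNonAssocCommSemiring NonUnitalNonAssocCommSemiring.toNonUnitalNonAssocSemiring NonUnitalSemiring.toNonUnitalNonAssocSemiring LieAdmissibleAlgebra.toModule RightPreLieAlgebra.instLieAdmissibleAlgebra AddCommMonoidWithOne.toAddCommMonoid LeftPreLieAlgebra.toModule LieAlgebra.toModule NormedSpace.toModule RightPreLieAlgebra.toModule instCoeTOfCoeDep Pi.nonAssocSemiring GradedMonoid.GradeZero.smul LieRing.toAddCommGroup SemiNormedGrp.str NonUnitalNormedRing.toNormedAddCommGroup RingCat.FilteredColimits.colimitRing instNonUnitalCStarAlgebraForall MulSemiringAction.toDistribMulAction NormedCommGroup.toNormedGroup NormedCommGroup.toSeminormedCommGroup NormedGroup.toSeminormedGroup SeminormedCommGroup.toSeminormedGroup Pi.addZeroClass instCommGroupOfIsSimpleGroupOfIsNilpotent CommGroup.toGroup CommGrpTypeEquivalenceCommGrp.commGrpCommGroup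 GrpTypeEquivalenceGrp.grpGroup NormedCommGroup.toCommGroup NormedGroup.toGroup SeminormedCommGroup.toCommGroup SeminormedGroup.toGroup LinearOrderedAddCommGroupWithTop.toSubNegMonoid LinearOrderedCommGroupWithZero.toLinearOrderedCommMonoidWithZero Bialgebra.toAlgebra CommSemiring.toBialgebra CommSemiring.toHopfAlgebra HopfAlgebra.toHopfAlgebraStruct HopfAlgebraStruct.toBialgebra NormedAlgebra.toAlgebra Complex.instRCLike TensorProduct.instModuleFstSnd ContDiffMapSupportedInClass.toDFunLike RKHS.instFunLike TestFunctionClass.toDFunLike Real.instRCLike AddMonCat.addMonoidObj CompleteLinearOrder.toConditionallyCompleteLinearOrderBot CompleteAtomicBooleanAlgebra.toCompleteBooleanAlgebra AddCommGroupWithOne.toAddGroupWithOne ConditionallyCompleteLinearOrderBot.toConditionallyCompleteLinearOrder CompleteLinearOrder.toLinearOrder ConditionallyCompleteLinearOrder.toLinearOrder LinearOrderedAddCommGroupWithTop.toLinearOrder LinearOrderedAddCommMonoidWithTop.toLinearOrder LinearOrderedCommMonoidWithZero.toLinearOrder CompleteAtomicBooleanAlgebra.toCompletelyDistribLattice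 Pi.instTopForall instNonUnitalAlgHomClassOfNonUnitalAlgEquivClass CompleteBooleanAlgebra.toCompleteLattice NonUnitalNonAssocSemiring.toDistribSMul BoxIntegral.Box.instMembershipForallReal instSMulZeroClass CompleteBooleanAlgebra.toCompleteDistribLattice CompletelyDistribLattice.toCompleteDistribLattice instCoeTC CompleteDistribLattice.toCoframe CompleteDistribLattice.toFrame instCoeHTC instCoeHTCT Pi.mulZeroOneClass NormedAlgebra.id OrderRingHom.instRingHomClass BialgEquivClass.toBialgHomClass CompleteBooleanAlgebra.toBooleanAlgebra CompleteLinearOrder.toCompleteLattice Order.Coframe.toCompleteLattice Order.Frame.toCompleteLattice TwoSidedIdeal.instIsTwoSidedCoeOrderHomIdealAsIdeal Std.DTreeMap.Raw.instSingletonSigma BooleanAlgebra.toBiheytingAlgebra CompleteDistribLattice.toBiheytingAlgebra CompleteLinearOrder.toBiheytingAlgebra CompletelyDistribLattice.toBiheytingAlgebra Pi.nonUnitalSemiring instIsDedekindDomainOfIsDomainOfIsDedekindRing IsDedekindDomainDvr.isDedekindDomain NonUnitalSeminormedRing.toSeminormedAddCommGroup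 NormedAddCommGroup.toSeminormedAddCommGroup TopRep.hV1 ChainCompletePartialOrder.instOfCompleteLattice ChainCompletePartialOrder.instOmegaCompletePartialOrder ChainCompletePartialOrder.toPartialOrder CompletePartialOrder.toOmegaCompletePartialOrder OmegaCompletePartialOrder.toPartialOrder CategoryTheory.Limits.Concrete.instUniqueToTypeTerminal BiheytingAlgebra.toCoheytingAlgebra BiheytingAlgebra.toHeytingAlgebra BooleanAlgebra.toGeneralizedBooleanAlgebra Order.Coframe.toCoheytingAlgebra Order.Frame.toHeytingAlgebra Polynomial.distribMulAction AddOpposite.instAddZero LinearOrderedCommGroupWithZero.toCommGroupWithZero CoheytingAlgebra.toGeneralizedCoheytingAlgebra GeneralizedBooleanAlgebra.toGeneralizedCoheytingAlgebra HeytingAlgebra.toGeneralizedHeytingAlgebra instCoeTCOfCoe CategoryTheory.Mat_.fintype instConditionallyCompletePartialOrderSup ConditionallyCompletePartialOrder.toConditionallyCompletePartialOrderInf AlgebraicGeometry.Scheme.instPreorderCarrierCarrierCommRingCat instDistribLatticeOfLinearOrder BooleanAlgebra.toDistribLattice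 CompleteLattice.toLattice CompleteLattice.toPartialOrder' CompleteSemilatticeSup.toPartialOrder ConditionallyCompletePartialOrderInf.toPartialOrder DistribLattice.toLattice GeneralizedBooleanAlgebra.toDistribLattice GeneralizedCoheytingAlgebra.toDistribLattice GeneralizedCoheytingAlgebra.toLattice GeneralizedHeytingAlgebra.toDistribLattice GeneralizedHeytingAlgebra.toLattice Lattice.toSemilatticeInf LinearOrder.toLattice SemilatticeInf.toPartialOrder Order.Coframe.toDistribLattice Order.Frame.toDistribLattice DivisionRing.isDomain EuclideanDomain.instIsDomain Field.isDomain IsDedekindDomain.toIsDomain IsStrictOrderedRing.isDomain CommGroupWithZero.toGroupWithZero OrderAddMonoidHom.instAddMonoidHomClass ProfiniteAddGrp.addGroup AlgEquivClass.toAlgHomClass BialgHomClass.toAlgHomClass instSubsingleton Group.IsPerfect.subsingleton_of_isMulCommutative IsEmpty.instSubsingleton ContinuousAddMonoidHom.instCoeOutOfAddMonoidHomClassOfContinuousMapClass ContinuousMonoidHom.instCoeOutOfMonoidHomClassOfContinuousMapClass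 HomeomorphClass.instCoeOutHomeomorph IsometryClass.instCoeOutIsometryEquiv boolToProp SubfieldClass.toNormedField RingConeClass.toSubsemiringClass CentroidHomClass.toAddMonoidHomClass OrderDual.instDivisionSemiring Quaternion.instDivisionRing Action.instMulAction Torsor.toMulAction Action.FintypeCat.instMulActionObjFiniteOf GradedMonoid.GradeZero.mulAction MulSemiringActionSemiHomClass.toDistribMulActionSemiHomClass ValuationClass.toMonoidWithZeroHomClass AlgHom.instContinuousLinearMapClassOfAlgHomClass BialgHomClass.toCoalgHomClass CoalgEquivClass.toCoalgHomClass CoalgHomClass.toSemilinearMapClass ContinuousSemilinearEquivClass.continuousSemilinearMapClass ContinuousSemilinearMapClass.toSemilinearMapClass PositiveLinearMap.instContinuousLinearMapClassComplexOfLinearMapClassOfOrderHomClass RingHomClass.toLinearMapClassNNRat RingHomClass.toLinearMapClassRat SemilinearIsometryClass.toContinuousSemilinearMapClass SemilinearIsometryClass.toSemilinearMapClass Invertible.toNeZero LinearOrderedCommMonoidWithZero.toIsBotZeroClass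 NeZero.of_gt' AlgHomClass.linearMapClass NonUnitalAlgHomClass.instSemilinearMapClassOfNonUnitalAlgSemiHomClassToMonoidHomRingHom Nat.AtLeastTwo.toNeZero SetLike.GradeZero.instCommSemiring CommGroupWithZero.toCommMonoidWithZero LinearOrderedCommMonoidWithZero.toCommMonoidWithZero AbsoluteValue.mulHomClass CommMonoidWithZero.toMonoidWithZero SubfieldClass.toDivisionRing SubfieldClass.toField AbsoluteValue.zeroHomClass SemilatSupCat.isSemilatticeSup CategoryTheory.CartesianMonoidalCategory.toSymmetricCategory CategoryTheory.CopyDiscardCategory.toSymmetricCategory CategoryTheory.MarkovCategory.toCopyDiscardCategory CategoryTheory.PositiveCategory.toMarkovCategory CategoryTheory.SymmetricCategory.toBraidedCategory LeftPreLieAlgebra.toIsScalarTower LieAdmissibleAlgebra.toIsScalarTower LieRinehartAlgebra.toIsScalarTower RightPreLieAlgebra.toIsScalarTower MonoidWithZero.toSemigroupWithZero SemigroupWithZero.toMulZeroClass Pi.normedRing NormedAddCommGroup.toNormedAddGroup SetLike.GradeZero.instSemiring smoothSheafCommRing.instLocalRing_stalk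 instFiniteProp Field.instIsLocalRing ValuationRing.isLocalRing Monoid.End.instMonoidHomClass StarSubalgebra.commCStarAlgebra IsOrderedRing.toIsStrictOrderedRing Polynomial.instMulSemiringAction Pi.subtractionMonoid instRingHomSurjectiveForallEvalRingHom instIsSemisimpleModuleOfIsSimpleModule instIsSemisimpleRingOfSubsingleton IsSemisimpleRing.isSemisimpleModule IsSimpleRing.instIsSemisimpleRing CommMonTypeEquivalenceCommMon.commMonCommMonoid SubringClass.toNormedCommRing Pi.instBotForall CategoryTheory.instFinCategoryOfFintypeOfIsThin FinEnum.instFintype SetLike.instFintype Unique.fintype CategoryTheory.FinCategory.fintypeObj Semigrp.str Nat.instNontrivial Nat.instOne Nat.Prime.one_lt' Pi.distribMulAction' StarSubalgebra.cstarAlgebra NormedAddGroup.toSeminormedAddGroup SeminormedAddCommGroup.toSeminormedAddGroup Pi.normedAddCommGroup BialgHomClass.toMonoidHomClass MulCharClass.toMonoidHomClass MulDistribMulActionSemiHomClass.toMonoidHomClass RootedTree.orderBot RingHomInvPair.triples RingHomInvPair.triples₂ instIsSimpleModule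 PadicComplex.normedField SubalgebraClass.normedRing SubringClass.toNormedRing instCharZeroOfIsSemireal instIsSemirealOfIsStrictOrderedRingOfExistsAddOfLE FloorSemiring.instCharZero IsRealClosed.toIsSemireal IsStrictOrderedRing.toCharZero NumberField.to_charZero RCLike.charZero_rclike PartOrdEmb.str IsDedekindDomain.toIsDedekindRing SubringClass.toSeminormedCommRing Fin.completeLinearOrder SetLike.GradeZero.instCommRing NonUnitalNormedRing.toMetricSpace NormedAddCommGroup.toMetricSpace NormedAddGroup.toMetricSpace NormedCommGroup.toMetricSpace NormedDivisionRing.toMetricSpace NormedField.toMetricSpace NormedGroup.toMetricSpace NormedRing.toMetricSpace TopologicalSpace.UpgradedIsCompletelyMetrizableSpace.toMetricSpace AddHom.addHomClass instIsPrincipalIdealRingOfIsSemisimpleRing EuclideanDomain.to_principal_ideal_domain IsDedekindDomain.isPrincipalIdealRing BialgEquivClass.toCoalgEquivClass AddCommGroupWithOne.toAddCommGroup NormedAddCommGroup.toAddCommGroup SeminormedAddCommGroup.toAddCommGroup RCLike.toInnerProductSpaceReal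 Finite.of_subsingleton SetLike.instFinite NonUnitalAlgHomClass.toNonUnitalRingHomClass RingEquivClass.toNonUnitalRingHomClass SubalgebraClass.seminormedRing SubringClass.toCommRing SubringClass.toSeminormedRing instNontrivialOfCharZero DivisionRing.toNontrivial EuclideanDomain.toNontrivial IsSimpleOrder.toNontrivial LinearOrderedAddCommGroupWithTop.toNontrivial EMetricSpace.toPseudoEMetricSpace IsValuativeTopology.instValuedValueGroupWithZeroOfIsUniformAddGroup MetricSpace.toEMetricSpace MetricSpace.toPseudoMetricSpace NonUnitalSeminormedRing.toPseudoMetricSpace PseudoEMetricSpace.toUniformSpace PseudoMetricSpace.toPseudoEMetricSpace PseudoMetricSpace.toUniformSpace SeminormedAddCommGroup.toPseudoMetricSpace SeminormedAddGroup.toPseudoMetricSpace SeminormedCommGroup.toPseudoMetricSpace SeminormedGroup.toPseudoMetricSpace SeminormedRing.toPseudoMetricSpace UniformSpace.toTopologicalSpace UpgradedStandardBorel.toTopologicalSpace Valued.toUniformSpace WithIdeal.instTopologicalSpace WithIdeal.instUniformSpace TopologicalSpace.UpgradedIsCompletelyPseudoMetrizableSpace.toPseudoMetricSpace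 CancelMonoid.toIsCancelMul IsAffineMonoid.toIsCancelMul IsOrderedCancelMonoid.toIsCancelMul Pi.mulZeroClass Pi.addMonoidWithOne PositiveLinearMap.instInnerProductSpaceComplexPreGNS DivisionSemiring.isPrincipalIdealRing IsPrincipalIdealRing.of_isNoetherianRing_of_isBezout OrderDual.instPow_1 LocalizedModule.instIsScalarTower TensorProduct.instNormedAddCommGroup Algebra.TensorProduct.instCommSemiring Pi.mulOneClass CommMonCat.str FiniteDimensional.finiteDimensional_quotient SubringClass.toRing SetLike.GradeZero.instRing NormedAddGroup.toAddGroup Preorder.smallCategory SeminormedAddGroup.toAddGroup CategoryTheory.Groupoid.toCategory CategoryTheory.StrictBicategory.category NumberField.instFiniteDimensional instIsNoetherianRingOfIsArtinianRing isNoetherian_of_finite isNoetherian_of_isNoetherianRing_of_finite isNoetherian_of_subsingleton IsDedekindDomainDvr.toIsNoetherian IsDedekindRing.toIsNoetherian IsSemisimpleModule.instIsNoetherianOfFinite IsSimpleModule.instIsNoetherian PrincipalIdealRing.isNoetherianRing Ring.HasFiniteQuotients.instIsNoetherianRing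 AddQuantale.instAddLeftMono MonoidWithZero.toMulActionWithZero Fin.instBiheytingAlgebra SubsemiringClass.toSemiring LocalizedModule.instCommRing CommAlgCat.instFiniteCarrierObjFiniteEtale Std.Time.WallTime.instHAddOffset_1 SemilinearIsometryEquivClass.toSemilinearIsometryClass AlgebraicGeometry.Scheme.component_nontrivial ENormedAddCommMonoid.toESeminormedAddCommMonoid NormedAddCommGroup.toENormedAddCommMonoid instInfiniteOfUncountable CancelCommMonoid.toCancelMonoid CharZero.infinite CommGroup.toCancelCommMonoid Denumerable.instInfinite Group.toCancelMonoid GroupWithZero.toNontrivial Infinite.instNontrivial IsAlgClosed.instInfinite IsSimpleAddGroup.toNontrivial IsSimpleGroup.toNontrivial IsSimpleRing.instNontrivial IsStrictOrderedRing.toNontrivial NoMaxOrder.infinite NoMinOrder.infinite NontriviallyNormedField.infinite FirstOrder.Language.instInfiniteOfModelDloOrderOfNonempty MulEquivClass.toMonoidWithZeroHomClass MulRingSeminormClass.toMonoidWithZeroHomClass Algebra.TensorProduct.instNonAssocRing LinearOrderedAddCommGroupWithTop.toIsOrderedAddMonoid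 Algebra.IsFiniteSplit.instOfIsSepClosedOfEssFiniteTypeOfFormallyEtale instInhabitedOfMonad instNonemptyOfInhabited instNonemptyOfMonad LinearOrderedAddCommGroupWithTop.toSubtractionMonoid Unique.instInhabited MulOpposite.instMulOne Pi.instOne CStarAlgebra.toStarRing LinearOrderedCommMonoidWithZero.toPosMulStrictMono NonUnitalCStarAlgebra.toStarRing RCLike.toStarRing NumberField.IsCMField.starRing NonUnitalStarSubalgebra.nonUnitalCStarAlgebra NonUnitalStarSubalgebra.nonUnitalCommCStarAlgebra isNoetherian_of_liesOver instMulActionSemiHomClassMulActionHom AddCancelMonoid.toIsCancelAdd IsAffineAddMonoid.toIsCancelAdd IsOrderedCancelAddMonoid.toIsCancelAdd Std.LinearOrderPackage.toLinearPreorderPackage Std.LinearPreorderPackage.toPreorderPackage LocalizedModule.instRing TensorProduct.instDistribMulAction of_isDiscreteValuationRing ValuationRing.instOfIsLocalRingOfIsBezout ValuationRing.of_field ValuationRing.toPreValuationRing instSMulCommClassOfIsScalarTower AddCancelCommMonoid.toAddCancelMonoid AddCancelCommMonoid.toAddCommMonoid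 AddCancelCommMonoid.toAddLeftCancelMonoid AddCancelMonoid.toAddLeftCancelMonoid AddCommGroup.toAddCancelCommMonoid AddLeftCancelMonoid.toAddMonoid AddRightCancelMonoid.toAddMonoid ENormedAddCommMonoid.toENormedAddMonoid ENormedAddMonoid.toESeminormedAddMonoid ESeminormedAddCommMonoid.toAddCommMonoid ESeminormedAddCommMonoid.toESeminormedAddMonoid ESeminormedAddMonoid.toAddMonoid LeftPreLieAlgebra.toSMulCommClass LieAdmissibleAlgebra.toSMulCommClass NormedAddGroup.toENormedAddMonoid RightPreLieAlgebra.toSMulCommClass Torsor.nonempty CategoryTheory.IsConnected.is_nonempty CategoryTheory.IsSifted.isSifted_of_hasBinaryCoproducts_and_nonempty TensorProduct.isScalarTower TensorProduct.isScalarTower_right Algebra.TensorProduct.right_isScalarTower covariant_lt_of_contravariant_le instIsLeftCancelMulOfMulLeftReflectLE mulLeftStrictMono_of_mulLeftReflectLE Group.covconv Group.mulLeftReflectLE_of_mulLeftMono IsAffineMonoid.mk IsCancelMul.toIsLeftCancelMul IsLeftCancelMul.mulLeftReflectLE_of_mulLeftReflectLT IsLeftCancelMul.mulLeftStrictMono_of_mulLeftMono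 IsOrderedCancelMonoid.toMulLeftReflectLE IsOrderedMonoid.toIsOrderedCancelMonoid IsStrictOrderedRing.toIsOrderedRing LeftCancelSemigroup.toIsLeftCancelMul MulLeftStrictMono.toPosMulStrictMono SimpleGraph.TripartiteFromTriangles.graph.instDecidableRelAdj AlgebraicGeometry.instIsNoetherianRingCarrierStalkCommRingCatPresheafOfIsLocallyNoetherian Pi.smulZeroClass' isPurelyInseparable_self IsPurelyInseparable.instOfHasExponent IsPurelyInseparable.isIntegral Algebra.IsAlgebraic.isIntegral Algebra.IsAlgebraic.isPurelyInseparable_of_isSepClosed AddMonoid.fg_of_addGroup_fg IsAffineAddMonoid.toFG MulZeroClass.toSMulWithZero Fin.instCoheytingAlgebra Fin.instHeytingAlgebra TensorProduct.CompatibleSMul.int CancelCommMonoid.toLeftCancelMonoid CancelMonoid.toLeftCancelMonoid MulSemiringActionSemiHomClass.toRingHomClass Pi.nonAssocRing SetLike.GradeZero.instAlgebraSubtypeMemOfNat IsStrictOrderedRing.noZeroDivisors NormMulClass.toNoZeroDivisors NonUnitalSubringClass.toNonUnitalSubsemiringClass AddSubgroupClass.normedAddCommGroup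 NonUnitalSubalgebraClass.nonUnitalNormedRing Algebra.TensorProduct.instNonUnitalRing String.Slice.Pos.instLinearOrderPackage AdicCompletion.instIsHausdorff ValuationRing.instLinearOrderIdealOfDecidableLE Ring.HasFiniteQuotients.instOfFinite Ring.HasFiniteQuotients.instOfIsDomainOfFiniteInt instFiniteCarrierToTopAndTotallyDisconnectedSpaceSecondCountableTopologyOfObj ENormedCommMonoid.toESeminormedCommMonoid NormedCommGroup.toENormedCommMonoid SaturatedAddSubmonoid.instAddSubmonoidClass bot_nonempty infSet_to_nonempty supSet_to_nonempty top_nonempty CategoryTheory.isConnected_of_nonempty_and_subsingleton ConnectedSpace.toNonempty Group.instTorsor IrreducibleSpace.toNonempty NormedAddTorsor.toAddTorsor One.instNonempty SeminormedAddCommGroup.toNormedAddTorsor Zero.instNonempty CategoryTheory.IsSifted.instIsConnected instAlgEquivClassOfNonUnitalAlgEquivClass BialgEquivClass.toAlgEquivClass ContinuousAlgEquivClass.toAlgEquivClass SubringClass.nonUnitalSubringClass Subsingleton.to_isCancelMulZero Algebra.TensorProduct.instNonUnitalNonAssocRing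 LinearMap.instLoewnerPartialOrder AddGroup.fg_of_finite IsAffineAddMonoid.mk OreLocalization.instAddCommGroup -- iprune

set_option linter.all false

section

/-! Evaluation homomorphisms out of power series rings and the structure theorem surjection. -/

namespace Vale.Agent.P177

open IsLocalRing

/-- Evaluation of power series at elements of an ideal for which the target is complete. -/
theorem exists_evalHom {ι R A : Type*} [Finite ι] [CommRing R] [CommRing A] (J : Ideal A)
    [IsAdicComplete J A] (σ : R →+* A) (x : ι → A) (hx : ∀ i, x i ∈ J) :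
    ∃ φ : MvPowerSeries ι R →+* A,
      ∀ p : MvPolynomial ι R, φ (p : MvPowerSeries ι R) = MvPolynomial.eval₂Hom σ x p := by
  have hI : ∀ n, MvPolynomial.idealOfVars ι R ^ n ≤
      (J ^ n).comap (MvPolynomial.eval₂Hom σ x) := by
    intro n
    rw [← Ideal.map_le_iff_le_comap, Ideal.map_pow]
    apply Ideal.pow_right_mono
    rw [MvPolynomial.idealOfVars, Ideal.map_span, Ideal.span_le]
    rintro _ ⟨_, ⟨i, rfl⟩, rfl⟩
    simpa using hx i
  let f : (n : ℕ) → MvPowerSeries ι R →+* A ⧸ J ^ n := fun n =>
    (Ideal.quotientMap (J ^ n) (MvPolynomial.eval₂Hom σ x) (hI n)).comp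
      (MvPowerSeries.truncTotalAlgHom ι R n).toRingHom
  have hf : ∀ {m n : ℕ} (hle : m ≤ n), (Ideal.Quotient.factorPow J hle).comp (f n) = f m := by
    intro m n hle
    ext p
    have h1 := hI m (MvPowerSeries.truncTotal_sub_truncTotal_mem_pow_idealOfVars hle le_rfl p)
    rw [Ideal.mem_comap, map_sub, ← Ideal.Quotient.mk_eq_mk_iff_sub_mem] at h1
    exact h1
  refine ⟨IsAdicComplete.liftRingHom J f hf, fun p => ?_⟩
  rw [← sub_eq_zero]
  apply IsHausdorff.haus (I := J) inferInstance
  intro n
  rw [SModEq.zero, smul_eq_mul, Ideal.mul_top, ← Ideal.Quotient.eq_zero_iff_mem, map_sub,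
    IsAdicComplete.mk_liftRingHom, sub_eq_zero]
  have h2 := (MvPowerSeries.truncTotalAlgHom ι R n).commutes p
  change Ideal.quotientMap (J ^ n) (MvPolynomial.eval₂Hom σ x) (hI n)
    (MvPowerSeries.truncTotalAlgHom ι R n (p : MvPowerSeries ι R)) = _
  erw [h2]
  rfl

theorem exists_powerSeries_surjective' {ι A k : Type*} [Finite ι] [CommRing A] [IsLocalRing A]
    [IsAdicComplete (maximalIdeal A) A] [Field k] (σ : k →+* A)
    (hσ : Function.Surjective (fun x => residue A (σ x))) (x : ι → A)
    (hx : Ideal.span (Set.range x) = maximalIdeal A) :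
    ∃ φ : MvPowerSeries ι k →+* A, Function.Surjective φ ∧
      (∀ p : MvPolynomial ι k, φ (p : MvPowerSeries ι k) = MvPolynomial.eval₂Hom σ x p) := by
  obtain ⟨φ, hφ⟩ := exists_evalHom (maximalIdeal A) σ x
    (fun i => hx ▸ Ideal.subset_span ⟨i, rfl⟩)
  refine ⟨φ, ?_, hφ⟩
  have hX : ∀ i, φ (MvPowerSeries.X i) = x i := by
    intro i
    rw [← MvPolynomial.coe_X, hφ]
    simp
  have hmap : (Ideal.span (Set.range MvPowerSeries.X) : Ideal (MvPowerSeries ι k)).map φ =
      maximalIdeal A := by
    rw [Ideal.map_span, ← Set.range_comp, ← hx]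
    congr 2
    ext i
    exact hX i
  have hH : IsHausdorff ((Ideal.span (Set.range MvPowerSeries.X) :
      Ideal (MvPowerSeries ι k)).map φ) A := by
    rw [hmap]
    infer_instance
  apply surjective_of_mk_map_comp_surjective (I := Ideal.span (Set.range MvPowerSeries.X)) φ
  intro y
  obtain ⟨a, rfl⟩ := Ideal.Quotient.mk_surjective y
  obtain ⟨c, hc⟩ := hσ (residue A a)
  refine ⟨MvPowerSeries.C c, ?_⟩
  rw [← MvPolynomial.coe_C, RingHom.comp_apply, hφ]
  simp only [MvPolynomial.coe_eval₂Hom, MvPolynomial.eval₂_C]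
  rw [Ideal.Quotient.mk_eq_mk_iff_sub_mem, hmap]
  rw [← Ideal.Quotient.mk_eq_mk_iff_sub_mem]
  exact hc

theorem exists_powerSeries_surjective (A : Type*) [CommRing A] [IsLocalRing A]
    [IsAdicComplete (maximalIdeal A) A] (k : Type*) [Field k] (σ : k →+* A)
    (hσ : Function.Surjective (fun x => residue A (σ x))) (d : ℕ) (x : Fin d → A)
    (hx : Ideal.span (Set.range x) = maximalIdeal A) :
    ∃ φ : MvPowerSeries (Fin d) k →+* A, Function.Surjective φ := by
  obtain ⟨φ, hφ, _⟩ := exists_powerSeries_surjective' σ hσ x hx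
  exact ⟨φ, hφ⟩

end Vale.Agent.P177
end

section

/-!
Serre positivity over power series rings over a field.
-/

namespace Vale.Agent.P177

open CategoryTheory TensorProduct Function IsLocalRing RingTheory.Sequence Pointwise

universe u

theorem serre_abstract {S₁ S₂ B : Type u} [CommRing S₁] [CommRing S₂] [CommRing B]
    [IsLocalRing S₁] [IsNoetherianRing S₁] [IsLocalRing S₂] [IsNoetherianRing S₂]
    [IsLocalRing B] [IsNoetherianRing B]
    (i₁ : S₁ →+* B) (i₂ : S₂ →+* B) (h₁ : i₁.Flat) (h₂ : i₂.Flat) [hl₁ : IsLocalHom i₁]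
    [hl₂ : IsLocalHom i₂]
    (ρ : B →+* S₁) (hρ : ρ.comp i₁ = RingHom.id S₁)
    (hkerρ : RingHom.ker ρ = (maximalIdeal S₂).map i₂)
    (μ : B →+* S₁) (hμ : μ.comp i₁ = RingHom.id S₁) (δ : List B)
    (hkerμ : RingHom.ker μ = Ideal.ofList δ) (hδreg : IsWeaklyRegular B δ)
    (hδm : ∀ z ∈ δ, z ∈ maximalIdeal B)
    (θ : S₂ ≃+* S₁) (hθ : ∀ s, μ (i₂ s) = θ s)
    (M N : Type u) [AddCommGroup M] [Module S₂ M] [Module.Finite S₂ M]
    [AddCommGroup N] [Module S₁ N] [Module S₂ N] [Module.Finite S₁ N]
    (hN : ∀ (s : S₂) (t : N), s • t = θ s • t)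
    (hlen : Module.length S₂ (M ⊗[S₂] N) ≠ ⊤) (n : ℕ) (hn : 1 + δ.length ≤ n) :
    0 ≤ eulerTor S₂ n M N ∧ ∀ a b : ℕ, (a : WithBot ℕ∞) ≤ Module.supportDim S₂ M →
      (b : WithBot ℕ∞) ≤ Module.supportDim S₁ N →
      (a + b ≤ δ.length) ∧ (δ.length ≤ a + b → 0 < eulerTor S₂ n M N) := by
  let _ : Algebra S₁ B := i₁.toAlgebra
  let _ : Algebra S₂ B := i₂.toAlgebra
  have a₁ : ∀ s, algebraMap S₁ B s = i₁ s := fun s => rfl
  have a₂ : ∀ s, algebraMap S₂ B s = i₂ s := fun s => rfl
  have : Module.Flat S₁ B := h₁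
  have : Module.Flat S₂ B := h₂
  have : IsLocalHom (algebraMap S₁ B) := hl₁
  have : IsLocalHom (algebraMap S₂ B) := hl₂
  have hμi : ∀ s, μ (i₁ s) = s := fun s => congrArg (fun f => f s) hμ
  have hρi : ∀ s, ρ (i₁ s) = s := fun s => congrArg (fun f => f s) hρ
  have hμs : Surjective μ := fun s => ⟨i₁ s, hμi s⟩
  have hρs : Surjective ρ := fun s => ⟨i₁ s, hρi s⟩
  -- Tor independence
  have hv : ∀ (N : Type u) [AddCommGroup N] [Module S₁ N] [Module.Finite S₁ N]
      (M : Type u) [AddCommGroup M] [Module S₂ M] [Module.Finite S₂ M] (j : ℕ), 1 ≤ j →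
      Subsingleton (TorM B j (B ⊗[S₂] M) (B ⊗[S₁] N)) := by
    let _ : Module B S₁ := Module.compHom S₁ ρ
    have hsm : ∀ (b : B) (t : S₁), b • t = ρ b * t := fun b t => rfl
    have : IsScalarTower S₁ B S₁ := ⟨fun s b t => by
      rw [hsm, hsm, Algebra.smul_def, map_mul, a₁, hρi, smul_eq_mul, mul_assoc]⟩
    let ρl : B →ₗ[B] S₁ :=
      { toFun := ρ
        map_add' := map_add ρ
        map_smul' := fun b c => by
          rw [smul_eq_mul, map_mul, RingHom.id_apply, hsm] }
    have hker : LinearMap.ker ρl = (maximalIdeal S₂).map (algebraMap S₂ B) := by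
      ext b
      have h1 : b ∈ RingHom.ker ρ ↔ b ∈ (maximalIdeal S₂).map i₂ := by rw [hkerρ]
      exact h1
    have e : (B ⊗[S₂] (S₂ ⧸ maximalIdeal S₂)) ≃ₗ[B] S₁ :=
      (Algebra.TensorProduct.quotIdealMapEquivTensorQuot B (maximalIdeal S₂)).symm.toLinearEquiv
        ≪≫ₗ Submodule.quotEquivOfEq _ _ hker.symm ≪≫ₗ ρl.quotKerEquivOfSurjective hρs
    intro N _ _ _ M _ _ _ j hj
    exact tor_independent S₁ e N M j hj
  -- the module `N` over `B`
  let _ : Module B N := Module.compHom N μ
  have hsN : ∀ (b : B) (t : N), b • t = μ b • t := fun b t => rfl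
  have : IsScalarTower S₁ B N := ⟨fun s b t => by
    rw [hsN, hsN, Algebra.smul_def, map_mul, a₁, hμi, mul_smul]⟩
  have : IsScalarTower S₂ B N := ⟨fun s b t => by
    rw [hsN, hsN, Algebra.smul_def, map_mul, a₂, hθ, mul_smul, hN]⟩
  have hres : ∀ b : B, ∃ s : S₁, b - algebraMap S₁ B s ∈ Ideal.ofList δ := by
    intro b
    refine ⟨μ b, ?_⟩
    rw [← hkerμ, RingHom.mem_ker, map_sub, a₁, hμi, sub_self]
  have hkill : ∀ z ∈ Ideal.ofList δ, ∀ t : N, z • t = 0 := by
    intro z hz t
    rw [← hkerμ, RingHom.mem_ker] at hz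
    rw [hsN, hz, zero_smul]
  have hN2 : ∀ b : B, ∃ s : S₂, ∀ t : N, b • t = s • t := by
    intro b
    refine ⟨θ.symm (μ b), fun t => ?_⟩
    rw [hN, RingEquiv.apply_symm_apply, hsN]
  obtain ⟨heq, hFL⟩ : eulerTor S₂ n M N = eul δ (TorM B 0 (B ⊗[S₁] N) (B ⊗[S₂] M)) ∧
      FL2 δ (B ⊗[S₁] N) (B ⊗[S₂] M) := by
    let _ : Module B S₁ := Module.compHom S₁ μ
    have hsm : ∀ (b : B) (t : S₁), b • t = μ b * t := fun b t => rfl
    have : IsScalarTower S₁ B S₁ := ⟨fun s b t => by
      rw [hsm, hsm, Algebra.smul_def, map_mul, a₁, hμi, smul_eq_mul, mul_assoc]⟩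
    let μl : B →ₗ[B] S₁ :=
      { toFun := μ
        map_add' := map_add μ
        map_smul' := fun b c => by
          rw [smul_eq_mul, map_mul, RingHom.id_apply, hsm] }
    have hker : LinearMap.ker μl = (Ideal.ofList δ • ⊤ : Submodule B B) := by
      rw [smul_eq_mul, Ideal.mul_top, ← hkerμ]
      rfl
    have e : (B ⧸ (Ideal.ofList δ • ⊤ : Submodule B B)) ≃ₗ[B] S₁ :=
      Submodule.quotEquivOfEq _ _ hker.symm ≪≫ₗ μl.quotKerEquivOfSurjective hμs
    exact eulerTor_eq_eul δ hδm hδreg hres S₁ e N hkill hN2 M (hv N M) hlen n hn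
  have hfin := tor_finite (R := B) 0 (B ⊗[S₁] N) (B ⊗[S₂] M)
  have hpos := eul_nonneg_pos δ hδm (TorM B 0 (B ⊗[S₁] N) (B ⊗[S₂] M)) (hFL.tor 0)
  rw [heq]
  refine ⟨hpos.1, ?_⟩
  intro a b ha hb
  have h5 := le_supportDim_external (S₁ := S₁) (S₂ := S₂) (B := B)
    (fun N _ _ _ M _ _ _ => hv N M 1 le_rfl) N M a b ha hb
  obtain ⟨e⟩ := tor_symm (R := B) 0 (B ⊗[S₂] M) (B ⊗[S₁] N)
  rw [Module.supportDim_eq_of_equiv e] at h5
  constructor
  · have h6 := h5.trans (supportDim_le_length δ hδm _ (hFL.tor 0))
    exact_mod_cast h6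
  · intro hab
    apply hpos.2
    refine le_trans ?_ h5
    exact_mod_cast hab

/-- Serre's theorem over a ring with diagonal data. -/
theorem serre_of_diagData {S B : Type u} [CommRing S] [IsLocalRing S] [IsNoetherianRing S]
    [CommRing B] [IsLocalRing B] [IsNoetherianRing B] {d : ℕ} (D : DiagData S B d)
    (M N : Type u) [AddCommGroup M] [Module S M] [Module.Finite S M]
    [AddCommGroup N] [Module S N] [Module.Finite S N]
    (hlen : Module.length S (M ⊗[S] N) ≠ ⊤) (n : ℕ) (hn : 1 + d ≤ n) :
    0 ≤ eulerTor S n M N ∧ ∀ a b : ℕ, (a : WithBot ℕ∞) ≤ Module.supportDim S M →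
      (b : WithBot ℕ∞) ≤ Module.supportDim S N →
      (a + b ≤ d) ∧ (d ≤ a + b → 0 < eulerTor S n M N) := by
  have hμ1 : ∀ s, D.μ (D.i₁ s) = s := fun s => congrArg (fun f => f s) D.μ_i₁
  have hμ2 : ∀ s, D.μ (D.i₂ s) = s := fun s => congrArg (fun f => f s) D.μ_i₂
  have hμs : Surjective D.μ := fun s => ⟨D.i₁ s, hμ1 s⟩
  have hμloc : IsLocalHom D.μ := by
    have := IsLocalHom.of_surjective D.μ hμs
    exact this
  have hl₁ : IsLocalHom D.i₁ := ⟨fun s hs => by
    have := hs.map D.μ
    rwa [hμ1] at this⟩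
  have hl₂ : IsLocalHom D.i₂ := ⟨fun s hs => by
    have := hs.map D.μ
    rwa [hμ2] at this⟩
  have hδm : ∀ z ∈ D.δ, z ∈ maximalIdeal B := by
    intro z hz
    have h1 : z ∈ RingHom.ker D.μ := by
      rw [D.ker_μ]
      exact Ideal.subset_span hz
    rw [mem_maximalIdeal, mem_nonunits_iff]
    intro hu
    have h2 := hu.map D.μ
    rw [(RingHom.mem_ker).1 h1] at h2
    exact not_isUnit_zero h2
  have h := serre_abstract D.i₁ D.i₂ D.flat₁ D.flat₂ D.ρ D.ρ_i₁ D.ker_ρ D.μ D.μ_i₁ D.δ D.ker_μ
    D.regular_δ.toIsWeaklyRegular hδm (RingEquiv.refl S) hμ2 M N (fun s t => rfl) hlen n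
    (by rw [D.length_δ]; exact hn)
  rw [D.length_δ] at h
  exact h

/-- Serre's theorem over `k[[x_1, …, x_d]]`. -/
theorem serre_mvPowerSeries (k : Type u) [Field k] (d : ℕ)
    (M N : Type u) [AddCommGroup M] [Module (MvPowerSeries (Fin d) k) M]
    [Module.Finite (MvPowerSeries (Fin d) k) M]
    [AddCommGroup N] [Module (MvPowerSeries (Fin d) k) N]
    [Module.Finite (MvPowerSeries (Fin d) k) N]
    (hlen : Module.length (MvPowerSeries (Fin d) k) (M ⊗[MvPowerSeries (Fin d) k] N) ≠ ⊤)
    (n : ℕ) (hn : 1 + d ≤ n) :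
    0 ≤ eulerTor (MvPowerSeries (Fin d) k) n M N ∧
      ∀ a b : ℕ, (a : WithBot ℕ∞) ≤ Module.supportDim (MvPowerSeries (Fin d) k) M →
      (b : WithBot ℕ∞) ≤ Module.supportDim (MvPowerSeries (Fin d) k) N →
      (a + b ≤ d) ∧ (d ≤ a + b → 0 < eulerTor (MvPowerSeries (Fin d) k) n M N) := by
  have h1 : IsRegularLocalRing (MvPowerSeries (Fin d) k) := mvPowerSeries_isRegularLocalRing _ _
  have h2 : IsRegularLocalRing (MvPowerSeries (Fin d ⊕ Fin d) k) :=
    mvPowerSeries_isRegularLocalRing _ _
  obtain ⟨D⟩ := exists_diagData k d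
  exact serre_of_diagData D M N hlen n hn

end Vale.Agent.P177
end

section

/-!
Flatness of a noetherian completion of a flat algebra.
-/

namespace Vale.Agent.P177

open IsLocalRing Function TensorProduct

universe u

section approx

variable {R A S : Type u} [CommRing R] [IsLocalRing R] [IsNoetherianRing R] [CommRing A]
  [Algebra R A] [Module.Flat R A] [CommRing S] [IsLocalRing S] [IsNoetherianRing S]
  [Algebra A S] [Algebra R S] [IsScalarTower R A S] {d : ℕ} {x : Fin d → R}

omit [IsNoetherianRing R] in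
theorem exists_sum_tmul (hx : ∀ i, x i ∈ maximalIdeal R)
    (hspan : Ideal.span (Set.range x) = maximalIdeal R) (N : Type u) [AddCommGroup N] [Module R N]
    (ξ : N ⊗[R] maximalIdeal R) :
    ∃ s : Fin d → N, ξ = ∑ i, s i ⊗ₜ[R] (⟨x i, hx i⟩ : maximalIdeal R) := by
  induction ξ with
  | zero => exact ⟨0, by simp⟩
  | add a b ha hb =>
    obtain ⟨s, rfl⟩ := ha
    obtain ⟨t, rfl⟩ := hb
    refine ⟨s + t, ?_⟩
    rw [← Finset.sum_add_distrib]
    exact Finset.sum_congr rfl fun i _ => by rw [Pi.add_apply, add_tmul]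
  | tmul n m =>
    have hm : (m : R) ∈ Ideal.span (Set.range x) := by
      rw [hspan]
      exact m.2
    rw [Ideal.mem_span_range_iff_exists_fun] at hm
    obtain ⟨c, hc⟩ := hm
    refine ⟨fun i => c i • n, ?_⟩
    have h1 : m = ∑ i, c i • (⟨x i, hx i⟩ : maximalIdeal R) := by
      apply Subtype.ext
      rw [← hc, AddSubmonoidClass.coe_finsetSum]
      rfl
    calc n ⊗ₜ[R] m = n ⊗ₜ[R] ∑ i, c i • (⟨x i, hx i⟩ : maximalIdeal R) := by rw [← h1]
      _ = _ := by
        rw [tmul_sum]
        refine Finset.sum_congr rfl fun i _ => ?_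
        rw [tmul_smul, smul_tmul']

omit [IsNoetherianRing R] [Module.Flat R A] in
theorem sum_mem_pow_succ (hspan : Ideal.span (Set.range x) = maximalIdeal R) (n : ℕ) (y : A)
    (hy : y ∈ ((maximalIdeal R) ^ (n + 1)).map (algebraMap R A)) :
    ∃ b : Fin d → A, (∀ i, b i ∈ ((maximalIdeal R) ^ n).map (algebraMap R A)) ∧
      y = ∑ i, x i • b i := by
  rw [pow_succ', Ideal.map_mul] at hy
  have h1 : (maximalIdeal R).map (algebraMap R A) =
      Ideal.span (Set.range fun i => algebraMap R A (x i)) := by
    rw [← hspan, Ideal.map_span, ← Set.range_comp]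
    rfl
  rw [h1] at hy
  refine Submodule.mul_induction_on hy ?_ ?_
  · intro a ha b hb
    rw [Ideal.mem_span_range_iff_exists_fun] at ha
    obtain ⟨c, rfl⟩ := ha
    refine ⟨fun i => c i * b, fun i => Ideal.mul_mem_left _ _ hb, ?_⟩
    rw [Finset.sum_mul]
    refine Finset.sum_congr rfl fun i _ => ?_
    rw [Algebra.smul_def]
    ring
  · rintro a b ⟨f, hf, rfl⟩ ⟨g, hg, rfl⟩
    refine ⟨f + g, fun i => add_mem (hf i) (hg i), ?_⟩
    rw [← Finset.sum_add_distrib]
    exact Finset.sum_congr rfl fun i _ => by rw [Pi.add_apply, smul_add]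

theorem flat_of_approx (hspan : Ideal.span (Set.range x) = maximalIdeal R)
    (hm : (maximalIdeal R).map (algebraMap R S) = maximalIdeal S)
    (happ : ∀ (n : ℕ) (s : S), ∃ a : A, s - algebraMap A S a ∈
      ((maximalIdeal R) ^ n).map (algebraMap R S))
    (hcl : ∀ (n : ℕ) (a : A), algebraMap A S a ∈ ((maximalIdeal R) ^ n).map (algebraMap R S) →
      a ∈ ((maximalIdeal R) ^ n).map (algebraMap R A)) : Module.Flat R S := by
  have hx : ∀ i, x i ∈ maximalIdeal R := fun i => hspan ▸ Ideal.subset_span ⟨i, rfl⟩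
  have hl : IsLocalHom (algebraMap R S) :=
    ((IsLocalRing.local_hom_TFAE (algebraMap R S)).out 0 2).2 hm.le
  apply flat_of_tor_residue
  have hex : Exact (maximalIdeal R).subtype (maximalIdeal R).mkQ := by
    intro y
    rw [Submodule.mkQ_apply, Submodule.Quotient.mk_eq_zero]
    simp
  obtain ⟨e1⟩ := tor_one (maximalIdeal R).subtype (maximalIdeal R).mkQ
    (Submodule.injective_subtype _) (Submodule.mkQ_surjective _) hex S
  obtain ⟨e2⟩ := ker_comm (N := S) (maximalIdeal R).subtype
  have hinj : ∀ ξ : S ⊗[R] maximalIdeal R,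
      (maximalIdeal R).subtype.lTensor S ξ = 0 → ξ = 0 := by
    intro ξ hξ
    obtain ⟨s, rfl⟩ := exists_sum_tmul hx hspan S ξ
    have h0 : ∑ i, x i • s i = 0 := by
      have h1 := congrArg (TensorProduct.rid R S) hξ
      rw [map_zero, map_sum, map_sum] at h1
      rw [← h1]
      refine Finset.sum_congr rfl fun i _ => ?_
      rw [LinearMap.lTensor_tmul, TensorProduct.rid_tmul]
      rfl
    have key : ∀ n : ℕ, (∑ i, s i ⊗ₜ[R] (⟨x i, hx i⟩ : maximalIdeal R)) ∈
        (maximalIdeal S ^ n • ⊤ : Submodule S (S ⊗[R] maximalIdeal R)) := by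
      intro n
      choose a ha using fun i => happ n (s i)
      have h1 : algebraMap A S (∑ i, x i • a i) ∈
          ((maximalIdeal R) ^ (n + 1)).map (algebraMap R S) := by
        have h2 : algebraMap A S (∑ i, x i • a i) =
            - ∑ i, algebraMap R S (x i) * (s i - algebraMap A S (a i)) := by
          have h3 : ∑ i, algebraMap R S (x i) * s i = 0 := by
            rw [← h0]
            exact Finset.sum_congr rfl fun i _ => by rw [Algebra.smul_def]
          simp only [mul_sub, Finset.sum_sub_distrib]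
          rw [h3, zero_sub, neg_neg, map_sum]
          refine Finset.sum_congr rfl fun i _ => ?_
          rw [Algebra.smul_def, map_mul, ← IsScalarTower.algebraMap_apply]
        rw [h2]
        refine neg_mem (Ideal.sum_mem _ fun i _ => ?_)
        rw [pow_succ', Ideal.map_mul]
        exact Ideal.mul_mem_mul (Ideal.mem_map_of_mem _ (hx i)) (ha i)
      obtain ⟨b, hb, h2⟩ := sum_mem_pow_succ hspan n _ (hcl (n + 1) _ h1)
      have h3 : ∑ i, (a i - b i) ⊗ₜ[R] (⟨x i, hx i⟩ : maximalIdeal R) = 0 := by
        have h4 : Injective ((maximalIdeal R).subtype.lTensor A) :=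
          Module.Flat.lTensor_preserves_injective_linearMap _ (Submodule.injective_subtype _)
        apply h4
        apply (TensorProduct.rid R A).injective
        rw [map_zero, map_zero, map_sum, map_sum]
        have h5 : ∑ i, x i • (a i - b i) = 0 := by
          simp only [smul_sub, Finset.sum_sub_distrib]
          rw [h2, sub_self]
        rw [← h5]
        refine Finset.sum_congr rfl fun i _ => ?_
        rw [LinearMap.lTensor_tmul, TensorProduct.rid_tmul]
        rfl
      have h4 : ∑ i, algebraMap A S (a i - b i) ⊗ₜ[R] (⟨x i, hx i⟩ : maximalIdeal R) = 0 := by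
        have h5 := congrArg ((Algebra.linearMap A S).restrictScalars R |>.rTensor
          (maximalIdeal R)) h3
        rw [map_zero, map_sum] at h5
        exact h5
      have h5 : (∑ i, s i ⊗ₜ[R] (⟨x i, hx i⟩ : maximalIdeal R)) =
          ∑ i, (s i - algebraMap A S (a i - b i)) ⊗ₜ[R] (⟨x i, hx i⟩ : maximalIdeal R) := by
        simp only [sub_tmul, Finset.sum_sub_distrib]
        rw [h4, sub_zero]
      rw [h5]
      refine Submodule.sum_mem _ fun i _ => ?_
      have h6 : (s i - algebraMap A S (a i - b i)) ⊗ₜ[R] (⟨x i, hx i⟩ : maximalIdeal R) =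
          (s i - algebraMap A S (a i - b i)) •
            ((1 : S) ⊗ₜ[R] (⟨x i, hx i⟩ : maximalIdeal R)) := by
        rw [smul_tmul', smul_eq_mul, mul_one]
      rw [h6]
      refine Submodule.smul_mem_smul ?_ Submodule.mem_top
      have h7 : s i - algebraMap A S (a i - b i) =
          (s i - algebraMap A S (a i)) + algebraMap A S (b i) := by
        rw [map_sub]
        ring
      rw [h7, ← hm, ← Ideal.map_pow]
      refine add_mem (ha i) ?_
      have h8 := Ideal.mem_map_of_mem (algebraMap A S) (hb i)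
      rw [Ideal.map_map, ← IsScalarTower.algebraMap_eq] at h8
      exact h8
    have hfin : Module.Finite S (S ⊗[R] maximalIdeal R) := inferInstance
    have hH : IsHausdorff (maximalIdeal S) (S ⊗[R] maximalIdeal R) := inferInstance
    apply hH.haus
    intro n
    rw [SModEq.zero]
    exact key n
  have hsub : Subsingleton (LinearMap.ker ((maximalIdeal R).subtype.lTensor S)) := by
    refine ⟨fun u v => ?_⟩
    apply Subtype.ext
    rw [hinj u.1 u.2, hinj v.1 v.2]
  exact (e1 ≪≫ₗ e2).toEquiv.subsingleton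

end approx

end Vale.Agent.P177
end

section

/-! Coefficient fields of complete local rings of prime characteristic. -/

namespace Vale.Agent.P177

open IsLocalRing Polynomial

/-- A surjection from a ring of characteristic `p` onto a field with square-zero kernel
has a section. -/
theorem exists_section_of_sq_zero {B k : Type*} [CommRing B] [Field k] (p : ℕ) [Fact p.Prime]
    [CharP B p] (π : B →+* k) (hπ : Function.Surjective π) (hI : (RingHom.ker π) ^ 2 = ⊥) :
    ∃ s : k →+* B, π.comp s = RingHom.id k := by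
  classical
  have hp : p.Prime := Fact.out
  have hchar : CharP k p := by
    have h0 : (p : k) = 0 := by
      rw [← map_natCast π, CharP.cast_eq_zero, map_zero]
    exact (CharP.charP_iff_prime_eq_zero hp).mpr h0
  have hsq : ∀ b : B, π b = 0 → b ^ 2 = 0 := by
    intro b hb
    have : b ^ 2 ∈ (RingHom.ker π) ^ 2 := Ideal.pow_mem_pow (RingHom.mem_ker.mpr hb) 2
    rw [hI] at this
    simpa using this
  have hpow : ∀ b : B, π b = 0 → b ^ p = 0 := by
    intro b hb
    obtain ⟨c, hc⟩ := Nat.exists_eq_add_of_le hp.two_le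
    rw [hc, pow_add, hsq b hb, zero_mul]
  have hunit : ∀ b : B, π b ≠ 0 → IsUnit b := by
    intro b hb
    obtain ⟨c, hc⟩ := hπ (π b)⁻¹
    have h1 : π (b * c - 1) = 0 := by
      rw [map_sub, map_mul, hc, mul_inv_cancel₀ hb, map_one, sub_self]
    have h2 := hsq _ h1
    have h3 : b * (c * (2 - b * c)) = 1 := by
      linear_combination -h2
    exact IsUnit.of_mul_eq_one _ h3
  let S : Set (Subring B) := {K | (frobenius B p).range ≤ K ∧ ∀ x ∈ K, π x = 0 → x = 0}
  have hne : (frobenius B p).range ∈ S := by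
    refine ⟨le_rfl, ?_⟩
    rintro x ⟨y, rfl⟩ hx
    rw [frobenius_def, map_pow] at hx
    have : π y = 0 := pow_eq_zero_iff hp.ne_zero |>.mp hx
    rw [frobenius_def]
    exact hpow y this
  obtain ⟨K, hKle, hKmax⟩ := zorn_le_nonempty₀ S (by
    intro c hcS hc y hy
    refine ⟨sSup c, ⟨?_, ?_⟩, fun z hz => le_sSup hz⟩
    · exact le_trans (hcS hy).1 (le_sSup hy)
    · intro x hx hx0
      rw [Subring.mem_sSup_of_directedOn ⟨y, hy⟩ hc.directedOn] at hx
      obtain ⟨z, hz, hxz⟩ := hx
      exact (hcS hz).2 x hxz hx0) _ hne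
  have hKS : K ∈ S := hKmax.prop
  have hfrob : ∀ x : B, x ^ p ∈ K := fun x => hKS.1 ⟨x, rfl⟩
  -- the image as a subfield
  let L : Subfield k :=
    { K.map π with
      inv_mem' := by
        rintro x ⟨y, hy, rfl⟩
        by_cases hy0 : π y = 0
        · rw [hy0, inv_zero]
          exact ⟨0, K.zero_mem, map_zero π⟩
        · obtain ⟨u, hu⟩ := hunit y hy0
          refine ⟨y ^ (p - 1) * ((u⁻¹ : Bˣ) : B) ^ p, K.mul_mem (K.pow_mem hy _) (hfrob _), ?_⟩
          have h1 : π y * π ((u⁻¹ : Bˣ) : B) = 1 := by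
            rw [← map_mul, ← hu, Units.mul_inv, map_one]
          have h2 : π ((u⁻¹ : Bˣ) : B) = (π y)⁻¹ := eq_inv_of_mul_eq_one_right h1
          rw [map_mul, map_pow, map_pow, h2]
          obtain ⟨q, hq⟩ := Nat.exists_eq_succ_of_ne_zero hp.ne_zero
          subst hq
          rw [Nat.succ_sub_one, pow_succ, ← mul_assoc, ← mul_pow, mul_inv_cancel₀ hy0, one_pow,
            one_mul] }
  have hL : ∀ x, x ∈ L ↔ ∃ y ∈ K, π y = x := fun x => Iff.rfl
  have hsurj : ∀ b : k, b ∈ L := by
    by_contra hcon
    obtain ⟨b, hb⟩ := not_forall.mp hcon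
    obtain ⟨β, rfl⟩ := hπ b
    -- the irreducible polynomial
    have hbp : (π β) ^ p ∈ L := ⟨β ^ p, hfrob β, map_pow π β p⟩
    have hirr : Irreducible (X ^ p - C (⟨(π β) ^ p, hbp⟩ : L)) := by
      apply X_pow_sub_C_irreducible_of_prime hp
      intro c hc
      have h1 : ((c : k)) ^ p = (π β) ^ p := by
        have := congrArg (Subtype.val) hc
        simpa using this
      have h2 : (c : k) = π β := frobenius_inj k p (by simpa [frobenius_def] using h1)
      exact hb (h2 ▸ c.2)
    have hmin : minpoly L (π β) = X ^ p - C (⟨(π β) ^ p, hbp⟩ : L) := by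
      symm
      apply minpoly.eq_of_irreducible_of_monic hirr
      · simp only [map_sub, map_pow, aeval_X, aeval_C]
        exact sub_self _
      · exact monic_X_pow_sub_C _ hp.ne_zero
    -- the adjoined ring
    let K' : Subring B := (Algebra.adjoin K {β}).toSubring
    have hKK' : K ≤ K' := by
      intro x hx
      exact (Algebra.adjoin K {β}).algebraMap_mem ⟨x, hx⟩
    have hβK' : β ∈ K' := Algebra.subset_adjoin rfl
    have hK'S : K' ∈ S := by
      refine ⟨le_trans hKS.1 hKK', ?_⟩
      intro x hx hx0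
      have hx' : x ∈ Algebra.adjoin K {β} := hx
      rw [Algebra.adjoin_singleton_eq_range_aeval] at hx'
      obtain ⟨P, rfl⟩ := hx'
      let Q : K[X] := X ^ p - C ⟨β ^ p, hfrob β⟩
      have hQ : Q.Monic := monic_X_pow_sub_C _ hp.ne_zero
      have hQβ : aeval β Q = 0 := by
        simp only [Q, map_sub, map_pow, aeval_X, aeval_C]
        exact sub_self _
      have hdiv : aeval β (P %ₘ Q) = aeval β P := by
        conv_rhs => rw [← modByMonic_add_div P Q]
        rw [map_add, map_mul, hQβ, zero_mul, add_zero]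
      have : Nontrivial K := by
        have hnt : Nontrivial B := π.domain_nontrivial
        infer_instance
      have hdeg : (P %ₘ Q).degree < p := by
        have := degree_modByMonic_lt P hQ
        rwa [degree_X_pow_sub_C hp.pos] at this
      let πK : K →+* L := (π.comp K.subtype).codRestrict L (fun x => ⟨x, x.2, rfl⟩)
      have hπK : Function.Injective πK := by
        rw [injective_iff_map_eq_zero]
        intro y hy
        have : π y = 0 := congrArg Subtype.val hy
        exact Subtype.ext (hKS.2 y y.2 this)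
      have hzero : aeval (π β) ((P %ₘ Q).map πK) = 0 := by
        have hx1 : π (aeval β P) = 0 := hx0
        rw [← hdiv] at hx1
        rw [← hx1, aeval_def, eval₂_map, aeval_def, hom_eval₂]
        rfl
      have hdvd := minpoly.dvd L (π β) hzero
      have hPz : (P %ₘ Q).map πK = 0 := by
        apply eq_zero_of_dvd_of_degree_lt hdvd
        rw [hmin, degree_X_pow_sub_C hp.pos]
        exact lt_of_le_of_lt degree_map_le hdeg
      have hPz' : P %ₘ Q = 0 := (Polynomial.map_eq_zero_iff hπK).mp hPz
      change aeval β P = 0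
      rw [← hdiv, hPz', map_zero]
    have hle : K' ≤ K := hKmax.le_of_ge hK'S hKK'
    exact hb ⟨β, hle hβK', rfl⟩
  have hbij : Function.Bijective (π.comp K.subtype) := by
    constructor
    · rw [injective_iff_map_eq_zero]
      intro y hy
      exact Subtype.ext (hKS.2 y y.2 hy)
    · intro x
      obtain ⟨y, hy, hyx⟩ := hsurj x
      exact ⟨⟨y, hy⟩, hyx⟩
  let e : K ≃+* k := RingEquiv.ofBijective _ hbij
  refine ⟨K.subtype.comp (e.symm : k →+* K), ?_⟩
  ext x
  exact e.apply_symm_apply x

/-- Every field of characteristic `p` is formally smooth over its prime field. -/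
theorem formallySmooth_zmod (k : Type*) [Field k] (p : ℕ) [Fact p.Prime] [Algebra (ZMod p) k] :
    Algebra.FormallySmooth (ZMod p) k := by
  let P := Algebra.Generators.self (ZMod p) k
  let f := IsScalarTower.toAlgHom (ZMod p) P.Ring k
  have hf : Function.Surjective f := P.algebraMap_surjective
  rw [Algebra.FormallySmooth.iff_split_surjection f hf]
  have hs : Function.Surjective f.kerSquareLift :=
    Ideal.Quotient.lift_surjective_of_surjective _ _ P.algebraMap_surjective
  have hsq : RingHom.ker f.kerSquareLift.toRingHom ^ 2 = ⊥ := by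
    rw [AlgHom.ker_kerSquareLift, Ideal.cotangentIdeal_square]
  have hk : CharP k p := (CharP.charP_iff_prime_eq_zero Fact.out).mpr (by
    rw [← map_natCast (algebraMap (ZMod p) k), ZMod.natCast_self, map_zero])
  have hB : CharP (P.Ring ⧸ RingHom.ker f.toRingHom ^ 2) p := by
    have hnt : Nontrivial (P.Ring ⧸ RingHom.ker f.toRingHom ^ 2) :=
      (f.kerSquareLift.toRingHom).domain_nontrivial
    exact (CharP.charP_iff_prime_eq_zero Fact.out).mpr (by
      rw [← map_natCast (algebraMap (ZMod p) _), ZMod.natCast_self, map_zero])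
  obtain ⟨s, hs'⟩ := exists_section_of_sq_zero p f.kerSquareLift.toRingHom hs hsq
  refine ⟨{ s with commutes' := fun r => ?_ }, ?_⟩
  · exact RingHom.congr_fun (Subsingleton.elim (s.comp (algebraMap (ZMod p) k))
      (algebraMap (ZMod p) _)) r
  · ext x
    exact congr($hs' x)

theorem exists_coefficientField (A : Type*) [CommRing A] [IsLocalRing A]
    (p : ℕ) [Fact p.Prime] [CharP A p] [IsAdicComplete (maximalIdeal A) A] :
    ∃ σ : ResidueField A →+* A, ∀ x, residue A (σ x) = x := by
  let algA : Algebra (ZMod p) A := ZMod.algebra A p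
  have hfs : Algebra.FormallySmooth (ZMod p) (ResidueField A) :=
    formallySmooth_zmod (ResidueField A) p
  obtain ⟨g, hg⟩ := @Algebra.FormallySmooth.exists_mkₐ_comp_eq_of_isAdicComplete
    (ZMod p) (ResidueField A) _ _ _ A _ _ hfs (maximalIdeal A) _
    (AlgHom.id (ZMod p) (ResidueField A))
  exact ⟨g.toRingHom, fun x => congr($hg x)⟩

end Vale.Agent.P177
end

section

/-!
Positivity for modules killed by `p`.
-/

namespace Vale.Agent.P177

open CategoryTheory TensorProduct Function IsLocalRing RingTheory.Sequence Pointwise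

universe u

theorem exists_completion (A : Type u) [CommRing A] [IsLocalRing A] [IsNoetherianRing A]
    (p : ℕ) [hpp : Fact p.Prime] (hp : (p : A) = 0) (e : ℕ) (x : Fin e → A)
    (hx : Ideal.span (Set.range x) = maximalIdeal A) :
    ∃ (C : Type u) (_ : CommRing C) (_ : IsLocalRing C) (_ : Algebra A C) (_ : Module.Flat A C)
      (k : Type u) (_ : Field k) (φ : MvPowerSeries (Fin e) k →+* C),
      (maximalIdeal A).map (algebraMap A C) = maximalIdeal C ∧ Function.Surjective φ := by
  let C := AdicCompletion (maximalIdeal A) A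
  have hloc : (maximalIdeal A).map (algebraMap A C) = maximalIdeal C :=
    (AdicCompletion.maximalIdeal_eq_map (R := A)).symm
  have hpC : (p : C) = 0 := by
    have := congrArg (algebraMap A C) hp
    rwa [map_natCast, map_zero] at this
  have hchar : CharP C p := (CharP.charP_iff_prime_eq_zero hpp.out).2 hpC
  obtain ⟨σ, hσ⟩ := exists_coefficientField C p
  have hspan : Ideal.span (Set.range (algebraMap A C ∘ x)) = maximalIdeal C := by
    rw [Set.range_comp, ← Ideal.map_span, hx, hloc]
  obtain ⟨φ, hφ⟩ := exists_powerSeries_surjective C (ResidueField C) σ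
    (fun y => ⟨y, hσ y⟩) e (algebraMap A C ∘ x) hspan
  exact ⟨C, inferInstance, inferInstance, inferInstance, inferInstance, ResidueField C,
    inferInstance, φ, hloc, hφ⟩

/-- Data over the power series ring attached to a pair of `A`-modules. -/
theorem exists_powerSeries_modules (A : Type u) [CommRing A] [IsLocalRing A] [IsNoetherianRing A]
    (C : Type u) [CommRing C] [IsLocalRing C] [Algebra A C] [Module.Flat A C]
    (hloc : (maximalIdeal A).map (algebraMap A C) = maximalIdeal C)
    (k : Type u) [Field k] (e : ℕ) [Algebra (MvPowerSeries (Fin e) k) C]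
    (hφ : Surjective (algebraMap (MvPowerSeries (Fin e) k) C))
    (M N : Type u) [AddCommGroup M] [Module A M] [Module.Finite A M]
    [AddCommGroup N] [Module A N] [Module.Finite A N]
    (hlen : Module.length A (M ⊗[A] N) ≠ ⊤) :
    ∃ (X Y : Type u) (_ : AddCommGroup X) (_ : Module C X) (_ : Module (MvPowerSeries (Fin e) k) X)
      (_ : IsScalarTower (MvPowerSeries (Fin e) k) C X)
      (_ : AddCommGroup Y) (_ : Module C Y) (_ : Module (MvPowerSeries (Fin e) k) Y)
      (_ : IsScalarTower (MvPowerSeries (Fin e) k) C Y),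
      (∀ n, Module.length A (TorM A n M N) = Module.length C (TorM C n X Y)) ∧
      (0 ≤ eulerTor (MvPowerSeries (Fin e) k) (e + 1) X Y) ∧
      (Module.Finite (MvPowerSeries (Fin e) k) X) ∧ (Module.Finite (MvPowerSeries (Fin e) k) Y) ∧
      (∀ a b : ℕ, (a : WithBot ℕ∞) ≤ Module.supportDim A M →
        (b : WithBot ℕ∞) ≤ Module.supportDim A N →
        (a + b ≤ e) ∧ (e ≤ a + b → 0 < eulerTor (MvPowerSeries (Fin e) k) (e + 1) X Y)) := by
  let S := MvPowerSeries (Fin e) k
  obtain ⟨X, _, _, _, _, φ, hφX⟩ := exists_baseChange (R := A) C M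
  obtain ⟨Y, _, _, _, _, ψ, hψY⟩ := exists_baseChange (R := A) C N
  let mX : Module (MvPowerSeries (Fin e) k) X := Module.compHom X (algebraMap (MvPowerSeries (Fin e) k) C)
  let mY : Module (MvPowerSeries (Fin e) k) Y := Module.compHom Y (algebraMap (MvPowerSeries (Fin e) k) C)
  have sX : IsScalarTower (MvPowerSeries (Fin e) k) C X := ⟨fun s b t => by
    rw [Algebra.smul_def, mul_smul]
    rfl⟩
  have sY : IsScalarTower (MvPowerSeries (Fin e) k) C Y := ⟨fun s b t => by
    rw [Algebra.smul_def, mul_smul]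
    rfl⟩
  have fX : Module.Finite C X := Module.Finite.of_surjective hφX.equiv.toLinearMap hφX.equiv.surjective
  have fY : Module.Finite C Y := Module.Finite.of_surjective hψY.equiv.toLinearMap hψY.equiv.surjective
  have fC : Module.Finite (MvPowerSeries (Fin e) k) C :=
    Module.Finite.of_surjective (Algebra.linearMap _ C) hφ
  have fX' : Module.Finite (MvPowerSeries (Fin e) k) X := Module.Finite.trans C X
  have fY' : Module.Finite (MvPowerSeries (Fin e) k) Y := Module.Finite.trans C Y
  have ht : ∀ n, Module.length A (TorM A n M N) = Module.length C (TorM C n X Y) := fun n =>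
    length_tor_bc₂ hloc n hφX hψY
  have hlenS : Module.length (MvPowerSeries (Fin e) k) (X ⊗[MvPowerSeries (Fin e) k] Y) ≠ ⊤ := by
    rw [length_tensor_baseChange hφ (isBaseChange_id_of_surjective hφ X) Y,
      ← (torZero X Y).length_eq, ← ht 0, (torZero M N).length_eq]
    exact hlen
  obtain ⟨h1, h2⟩ := serre_mvPowerSeries k e X Y hlenS (e + 1) (by omega)
  have hdim : ∀ (M : Type u) [AddCommGroup M] [Module A M] [Module.Finite A M]
      (X : Type u) [AddCommGroup X] [Module A X] [Module C X] [IsScalarTower A C X]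
      [Module (MvPowerSeries (Fin e) k) X] [IsScalarTower (MvPowerSeries (Fin e) k) C X]
      [Module.Finite (MvPowerSeries (Fin e) k) X]
      (φ : M →ₗ[A] X), IsBaseChange C φ →
      Module.supportDim A M ≤ Module.supportDim (MvPowerSeries (Fin e) k) X := by
    intro M _ _ _ X _ _ _ _ _ _ _ φ hφX
    rw [supportDim_eq_of_surjective hφ X, ← Module.supportDim_eq_of_equiv hφX.equiv]
    have h5 := isLocalHom_of_map_maximalIdeal A C hloc
    have h6 : Module.FaithfullyFlat A C := Module.FaithfullyFlat.of_flat_of_isLocalHom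
    exact supportDim_le_baseChange_of_faithfullyFlat M
  refine ⟨X, Y, inferInstance, inferInstance, mX, sX, inferInstance, inferInstance, mY, sY, ht, h1,
    fX', fY', ?_⟩
  intro a b ha hb
  exact h2 a b (ha.trans (hdim M X φ hφX)) (hb.trans (hdim N Y ψ hψY))

/-- The conclusion of Serre's conjectures for a pair. -/
def Good (R : Type u) [CommRing R] (d : ℕ) (M N : Type u) [AddCommGroup M] [Module R M]
    [AddCommGroup N] [Module R N] : Prop :=
  0 ≤ eulerTor R (d + 1) M N ∧ ∀ a b : ℕ, (a : WithBot ℕ∞) ≤ Module.supportDim R M →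
      (b : WithBot ℕ∞) ≤ Module.supportDim R N → d ≤ a + b → 0 < eulerTor R (d + 1) M N

section base

variable (R : Type u) [CommRing R] [IsRegularLocalRing R] (d : ℕ) (hd : ringKrullDim R = d)
  (p : ℕ) [Fact p.Prime] (hp0 : (p : R) ≠ 0) (hpm : (p : R) ∈ maximalIdeal R)

include hd hp0 in
/-- Ramified case, modules over `A = R/p`. -/
theorem good_ramified (hp2 : (p : R) ∈ maximalIdeal R ^ 2)
    (M N : Type u) [AddCommGroup M] [Module R M] [Module.Finite R M]
    [Module (R ⧸ Ideal.span {(p : R)}) M] [IsScalarTower R (R ⧸ Ideal.span {(p : R)}) M]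
    [AddCommGroup N] [Module R N] [Module.Finite R N]
    [Module (R ⧸ Ideal.span {(p : R)}) N] [IsScalarTower R (R ⧸ Ideal.span {(p : R)}) N]
    (hlen : Module.length R (M ⊗[R] N) ≠ ⊤) : Good R d M N := by
  have hdom : IsDomain R := regular_isDomain R
  have hpm : (p : R) ∈ maximalIdeal R := Ideal.pow_le_self two_ne_zero hp2
  have hne : Ideal.span {(p : R)} ≠ ⊤ := by
    rw [Ne, Ideal.span_singleton_eq_top]
    exact hpm
  have hnt : Nontrivial (R ⧸ Ideal.span {(p : R)}) := Ideal.Quotient.nontrivial_iff.2 hne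
  have hlA : IsLocalRing (R ⧸ Ideal.span {(p : R)}) :=
    IsLocalRing.of_surjective' (Ideal.Quotient.mk _) Ideal.Quotient.mk_surjective
  have hmA : (maximalIdeal R).map (Ideal.Quotient.mk (Ideal.span {(p : R)})) =
      maximalIdeal (R ⧸ Ideal.span {(p : R)}) :=
    map_maximalIdeal_of_surjective _ Ideal.Quotient.mk_surjective
  have hsurj : Surjective (algebraMap R (R ⧸ Ideal.span {(p : R)})) :=
    Ideal.Quotient.mk_surjective
  have fM : Module.Finite (R ⧸ Ideal.span {(p : R)}) M :=
    Module.Finite.of_restrictScalars_finite R _ M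
  have fN : Module.Finite (R ⧸ Ideal.span {(p : R)}) N :=
    Module.Finite.of_restrictScalars_finite R _ N
  have H : IsHypersurface R (R ⧸ Ideal.span {(p : R)}) (p : R) :=
    { regular := fun x y hxy => mul_left_cancel₀ hp0 hxy
      surj := hsurj
      ker := Ideal.mk_ker }
  -- generators
  obtain ⟨rs, hrs, hlenrs⟩ := exists_list_maximalIdeal R
  have hrsd : rs.length = d := by
    rw [hd] at hlenrs
    exact_mod_cast hlenrs
  subst hrsd
  have hx : Ideal.span (Set.range (fun i : Fin rs.length =>
      Ideal.Quotient.mk (Ideal.span {(p : R)}) (rs.get i))) =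
      maximalIdeal (R ⧸ Ideal.span {(p : R)}) := by
    rw [← hmA, ← hrs, Ideal.ofList, Ideal.map_span]
    congr 1
    ext z
    constructor
    · rintro ⟨i, rfl⟩
      exact ⟨rs.get i, List.get_mem rs i, rfl⟩
    · rintro ⟨y, hy, rfl⟩
      obtain ⟨i, rfl⟩ := List.get_of_mem hy
      exact ⟨i, rfl⟩
  have hpA : (p : (R ⧸ Ideal.span {(p : R)})) = 0 := by
    rw [← map_natCast (Ideal.Quotient.mk (Ideal.span {(p : R)})) p]
    exact Ideal.Quotient.eq_zero_iff_mem.2 (Ideal.mem_span_singleton_self _)
  obtain ⟨C, _, _, _, _, k, _, φ, hloc, hφ⟩ := exists_completion (R ⧸ Ideal.span {(p : R)}) p hpA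
    rs.length _ hx
  have hSreg : IsRegularLocalRing (MvPowerSeries (Fin rs.length) k) :=
    mvPowerSeries_isRegularLocalRing _ _
  have hSdim : ringKrullDim (MvPowerSeries (Fin rs.length) k) = rs.length := by
    rw [mvPowerSeries_ringKrullDim]
    simp
  have hSdom : IsDomain (MvPowerSeries (Fin rs.length) k) := regular_isDomain _
  obtain ⟨g, hg0, hg⟩ := ker_isPrincipal (R := R) (S := MvPowerSeries (Fin rs.length) k)
    (by rw [hd, hSdim]) (p : R) hp2 hp0 (by rw [hmA]; exact hloc) φ hφ
  let _ : Algebra (MvPowerSeries (Fin rs.length) k) C := φ.toAlgebra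
  have H' : IsHypersurface (MvPowerSeries (Fin rs.length) k) C g :=
    { regular := fun x y hxy => mul_left_cancel₀ hg0 hxy
      surj := hφ
      ker := hg }
  have hlenA : Module.length (R ⧸ Ideal.span {(p : R)})
      (M ⊗[R ⧸ Ideal.span {(p : R)}] N) ≠ ⊤ := by
    rw [← length_tensor_baseChange hsurj (isBaseChange_id_of_surjective hsurj M) N]
    exact hlen
  obtain ⟨X, Y, _, _, _, _, _, _, _, _, ht, h1, fX, fY, h2⟩ :=
    exists_powerSeries_modules (R ⧸ Ideal.span {(p : R)}) C hloc k rs.length hφ M N hlenA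
  have hfinA : ∀ n, Module.length (R ⧸ Ideal.span {(p : R)})
      (TorM (R ⧸ Ideal.span {(p : R)}) n M N) ≠ ⊤ := fun n =>
    tor_length_ne_top n M N hlenA
  have hfinC : ∀ n, Module.length C (TorM C n X Y) ≠ ⊤ := fun n => by
    rw [← ht]
    exact hfinA n
  have hRv : Module.length R (TorM R (rs.length + 1) M N) = 0 := by
    have := regular_tor_vanish R rs.length hd M N (rs.length + 1) le_rfl
    exact Module.length_eq_zero
  have hSv : Module.length (MvPowerSeries (Fin rs.length) k)
      (TorM (MvPowerSeries (Fin rs.length) k) (rs.length + 1) X Y) = 0 := by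
    have := regular_tor_vanish (MvPowerSeries (Fin rs.length) k) rs.length hSdim X Y
      (rs.length + 1) le_rfl
    exact Module.length_eq_zero
  have heq : eulerTor R (rs.length + 1) M N =
      eulerTor (MvPowerSeries (Fin rs.length) k) (rs.length + 1) X Y := by
    rw [H.eulerTor_eq M N hfinA rs.length hRv, H'.eulerTor_eq X Y hfinC rs.length hSv, ht, ht]
  unfold Good
  rw [heq]
  refine ⟨h1, ?_⟩
  intro a b ha hb hab
  rw [supportDim_eq_of_surjective hsurj M] at ha
  rw [supportDim_eq_of_surjective hsurj N] at hb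
  exact (h2 a b ha hb).2 hab

include hd hp0 hpm in
/-- Unramified case, modules over `A = R/p`. -/
theorem good_unramified (hp2 : (p : R) ∉ maximalIdeal R ^ 2)
    (M N : Type u) [AddCommGroup M] [Module R M] [Module.Finite R M]
    [Module (R ⧸ Ideal.span {(p : R)}) M] [IsScalarTower R (R ⧸ Ideal.span {(p : R)}) M]
    [AddCommGroup N] [Module R N] [Module.Finite R N]
    [Module (R ⧸ Ideal.span {(p : R)}) N] [IsScalarTower R (R ⧸ Ideal.span {(p : R)}) N]
    (hlen : Module.length R (M ⊗[R] N) ≠ ⊤) : Good R d M N := by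
  have hdom : IsDomain R := regular_isDomain R
  obtain ⟨hAreg, hAdim⟩ := regular_quotient R (p : R) hpm hp2
  obtain ⟨e, he⟩ := exists_nat_eq_ringKrullDim (R ⧸ Ideal.span {(p : R)})
  have hed : e + 1 = d := by
    rw [he, hd] at hAdim
    exact_mod_cast hAdim
  subst hed
  have hsurj : Surjective (algebraMap R (R ⧸ Ideal.span {(p : R)})) :=
    Ideal.Quotient.mk_surjective
  have fM : Module.Finite (R ⧸ Ideal.span {(p : R)}) M :=
    Module.Finite.of_restrictScalars_finite R _ M
  have fN : Module.Finite (R ⧸ Ideal.span {(p : R)}) N :=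
    Module.Finite.of_restrictScalars_finite R _ N
  have H : IsHypersurface R (R ⧸ Ideal.span {(p : R)}) (p : R) :=
    { regular := fun x y hxy => mul_left_cancel₀ hp0 hxy
      surj := hsurj
      ker := Ideal.mk_ker }
  obtain ⟨rs, hrs, hlenrs⟩ := exists_list_maximalIdeal (R ⧸ Ideal.span {(p : R)})
  have hrsd : rs.length = e := by
    rw [he] at hlenrs
    exact_mod_cast hlenrs
  subst hrsd
  have hx : Ideal.span (Set.range (fun i : Fin rs.length => rs.get i)) =
      maximalIdeal (R ⧸ Ideal.span {(p : R)}) := by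
    rw [← hrs, Ideal.ofList]
    congr 1
    ext z
    constructor
    · rintro ⟨i, rfl⟩
      exact List.get_mem rs i
    · intro hz
      obtain ⟨i, rfl⟩ := List.get_of_mem hz
      exact ⟨i, rfl⟩
  have hpA : (p : (R ⧸ Ideal.span {(p : R)})) = 0 := by
    rw [← map_natCast (Ideal.Quotient.mk (Ideal.span {(p : R)})) p]
    exact Ideal.Quotient.eq_zero_iff_mem.2 (Ideal.mem_span_singleton_self _)
  obtain ⟨C, _, _, _, _, k, _, φ, hloc, hφ⟩ := exists_completion (R ⧸ Ideal.span {(p : R)}) p hpA
    rs.length _ hx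
  let _ : Algebra (MvPowerSeries (Fin rs.length) k) C := φ.toAlgebra
  have hlenA : Module.length (R ⧸ Ideal.span {(p : R)})
      (M ⊗[R ⧸ Ideal.span {(p : R)}] N) ≠ ⊤ := by
    rw [← length_tensor_baseChange hsurj (isBaseChange_id_of_surjective hsurj M) N]
    exact hlen
  obtain ⟨X, Y, _, _, _, _, _, _, _, _, -, -, -, -, h2⟩ :=
    exists_powerSeries_modules (R ⧸ Ideal.span {(p : R)}) C hloc k rs.length hφ M N hlenA
  have hfinA : ∀ n, Module.length (R ⧸ Ideal.span {(p : R)})
      (TorM (R ⧸ Ideal.span {(p : R)}) n M N) ≠ ⊤ := fun n =>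
    tor_length_ne_top n M N hlenA
  have hAv : ∀ n, rs.length + 1 ≤ n → Module.length (R ⧸ Ideal.span {(p : R)})
      (TorM (R ⧸ Ideal.span {(p : R)}) n M N) = 0 := by
    intro n hn
    have := regular_tor_vanish (R ⧸ Ideal.span {(p : R)}) rs.length he M N n hn
    exact Module.length_eq_zero
  have hRv : Module.length R (TorM R (rs.length + 1 + 1) M N) = 0 := by
    have := regular_tor_vanish R (rs.length + 1) hd M N (rs.length + 1 + 1) le_rfl
    exact Module.length_eq_zero
  constructor
  · rw [H.eulerTor_eq M N hfinA (rs.length + 1) hRv, hAv _ le_rfl, hAv _ (by omega)]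
    simp
  · intro a b ha hb hab
    exfalso
    rw [supportDim_eq_of_surjective hsurj M] at ha
    rw [supportDim_eq_of_surjective hsurj N] at hb
    have := (h2 a b ha hb).1
    omega

include hd hp0 hpm in
/-- Modules killed by `p`. -/
theorem good_killed_by_p
    (M N : Type u) [AddCommGroup M] [Module R M] [Module.Finite R M]
    [AddCommGroup N] [Module R N] [Module.Finite R N]
    (hM : ∀ m : M, (p : R) • m = 0) (hN : ∀ m : N, (p : R) • m = 0)
    (hlen : Module.length R (M ⊗[R] N) ≠ ⊤) : Good R d M N := by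
  have tM : Module.IsTorsionBySet R M (Ideal.span {(p : R)} : Set R) := by
    intro x a
    obtain ⟨c, hc⟩ := Ideal.mem_span_singleton'.1 a.2
    rw [← hc, mul_smul, hM, smul_zero]
  have tN : Module.IsTorsionBySet R N (Ideal.span {(p : R)} : Set R) := by
    intro x a
    obtain ⟨c, hc⟩ := Ideal.mem_span_singleton'.1 a.2
    rw [← hc, mul_smul, hN, smul_zero]
  let _ : Module (R ⧸ Ideal.span {(p : R)}) M := tM.module
  let _ : Module (R ⧸ Ideal.span {(p : R)}) N := tN.module
  have _ : IsScalarTower R (R ⧸ Ideal.span {(p : R)}) M := tM.isScalarTower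
  have _ : IsScalarTower R (R ⧸ Ideal.span {(p : R)}) N := tN.isScalarTower
  by_cases hp2 : (p : R) ∈ maximalIdeal R ^ 2
  · exact good_ramified R d hd p hp0 hp2 M N hlen
  · exact good_unramified R d hd p hp0 hpm hp2 M N hlen

end base

end Vale.Agent.P177
end

section

/-!
Devissage: from modules killed by `p` to `p`-power torsion modules.
-/

namespace Vale.Agent.P177

open CategoryTheory TensorProduct Function IsLocalRing RingTheory.Sequence Pointwise

universe u

section

variable {R : Type u} [CommRing R]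

theorem Good.symm {d : ℕ} {M N : Type u} [AddCommGroup M] [Module R M]
    [AddCommGroup N] [Module R N] (h : Good R d M N) : Good R d N M := by
  have heq : eulerTor R (d + 1) N M = eulerTor R (d + 1) M N := by
    unfold eulerTor
    refine Finset.sum_congr rfl fun i _ => ?_
    obtain ⟨e⟩ := tor_symm (R := R) i N M
    rw [e.length_eq]
  unfold Good
  rw [heq]
  refine ⟨h.1, fun a b ha hb hab => h.2 b a hb ha (by omega)⟩

variable [IsLocalRing R] [IsNoetherianRing R]

theorem length_tensor_ne_top_of_annihilator_le (M M' N : Type u) [AddCommGroup M] [Module R M]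
    [AddCommGroup M'] [Module R M'] [AddCommGroup N] [Module R N] [Module.Finite R M]
    [Module.Finite R M'] [Module.Finite R N]
    (h : Module.length R (M ⊗[R] N) ≠ ⊤)
    (hle : Module.annihilator R M ≤ Module.annihilator R M') :
    Module.length R (M' ⊗[R] N) ≠ ⊤ := by
  obtain ⟨k, hk⟩ := exists_pow_le_sup_annihilator M N h
  rw [Module.length_ne_top_iff]
  refine isFiniteLength_of_pow_smul_eq_zero k ?_
  intro a ha x
  obtain ⟨b, hb, c, hc, rfl⟩ := Submodule.mem_sup.1 (hk ha)
  rw [add_smul, tensor_smul_eq_zero_left b (fun m => Module.mem_annihilator.1 (hle hb) m) x,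
    zero_add]
  apply (TensorProduct.comm R M' N).injective
  rw [map_smul, map_zero]
  exact tensor_smul_eq_zero_left c (fun m => Module.mem_annihilator.1 hc m) _

end

section

variable {R : Type u} [CommRing R] [IsRegularLocalRing R] {d : ℕ} (hd : ringKrullDim R = d)

include hd in
theorem Good.of_exact {M' M M'' N : Type u} [AddCommGroup M'] [Module R M']
    [AddCommGroup M] [Module R M] [AddCommGroup M''] [Module R M''] [Module.Finite R M']
    [Module.Finite R M] [Module.Finite R M'']
    [AddCommGroup N] [Module R N] [Module.Finite R N]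
    (f : M' →ₗ[R] M) (g : M →ₗ[R] M'') (hf : Injective f) (hg : Surjective g) (h : Exact f g)
    (hlen : Module.length R (M ⊗[R] N) ≠ ⊤) (h1 : Good R d M' N) (h3 : Good R d M'' N)
    (hdim : Module.supportDim R M ≤ Module.supportDim R M'') : Good R d M N := by
  have hlen' : Module.length R (M' ⊗[R] N) ≠ ⊤ :=
    length_tensor_ne_top_of_annihilator_le M M' N hlen (LinearMap.annihilator_le_of_injective f hf)
  have hv : Module.length R (TorM R (d + 1) M'' N) = 0 := by
    have := regular_tor_vanish R d hd M'' N (d + 1) le_rfl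
    exact Module.length_eq_zero
  have hadd := eulerTor_add_aux f g hf hg h N (fun i => tor_length_ne_top i M' N hlen')
    (fun i => tor_length_ne_top i M N hlen) (d + 1) hv
  unfold Good
  rw [hadd]
  refine ⟨add_nonneg h1.1 h3.1, fun a b ha hb hab => ?_⟩
  exact add_pos_of_nonneg_of_pos h1.1 (h3.2 a b (ha.trans hdim) hb hab)

include hd in
theorem good_devissage (p : R) (W : Type u) [AddCommGroup W] [Module R W] [Module.Finite R W]
    (hW : ∀ (X : Type u) [AddCommGroup X] [Module R X] [Module.Finite R X],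
      (∀ x : X, p • x = 0) → Module.length R (X ⊗[R] W) ≠ ⊤ → Good R d X W) (a : ℕ)
    (X : Type u) [AddCommGroup X] [Module R X] [Module.Finite R X]
    (hX : ∀ x : X, p ^ a • x = 0) (hlen : Module.length R (X ⊗[R] W) ≠ ⊤) : Good R d X W := by
  induction a generalizing X with
  | zero =>
    refine hW X (fun x => ?_) hlen
    have := hX x
    rw [pow_zero, one_smul] at this
    rw [this, smul_zero]
  | succ a ih =>
    have hex : Exact (LinearMap.range (LinearMap.lsmul R X p)).subtype
        (LinearMap.range (LinearMap.lsmul R X p)).mkQ := by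
      intro x
      simp
    have e1 : Injective (LinearMap.range (LinearMap.lsmul R X p)).subtype :=
      Submodule.injective_subtype _
    have e2 : Surjective (LinearMap.range (LinearMap.lsmul R X p)).mkQ :=
      Submodule.mkQ_surjective _
    have hlen1 : Module.length R ((LinearMap.range (LinearMap.lsmul R X p)) ⊗[R] W) ≠ ⊤ :=
      length_tensor_ne_top_of_annihilator_le X _ W hlen
        (LinearMap.annihilator_le_of_injective _ e1)
    have hlen2 : Module.length R ((X ⧸ LinearMap.range (LinearMap.lsmul R X p)) ⊗[R] W) ≠ ⊤ :=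
      length_tensor_ne_top_of_annihilator_le X _ W hlen
        (LinearMap.annihilator_le_of_surjective _ e2)
    refine Good.of_exact hd _ _ e1 e2 hex hlen (ih _ ?_ hlen1) (hW _ ?_ hlen2) ?_
    · rintro ⟨x, y, rfl⟩
      apply Subtype.ext
      change p ^ a • (p • y) = 0
      rw [smul_smul, ← pow_succ, hX]
    · intro x
      obtain ⟨y, rfl⟩ := Submodule.mkQ_surjective _ x
      rw [← map_smul, Submodule.mkQ_apply, Submodule.Quotient.mk_eq_zero]
      exact ⟨y, rfl⟩
    · have hsup : Module.support R (X ⧸ LinearMap.range (LinearMap.lsmul R X p)) =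
          Module.support R X := by
        have h1 : LinearMap.range (LinearMap.lsmul R X p) = Ideal.span {p} • (⊤ : Submodule R X) := by
          rw [Submodule.ideal_span_singleton_smul]
          ext x
          rw [Submodule.mem_smul_pointwise_iff_exists]
          simp
        rw [h1, Module.support_quotient]
        refine Set.inter_eq_left.2 ?_
        intro P hP
        have h2 := Module.annihilator_le_of_mem_support hP
        have h3 : p ^ (a + 1) ∈ Module.annihilator R X := Module.mem_annihilator.2 hX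
        have h4 : p ∈ P.asIdeal := P.2.mem_of_pow_mem _ (h2 h3)
        change (Ideal.span {p} : Set R) ⊆ P.asIdeal
        exact (Ideal.span_singleton_le_iff_mem _).2 h4
      unfold Module.supportDim
      rw [hsup]

/-- All pairs of `p`-power torsion modules over a regular local ring of mixed characteristic. -/
theorem good_p_power (R : Type u) [CommRing R] [IsRegularLocalRing R] (d : ℕ)
    (hd : ringKrullDim R = d) (p : ℕ) [Fact p.Prime] (hp0 : (p : R) ≠ 0)
    (hpm : (p : R) ∈ maximalIdeal R) (M N : Type u) [AddCommGroup M] [Module R M]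
    [Module.Finite R M] [AddCommGroup N] [Module R N] [Module.Finite R N] (a b : ℕ)
    (hM : ∀ x : M, (p : R) ^ a • x = 0) (hN : ∀ x : N, (p : R) ^ b • x = 0)
    (hlen : Module.length R (M ⊗[R] N) ≠ ⊤) : Good R d M N := by
  refine good_devissage hd (p : R) N ?_ a M hM hlen
  intro X _ _ _ hX hlenX
  apply Good.symm
  have hsymm : ∀ (Y : Type u) [AddCommGroup Y] [Module R Y],
      Module.length R (X ⊗[R] Y) = Module.length R (Y ⊗[R] X) := fun Y _ _ =>
    (TensorProduct.comm R X Y).length_eq
  refine good_devissage hd (p : R) X ?_ b N hN (by rwa [← hsymm])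
  intro Y _ _ _ hY hlenY
  exact good_killed_by_p R d hd p hp0 hpm Y X hY hX hlenY

end

end Vale.Agent.P177
end

section

/-!
The chart as a strict transform, and strict transforms of modules.
-/

namespace Vale.Agent.P177

open IsLocalRing Function TensorProduct

universe u

section inv

variable {A : Type u} [CommRing A] {d : ℕ} (x c : Fin d → A)

variable {x c}

end inv

section reg

variable {A : Type u} [CommRing A] [IsRegularLocalRing A] {d : ℕ} (hd : ringKrullDim A = d)
  {x : Fin d → A} (hx : Ideal.span (Set.range x) = maximalIdeal A) (c : Fin d → A)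

end reg

end Vale.Agent.P177
end

section

/-!
Localizations of the chart and of the extended Rees algebra.
-/

namespace Vale.Agent.P177

open IsLocalRing Function TensorProduct

universe u

section laurent

open LaurentPolynomial

variable {S : Type u} [CommRing S] (P : Ideal S)

end laurent

section omega

open LaurentPolynomial

variable {A : Type u} [CommRing A] {d : ℕ} {x : Fin d → A} (c : Fin d → A)

variable [IsRegularLocalRing A] (hd : ringKrullDim A = d)
  (hx : Ideal.span (Set.range x) = maximalIdeal A)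

end omega

end Vale.Agent.P177
end

section

/-!
Comparison of strict transforms under flat base change.
-/

namespace Vale.Agent.P177

open Function TensorProduct

universe u

end Vale.Agent.P177
end

section

/-!
Completions of regular local rings.
-/

namespace Vale.Agent.P177

open CategoryTheory TensorProduct Function IsLocalRing RingTheory.Sequence Pointwise

universe u

theorem exists_powerSeries_surjective_gen {ι A R : Type*} [Finite ι] [CommRing A] [IsLocalRing A]
    [IsAdicComplete (maximalIdeal A) A] [CommRing R] (σ : R →+* A)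
    (hσ : Function.Surjective (fun x => residue A (σ x))) (x : ι → A)
    (hx : Ideal.span (Set.range x) = maximalIdeal A) :
    ∃ φ : MvPowerSeries ι R →+* A, Function.Surjective φ := by
  obtain ⟨φ, hφ⟩ := exists_evalHom (maximalIdeal A) σ x
    (fun i => hx ▸ Ideal.subset_span ⟨i, rfl⟩)
  refine ⟨φ, ?_⟩
  have hX : ∀ i, φ (MvPowerSeries.X i) = x i := by
    intro i
    rw [← MvPolynomial.coe_X, hφ]
    simp
  have hmap : (Ideal.span (Set.range MvPowerSeries.X) : Ideal (MvPowerSeries ι R)).map φ =
      maximalIdeal A := by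
    rw [Ideal.map_span, ← Set.range_comp, ← hx]
    congr 2
    ext i
    exact hX i
  have hH : IsHausdorff ((Ideal.span (Set.range MvPowerSeries.X) :
      Ideal (MvPowerSeries ι R)).map φ) A := by
    rw [hmap]
    infer_instance
  apply surjective_of_mk_map_comp_surjective (I := Ideal.span (Set.range MvPowerSeries.X)) φ
  intro y
  obtain ⟨a, rfl⟩ := Ideal.Quotient.mk_surjective y
  obtain ⟨c, hc⟩ := hσ (residue A a)
  refine ⟨MvPowerSeries.C c, ?_⟩
  rw [← MvPolynomial.coe_C, RingHom.comp_apply, hφ]
  simp only [MvPolynomial.coe_eval₂Hom, MvPolynomial.eval₂_C]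
  rw [Ideal.Quotient.mk_eq_mk_iff_sub_mem, hmap]
  rw [← Ideal.Quotient.mk_eq_mk_iff_sub_mem]
  exact hc

theorem isNoetherianRing_adicCompletion (R : Type u) [CommRing R] [IsLocalRing R]
    [IsNoetherianRing R] : IsNoetherianRing (AdicCompletion (maximalIdeal R) R) := by
  obtain ⟨s, hs⟩ := (maximalIdeal R).fg_of_isNoetherianRing
  obtain ⟨φ, hφ⟩ := exists_powerSeries_surjective_gen (ι := s)
    (A := AdicCompletion (maximalIdeal R) R) (algebraMap R (AdicCompletion (maximalIdeal R) R))
    (by
      intro y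
      obtain ⟨z, hz⟩ := (AdicCompletion.residueField_map_bijective R).2 y
      obtain ⟨z, rfl⟩ := residue_surjective z
      exact ⟨z, hz⟩)
    (fun i => algebraMap R (AdicCompletion (maximalIdeal R) R) i.1)
    (by
      rw [AdicCompletion.maximalIdeal_eq_map]
      refine Eq.trans ?_ (congrArg
        (Ideal.map (algebraMap R (AdicCompletion (maximalIdeal R) R))) hs)
      refine Eq.trans ?_ (Ideal.map_span _ _).symm
      congr 1
      ext y
      simp)
  exact isNoetherianRing_of_surjective _ _ φ hφ

theorem ringKrullDim_adicCompletion (R : Type u) [CommRing R] [IsRegularLocalRing R] {r : ℕ}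
    (hr : ringKrullDim R = r) [IsNoetherianRing (AdicCompletion (maximalIdeal R) R)] :
    ringKrullDim (AdicCompletion (maximalIdeal R) R) = r := by
  have hspan : ((maximalIdeal (AdicCompletion (maximalIdeal R) R)).spanFinrank :
      WithBot ℕ∞) = r := by
    rw [AdicCompletion.spanFinrank_maximalIdeal_eq, IsRegularLocalRing.spanFinrank_maximalIdeal,
      hr]
  refine le_antisymm ?_ ?_
  · rw [← hspan]
    exact ringKrullDim_le_spanFinrank_maximalIdeal _
  · obtain ⟨rs, hrs, hlen, hreg⟩ := exists_rsp R hr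
    have h1 : IsWeaklyRegular (AdicCompletion (maximalIdeal R) R)
      (rs.map (algebraMap R (AdicCompletion (maximalIdeal R) R))) := hreg.of_flat
    have h2 := length_le_height (maximalIdeal _) _ (map_mem_maximalIdeal (fun z hz => by
      rw [← hrs]; exact Ideal.subset_span hz)) h1
    rw [List.length_map, hlen] at h2
    refine le_trans ?_ (Ideal.height_le_ringKrullDim_of_isPrime
      (I := maximalIdeal (AdicCompletion (maximalIdeal R) R)))
    exact_mod_cast h2

/-- The completion of a regular local ring with its universal property. -/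
theorem exists_regular_completion (R : Type u) [CommRing R] [IsRegularLocalRing R] {r : ℕ}
    (hr : ringKrullDim R = r) :
    ∃ (S : Type u) (_ : CommRing S) (_ : IsRegularLocalRing S) (_ : Algebra R S),
      Module.Flat R S ∧ IsLocalHom (algebraMap R S) ∧
      (maximalIdeal R).map (algebraMap R S) = maximalIdeal S ∧ ringKrullDim S = r ∧
      IsAdicComplete (maximalIdeal S) S ∧
      ∀ (C : Type u) [CommRing C] (J : Ideal C) [IsAdicComplete J C] (f : R →+* C),
        maximalIdeal R ≤ J.comap f → ∃ g : S →+* C, g.comp (algebraMap R S) = f := by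
  have hN := isNoetherianRing_adicCompletion R
  have hdim := ringKrullDim_adicCompletion R hr
  refine ⟨AdicCompletion (maximalIdeal R) R, inferInstance, ?_, inferInstance, inferInstance,
    inferInstance, AdicCompletion.maximalIdeal_eq_map.symm, hdim, inferInstance, ?_⟩
  · apply IsRegularLocalRing.of_spanFinrank_maximalIdeal_le
    rw [AdicCompletion.spanFinrank_maximalIdeal_eq, IsRegularLocalRing.spanFinrank_maximalIdeal,
      hr, hdim]
  · intro C _ J _ f hf
    have hI : ∀ n, maximalIdeal R ^ n ≤ (J ^ n).comap f := by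
      intro n
      rw [← Ideal.map_le_iff_le_comap, Ideal.map_pow]
      exact Ideal.pow_right_mono (Ideal.map_le_iff_le_comap.2 hf) n
    let F : (n : ℕ) → AdicCompletion (maximalIdeal R) R →+* C ⧸ J ^ n := fun n =>
      (Ideal.quotientMap (J ^ n) f (hI n)).comp (AdicCompletion.evalₐ (maximalIdeal R) n).toRingHom
    have hF : ∀ {m n : ℕ} (hle : m ≤ n), (Ideal.Quotient.factorPow J hle).comp (F n) = F m := by
      intro m n hle
      ext z
      obtain ⟨z, rfl⟩ := AdicCompletion.mk_surjective (maximalIdeal R) R z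
      change Ideal.Quotient.factorPow J hle (Ideal.quotientMap (J ^ n) f (hI n)
        (AdicCompletion.evalₐ (maximalIdeal R) n (AdicCompletion.mk (maximalIdeal R) R z))) =
        Ideal.quotientMap (J ^ m) f (hI m)
        (AdicCompletion.evalₐ (maximalIdeal R) m (AdicCompletion.mk (maximalIdeal R) R z))
      rw [AdicCompletion.evalₐ_mk, AdicCompletion.evalₐ_mk, Ideal.quotientMap_mk,
        Ideal.quotientMap_mk]
      change Ideal.Quotient.mk (J ^ m) (f (z.1 n)) = Ideal.Quotient.mk (J ^ m) (f (z.1 m))
      rw [Ideal.Quotient.mk_eq_mk_iff_sub_mem, ← map_sub]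
      apply hI m
      have h1 := z.2 hle
      rw [SModEq.comm, SModEq.sub_mem, smul_eq_mul, Ideal.mul_top] at h1
      exact h1
    refine ⟨IsAdicComplete.liftRingHom J F hF, ?_⟩
    ext z
    rw [← sub_eq_zero]
    apply IsHausdorff.haus (I := J) inferInstance
    intro n
    rw [SModEq.zero, smul_eq_mul, Ideal.mul_top, ← Ideal.Quotient.eq_zero_iff_mem, map_sub,
      RingHom.comp_apply, IsAdicComplete.mk_liftRingHom, sub_eq_zero]
    change Ideal.quotientMap (J ^ n) f (hI n)
      (AdicCompletion.evalₐ (maximalIdeal R) n (AdicCompletion.of _ _ z)) = _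
    rw [AdicCompletion.evalₐ_of, Ideal.quotientMap_mk]

end Vale.Agent.P177
end

section

/-!
Preparations for the inductive step: finite maps to discrete valuation rings and polynomial rings
over local rings.
-/

namespace Vale.Agent.P177

open CategoryTheory TensorProduct Function IsLocalRing RingTheory.Sequence Pointwise

universe u

section dvr

variable (R V : Type u) [CommRing R] [IsLocalRing R] [CommRing V] [IsDomain V]
  [IsDiscreteValuationRing V] [Algebra R V] [Module.Finite R V]

theorem comap_maximalIdeal_of_finite :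
    (maximalIdeal V).comap (algebraMap R V) = maximalIdeal R :=
  IsLocalRing.eq_maximalIdeal (Ideal.isMaximal_comap_of_isIntegral_of_isMaximal _)

theorem ker_lt_maximalIdeal : RingHom.ker (algebraMap R V) < maximalIdeal R := by
  refine lt_of_le_of_ne (le_maximalIdeal (RingHom.ker_ne_top _)) ?_
  intro h
  have h1 : (maximalIdeal V).comap (algebraMap R V) = (⊥ : Ideal V).comap (algebraMap R V) := by
    rw [comap_maximalIdeal_of_finite, ← h]
    rfl
  have h2 : (⊥ : Ideal V) < maximalIdeal V := bot_lt_iff_ne_bot.2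
    (IsDiscreteValuationRing.not_a_field V)
  have h3 := Ideal.IsIntegral.comap_lt_comap (R := R) h2
  rw [h1] at h3
  exact lt_irrefl _ h3

/-- Primes above the kernel. -/
theorem eq_ker_or_eq_maximalIdeal (q : Ideal R) [q.IsPrime]
    (h : RingHom.ker (algebraMap R V) ≤ q) :
    q = RingHom.ker (algebraMap R V) ∨ q = maximalIdeal R := by
  obtain ⟨Q, hQ, hQq⟩ := Ideal.exists_ideal_over_prime_of_isIntegral_of_isDomain (S := V) q h
  by_cases h0 : Q = ⊥
  · left
    rw [← hQq, h0]
    rfl
  · right
    have hQm : Q = maximalIdeal V := IsLocalRing.eq_maximalIdeal (hQ.isMaximal h0)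
    rw [← hQq, hQm, comap_maximalIdeal_of_finite]

omit [IsLocalRing R] [IsDomain V] [IsDiscreteValuationRing V] [Module.Finite R V] in
theorem annihilator_eq_ker : Module.annihilator R V = RingHom.ker (algebraMap R V) := by
  ext x
  rw [Module.mem_annihilator, RingHom.mem_ker]
  constructor
  · intro h
    rw [Algebra.algebraMap_eq_smul_one]
    exact h 1
  · intro h v
    rw [Algebra.smul_def, h, zero_mul]

theorem supportDim_dvr [IsNoetherianRing R] : Module.supportDim R V = (1 : ℕ) := by
  have hkp : (RingHom.ker (algebraMap R V)).IsPrime := RingHom.ker_isPrime _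
  have h4 : Module.supportDim R (R ⧸ RingHom.ker (algebraMap R V)) = Module.supportDim R V := by
    rw [← annihilator_eq_ker]
    unfold Module.supportDim
    rw [Module.support_eq_zeroLocus, Module.support_eq_zeroLocus, Ideal.annihilator_quotient]
  rw [← h4]
  have h0 : ((0 : ℕ) : WithBot ℕ∞) ≤ Module.supportDim R (R ⧸ maximalIdeal R) := by
    unfold Module.supportDim
    have := (Module.nonempty_support_of_nontrivial (R := R)
      (M := R ⧸ maximalIdeal R)).to_subtype
    exact Order.krullDim_nonneg
  apply le_antisymm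
  · by_contra hcon
    rw [not_le] at hcon
    obtain ⟨q, hq1, hq2, hq3⟩ := exists_gt_prime _ 1 (succ_le_of_lt_withBot hcon)
    rcases eq_ker_or_eq_maximalIdeal R V q hq2.le with h | h
    · exact absurd h hq2.ne'
    · obtain ⟨q', hq1', hq2', hq3'⟩ := exists_gt_prime q 0 hq3
      rw [h] at hq2'
      exact absurd (le_maximalIdeal hq1'.ne_top) (not_le_of_gt hq2')
  · exact supportDim_quotient_strict (ker_lt_maximalIdeal R V) 0 h0

end dvr

section poly

open Polynomial

variable {T : Type u} [CommRing T] [IsLocalRing T]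

/-- Primes containing the maximal ideal and a monic polynomial are maximal. -/
theorem isMaximal_of_monic_mem (q : Ideal T[X]) [hq : q.IsPrime] (g : T[X]) (hg : g.Monic)
    (hgq : g ∈ q) (hm : maximalIdeal T ≤ q.comap C) : q.IsMaximal := by
  have hcomap : q.comap C = maximalIdeal T :=
    le_antisymm (le_maximalIdeal (Ideal.comap_ne_top _ hq.ne_top)) hm
  have hint := hg.quotient_isIntegral (I := q) hgq
  have hdom : IsDomain (T[X] ⧸ q) := Ideal.Quotient.isDomain q
  have h1 : (⊥ : Ideal (T[X] ⧸ q)).IsMaximal := by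
    refine Ideal.isMaximal_of_isIntegral_of_isMaximal_comap' _ hint _ ?_
    have h2 : (⊥ : Ideal (T[X] ⧸ q)).comap
        ((Ideal.Quotient.mkₐ T q).comp (Algebra.ofId T T[X])).toRingHom = maximalIdeal T := by
      rw [← hcomap]
      ext x
      rw [Ideal.mem_comap, Ideal.mem_bot, Ideal.mem_comap]
      change Ideal.Quotient.mk q (C x) = 0 ↔ _
      rw [Ideal.Quotient.eq_zero_iff_mem]
    rw [h2]
    infer_instance
  exact (Ideal.bot_quotient_isMaximal_iff q).1 h1

theorem comap_C_eq_maximalIdeal (q : Ideal T[X]) [hq : q.IsPrime]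
    (hm : maximalIdeal T ≤ q.comap C) : q.comap C = maximalIdeal T :=
  le_antisymm (le_maximalIdeal (Ideal.comap_ne_top _ hq.ne_top)) hm

theorem ringKrullDim_localization_polynomial [IsNoetherianRing T] {t : ℕ}
    (ht : ringKrullDim T = t) (m : Ideal T[X]) [m.IsMaximal] (hm : m.comap C = maximalIdeal T) :
    ringKrullDim (Localization.AtPrime m) = ((t + 1 : ℕ) : WithBot ℕ∞) := by
  rw [IsLocalization.AtPrime.ringKrullDim_eq_height m (Localization.AtPrime m)]
  have : m.LiesOver (maximalIdeal T) := ⟨hm.symm⟩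
  rw [Polynomial.height_eq_height_add_one (maximalIdeal T) m]
  have h1 := IsLocalRing.maximalIdeal_height_eq_ringKrullDim (R := T)
  rw [ht] at h1
  push_cast
  rw [← h1]

/-- The residue ring has finite length. -/
theorem length_quot_ne_top [IsNoetherianRing T] (m : Ideal T[X]) (g : T[X])
    (hg : g.Monic) (hgm : g ∈ m) (hm : maximalIdeal T ≤ m.comap C) :
    Module.length T (T[X] ⧸ m) ≠ ⊤ := by
  have h1 : Module.Finite T (T[X] ⧸ Ideal.span {g}) := hg.finite_quotient
  have hle : Ideal.span {g} ≤ m := by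
    rw [Ideal.span_singleton_le_iff_mem]
    exact hgm
  have h2 : Module.Finite T (T[X] ⧸ m) := Module.Finite.of_surjective
    (Ideal.Quotient.factorₐ T hle).toLinearMap (Ideal.Quotient.factor_surjective hle)
  have h3 : FL ([] : List T) (T[X] ⧸ m) := by
    unfold FL
    refine le_trans ?_ Ideal.le_radical
    refine le_trans ?_ le_sup_left
    intro a ha
    rw [Module.mem_annihilator]
    intro x
    obtain ⟨x, rfl⟩ := Ideal.Quotient.mk_surjective x
    have h4 : a • x ∈ m := by
      rw [Polynomial.smul_eq_C_mul]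
      exact Ideal.mul_mem_right _ _ (hm ha)
    exact Ideal.Quotient.eq_zero_iff_mem.2 h4
  exact h3.length_ne_top

end poly

end Vale.Agent.P177
end

section

/-!
The inductive step: adjoining an element of the discrete valuation ring to the regular ring.
Data at one maximal ideal of `T[X]`.
-/

namespace Vale.Agent.P177

open CategoryTheory TensorProduct Function IsLocalRing RingTheory.Sequence Pointwise Polynomial

universe u

attribute [local instance] Polynomial.algebra

/-- The statement proved by induction. -/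
def StepHyp (R₂ V G : Type u) [CommRing R₂] [CommRing V] [AddCommGroup G] [Module R₂ G]
    (r₂ b n : ℕ) : Prop :=
  ∀ (R₁ T : Type u) [CommRing R₁] [IsRegularLocalRing R₁] [CommRing T]
    [IsRegularLocalRing T] [Algebra R₁ T] [Module.Flat R₁ T] [IsLocalHom (algebraMap R₁ T)]
    [Algebra R₂ T] [Module.Flat R₂ T] [IsLocalHom (algebraMap R₂ T)]
    [Algebra R₁ V] [Module.Finite R₁ V] (r₁ t : ℕ), ringKrullDim R₁ = r₁ →
    ringKrullDim T = t → r₁ + r₂ = t + b →
    Module.length R₁ (V ⧸ LinearMap.range (Algebra.linearMap R₁ V)) ≤ n →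
    FP R₁ R₂ T V G → Pos R₁ R₂ T t b V G

section

variable {R₁ R₂ T V : Type u} [CommRing R₁] [CommRing R₂] [CommRing T] [CommRing V]
  [IsRegularLocalRing R₁] [IsRegularLocalRing R₂] [IsRegularLocalRing T]
  [Algebra R₁ T] [Algebra R₂ T] [Module.Flat R₁ T] [Module.Flat R₂ T]
  [IsLocalHom (algebraMap R₁ T)] [IsLocalHom (algebraMap R₂ T)] {r₁ r₂ t b : ℕ}
  [IsDomain V] [IsDiscreteValuationRing V] [Algebra R₁ V] [Module.Finite R₁ V]
  [Algebra R₁[X] V] [IsScalarTower R₁ R₁[X] V]

omit [IsRegularLocalRing R₁] [IsDomain V] [IsDiscreteValuationRing V] in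
theorem isIntegral_poly : Algebra.IsIntegral R₁[X] V :=
  Algebra.IsIntegral.tower_top R₁

omit [IsRegularLocalRing R₁] in
theorem comap_poly_isMaximal :
    ((maximalIdeal V).comap (algebraMap R₁[X] V)).IsMaximal := by
  have := isIntegral_poly (R₁ := R₁) (V := V)
  exact Ideal.isMaximal_comap_of_isIntegral_of_isMaximal _

omit [IsRegularLocalRing R₁] in
theorem comap_C_comap_poly [IsLocalRing R₁] :
    ((maximalIdeal V).comap (algebraMap R₁[X] V)).comap C = maximalIdeal R₁ := by
  rw [Ideal.comap_comap, ← comap_maximalIdeal_of_finite R₁ V]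
  congr 1
  exact (IsScalarTower.algebraMap_eq R₁ R₁[X] V).symm

omit [IsRegularLocalRing R₁] [IsDomain V] [IsDiscreteValuationRing V] in
theorem exists_monic_ker : ∃ g : R₁[X], g.Monic ∧ algebraMap R₁[X] V g = 0 := by
  obtain ⟨g, hg, hg0⟩ := Algebra.IsIntegral.isIntegral (R := R₁) (algebraMap R₁[X] V X)
  refine ⟨g, hg, ?_⟩
  have h1 : algebraMap R₁[X] V g = aeval (algebraMap R₁[X] V X) g := by
    have h2 : (IsScalarTower.toAlgHom R₁ R₁[X] V) = aeval (algebraMap R₁[X] V X) := by
      ext
      simp
    have h3 := DFunLike.congr_fun h2 g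
    exact h3
  rw [h1]
  exact hg0

omit [IsRegularLocalRing T] [Module.Flat R₁ T] in
/-- The contraction of a maximal ideal of `T[X]` containing the kernel. -/
theorem comap_eq_of_ker_le [IsLocalRing T] (m : Ideal T[X]) [hmp : m.IsPrime]
    (hmT : m.comap C = maximalIdeal T)
    (hker : (RingHom.ker (algebraMap R₁[X] V)).map (algebraMap R₁[X] T[X]) ≤ m) :
    (maximalIdeal V).comap (algebraMap R₁[X] V) = m.comap (algebraMap R₁[X] T[X]) := by
  have := isIntegral_poly (R₁ := R₁) (V := V)
  have hC : (m.comap (algebraMap R₁[X] T[X])).comap C = maximalIdeal R₁ := by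
    have h1 : (m.comap (algebraMap R₁[X] T[X])).comap C =
        (m.comap C).comap (algebraMap R₁ T) := by
      rw [Ideal.comap_comap, Ideal.comap_comap]
      congr 1
      ext x
      simp
    rw [h1, hmT]
    exact ((IsLocalRing.local_hom_TFAE (algebraMap R₁ T)).out 0 4).mp ‹_›
  obtain ⟨Q, hQ, hQm⟩ := Ideal.exists_ideal_over_prime_of_isIntegral_of_isDomain (S := V)
    (m.comap (algebraMap R₁[X] T[X])) (Ideal.map_le_iff_le_comap.1 hker)
  have hQ0 : Q ≠ ⊥ := by
    rintro rfl
    have h2 : RingHom.ker (algebraMap R₁ V) = maximalIdeal R₁ := by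
      rw [← hC, ← hQm]
      rw [Ideal.comap_comap, IsScalarTower.algebraMap_eq R₁ R₁[X] V]
      rfl
    exact absurd h2 (ker_lt_maximalIdeal R₁ V).ne
  have hQm' : Q = maximalIdeal V := IsLocalRing.eq_maximalIdeal (hQ.isMaximal hQ0)
  rw [← hQm, hQm']

omit [IsRegularLocalRing T] in
theorem isLocalHom_localization [IsLocalRing T] (m : Ideal T[X]) [hmp : m.IsPrime]
    (hmT : m.comap C = maximalIdeal T) :
    IsLocalHom (algebraMap T (Localization.AtPrime m)) := by
  constructor
  intro a ha
  by_contra hcon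
  have h1 : a ∈ maximalIdeal T := hcon
  rw [← hmT, Ideal.mem_comap] at h1
  rw [IsScalarTower.algebraMap_apply T T[X] (Localization.AtPrime m)] at ha
  have h2 := (IsLocalization.AtPrime.isUnit_to_map_iff (Localization.AtPrime m) m
    (algebraMap T T[X] a)).1 ha
  exact h2 h1

/-- All data at one maximal ideal of `T[X]`. -/
theorem per_max (h1 : ringKrullDim R₁ = r₁) (h2 : ringKrullDim R₂ = r₂)
    (ht : ringKrullDim T = t) (hb : r₁ + r₂ = t + b) (G : Type u) [AddCommGroup G] [Module R₂ G]
    [Module.Finite R₂ G] (n : ℕ) (IH : StepHyp R₂ V G r₂ b n)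
    (hlen : Module.length R₁ (V ⧸ LinearMap.range (Algebra.linearMap R₁ V)) ≤ ((n + 1 : ℕ) : ℕ∞))
    (hw : algebraMap R₁[X] V X ∉ LinearMap.range (Algebra.linearMap R₁ V))
    (hFP : FP R₁ R₂ T V G) (m : Ideal T[X]) [hmm : m.IsMaximal]
    (hmT : m.comap C = maximalIdeal T)
    (hker : (RingHom.ker (algebraMap R₁[X] V)).map (algebraMap R₁[X] T[X]) ≤ m) :
    (∀ g : ℕ, (g : WithBot ℕ∞) ≤ Module.supportDim R₂ G → 1 + g ≤ b) ∧
    0 ≤ eulerTor (Localization.AtPrime m) (t + 1 + 1)
      (Localization.AtPrime m ⊗[T[X]] (T[X] ⊗[T] (T ⊗[R₂] G)))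
      (Localization.AtPrime m ⊗[T[X]] (T[X] ⊗[R₁[X]] V)) ∧
    (∀ g : ℕ, (g : WithBot ℕ∞) ≤ Module.supportDim R₂ G → b ≤ 1 + g →
      0 < eulerTor (Localization.AtPrime m) (t + 1 + 1)
      (Localization.AtPrime m ⊗[T[X]] (T[X] ⊗[T] (T ⊗[R₂] G)))
      (Localization.AtPrime m ⊗[T[X]] (T[X] ⊗[R₁[X]] V))) ∧
    ((∀ g : ℕ, (g : WithBot ℕ∞) ≤ Module.supportDim R₂ G → 1 + g < b) →
      eulerTor (Localization.AtPrime m) (t + 1 + 1)
      (Localization.AtPrime m ⊗[T[X]] (T[X] ⊗[T] (T ⊗[R₂] G)))
      (Localization.AtPrime m ⊗[T[X]] (T[X] ⊗[R₁[X]] V)) = 0) := by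
  have hint := isIntegral_poly (R₁ := R₁) (V := V)
  have hMmax := comap_poly_isMaximal (R₁ := R₁) (V := V)
  have hMC := comap_C_comap_poly (R₁ := R₁) (V := V)
  have hcm := comap_eq_of_ker_le (R₁ := R₁) (V := V) m hmT hker
  set M : Ideal R₁[X] := (maximalIdeal V).comap (algebraMap R₁[X] V) with hM
  -- the ring `R''`
  have iR : IsRegularLocalRing (Localization.AtPrime M) :=
    Polynomial.isRegularLocalRing_localization_atPrime_of_comap_eq_maximalIdeal R₁ M hMC
  have dR := ringKrullDim_localization_polynomial h1 M hMC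
  have hunit : ∀ y : M.primeCompl, IsUnit (algebraMap R₁[X] V y) := by
    rintro ⟨y, hy⟩
    by_contra hcon
    exact hy hcon
  let aV : Algebra (Localization.AtPrime M) V :=
    (IsLocalization.lift (M := M.primeCompl) (g := algebraMap R₁[X] V) hunit).toAlgebra
  have sV : IsScalarTower R₁[X] (Localization.AtPrime M) V :=
    IsScalarTower.of_algebraMap_eq fun x => (IsLocalization.lift_eq hunit x).symm
  have sV' : IsScalarTower R₁ (Localization.AtPrime M) V :=
    IsScalarTower.of_algebraMap_eq fun x => by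
      rw [IsScalarTower.algebraMap_apply R₁ R₁[X] (Localization.AtPrime M),
        ← IsScalarTower.algebraMap_apply R₁[X] (Localization.AtPrime M) V,
        ← IsScalarTower.algebraMap_apply R₁ R₁[X] V]
  have fV : Module.Finite (Localization.AtPrime M) V :=
    Module.Finite.of_restrictScalars_finite R₁ (Localization.AtPrime M) V
  -- the ring `L`
  have iL : IsRegularLocalRing (Localization.AtPrime m) :=
    Polynomial.isRegularLocalRing_localization_atPrime_of_comap_eq_maximalIdeal T m hmT
  have dL := ringKrullDim_localization_polynomial ht m hmT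
  let aL : Algebra (Localization.AtPrime M) (Localization.AtPrime m) :=
    (Localization.localRingHom M m (algebraMap R₁[X] T[X]) hcm).toAlgebra
  have sL : IsScalarTower R₁[X] (Localization.AtPrime M) (Localization.AtPrime m) :=
    IsScalarTower.of_algebraMap_eq fun x => by
      rw [IsScalarTower.algebraMap_apply R₁[X] T[X] (Localization.AtPrime m)]
      exact (Localization.localRingHom_to_map M m (algebraMap R₁[X] T[X]) hcm x).symm
  have hlocL : IsLocalHom (algebraMap (Localization.AtPrime M) (Localization.AtPrime m)) :=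
    Localization.isLocalHom_localRingHom M m (algebraMap R₁[X] T[X]) hcm
  have fl1 : Module.Flat R₁[X] T[X] :=
    Module.Flat.isBaseChange R₁ R₁[X] T T[X] (Algebra.IsPushout.out (R := R₁) (S := R₁[X])
      (R' := T) (S' := T[X]))
  have fl2 : Module.Flat T[X] (Localization.AtPrime m) := IsLocalization.flat _ m.primeCompl
  have fl3 : Module.Flat R₁[X] (Localization.AtPrime m) := Module.Flat.trans R₁[X] T[X] _
  have fl4 : Module.Flat (Localization.AtPrime M) (Localization.AtPrime m) :=
    (Module.flat_iff_of_isLocalization (Localization.AtPrime M) M.primeCompl _).2 fl3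
  have hlocT := isLocalHom_localization m hmT
  have flT : Module.Flat T (Localization.AtPrime m) := Module.Flat.trans T T[X] _
  have sT2 : IsScalarTower R₂ T (Localization.AtPrime m) :=
    IsScalarTower.of_algebraMap_eq fun x => by
      rw [IsScalarTower.algebraMap_apply R₂ T[X] (Localization.AtPrime m),
        IsScalarTower.algebraMap_apply T T[X] (Localization.AtPrime m),
        IsScalarTower.algebraMap_apply R₂ T T[X]]
  have fl5 : Module.Flat R₂ (Localization.AtPrime m) := Module.Flat.trans R₂ T _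
  have hloc2 : IsLocalHom (algebraMap R₂ (Localization.AtPrime m)) := by
    rw [IsScalarTower.algebraMap_eq R₂ T (Localization.AtPrime m)]
    infer_instance
  -- compatibility of the maps
  have hc1 : ∀ a : R₁[X], algebraMap (Localization.AtPrime M) (Localization.AtPrime m)
      (algebraMap R₁[X] (Localization.AtPrime M) a) =
      algebraMap T[X] (Localization.AtPrime m) (algebraMap R₁[X] T[X] a) := by
    intro a
    rw [← IsScalarTower.algebraMap_apply R₁[X] (Localization.AtPrime M) (Localization.AtPrime m),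
      IsScalarTower.algebraMap_apply R₁[X] T[X] (Localization.AtPrime m)]
  have hc2 : ∀ a : R₁, algebraMap (Localization.AtPrime M) (Localization.AtPrime m)
      (algebraMap R₁ (Localization.AtPrime M) a) =
      algebraMap T[X] (Localization.AtPrime m) (C (algebraMap R₁ T a)) := by
    intro a
    rw [IsScalarTower.algebraMap_apply R₁ R₁[X] (Localization.AtPrime M), hc1]
    congr 1
    simp
  -- the finiteness condition
  have hFP' : FP (Localization.AtPrime M) R₂ (Localization.AtPrime m) V G := by
    unfold FP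
    rw [Ideal.radical_eq_sInf]
    refine le_sInf ?_
    rintro q ⟨hJq, hq⟩
    have hq' : (q.comap (algebraMap T[X] (Localization.AtPrime m))).IsPrime :=
      Ideal.comap_isPrime _ _
    have hq'm : q.comap (algebraMap T[X] (Localization.AtPrime m)) ≤ m := by
      have h3 : (maximalIdeal (Localization.AtPrime m)).comap
          (algebraMap T[X] (Localization.AtPrime m)) = m := Localization.AtPrime.under_maximalIdeal
      exact (Ideal.comap_mono (le_maximalIdeal hq.ne_top)).trans h3.le
    have hq'C : maximalIdeal T ≤ (q.comap (algebraMap T[X] (Localization.AtPrime m))).comap C := by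
      refine hFP.trans ?_
      rw [(Ideal.comap_isPrime C
        (q.comap (algebraMap T[X] (Localization.AtPrime m)))).radical_le_iff]
      apply sup_le
      · rw [Ideal.map_le_iff_le_comap]
        intro a ha
        change algebraMap T[X] (Localization.AtPrime m) (C (algebraMap R₁ T a)) ∈ q
        rw [← hc2]
        apply hJq
        apply Ideal.mem_sup_left
        apply Ideal.mem_map_of_mem
        rw [Module.mem_annihilator] at ha ⊢
        intro v
        rw [algebraMap_smul]
        exact ha v
      · rw [Ideal.map_le_iff_le_comap]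
        intro a ha
        change algebraMap T[X] (Localization.AtPrime m) (algebraMap T T[X] (algebraMap R₂ T a)) ∈ q
        rw [← IsScalarTower.algebraMap_apply T T[X] (Localization.AtPrime m),
          ← IsScalarTower.algebraMap_apply R₂ T (Localization.AtPrime m)]
        apply hJq
        apply Ideal.mem_sup_right
        exact Ideal.mem_map_of_mem _ ha
    obtain ⟨g, hg, hg0⟩ := exists_monic_ker (R₁ := R₁) (V := V)
    have hgq : g.map (algebraMap R₁ T) ∈ q.comap (algebraMap T[X] (Localization.AtPrime m)) := by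
      change algebraMap T[X] (Localization.AtPrime m) (algebraMap R₁[X] T[X] g) ∈ q
      rw [← hc1]
      apply hJq
      apply Ideal.mem_sup_left
      apply Ideal.mem_map_of_mem
      rw [Module.mem_annihilator]
      intro v
      rw [algebraMap_smul, Algebra.smul_def, hg0, zero_mul]
    have hqmax := isMaximal_of_monic_mem _ _ (hg.map _) hgq hq'C
    have hqm := hqmax.eq_of_le hmm.ne_top hq'm
    rw [← Localization.AtPrime.map_eq_maximalIdeal, Ideal.map_le_iff_le_comap, hqm]
  -- the length
  have hlen' : Module.length (Localization.AtPrime M)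
      (V ⧸ LinearMap.range (Algebra.linearMap (Localization.AtPrime M) V)) ≤ (n : ℕ∞) := by
    set W := LinearMap.range (Algebra.linearMap (Localization.AtPrime M) V) with hW
    set W₁ := LinearMap.range (Algebra.linearMap R₁ V) with hW₁
    have hle : Module.length (Localization.AtPrime M) (V ⧸ W) ≤ Module.length R₁ (V ⧸ W) := by
      have h3 := Submodule.length_le_length_restrictScalars R₁
        (⊤ : Submodule (Localization.AtPrime M) (V ⧸ W))
      rw [Submodule.restrictScalars_top, Module.length_top, Module.length_top] at h3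
      exact h3
    let f : (V ⧸ W₁) →ₗ[R₁] (V ⧸ W) := Submodule.liftQ W₁ (W.mkQ.restrictScalars R₁) (by
      rintro _ ⟨a, rfl⟩
      change W.mkQ (Algebra.linearMap R₁ V a) = 0
      rw [Submodule.mkQ_apply, Submodule.Quotient.mk_eq_zero]
      refine ⟨algebraMap R₁ (Localization.AtPrime M) a, ?_⟩
      change algebraMap (Localization.AtPrime M) V (algebraMap R₁ (Localization.AtPrime M) a) = _
      rw [← IsScalarTower.algebraMap_apply R₁ (Localization.AtPrime M) V]
      rfl)
    have hf : Surjective f := by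
      intro x
      obtain ⟨v, rfl⟩ := Submodule.mkQ_surjective _ x
      exact ⟨Submodule.Quotient.mk v, rfl⟩
    have hkerf : LinearMap.ker f ≠ ⊥ := by
      intro hbot
      apply hw
      have h3 : (Submodule.Quotient.mk (algebraMap R₁[X] V X) : V ⧸ W₁) ∈ LinearMap.ker f := by
        change W.mkQ (algebraMap R₁[X] V X) = 0
        rw [Submodule.mkQ_apply, Submodule.Quotient.mk_eq_zero]
        refine ⟨algebraMap R₁[X] (Localization.AtPrime M) X, ?_⟩
        change algebraMap (Localization.AtPrime M) V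
          (algebraMap R₁[X] (Localization.AtPrime M) X) = _
        rw [← IsScalarTower.algebraMap_apply R₁[X] (Localization.AtPrime M) V]
      rw [hbot, Submodule.mem_bot, Submodule.Quotient.mk_eq_zero] at h3
      exact h3
    have hne : Module.length R₁ (V ⧸ W₁) ≠ ⊤ := fun h3 => by
      rw [h3] at hlen
      exact absurd hlen (not_le_of_gt (ENat.natCast_lt_top _))
    have h4 := Module.length_ne_top_iff.1 hne
    rw [isFiniteLength_iff_isNoetherian_isArtinian] at h4
    obtain ⟨h5, h6⟩ := h4
    have h7 := Submodule.length_quotient_lt (LinearMap.ker f) hkerf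
    rw [(f.quotKerEquivOfSurjective hf).length_eq] at h7
    have h8 := (hle.trans_lt h7).trans_le hlen
    have h9 : ((n + 1 : ℕ) : ℕ∞) = (n : ℕ∞) + 1 := by push_cast; rfl
    rw [h9] at h8
    exact (ENat.lt_add_one_iff (ENat.natCast_ne_top n)).1 h8
  have hpos := IH (Localization.AtPrime M) (Localization.AtPrime m) (r₁ + 1) (t + 1) dR dL
    (by omega) hlen' hFP'
  have hdimV := supportDim_dvr (Localization.AtPrime M) V
  -- identification of the modules
  have eG : (Localization.AtPrime m ⊗[T[X]] (T[X] ⊗[T] (T ⊗[R₂] G))) ≃ₗ[Localization.AtPrime m]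
      (Localization.AtPrime m ⊗[R₂] G) :=
    AlgebraTensorModule.cancelBaseChange T T[X] (Localization.AtPrime m)
      (Localization.AtPrime m) (T ⊗[R₂] G) ≪≫ₗ
    AlgebraTensorModule.cancelBaseChange R₂ T (Localization.AtPrime m) (Localization.AtPrime m) G
  have eV1 : V ≃ₗ[Localization.AtPrime M] (Localization.AtPrime M ⊗[R₁[X]] V) := by
    have h3 : IsLocalizedModule M.primeCompl (LinearMap.id : V →ₗ[R₁[X]] V) :=
      isLocalizedModule_id M.primeCompl (M := V) (Localization.AtPrime M)
    have h4 : IsBaseChange (Localization.AtPrime M) (LinearMap.id : V →ₗ[R₁[X]] V) :=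
      (isLocalizedModule_iff_isBaseChange M.primeCompl (Localization.AtPrime M) _).1 h3
    exact h4.equiv.symm
  have eV : (Localization.AtPrime m ⊗[T[X]] (T[X] ⊗[R₁[X]] V)) ≃ₗ[Localization.AtPrime m]
      (Localization.AtPrime m ⊗[Localization.AtPrime M] V) :=
    AlgebraTensorModule.cancelBaseChange R₁[X] T[X] (Localization.AtPrime m)
      (Localization.AtPrime m) V ≪≫ₗ
    (AlgebraTensorModule.cancelBaseChange R₁[X] (Localization.AtPrime M) (Localization.AtPrime m)
      (Localization.AtPrime m) V).symm ≪≫ₗ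
    (AlgebraTensorModule.congr (LinearEquiv.refl _ _) eV1).symm
  have hchi : eulerTor (Localization.AtPrime m) (t + 1 + 1)
      (Localization.AtPrime m ⊗[T[X]] (T[X] ⊗[T] (T ⊗[R₂] G)))
      (Localization.AtPrime m ⊗[T[X]] (T[X] ⊗[R₁[X]] V)) =
      chi (Localization.AtPrime M) R₂ (Localization.AtPrime m) (t + 1) V G := by
    refine (eulerTor_congr (T := Localization.AtPrime m)
      (X := Localization.AtPrime m ⊗[T[X]] (T[X] ⊗[T] (T ⊗[R₂] G)))
      (X' := Localization.AtPrime m ⊗[R₂] G)
      (Y := Localization.AtPrime m ⊗[T[X]] (T[X] ⊗[R₁[X]] V))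
      (Y' := Localization.AtPrime m ⊗[Localization.AtPrime M] V) eG eV (t + 1 + 1)).trans ?_
    exact eulerTor_symm _ _ _
  rw [hchi]
  have hone : ((1 : ℕ) : WithBot ℕ∞) ≤ Module.supportDim (Localization.AtPrime M) V := hdimV.ge
  refine ⟨fun g hg => hpos.dim_le 1 g hone hg, hpos.nonneg, fun g hg hbg =>
    hpos.pos 1 g hone hg hbg, fun hh => hpos.zero fun e g he hg => ?_⟩
  rw [hdimV] at he
  have he' : e ≤ 1 := by exact_mod_cast he
  have := hh g hg
  omega

end

end Vale.Agent.P177
end

section

/-!
Serre's statements for finite modules which are discrete valuation rings.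
-/

namespace Vale.Agent.P177

open CategoryTheory TensorProduct Function IsLocalRing RingTheory.Sequence Pointwise Polynomial

universe u

attribute [local instance] Polynomial.algebra

theorem subsingleton_localization_of_smul {B : Type u} [CommRing B] (m : Ideal B) [m.IsPrime]
    (M : Type u) [AddCommGroup M] [Module B M] (b : B) (hb : b ∉ m) (h : ∀ x : M, b • x = 0) :
    Subsingleton (Localization.AtPrime m ⊗[B] M) := by
  refine subsingleton_of_forall_eq 0 fun x => ?_
  induction x using TensorProduct.induction_on with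
  | zero => rfl
  | tmul l x =>
    have hu := IsLocalization.map_units (Localization.AtPrime m) (⟨b, hb⟩ : m.primeCompl)
    obtain ⟨c, hc⟩ := hu.exists_left_inv
    have h1 : l = b • (c * l) := by
      rw [Algebra.smul_def, ← mul_assoc, mul_comm (algebraMap B _ b), hc, one_mul]
    rw [h1, TensorProduct.smul_tmul, h, TensorProduct.tmul_zero]
  | add x y hx hy => rw [hx, hy, add_zero]

section

variable {R₁ R₂ T V : Type u} [CommRing R₁] [CommRing R₂] [CommRing T] [CommRing V]
  [IsRegularLocalRing R₁] [IsRegularLocalRing R₂] [IsRegularLocalRing T]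
  [Algebra R₁ T] [Algebra R₂ T] [Module.Flat R₁ T] [Module.Flat R₂ T]
  [IsLocalHom (algebraMap R₁ T)] [IsLocalHom (algebraMap R₂ T)] {r₁ r₂ t b : ℕ}
  [IsDomain V] [IsDiscreteValuationRing V] [Algebra R₁ V] [Module.Finite R₁ V]

theorem pos_of_surjective (h1 : ringKrullDim R₁ = r₁) (h2 : ringKrullDim R₂ = r₂)
    (ht : ringKrullDim T = t) (hb : r₁ + r₂ = t + b) (G : Type u) [AddCommGroup G] [Module R₂ G]
    [Module.Finite R₂ G] (hs : Surjective (algebraMap R₁ V)) (hFP : FP R₁ R₂ T V G) :
    Pos R₁ R₂ T t b V G := by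
  obtain ⟨zs, hzs, hreg, hker⟩ := exists_regular_ker V r₁ R₁ (algebraMap R₁ V) hs h1
  have e : (R₁ ⧸ (Ideal.ofList zs • ⊤ : Submodule R₁ R₁)) ≃ₗ[R₁] V :=
    Submodule.quotEquivOfEq _ _ (by
      rw [smul_eq_mul, Ideal.mul_top, hker]
      rfl) ≪≫ₗ
    (Algebra.linearMap R₁ V).quotKerEquivOfSurjective hs
  exact (pos_ci h1 h2 ht hb zs hzs hreg G (hFP.mono e.symm.annihilator_eq.le le_rfl)).congr e
    (LinearEquiv.refl _ _)

/-- The set of maximal ideals of `T[X]` which occur. -/
theorem finite_maximal [Algebra R₁[X] V] [IsScalarTower R₁ R₁[X] V] :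
    {m : MaximalSpectrum T[X] | (maximalIdeal T).map C ⊔
      (RingHom.ker (algebraMap R₁[X] V)).map (algebraMap R₁[X] T[X]) ≤ m.asIdeal}.Finite := by
  obtain ⟨g, hg, hg0⟩ := exists_monic_ker (R₁ := R₁) (V := V)
  set I : Ideal T[X] := (maximalIdeal T).map C ⊔
      (RingHom.ker (algebraMap R₁[X] V)).map (algebraMap R₁[X] T[X]) with hI
  have hfin := Ideal.finite_minimalPrimes_of_isNoetherianRing T[X] I
  refine (hfin.preimage (f := fun m : MaximalSpectrum T[X] => m.asIdeal)
    (fun a _ b _ hab => MaximalSpectrum.ext hab)).subset ?_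
  intro m hm
  refine ⟨⟨m.isMaximal.isPrime, hm⟩, ?_⟩
  rintro q ⟨hq, hIq⟩ hqm
  have hmax : q.IsMaximal := isMaximal_of_monic_mem q (g.map (algebraMap R₁ T)) (hg.map _)
    (hIq (Ideal.mem_sup_right (Ideal.mem_map_of_mem (algebraMap R₁[X] T[X]) hg0)))
    (Ideal.map_le_iff_le_comap.1 (le_sup_left.trans hIq))
  exact (hmax.eq_of_le m.isMaximal.ne_top hqm).ge

omit [IsRegularLocalRing R₁] [IsRegularLocalRing T] [Module.Flat R₁ T] in
theorem exists_maximal_mem [IsLocalRing T] [IsLocalRing R₁] [Module.Flat R₁ T]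
    [Algebra R₁[X] V] [IsScalarTower R₁ R₁[X] V] :
    ∃ m : MaximalSpectrum T[X], (maximalIdeal T).map C ⊔
      (RingHom.ker (algebraMap R₁[X] V)).map (algebraMap R₁[X] T[X]) ≤ m.asIdeal := by
  have hff : Module.FaithfullyFlat R₁ T := Module.FaithfullyFlat.of_flat_of_isLocalHom
  have hnt : Nontrivial (T ⊗[R₁] V) := by
    rw [Module.FaithfullyFlat.nontrivial_tensorProduct_iff_right]
    infer_instance
  obtain ⟨n, hn⟩ := Ideal.exists_maximal (T ⊗[R₁] V)
  let φ : T[X] →ₐ[T] (T ⊗[R₁] V) := aeval ((1 : T) ⊗ₜ[R₁] (algebraMap R₁[X] V X))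
  have hφC : φ.toRingHom.comp C = algebraMap T (T ⊗[R₁] V) := by
    ext x
    exact φ.commutes x
  have hint : φ.toRingHom.IsIntegral := by
    refine RingHom.IsIntegral.tower_top C φ.toRingHom ?_
    rw [hφC]
    exact Algebra.IsIntegral.isIntegral
  have hmax : (n.comap φ.toRingHom).IsMaximal :=
    Ideal.isMaximal_comap_of_isIntegral_of_isMaximal' _ hint n
  refine ⟨⟨n.comap φ.toRingHom, hmax⟩, sup_le ?_ ?_⟩
  · rw [Ideal.map_le_iff_le_comap]
    change maximalIdeal T ≤ (n.comap φ.toRingHom).comap C
    rw [Ideal.comap_comap, hφC]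
    have h3 : (n.comap (algebraMap T (T ⊗[R₁] V))).IsMaximal :=
      Ideal.isMaximal_comap_of_isIntegral_of_isMaximal n
    rw [IsLocalRing.eq_maximalIdeal h3]
  · rw [Ideal.map_le_iff_le_comap]
    intro h hh
    change φ (h.map (algebraMap R₁ T)) ∈ n
    have h4 : φ (h.map (algebraMap R₁ T)) = 0 := by
      rw [aeval_map_algebraMap]
      have h5 : ((1 : T) ⊗ₜ[R₁] (algebraMap R₁[X] V X)) =
          (Algebra.TensorProduct.includeRight : V →ₐ[R₁] T ⊗[R₁] V) (algebraMap R₁[X] V X) := rfl
      rw [h5, aeval_algHom_apply]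
      have h6 : aeval (algebraMap R₁[X] V X) h = algebraMap R₁[X] V h := by
        have h2 : (IsScalarTower.toAlgHom R₁ R₁[X] V) = aeval (algebraMap R₁[X] V X) := by
          ext
          simp
        exact (DFunLike.congr_fun h2 h).symm
      rw [h6, (RingHom.mem_ker).1 hh, map_zero]
    rw [h4]
    exact n.zero_mem

/-- The inductive step. -/
theorem pos_step (h1 : ringKrullDim R₁ = r₁) (h2 : ringKrullDim R₂ = r₂)
    (ht : ringKrullDim T = t) (hb : r₁ + r₂ = t + b) (G : Type u) [AddCommGroup G] [Module R₂ G]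
    [Module.Finite R₂ G] (n : ℕ) (IH : StepHyp R₂ V G r₂ b n)
    (hlen : Module.length R₁ (V ⧸ LinearMap.range (Algebra.linearMap R₁ V)) ≤ ((n + 1 : ℕ) : ℕ∞))
    (w : V) (hw : w ∉ LinearMap.range (Algebra.linearMap R₁ V)) (hFP : FP R₁ R₂ T V G) :
    Pos R₁ R₂ T t b V G := by
  let aV : Algebra R₁[X] V := (aeval (R := R₁) w).toRingHom.toAlgebra
  have sV : IsScalarTower R₁ R₁[X] V := IsScalarTower.of_algebraMap_eq fun x =>
    ((aeval (R := R₁) w).commutes x).symm
  have hwX : algebraMap R₁[X] V X = w := aeval_X w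
  have hfin := finite_maximal (R₁ := R₁) (T := T) (V := V)
  set S : Finset (MaximalSpectrum T[X]) := hfin.toFinset with hS
  have hmemS : ∀ m, m ∈ S ↔ (maximalIdeal T).map C ⊔
      (RingHom.ker (algebraMap R₁[X] V)).map (algebraMap R₁[X] T[X]) ≤ m.asIdeal := by
    intro m
    rw [hS, Set.Finite.mem_toFinset]
    rfl
  have hSvan : ∀ m : MaximalSpectrum T[X], m ∉ S → ∀ j,
      Subsingleton (Localization.AtPrime m.asIdeal ⊗[T[X]]
        TorM T[X] j (T[X] ⊗[T] (T ⊗[R₂] G)) (T[X] ⊗[R₁[X]] V)) := by
    intro m hm j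
    have hmm := m.isMaximal
    rw [hmemS, sup_le_iff, not_and_or] at hm
    rcases hm with hm | hm
    · rw [Ideal.map_le_iff_le_comap, SetLike.not_le_iff_exists] at hm
      obtain ⟨a, ha, ham⟩ := hm
      obtain ⟨M', _, _, _, _, ⟨e1⟩, ⟨e2⟩, -⟩ := exists_tor_transfer (R₁ := R₁) (T := T)
        (B₁ := R₁[X]) (B := T[X]) V (T ⊗[R₂] G) j
      have hFL := hFP.symm.fl2.tor j
      unfold FL at hFL
      rw [Ideal.ofList_nil, sup_bot_eq] at hFL
      obtain ⟨N, hN⟩ := hFL ha
      rw [Module.mem_annihilator] at hN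
      have h3 : Subsingleton (Localization.AtPrime m.asIdeal ⊗[T[X]] M') := by
        refine subsingleton_localization_of_smul m.asIdeal M' ((C a) ^ N)
          (fun hcon => ham (hmm.isPrime.mem_of_pow_mem N hcon)) (fun x => ?_)
        have h4 : (C a ^ N : T[X]) = algebraMap T T[X] (a ^ N) := by
          rw [map_pow]
          rfl
        rw [h4, algebraMap_smul]
        obtain ⟨y, rfl⟩ := e1.surjective x
        rw [← map_smul, hN y, map_zero]
      exact (e2.baseChange T[X] (Localization.AtPrime m.asIdeal) _ _).toEquiv.subsingleton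
    · rw [Ideal.map_le_iff_le_comap, SetLike.not_le_iff_exists] at hm
      obtain ⟨h, hh, hhm⟩ := hm
      refine subsingleton_localization_of_smul m.asIdeal _ (algebraMap R₁[X] T[X] h) hhm
        (fun x => ?_)
      refine tor_smul_eq_zero_right (R := T[X]) (algebraMap R₁[X] T[X] h) (fun y => ?_) j _ x
      induction y using TensorProduct.induction_on with
      | zero => exact smul_zero _
      | tmul p v =>
        rw [algebraMap_smul, TensorProduct.smul_tmul', TensorProduct.smul_tmul, Algebra.smul_def,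
          (RingHom.mem_ker).1 hh, zero_mul, TensorProduct.tmul_zero]
      | add x y hx hy => rw [smul_add, hx, hy, add_zero]
  have hsum := eulerTor_eq_sum (R₁ := R₁) (T := T) (B₁ := R₁[X]) (B := T[X]) V (T ⊗[R₂] G)
    (fun j => hFP.symm.length_ne_top j) S hSvan (t + 1 + 1)
  have hchi : chi R₁ R₂ T t V G = eulerTor T (t + 1 + 1) (T ⊗[R₂] G) (T ⊗[R₁] V) := by
    rw [eulerTor_of_vanish _ _ (t + 1) (t + 1 + 1) (by omega) (fun j hj =>
      regular_tor_vanish T t ht _ _ j hj)]
    exact eulerTor_symm _ _ _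
  rw [hsum] at hchi
  have hper : ∀ m : MaximalSpectrum T[X], m ∈ S →
      (∀ g : ℕ, (g : WithBot ℕ∞) ≤ Module.supportDim R₂ G → 1 + g ≤ b) ∧
      0 ≤ eulerTor (Localization.AtPrime m.asIdeal) (t + 1 + 1)
        (Localization.AtPrime m.asIdeal ⊗[T[X]] (T[X] ⊗[T] (T ⊗[R₂] G)))
        (Localization.AtPrime m.asIdeal ⊗[T[X]] (T[X] ⊗[R₁[X]] V)) ∧
      (∀ g : ℕ, (g : WithBot ℕ∞) ≤ Module.supportDim R₂ G → b ≤ 1 + g →
        0 < eulerTor (Localization.AtPrime m.asIdeal) (t + 1 + 1)
        (Localization.AtPrime m.asIdeal ⊗[T[X]] (T[X] ⊗[T] (T ⊗[R₂] G)))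
        (Localization.AtPrime m.asIdeal ⊗[T[X]] (T[X] ⊗[R₁[X]] V))) ∧
      ((∀ g : ℕ, (g : WithBot ℕ∞) ≤ Module.supportDim R₂ G → 1 + g < b) →
        eulerTor (Localization.AtPrime m.asIdeal) (t + 1 + 1)
        (Localization.AtPrime m.asIdeal ⊗[T[X]] (T[X] ⊗[T] (T ⊗[R₂] G)))
        (Localization.AtPrime m.asIdeal ⊗[T[X]] (T[X] ⊗[R₁[X]] V)) = 0) := fun m hm =>
    have hmm := m.isMaximal
    per_max h1 h2 ht hb G n IH hlen (by rwa [hwX]) hFP m.asIdeal
      (comap_C_eq_maximalIdeal m.asIdeal (Ideal.map_le_iff_le_comap.1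
        (le_sup_left.trans ((hmemS m).1 hm)))) (le_sup_right.trans ((hmemS m).1 hm))
  obtain ⟨m₀, hm₀⟩ := exists_maximal_mem (R₁ := R₁) (T := T) (V := V)
  rw [← hmemS] at hm₀
  have hdimV := supportDim_dvr R₁ V
  obtain ⟨g, hg, hg0⟩ := exists_monic_ker (R₁ := R₁) (V := V)
  have hc : ∀ m ∈ S, (0 : ℤ) < ((Module.length T (T[X] ⧸ m.asIdeal)).toNat : ℤ) := by
    intro m hm
    have hmm := m.isMaximal
    have h3 := length_quot_ne_top m.asIdeal (g.map (algebraMap R₁ T)) (hg.map _)
      ((hmemS m).1 hm (Ideal.mem_sup_right (Ideal.mem_map_of_mem (algebraMap R₁[X] T[X]) hg0)))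
      (Ideal.map_le_iff_le_comap.1 (le_sup_left.trans ((hmemS m).1 hm)))
    have h4 : Module.length T (T[X] ⧸ m.asIdeal) ≠ 0 := by
      rw [Ne, Module.length_eq_zero_iff]
      exact not_subsingleton _
    have h5 : (Module.length T (T[X] ⧸ m.asIdeal)).toNat ≠ 0 := by
      rw [Ne, ENat.toNat_eq_zero]
      exact not_or.2 ⟨h4, h3⟩
    exact_mod_cast Nat.pos_of_ne_zero h5
  refine ⟨?_, ?_, ?_, ?_⟩
  · intro e g' he hg'
    rw [hdimV] at he
    have he' : e ≤ 1 := by exact_mod_cast he
    have := (hper m₀ hm₀).1 g' hg'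
    omega
  · rw [hchi]
    exact Finset.sum_nonneg fun m hm => mul_nonneg (hc m hm).le (hper m hm).2.1
  · intro e g' he hg' hb'
    rw [hdimV] at he
    have he' : e ≤ 1 := by exact_mod_cast he
    rw [hchi]
    exact Finset.sum_pos (fun m hm => mul_pos (hc m hm)
      ((hper m hm).2.2.1 g' hg' (by omega))) ⟨m₀, hm₀⟩
  · intro hh
    rw [hchi]
    refine Finset.sum_eq_zero fun m hm => ?_
    rw [(hper m hm).2.2.2 (fun g' hg' => hh 1 g' hdimV.ge hg'), mul_zero]

end

/-- Serre's statements for discrete valuation rings finite over the first ring, such that the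
cokernel has finite length. -/
theorem stepHyp_all {R₂ V : Type u} [CommRing R₂] [IsRegularLocalRing R₂] [CommRing V]
    [IsDomain V] [IsDiscreteValuationRing V] {r₂ b : ℕ} (h2 : ringKrullDim R₂ = r₂)
    (G : Type u) [AddCommGroup G] [Module R₂ G] [Module.Finite R₂ G] (n : ℕ) :
    StepHyp R₂ V G r₂ b n := by
  induction n with
  | zero =>
    intro R₁ T _ _ _ _ _ _ _ _ _ _ _ _ r₁ t h1 ht hb hlen hFP
    refine pos_of_surjective h1 h2 ht hb G ?_ hFP
    rw [Nat.cast_zero, nonpos_iff_eq_zero, Module.length_eq_zero_iff] at hlen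
    intro v
    have h3 : (Submodule.Quotient.mk v : V ⧸ LinearMap.range (Algebra.linearMap R₁ V)) = 0 :=
      Subsingleton.elim _ _
    rw [Submodule.Quotient.mk_eq_zero] at h3
    exact h3
  | succ n ih =>
    intro R₁ T _ _ _ _ _ _ _ _ _ _ _ _ r₁ t h1 ht hb hlen hFP
    by_cases hs : Surjective (algebraMap R₁ V)
    · exact pos_of_surjective h1 h2 ht hb G hs hFP
    · have hex : ∃ w : V, w ∉ LinearMap.range (Algebra.linearMap R₁ V) := by
        by_contra hcon
        push Not at hcon
        exact hs hcon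
      obtain ⟨w, hw⟩ := hex
      exact pos_step h1 h2 ht hb G n ih hlen w hw hFP

end Vale.Agent.P177
end

section

/-!
Serre's statements for primes of coheight one when the first ring is complete.
-/

namespace Vale.Agent.P177

open CategoryTheory TensorProduct Function IsLocalRing RingTheory.Sequence Pointwise

universe u

section coheight

variable {R : Type u} [CommRing R] [IsLocalRing R]

theorem eq_maximalIdeal_of_coheight_one (P : Ideal R) [hP : P.IsPrime]
    (hPd : Module.supportDim R (R ⧸ P) = (1 : ℕ)) (q : Ideal R) [hq : q.IsPrime] (hlt : P < q) :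
    q = maximalIdeal R := by
  by_contra hne
  have hlt' : q < maximalIdeal R := lt_of_le_of_ne (le_maximalIdeal hq.ne_top) hne
  have h1 : ((0 : ℕ) : WithBot ℕ∞) ≤ Module.supportDim R (R ⧸ maximalIdeal R) := by
    unfold Module.supportDim
    have := (Module.nonempty_support_of_nontrivial (R := R)
      (M := R ⧸ maximalIdeal R)).to_subtype
    exact Order.krullDim_nonneg
  have h2 := supportDim_quotient_strict hlt' 0 h1
  have h3 := supportDim_quotient_strict hlt (0 + 1) h2
  rw [hPd] at h3
  have h4 : 0 + 1 + 1 ≤ 1 := by exact_mod_cast h3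
  omega

theorem isAdicComplete_quotient [IsNoetherianRing R] [IsAdicComplete (maximalIdeal R) R]
    (P : Ideal R) [IsLocalRing (R ⧸ P)] :
    IsAdicComplete (maximalIdeal (R ⧸ P)) (R ⧸ P) := by
  have hprec : IsPrecomplete (maximalIdeal R) (R ⧸ P) := isPrecomplete_of_finite _ _
  have hhaus : IsHausdorff (maximalIdeal R) (R ⧸ P) := inferInstance
  have hcomp : IsAdicComplete (maximalIdeal R) (R ⧸ P) := { hprec, hhaus with }
  have h1 : (maximalIdeal R).map (algebraMap R (R ⧸ P)) = maximalIdeal (R ⧸ P) :=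
    map_maximalIdeal_of_surjective _ Ideal.Quotient.mk_surjective
  rw [← h1]
  exact (IsAdicComplete.map_algebraMap_iff _ _).2 hcomp

/-- A discrete valuation ring attached to a prime of coheight one of a complete ring. -/
theorem exists_dvr_of_prime [IsNoetherianRing R] [IsAdicComplete (maximalIdeal R) R]
    (P : Ideal R) [hP : P.IsPrime] (hPd : Module.supportDim R (R ⧸ P) = (1 : ℕ)) :
    ∃ (V : Type u) (_ : CommRing V) (_ : IsDomain V) (_ : IsDiscreteValuationRing V)
      (_ : Algebra R V) (_ : Module.Finite R V) (f : (R ⧸ P) →ₗ[R] V), Injective f ∧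
      Module.supportDim R (V ⧸ LinearMap.range f) ≤ 0 ∧ P ≤ Module.annihilator R V ∧
      Module.length R (V ⧸ LinearMap.range (Algebra.linearMap R V)) ≠ ⊤ := by
  have hdom : IsDomain (R ⧸ P) := Ideal.Quotient.isDomain P
  have hloc : IsLocalRing (R ⧸ P) :=
    .of_surjective' (Ideal.Quotient.mk P) Ideal.Quotient.mk_surjective
  have hcomp := isAdicComplete_quotient P
  have hprime : ∀ q : Ideal (R ⧸ P), q.IsPrime → q ≠ ⊥ → q = maximalIdeal (R ⧸ P) := by
    intro q hq hq0
    have h1 : P < q.comap (Ideal.Quotient.mk P) := by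
      refine lt_of_le_of_ne (fun x hx => ?_) ?_
      · rw [Ideal.mem_comap, Ideal.Quotient.eq_zero_iff_mem.2 hx]
        exact q.zero_mem
      · intro heq
        apply hq0
        rw [eq_bot_iff]
        intro x hx
        obtain ⟨x, rfl⟩ := Ideal.Quotient.mk_surjective x
        have h2 : x ∈ q.comap (Ideal.Quotient.mk P) := hx
        rw [← heq] at h2
        exact Ideal.Quotient.eq_zero_iff_mem.2 h2
    have h2 := eq_maximalIdeal_of_coheight_one P hPd (q.comap (Ideal.Quotient.mk P)) h1
    have h3 : (q.comap (Ideal.Quotient.mk P)).map (Ideal.Quotient.mk P) = q :=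
      Ideal.map_comap_of_surjective _ Ideal.Quotient.mk_surjective q
    rw [← h3, h2]
    exact map_maximalIdeal_of_surjective _ Ideal.Quotient.mk_surjective
  obtain ⟨x, hx, hxP⟩ := exists_mem_notMem_of_supportDim P hPd.ge
  have hne : maximalIdeal (R ⧸ P) ≠ ⊥ := by
    intro hbot
    apply hxP
    have h1 : (maximalIdeal R).map (Ideal.Quotient.mk P) = maximalIdeal (R ⧸ P) :=
      map_maximalIdeal_of_surjective _ Ideal.Quotient.mk_surjective
    have h2 : Ideal.Quotient.mk P x ∈ maximalIdeal (R ⧸ P) := h1 ▸ Ideal.mem_map_of_mem _ hx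
    rw [hbot, Ideal.mem_bot, Ideal.Quotient.eq_zero_iff_mem] at h2
    exact h2
  obtain ⟨V, _, _, _, _, hfin, hinj, c, hc0, hc⟩ := exists_dvr (R ⧸ P) hprime hne
  let aV : Algebra R V := ((algebraMap (R ⧸ P) V).comp (Ideal.Quotient.mk P)).toAlgebra
  have sV : IsScalarTower R (R ⧸ P) V := IsScalarTower.of_algebraMap_eq fun x => rfl
  have fV : Module.Finite R V := Module.Finite.trans (R ⧸ P) V
  let f : (R ⧸ P) →ₗ[R] V := (Algebra.linearMap (R ⧸ P) V).restrictScalars R
  have hPann : P ≤ Module.annihilator R V := by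
    rw [annihilator_eq_ker]
    intro p hp
    rw [RingHom.mem_ker]
    change algebraMap (R ⧸ P) V (Ideal.Quotient.mk P p) = 0
    rw [Ideal.Quotient.eq_zero_iff_mem.2 hp, map_zero]
  have hrange : LinearMap.range f = LinearMap.range (Algebra.linearMap R V) := by
    ext v
    constructor
    · rintro ⟨a, rfl⟩
      obtain ⟨a, rfl⟩ := Ideal.Quotient.mk_surjective a
      exact ⟨a, rfl⟩
    · rintro ⟨a, rfl⟩
      exact ⟨Ideal.Quotient.mk P a, rfl⟩
  obtain ⟨c, rfl⟩ := Ideal.Quotient.mk_surjective c
  have hcP : c ∉ P := fun h => hc0 (Ideal.Quotient.eq_zero_iff_mem.2 h)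
  have hFL : FL ([] : List R) (V ⧸ LinearMap.range f) := by
    unfold FL
    rw [Ideal.ofList_nil, sup_bot_eq, Ideal.radical_eq_sInf]
    refine le_sInf ?_
    rintro q ⟨hq1, hq⟩
    have h1 : P ≤ q := (hPann.trans (LinearMap.annihilator_le_of_surjective _
      (Submodule.mkQ_surjective _))).trans hq1
    have h2 : c ∈ q := by
      apply hq1
      rw [Module.mem_annihilator]
      intro v
      obtain ⟨v, rfl⟩ := Submodule.mkQ_surjective _ v
      rw [← map_smul, Submodule.mkQ_apply, Submodule.Quotient.mk_eq_zero]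
      obtain ⟨d, hd⟩ := hc v
      refine ⟨d, ?_⟩
      rw [← algebraMap_smul (R ⧸ P) c v]
      exact hd.symm
    have h3 : P < q := lt_of_le_of_ne h1 (fun h => hcP (h ▸ h2))
    exact (eq_maximalIdeal_of_coheight_one P hPd q h3).ge
  refine ⟨V, inferInstance, inferInstance, inferInstance, aV, fV, f, hinj, ?_, hPann, ?_⟩
  · exact supportDim_le_length [] (by simp) _ hFL
  · rw [← hrange]
    exact hFL.length_ne_top

end coheight

variable {R₁ R₂ T : Type u} [CommRing R₁] [CommRing R₂] [CommRing T]
  [IsRegularLocalRing R₁] [IsRegularLocalRing R₂] [IsRegularLocalRing T]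
  [Algebra R₁ T] [Algebra R₂ T] [Module.Flat R₁ T] [Module.Flat R₂ T]
  [IsLocalHom (algebraMap R₁ T)] [IsLocalHom (algebraMap R₂ T)] {r₁ r₂ t b : ℕ}

theorem hOne_complete (h1 : ringKrullDim R₁ = r₁) (h2 : ringKrullDim R₂ = r₂)
    (ht : ringKrullDim T = t) (hb : r₁ + r₂ = t + b) [IsAdicComplete (maximalIdeal R₁) R₁] :
    HOne R₁ R₂ T t b := by
  intro P hP hPd G _ _ _ hFP
  obtain ⟨V, _, _, _, _, _, f, hf, hdim, hPann, hlen⟩ := exists_dvr_of_prime P hPd
  have hFPV : FP R₁ R₂ T V G := hFP.mono (by rwa [Ideal.annihilator_quotient]) le_rfl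
  have hposV : Pos R₁ R₂ T t b V G := stepHyp_all h2 G
    (Module.length R₁ (V ⧸ LinearMap.range (Algebra.linearMap R₁ V))).toNat R₁ T r₁ t h1 ht hb
    (ENat.natCast_toNat hlen).ge hFPV
  have hdimV := supportDim_dvr R₁ V
  have hex : Exact f (LinearMap.range f).mkQ := by
    intro x
    rw [Submodule.mkQ_apply, Submodule.Quotient.mk_eq_zero]
    rfl
  have hadd := chi_add ht f (LinearMap.range f).mkQ hf (Submodule.mkQ_surjective _) hex G hFPV
  have hq := pos_dim_zero h1 h2 ht hb G (V ⧸ LinearMap.range f) hdim (hFPV.mono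
    (LinearMap.annihilator_le_of_surjective _ (Submodule.mkQ_surjective _)) le_rfl)
  rw [hq.zero, add_zero] at hadd
  · refine ⟨?_, ?_, ?_, ?_⟩
    · rw [hPd, ← hdimV]; exact hposV.dim_le
    · rw [← hadd]; exact hposV.nonneg
    · rw [hPd, ← hdimV, ← hadd]; exact hposV.pos
    · rw [hPd, ← hdimV, ← hadd]; exact hposV.zero
  · intro e g he hg
    have h3 : (e : WithBot ℕ∞) ≤ 0 := he.trans hdim
    have h4 : e ≤ 0 := by exact_mod_cast h3
    have := hposV.dim_le 1 g hdimV.ge hg
    omega

end Vale.Agent.P177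
end

section

/-!
Serre's statements for primes of coheight one, by passing to completions.
-/

namespace Vale.Agent.P177

open CategoryTheory TensorProduct Function IsLocalRing RingTheory.Sequence Pointwise

universe u

section descend

variable {R₁ R₂ T S C : Type u} [CommRing R₁] [CommRing R₂] [CommRing T] [CommRing S] [CommRing C]
  [Algebra R₁ T] [Algebra R₂ T] [Algebra R₁ S] [Algebra S C] [Algebra T C] [Algebra R₁ C]
  [Algebra R₂ C] [IsScalarTower R₁ S C] [IsScalarTower R₁ T C] [IsScalarTower R₂ T C]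

theorem chi_descend [IsLocalRing T] [IsLocalRing C] [Module.Flat T C]
    (hloc : (maximalIdeal T).map (algebraMap T C) = maximalIdeal C) (t : ℕ) (E G : Type u)
    [AddCommGroup E] [Module R₁ E] [AddCommGroup G] [Module R₂ G] :
    chi S R₂ C t (S ⊗[R₁] E) G = chi R₁ R₂ T t E G := by
  unfold chi
  have e1 : (C ⊗[S] (S ⊗[R₁] E)) ≃ₗ[C] (C ⊗[T] (T ⊗[R₁] E)) :=
    AlgebraTensorModule.cancelBaseChange R₁ S C C E ≪≫ₗ
      (AlgebraTensorModule.cancelBaseChange R₁ T C C E).symm
  have e2 : (C ⊗[R₂] G) ≃ₗ[C] (C ⊗[T] (T ⊗[R₂] G)) :=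
    (AlgebraTensorModule.cancelBaseChange R₂ T C C G).symm
  rw [eulerTor_congr e1 e2]
  unfold eulerTor
  refine Finset.sum_congr rfl fun j _ => ?_
  rw [length_tor_bc₂ (A := T) (C := C) hloc j (TensorProduct.isBaseChange T (T ⊗[R₁] E) C)
    (TensorProduct.isBaseChange T (T ⊗[R₂] G) C)]

theorem FP.ascend [IsLocalRing T] [IsLocalRing C]
    (hloc : (maximalIdeal T).map (algebraMap T C) = maximalIdeal C) (E G : Type u)
    [AddCommGroup E] [Module R₁ E] [AddCommGroup G] [Module R₂ G] (h : FP R₁ R₂ T E G) :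
    FP S R₂ C (S ⊗[R₁] E) G := by
  unfold FP at h ⊢
  rw [← hloc]
  refine (Ideal.map_mono h).trans ((Ideal.map_radical_le _).trans (Ideal.radical_mono ?_))
  rw [Ideal.map_sup, Ideal.map_map, Ideal.map_map, ← IsScalarTower.algebraMap_eq,
    ← IsScalarTower.algebraMap_eq]
  refine sup_le_sup ?_ le_rfl
  rw [IsScalarTower.algebraMap_eq R₁ S C, ← Ideal.map_map]
  exact Ideal.map_mono (map_ann_le_tensor E)

theorem Pos.descend [IsRegularLocalRing R₁] [IsRegularLocalRing T] [IsRegularLocalRing S]
    [IsRegularLocalRing C] [Module.Flat R₁ S] [Module.Flat T C]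
    (hlocS : (maximalIdeal R₁).map (algebraMap R₁ S) = maximalIdeal S)
    (hloc : (maximalIdeal T).map (algebraMap T C) = maximalIdeal C) {r : ℕ}
    (hr : ringKrullDim R₁ = r) (hs : ringKrullDim S = r) {t b : ℕ} (E G : Type u)
    [AddCommGroup E] [Module R₁ E] [Module.Finite R₁ E] [AddCommGroup G] [Module R₂ G]
    (h : Pos S R₂ C t b (S ⊗[R₁] E) G) : Pos R₁ R₂ T t b E G := by
  have hS : IsLocalHom (algebraMap R₁ S) := isLocalHom_of_map_maximalIdeal _ _ hlocS
  have hle := supportDim_le_baseChange R₁ S hlocS E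
  have hchi := chi_descend (R₁ := R₁) (R₂ := R₂) (S := S) hloc t E G
  refine ⟨?_, ?_, ?_, ?_⟩
  · intro e g he hg
    exact h.dim_le e g (he.trans hle) hg
  · rw [← hchi]; exact h.nonneg
  · intro e g he hg hb
    rw [← hchi]
    exact h.pos e g (he.trans hle) hg hb
  · intro hh
    rw [← hchi]
    refine h.zero fun e g he hg => ?_
    obtain ⟨e', he', hee'⟩ := supportDim_baseChange_le hr hs E e he
    have := hh e' g he' hg
    omega

end descend

variable {R₁ R₂ T : Type u} [CommRing R₁] [CommRing R₂] [CommRing T]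
  [IsRegularLocalRing R₁] [IsRegularLocalRing R₂] [IsRegularLocalRing T]
  [Algebra R₁ T] [Algebra R₂ T] [Module.Flat R₁ T] [Module.Flat R₂ T]
  [IsLocalHom (algebraMap R₁ T)] [IsLocalHom (algebraMap R₂ T)] {r₁ r₂ t b : ℕ}

/-- Serre's statements when the first module has dimension at most one. -/
theorem pos_dim_le_one (h1 : ringKrullDim R₁ = r₁) (h2 : ringKrullDim R₂ = r₂)
    (ht : ringKrullDim T = t) (hb : r₁ + r₂ = t + b) (G : Type u)
    [AddCommGroup G] [Module R₂ G]
    [Module.Finite R₂ G] (E : Type u) [AddCommGroup E] [Module R₁ E] [Module.Finite R₁ E]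
    (hE : Module.supportDim R₁ E ≤ ((1 : ℕ) : WithBot ℕ∞)) (h : FP R₁ R₂ T E G) :
    Pos R₁ R₂ T t b E G := by
  obtain ⟨S, _, _, _, hflatS, hlhS, hlocS, hdimS, hcS, huniv⟩ := exists_regular_completion R₁ h1
  obtain ⟨C, _, _, _, hflatC, hlhC, hlocC, hdimC, hcC, -⟩ := exists_regular_completion T ht
  have hmap : maximalIdeal R₁ ≤ (maximalIdeal C).comap
      ((algebraMap T C).comp (algebraMap R₁ T)) := by
    intro x hx
    exact algebraMap_mem_maximalIdeal (R := T) (T := C)
      (algebraMap_mem_maximalIdeal (R := R₁) (T := T) hx)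
  obtain ⟨g, hg⟩ := huniv C (maximalIdeal C) ((algebraMap T C).comp (algebraMap R₁ T)) hmap
  let aSC : Algebra S C := g.toAlgebra
  let a1C : Algebra R₁ C := ((algebraMap T C).comp (algebraMap R₁ T)).toAlgebra
  let a2C : Algebra R₂ C := ((algebraMap T C).comp (algebraMap R₂ T)).toAlgebra
  have t1 : IsScalarTower R₁ T C := IsScalarTower.of_algebraMap_eq fun x => rfl
  have t2 : IsScalarTower R₂ T C := IsScalarTower.of_algebraMap_eq fun x => rfl
  have t3 : IsScalarTower R₁ S C := IsScalarTower.of_algebraMap_eq fun x =>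
    (RingHom.congr_fun hg x).symm
  have f1 : Module.Flat R₁ C := Module.Flat.trans R₁ T C
  have f2 : Module.Flat R₂ C := Module.Flat.trans R₂ T C
  have l2 : IsLocalHom (algebraMap R₂ C) := by
    rw [IsScalarTower.algebraMap_eq R₂ T C]
    infer_instance
  have lS : IsLocalHom (algebraMap S C) := by
    refine ((IsLocalRing.local_hom_TFAE (algebraMap S C)).out 0 2).mpr ?_
    rw [← hlocS, Ideal.map_map, ← IsScalarTower.algebraMap_eq, Ideal.map_le_iff_le_comap]
    exact hmap
  have fS : Module.Flat S C := by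
    apply flat_of_tor_residue
    have h3 := tor_subsingleton_bc (S := R₁) (B := S) 0
      (TensorProduct.isBaseChange R₁ (R₁ ⧸ maximalIdeal R₁) S) C
    have e1 : (S ⊗[R₁] (R₁ ⧸ maximalIdeal R₁)) ≃ₗ[S] (S ⧸ maximalIdeal S) :=
      (Algebra.TensorProduct.quotIdealMapEquivTensorQuot S (maximalIdeal R₁)).symm.toLinearEquiv
        ≪≫ₗ Submodule.quotEquivOfEq _ _ hlocS
    exact (torCongrLeft 1 e1 C).symm.toEquiv.subsingleton
  have hdimE : Module.supportDim S (S ⊗[R₁] E) ≤ ((1 : ℕ) : WithBot ℕ∞) := by
    by_contra hcon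
    rw [not_le] at hcon
    obtain ⟨e, he, hee⟩ := supportDim_baseChange_le h1 hdimS E _ (succ_le_of_lt_withBot hcon)
    have h4 : e ≤ 1 := by exact_mod_cast he.trans hE
    omega
  have H : HOne S R₂ C t b := hOne_complete hdimS h2 hdimC hb
  have hpos := pos_dim_one hdimS h2 hdimC hb H G (S ⊗[R₁] E) hdimE (FP.ascend hlocC E G h)
  exact Pos.descend hlocS hlocC h1 hdimS E G hpos

theorem hOne_all (h1 : ringKrullDim R₁ = r₁) (h2 : ringKrullDim R₂ = r₂)
    (ht : ringKrullDim T = t) (hb : r₁ + r₂ = t + b) : HOne R₁ R₂ T t b :=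
  fun P _ hPd G _ _ _ hFP => pos_dim_le_one h1 h2 ht hb G (R₁ ⧸ P) hPd.le hFP

end Vale.Agent.P177
end

section

/-!
The local positivity statement for `dim R₁ + dim R₂ - dim T ≤ 4`.
-/

namespace Vale.Agent.P177

open TensorProduct IsLocalRing

universe u

/-- The local positivity statement for `b ≤ 4`. -/
theorem locPos_four : LocPos.{u} 4 := by
  intro R₁ R₂ T _ _ _ _ _ _ _ _ _ _ _ _ r₁ r₂ t b h1 h2 ht hb hb4 E G _ _ _ _ _ _ hFP
  have H := hOne_all (R₁ := R₁) (R₂ := R₂) (T := T) h1 h2 ht hb
  have H' := hOne_all (R₁ := R₂) (R₂ := R₁) (T := T) h2 h1 ht (by omega : r₂ + r₁ = t + b)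
  have hpos := pos_of_hOne h1 h2 ht hb hb4 H H' E G hFP
  exact ⟨hpos.dim_le, hpos.nonneg, hpos.pos⟩

end Vale.Agent.P177
end

section

/-!
Nonnegativity at the points of a chart.
-/

namespace Vale.Agent.P177

open IsLocalRing Function TensorProduct

universe u

section pair

variable {R₁ R₂ T : Type u} [CommRing R₁] [CommRing R₂] [CommRing T]
    [IsRegularLocalRing R₁] [IsRegularLocalRing R₂] [IsRegularLocalRing T]
    [Algebra R₁ T] [Algebra R₂ T] [Module.Flat R₁ T] [Module.Flat R₂ T]
    [IsLocalHom (algebraMap R₁ T)] [IsLocalHom (algebraMap R₂ T)]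

omit [IsRegularLocalRing T] in
theorem tor_subsingleton_left (i : ℕ) (X Y : Type u) [AddCommGroup X] [Module T X]
    [AddCommGroup Y] [Module T Y] [Subsingleton X] : Subsingleton (TorM T i X Y) := by
  cases i with
  | zero => exact (torZero X Y).toEquiv.subsingleton
  | succ i =>
    have : Module.Flat T X := inferInstance
    exact tor_subsingleton_of_flat i

end pair

end Vale.Agent.P177
end

section

/-!
Nonnegativity at the points of a chart, for strict transforms.
-/

namespace Vale.Agent.P177

open IsLocalRing Function TensorProduct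

universe u

section side

variable {R : Type u} [CommRing R] [IsRegularLocalRing R] {d : ℕ} {x' : Fin d → R}

end side

section transfer

theorem eulerTor_left_zero {C : Type u} [CommRing C] (n : ℕ) (X Y : Type u)
    [AddCommGroup X] [Module C X] [AddCommGroup Y] [Module C Y] (hX : Subsingleton X) :
    eulerTor C n X Y = 0 := by
  unfold eulerTor
  refine Finset.sum_eq_zero fun j _ => ?_
  have h0 : Subsingleton (TorM C j X Y) := tor_subsingleton_left (T := C) j X Y
  rw [Module.length_eq_zero]
  simp

end transfer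

section height

variable {K : Type u} [Field K] {d : ℕ}

end height

section forms

variable {R : Type u} [CommRing R] [IsLocalRing R] {d : ℕ}

end forms

section main

variable {R₁ R₂ A : Type u} [CommRing R₁] [CommRing R₂] [CommRing A]
  [IsRegularLocalRing R₁] [IsRegularLocalRing R₂] [IsRegularLocalRing A]
  [Algebra R₁ A] [Algebra R₂ A]
  [IsLocalHom (algebraMap R₁ A)] [IsLocalHom (algebraMap R₂ A)] {d : ℕ}

end main

end Vale.Agent.P177
end

section

/-!
P177, LIFT (L5): compatibility of `S = W[[x]] → R` with the polynomials over `Λ`.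
-/

namespace Vale.Agent.P177.Lf

open Polynomial IsLocalRing

/-- every power series is a polynomial plus an element of `(x_1 ^ N, .., x_n ^ N)`. -/
theorem exists_trunc {W : Type*} [CommRing W] [IsNoetherianRing W] {n : ℕ} (N : ℕ)
    (g : MvPowerSeries (Fin n) W) : ∃ (P : MvPolynomial (Fin n) W)
      (q : Fin n → MvPowerSeries (Fin n) W),
      g = P + ∑ l, MvPowerSeries.X l ^ N * q l := by
  obtain ⟨P, q, h⟩ := wdiv (⊥ : Ideal W) (fun _ : Fin n => (X ^ N : W[X]))
    (fun _ => monic_X_pow N) (fun _ i hi => by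
      nontriviality W
      rw [natDegree_X_pow] at hi
      rw [coeff_X_pow, if_neg hi.ne]
      exact zero_mem _) g
  refine ⟨P, q, ?_⟩
  have h1 : ∀ l : Fin n, (px l (X ^ N : W[X]) : MvPowerSeries (Fin n) W) =
      MvPowerSeries.X l ^ N := by
    intro l
    rw [px, map_pow, aeval_X, ← MvPolynomial.coeToMvPowerSeries.ringHom_apply, map_pow,
      MvPolynomial.coeToMvPowerSeries.ringHom_apply, MvPolynomial.coe_X]
  simpa only [h1] using h

/-- homomorphisms on power series rings are determined by the constants and the variables. -/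
theorem hom_ext_of_hausdorff {W : Type*} [CommRing W] [IsNoetherianRing W] {n : ℕ} {R : Type*}
    [CommRing R] (J : Ideal R) [IsHausdorff J R] (α β : MvPowerSeries (Fin n) W →+* R)
    (hJ : ∀ l, α (MvPowerSeries.X l) ∈ J)
    (hC : ∀ a, α (MvPowerSeries.C a) = β (MvPowerSeries.C a))
    (hX : ∀ l, α (MvPowerSeries.X l) = β (MvPowerSeries.X l)) : α = β := by
  have hpoly : ∀ P : MvPolynomial (Fin n) W, α P = β P := by
    intro P
    have h1 : α.comp MvPolynomial.coeToMvPowerSeries.ringHom =
        β.comp MvPolynomial.coeToMvPowerSeries.ringHom := by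
      apply MvPolynomial.ringHom_ext
      · intro a
        simpa using hC a
      · intro l
        simpa using hX l
    exact congrArg (fun f : MvPolynomial (Fin n) W →+* R => f P) h1
  ext g
  rw [← sub_eq_zero]
  refine IsHausdorff.haus (I := J) inferInstance _ fun N => ?_
  rw [SModEq.zero, smul_eq_mul, Ideal.mul_top]
  obtain ⟨P, q, rfl⟩ := exists_trunc N g
  rw [map_add, map_add, hpoly, add_sub_add_left_eq_sub, map_sum, map_sum,
    ← Finset.sum_sub_distrib]
  refine Ideal.sum_mem _ fun l _ => ?_
  rw [map_mul, map_mul, map_pow, map_pow, ← hX, ← mul_sub]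
  exact Ideal.mul_mem_right _ _ (Ideal.pow_mem_pow (hJ l) N)

section

variable {W Λ R : Type*} [CommRing W] [IsNoetherianRing W] [CommRing Λ] [IsNoetherianRing Λ]
  (I : Ideal Λ) [IsAdicComplete I Λ] [CommRing R] [Algebra Λ R] (𝔪 : Ideal R)
  [IsAdicComplete 𝔪 R] (κ : W →+* Λ) {n : ℕ} (Φ : MvPowerSeries (Fin n) W →+* R)

omit [IsNoetherianRing Λ] in
/-- the evaluation homomorphism `Λ[[x]] → R` extending `Φ : W[[x]] → R`. -/
theorem exists_qR (hΦC : ∀ a, Φ (MvPowerSeries.C a) = algebraMap Λ R (κ a))
    (hΦX : ∀ l, Φ (MvPowerSeries.X l) ∈ 𝔪) :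
    ∃ q : MvPowerSeries (Fin n) Λ →+* R,
      (∀ f : MvPolynomial (Fin n) Λ, q f =
        MvPolynomial.aeval (fun l => Φ (MvPowerSeries.X l)) f) ∧
      q.comp (MvPowerSeries.map κ) = Φ := by
  obtain ⟨q, hq⟩ := exists_evalHom 𝔪 (algebraMap Λ R) (fun l => Φ (MvPowerSeries.X l)) hΦX
  refine ⟨q, fun f => hq f, ?_⟩
  have hqX : ∀ l, (q.comp (MvPowerSeries.map κ)) (MvPowerSeries.X l) =
      Φ (MvPowerSeries.X l) := by
    intro l
    rw [RingHom.comp_apply, MvPowerSeries.map_X, ← MvPolynomial.coe_X, hq]
    simp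
  refine hom_ext_of_hausdorff 𝔪 _ _ (fun l => ?_) (fun a => ?_) hqX
  · rw [hqX]; exact hΦX l
  · rw [RingHom.comp_apply, MvPowerSeries.map_C, ← MvPolynomial.coe_C, hq, hΦC]
    simp

/-- **(L5)** `W[[x]] → R → R / 𝔥` and the polynomials over `Λ`. -/
theorem compat_S (𝔥 : Ideal R) [Module.Finite Λ (R ⧸ 𝔥)]
    (hΦC : ∀ a, Φ (MvPowerSeries.C a) = algebraMap Λ R (κ a))
    (hΦX : ∀ l, Φ (MvPowerSeries.X l) ∈ 𝔪)
    (hpow : ∃ M : ℕ, 𝔪 ^ M ≤ 𝔥 ⊔ I.map (algebraMap Λ R))
    {A : Type*} [CommRing A] (φ : MvPowerSeries (Fin n) Λ →+* A) (K : Ideal A) (h : A)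
    (hK : ∀ f : MvPolynomial (Fin n) Λ,
      MvPolynomial.aeval (fun l => Φ (MvPowerSeries.X l)) f ∈ 𝔥 → h * φ f ∈ K)
    (s : MvPowerSeries (Fin n) W) (f : MvPolynomial (Fin n) Λ)
    (hs : Φ s - MvPolynomial.aeval (fun l => Φ (MvPowerSeries.X l)) f ∈ 𝔥) :
    h * (φ (MvPowerSeries.map κ s) - φ f) ∈ K := by
  obtain ⟨q, hq, hqΦ⟩ := exists_qR 𝔪 κ Φ hΦC hΦX
  have hmk : ∀ f : MvPolynomial (Fin n) Λ,
      ((Ideal.Quotient.mk 𝔥).comp q) f =
        MvPolynomial.aeval (fun l => Ideal.Quotient.mk 𝔥 (Φ (MvPowerSeries.X l))) f := by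
    intro f
    rw [RingHom.comp_apply, hq]
    have := MvPolynomial.comp_aeval_apply (Ideal.Quotient.mkₐ Λ 𝔥)
      (f := fun l => Φ (MvPowerSeries.X l)) f
    exact this
  have key := phi_rel' I (fun l => Ideal.Quotient.mk 𝔥 (Φ (MvPowerSeries.X l)))
    (fun l => ?_) ((Ideal.Quotient.mk 𝔥).comp q) hmk φ K h (fun f hf => ?_)
    (MvPowerSeries.map κ s - f) ?_
  · rwa [map_sub] at key
  · obtain ⟨M, hM⟩ := hpow
    refine ⟨M, ?_⟩
    have h1 := hM (Ideal.pow_mem_pow (hΦX l) M)
    have h2 := Ideal.mem_map_of_mem (Ideal.Quotient.mk 𝔥) h1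
    rw [Ideal.map_sup, Ideal.map_quotient_self, bot_sup_eq, map_pow, Ideal.map_map] at h2
    exact h2
  · apply hK
    rw [← hmk, RingHom.comp_apply, Ideal.Quotient.eq_zero_iff_mem, hq] at hf
    exact hf
  · rw [RingHom.comp_apply, Ideal.Quotient.eq_zero_iff_mem, map_sub, hq, ← RingHom.comp_apply,
      hqΦ]
    exact hs

/-- every element of `R` is a polynomial in the `x_l` modulo `𝔥`. -/
theorem exists_poly_of_surjective (𝔥 : Ideal R) [Module.Finite Λ (R ⧸ 𝔥)]
    (hΦC : ∀ a, Φ (MvPowerSeries.C a) = algebraMap Λ R (κ a))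
    (hΦX : ∀ l, Φ (MvPowerSeries.X l) ∈ 𝔪)
    (hpow : ∃ M : ℕ, 𝔪 ^ M ≤ 𝔥 ⊔ I.map (algebraMap Λ R)) (s : MvPowerSeries (Fin n) W) :
    ∃ f : MvPolynomial (Fin n) Λ,
      Φ s - MvPolynomial.aeval (fun l => Φ (MvPowerSeries.X l)) f ∈ 𝔥 := by
  obtain ⟨q, hq, hqΦ⟩ := exists_qR 𝔪 κ Φ hΦC hΦX
  obtain ⟨M, hM⟩ := hpow
  have h1 : ∀ l, ∃ F : Λ[X], F.Monic ∧ (∀ i < F.natDegree, F.coeff i ∈ I) ∧
      aeval (Ideal.Quotient.mk 𝔥 (Φ (MvPowerSeries.X l))) F = 0 := fun l => by
    refine exists_monic_lower I _ (N := M) ?_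
    have h1 := hM (Ideal.pow_mem_pow (hΦX l) M)
    have h2 := Ideal.mem_map_of_mem (Ideal.Quotient.mk 𝔥) h1
    rw [Ideal.map_sup, Ideal.map_quotient_self, bot_sup_eq, map_pow, Ideal.map_map] at h2
    exact h2
  choose F hF hFI hFx using h1
  obtain ⟨P, r, he⟩ := wdiv I F hF hFI (MvPowerSeries.map κ s)
  refine ⟨P, ?_⟩
  have h2 : Φ s = q (MvPowerSeries.map κ s) := by
    rw [← RingHom.comp_apply, hqΦ]
  rw [h2, he, map_add, hq, add_sub_cancel_left, map_sum]
  refine Ideal.sum_mem _ fun l _ => ?_
  rw [map_mul]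
  refine Ideal.mul_mem_right _ _ ?_
  rw [hq, px, ← Polynomial.aeval_algHom_apply, MvPolynomial.aeval_X,
    ← Ideal.Quotient.eq_zero_iff_mem]
  have := (Polynomial.aeval_algHom_apply (Ideal.Quotient.mkₐ Λ 𝔥)
    (Φ (MvPowerSeries.X l)) (F l)).symm
  exact this.trans (hFx l)

end

end Vale.Agent.P177.Lf
end

section

/-!
P177: power series rings over complete noetherian local rings are complete.
-/

namespace Vale.Agent.P177.Full

open IsLocalRing MvPowerSeries

section

variable {A : Type*} [CommRing A] (m : Ideal A) {n : ℕ}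

/-- the power series whose coefficients of degree `j` lie in `m ^ (N - j)`. -/
def mG (N : ℕ) : Ideal (MvPowerSeries (Fin n) A) where
  carrier := {f | ∀ α : Fin n →₀ ℕ, coeff α f ∈ m ^ (N - α.degree)}
  add_mem' {f g} hf hg α := by
    rw [map_add]
    exact add_mem (hf α) (hg α)
  zero_mem' α := by
    rw [map_zero]
    exact zero_mem _
  smul_mem' c f hf α := by
    classical
    rw [smul_eq_mul, coeff_mul]
    refine Ideal.sum_mem _ fun q hq => Ideal.mul_mem_left _ _ ?_
    have h1 : q.2.degree ≤ α.degree := by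
      rw [← Finset.HasAntidiagonal.mem_antidiagonal.1 hq, map_add]
      exact Nat.le_add_left _ _
    exact Ideal.pow_le_pow_right (by omega) (hf q.2)

theorem mem_mG {N : ℕ} {f : MvPowerSeries (Fin n) A} :
    f ∈ mG m N ↔ ∀ α : Fin n →₀ ℕ, coeff α f ∈ m ^ (N - α.degree) := Iff.rfl

theorem pow_le_mG (N : ℕ) :
    (m.map (C : A →+* MvPowerSeries (Fin n) A) ⊔ Ideal.span (Set.range X)) ^ N ≤ mG m N := by
  classical
  induction N with
  | zero =>
    intro f _ α
    simp
  | succ N ih =>
    rw [pow_succ, Ideal.mul_le]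
    intro f hf g hg
    have hfG := ih hf
    have key : m.map (C : A →+* MvPowerSeries (Fin n) A) ⊔ Ideal.span (Set.range X) ≤
        Submodule.comap (LinearMap.mulLeft (MvPowerSeries (Fin n) A) f) (mG m (N + 1)) := by
      rw [sup_le_iff, Ideal.map, Ideal.span_le, Ideal.span_le]
      constructor
      · rintro _ ⟨a, ha, rfl⟩
        change f * C a ∈ mG m (N + 1)
        intro α
        rw [coeff_mul_C]
        rcases Nat.lt_or_ge N α.degree with h | h
        · rw [show N + 1 - α.degree = 0 by omega]
          simp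
        · rw [show N + 1 - α.degree = (N - α.degree) + 1 by omega, pow_succ]
          exact Ideal.mul_mem_mul (hfG α) ha
      · rintro _ ⟨l, rfl⟩
        change f * X l ∈ mG m (N + 1)
        intro α
        rw [X, coeff_mul_monomial]
        split_ifs with h
        · rw [mul_one]
          have h1 := hfG (α - Finsupp.single l 1)
          have h2 : (α - Finsupp.single l 1).degree + 1 = α.degree := by
            conv_rhs => rw [← tsub_add_cancel_of_le h]
            rw [map_add, Finsupp.degree_single]
          rwa [show N + 1 - α.degree = N - (α - Finsupp.single l 1).degree by omega]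
        · exact zero_mem _
    exact key hg

theorem mG_le_pow [IsNoetherianRing A] (N : ℕ) :
    mG m N ≤ (m.map (C : A →+* MvPowerSeries (Fin n) A) ⊔ Ideal.span (Set.range X)) ^ N := by
  classical
  set J := m.map (C : A →+* MvPowerSeries (Fin n) A) ⊔ Ideal.span (Set.range X) with hJ
  have hX : ∀ l, (X l : MvPowerSeries (Fin n) A) ∈ J := fun l =>
    Ideal.mem_sup_right (Ideal.subset_span ⟨l, rfl⟩)
  intro f hf
  obtain ⟨P, q, rfl⟩ := Lf.exists_trunc N f
  refine add_mem ?_ (Ideal.sum_mem _ fun l _ => Ideal.mul_mem_right _ _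
    (Ideal.pow_mem_pow (hX l) N))
  have hP : ∀ α : Fin n →₀ ℕ, P.coeff α ∈ m ^ (N - α.degree) := by
    intro α
    rcases Nat.lt_or_ge α.degree N with h | h
    · have h1 := hf α
      rw [map_add, map_sum, MvPolynomial.coeff_coe, Finset.sum_eq_zero, add_zero] at h1
      · exact h1
      · intro l _
        rw [mul_comm, X_pow_eq, coeff_mul_monomial, if_neg]
        intro hle
        have h2 : N ≤ α l := by
          have := hle l
          simpa using this
        have h3 : α l ≤ α.degree := Finsupp.le_degree l α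
        omega
    · rw [show N - α.degree = 0 by omega]
      simp
  have h1 : (P : MvPowerSeries (Fin n) A) =
      ∑ α ∈ P.support, C (P.coeff α) * ∏ l, (X l : MvPowerSeries (Fin n) A) ^ α l := by
    conv_lhs => rw [P.as_sum]
    rw [← MvPolynomial.coeToMvPowerSeries.ringHom_apply, map_sum]
    refine Finset.sum_congr rfl fun α _ => ?_
    rw [MvPolynomial.monomial_eq, map_mul, MvPolynomial.coeToMvPowerSeries.ringHom_apply,
      MvPolynomial.coe_C, Finsupp.prod_fintype _ _ (by simp), map_prod]
    congr 1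
    refine Finset.prod_congr rfl fun l _ => ?_
    rw [map_pow, MvPolynomial.coeToMvPowerSeries.ringHom_apply, MvPolynomial.coe_X]
  rw [h1]
  refine Ideal.sum_mem _ fun α _ => ?_
  have h2 : C (P.coeff α) ∈ J ^ (N - α.degree) := by
    have h3 := Ideal.mem_map_of_mem (C : A →+* MvPowerSeries (Fin n) A) (hP α)
    rw [Ideal.map_pow] at h3
    exact Ideal.pow_right_mono le_sup_left _ h3
  have h3 : ∏ l, (X l : MvPowerSeries (Fin n) A) ^ α l ∈ J ^ α.degree := by
    rw [Finsupp.degree_eq_sum, ← Finset.prod_pow_eq_pow_sum]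
    exact Ideal.prod_mem_prod fun l _ => Ideal.pow_mem_pow (hX l) _
  have h4 := Ideal.mul_mem_mul h2 h3
  rw [← pow_add] at h4
  exact Ideal.pow_le_pow_right (by omega) h4

/-- Power series rings over noetherian complete rings are complete. -/
theorem isAdicComplete_mvPowerSeries [IsNoetherianRing A] [IsAdicComplete m A] :
    IsAdicComplete (m.map (C : A →+* MvPowerSeries (Fin n) A) ⊔ Ideal.span (Set.range X))
      (MvPowerSeries (Fin n) A) := by
  set J := m.map (C : A →+* MvPowerSeries (Fin n) A) ⊔ Ideal.span (Set.range X) with hJ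
  have hH : IsHausdorff J (MvPowerSeries (Fin n) A) := by
    refine ⟨fun f hf => ?_⟩
    ext α
    rw [map_zero]
    refine IsHausdorff.haus (I := m) inferInstance _ fun N => ?_
    have h1 := hf (N + α.degree)
    rw [SModEq.zero, smul_eq_mul, Ideal.mul_top] at h1 ⊢
    have h2 := pow_le_mG m _ h1 α
    rwa [show N + α.degree - α.degree = N by omega] at h2
  have hP : IsPrecomplete J (MvPowerSeries (Fin n) A) := by
    refine ⟨fun f hf => ?_⟩
    have hf' : ∀ {a b : ℕ}, a ≤ b → f a - f b ∈ mG m a := fun {a b} h => by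
      have h1 := hf h
      rw [SModEq.sub_mem, smul_eq_mul, Ideal.mul_top] at h1
      exact pow_le_mG m _ h1
    have hα : ∀ α : Fin n →₀ ℕ, ∃ L : A, ∀ N, coeff α (f (N + α.degree)) - L ∈ m ^ N := by
      intro α
      obtain ⟨L, hL⟩ := IsPrecomplete.prec (I := m) inferInstance
        (f := fun N => coeff α (f (N + α.degree))) (fun {a b} h => by
          rw [SModEq.sub_mem, smul_eq_mul, Ideal.mul_top, ← map_sub]
          have h2 := hf' (Nat.add_le_add_right h α.degree) α
          rwa [show a + α.degree - α.degree = a by omega] at h2)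
      refine ⟨L, fun N => ?_⟩
      have h3 := hL N
      rwa [SModEq.sub_mem, smul_eq_mul, Ideal.mul_top] at h3
    choose L hL using hα
    let g : MvPowerSeries (Fin n) A := fun α => L α
    refine ⟨g, fun N => ?_⟩
    rw [SModEq.sub_mem, smul_eq_mul, Ideal.mul_top]
    refine mG_le_pow m N fun α => ?_
    rw [map_sub]
    change coeff α (f N) - L α ∈ _
    rcases Nat.lt_or_ge α.degree N with h | h
    · have h1 := hL α (N - α.degree)
      rwa [show N - α.degree + α.degree = N by omega] at h1
    · rw [show N - α.degree = 0 by omega]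
      simp
  exact { hH, hP with }

end

/-- `W(k)[[u]]` is complete. -/
theorem isAdicComplete_lam (p : ℕ) [Fact p.Prime] (k : Type*) [Field k] [CharP k p]
    [PerfectRing k p] (r : ℕ) :
    IsAdicComplete (maximalIdeal (MvPowerSeries (Fin r) (WittVector p k)))
      (MvPowerSeries (Fin r) (WittVector p k)) := by
  have h1 : maximalIdeal (WittVector p k) = Ideal.span {(p : WittVector p k)} :=
    (WittVector.irreducible p).maximalIdeal_eq
  have h2 : IsAdicComplete (maximalIdeal (WittVector p k)) (WittVector p k) := by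
    rw [h1]
    infer_instance
  rw [mvPowerSeries_maximalIdeal_gen]
  exact isAdicComplete_mvPowerSeries (maximalIdeal (WittVector p k))

end Vale.Agent.P177.Full
end
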