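import Mathlib
import Vale.Agent.P177.Bd4.B13
import Vale.Agent.P177.Bd4.B7
import Vale.Agent.P177.Bd4.B11
import Vale.Agent.P177.Bd4.B12
import Vale.Agent.P177.Bd4.B10
attribute [-instance] DenselyNormedField.toNontriviallyNormedField RCLike.toDenselyNormedField DenselyNormedField.toNormedField NontriviallyNormedField.toNormedField NormedField.toNormedDivisionRing littleWedderburn Field.toDivisionRing NormedDivisionRing.toDivisionRing NormedField.toField IdemCommSemiring.toCommSemiring Semifield.toCommSemiring IdemCommSemiring.toIdemSemiring KleeneAlgebra.toIdemSemiring SemiRingCat.instSemiringObjForgetRingHomCarrier DivisionRing.toDivisionSemiring DivisionSemiring.toSemiring IdemSemiring.toSemiring CommSemiRingCat.FilteredColimits.colimitCommSemiring BooleanRing.toRing DivisionRing.toRing CommCStarAlgebra.toNormedCommRing NormedField.toNormedCommRing CommCStarAlgebra.toCStarAlgebra CStarAlgebra.toNormedRing NormedCommRing.toNormedRing NormedDivisionRing.toNormedRing NormedCommRing.toSeminormedCommRing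 Field.toEuclideanDomain NormedRing.toSeminormedRing SeminormedCommRing.toSeminormedRing BooleanRing.toCommRing EuclideanDomain.toCommRing Field.toCommRing NormedCommRing.toCommRing SeminormedCommRing.toCommRing NormedRing.toRing SeminormedRing.toRing LeftPreLieRing.instLieAdmissibleRing RightPreLieRing.instLieAdmissibleRing CommCStarAlgebra.toNonUnitalCommCStarAlgebra CStarAlgebra.toNonUnitalCStarAlgebra NonUnitalCommCStarAlgebra.toNonUnitalCStarAlgebra NonUnitalCommCStarAlgebra.toNonUnitalNormedCommRing NormedCommRing.toNonUnitalNormedCommRing NonUnitalCStarAlgebra.toNonUnitalNormedRing NonUnitalNormedCommRing.toNonUnitalNormedRing NormedRing.toNonUnitalNormedRing CommRing.toAddCommGroupWithOne NonAssocRing.toAddCommGroupWithOne AlgebraicGeometry.Scheme.instPreorderCarrierCarrierCommRingCat CommSemiring.toNonAssocCommSemiring NonAssocCommRing.toNonAssocCommSemiring NonAssocCommSemiring.toNonAssocSemiring NonAssocRing.toNonAssocSemiring LinearOrderedAddCommGroupWithTop.instLinearOrderedAddCommMonoidWithTop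 AddCommGroupWithOne.toAddCommMonoidWithOne LinearOrderedAddCommGroupWithTop.toAddCommMonoid LeftPreLieRing.toNonUnitalNonAssocRing LieAdmissibleRing.toNonUnitalNonAssocRing NonUnitalNormedCommRing.toNonUnitalSeminormedCommRing RightPreLieRing.toNonUnitalNonAssocRing SeminormedCommRing.toNonUnitalSeminormedCommRing NonUnitalNormedRing.toNonUnitalSeminormedRing NonUnitalSeminormedCommRing.toNonUnitalSeminormedRing SeminormedRing.toNonUnitalSeminormedRing AddCommMonCat.FilteredColimits.colimitAddCommMonoid NonUnitalNormedCommRing.toNonUnitalCommRing NonUnitalSeminormedCommRing.toNonUnitalCommRing NonUnitalCommRing.toNonUnitalRing NonUnitalNormedRing.toNonUnitalRing NonUnitalSeminormedRing.toNonUnitalRing Ring.toNonUnitalRing NonAssocCommRing.toNonUnitalNonAssocCommRing NonUnitalRing.toNonUnitalNonAssocRing NonUnitalRing.toNonUnitalSemiring Semiring.toNonUnitalSemiring NonAssocCommSemiring.toNonUnitalNonAssocCommSemiring NonUnitalCommSemiring.toNonUnitalNonAssocCommSemiring NonUnitalNonAssocCommSemiring.toNonUnitalNonAssocSemiring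 NonUnitalSemiring.toNonUnitalNonAssocSemiring AddCommMonoidWithOne.toAddCommMonoid Pi.nonUnitalNonAssocSemiring instCoeT CategoryTheory.CommGrpObj.toGrpObj CategoryTheory.Preadditive.instGrpObj CategoryTheory.instBraidedCategoryType CategoryTheory.Abelian.toPreadditive instCoeTOfCoeDep AddCommGroupWithOne.toAddGroupWithOne CategoryTheory.BimonObj.toMonObj CategoryTheory.CommRingObj.toRingObj CategoryTheory.GrpObj.toMonObj CategoryTheory.HopfObj.toBimonObj CategoryTheory.RingObj.toMonObj NonUnitalNormedRing.toNormedAddCommGroup SemiNormedGrp.str LinearOrderedAddCommGroupWithTop.toSubNegMonoid MonTypeEquivalenceMon.monMonoid SSet.stdSimplex.instFunLikeObjOppositeSimplexCategoryMkOpFinHAddNatOfNat RingCat.FilteredColimits.colimitRing CategoryTheory.Mat_.fintype NormedCommGroup.toNormedGroup instNonUnitalCStarAlgebraForall LieAdmissibleRing.instLieRing MulSemiringAction.toDistribMulAction NormedCommGroup.toSeminormedCommGroup NormedGroup.toSeminormedGroup SeminormedCommGroup.toSeminormedGroup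 GradedMonoid.GradeZero.smul instCommGroupOfIsSimpleGroupOfIsNilpotent CommGroup.toGroup CommGrpTypeEquivalenceCommGrp.commGrpCommGroup GrpTypeEquivalenceGrp.grpGroup NormedCommGroup.toCommGroup NormedGroup.toGroup SeminormedCommGroup.toCommGroup SeminormedGroup.toGroup LinearOrderedCommMonoidWithZero.toIsBotZeroClass CompleteAtomicBooleanAlgebra.toCompletelyDistribLattice Invertible.toNeZero NeZero.of_gt' Nat.AtLeastTwo.toNeZero Complex.instRCLike ContDiffMapSupportedInClass.toDFunLike RKHS.instFunLike TestFunctionClass.toDFunLike Pi.nonAssocSemiring CompleteBooleanAlgebra.toCompleteDistribLattice CompletelyDistribLattice.toCompleteDistribLattice LieRing.toAddCommGroup instDistribSMul NonUnitalNonAssocSemiring.toDistribSMul Bialgebra.toAlgebra CommSemiring.toBialgebra CommSemiring.toHopfAlgebra HopfAlgebra.toHopfAlgebraStruct HopfAlgebraStruct.toBialgebra NormedAlgebra.toAlgebra instSMulZeroClass MonCat.monoidObj CompleteBooleanAlgebra.toBooleanAlgebra LinearOrderedCommGroupWithZero.toLinearOrderedCommMonoidWithZero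 CompleteDistribLattice.toCoframe CompleteDistribLattice.toFrame Ideal.Quotient.normedCommRing Ideal.Quotient.semiNormedCommRing RightPreLieAlgebra.instLieAdmissibleAlgebra Nat.instNontrivial Nat.instOne Nat.Prime.one_lt' TwoSidedIdeal.instIsTwoSidedCoeOrderHomIdealAsIdeal NonUnitalSeminormedRing.toSeminormedAddCommGroup NormedAddCommGroup.toSeminormedAddCommGroup Pi.instTopForall BooleanAlgebra.toBiheytingAlgebra CompleteDistribLattice.toBiheytingAlgebra CompleteLinearOrder.toBiheytingAlgebra CompletelyDistribLattice.toBiheytingAlgebra Fin.completeLinearOrder CompleteLinearOrder.toCompleteLattice Order.Coframe.toCompleteLattice Order.Frame.toCompleteLattice Pi.nonUnitalSemiring TensorProduct.instModuleFstSnd instNonUnitalAlgHomClassOfNonUnitalAlgEquivClass Pi.instZero ProfiniteAddGrp.addGroup CompleteLinearOrder.toConditionallyCompleteLinearOrderBot LeftPreLieAlgebra.toModule LieAdmissibleAlgebra.toModule LieAlgebra.toModule NormedSpace.toModule RightPreLieAlgebra.toModule BoxIntegral.Box.instMembershipForallReal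 Action.instMulAction Torsor.toMulAction Action.FintypeCat.instMulActionObjFiniteOf GradedMonoid.GradeZero.mulAction instCoeTC NormedAddCommGroup.toNormedAddGroup BiheytingAlgebra.toCoheytingAlgebra BiheytingAlgebra.toHeytingAlgebra BooleanAlgebra.toGeneralizedBooleanAlgebra Order.Coframe.toCoheytingAlgebra Order.Frame.toHeytingAlgebra ConditionallyCompleteLinearOrderBot.toConditionallyCompleteLinearOrder CategoryTheory.Limits.Concrete.instUniqueToTypeTerminal Ideal.instIsTwoSided AddOpposite.instAddZero Pi.addMonoidWithOne instCoeHTC instCoeHTCT Fin.instBiheytingAlgebra instCoeTCOfCoe BialgEquivClass.toBialgHomClass Ideal.Quotient.isScalarTower Module.IsTorsionBySet.isScalarTower Ideal.Quotient.isScalarTower_of_liesOver ContinuousAddMonoidHom.instCoeOutOfAddMonoidHomClassOfContinuousMapClass ContinuousMonoidHom.instCoeOutOfMonoidHomClassOfContinuousMapClass HomeomorphClass.instCoeOutHomeomorph IsometryClass.instCoeOutIsometryEquiv CommGroupWithZero.toGroupWithZero LinearOrderedCommGroupWithZero.toCommGroupWithZero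 Semifield.toCommGroupWithZero boolToProp instIsDedekindDomainOfIsDomainOfIsDedekindRing instIsDomain DivisionRing.isDomain EuclideanDomain.instIsDomain Field.isDomain IsDedekindDomain.toIsDomain IsDedekindDomainDvr.isDedekindDomain IsDomain.of_isSimpleRing IsPrincipalIdealRing.isDedekindDomain IsStrictOrderedRing.isDomain OrderAddMonoidHom.instAddMonoidHomClass NormedAddGroup.toSeminormedAddGroup SeminormedAddCommGroup.toSeminormedAddGroup CoheytingAlgebra.toGeneralizedCoheytingAlgebra GeneralizedBooleanAlgebra.toGeneralizedCoheytingAlgebra HeytingAlgebra.toGeneralizedHeytingAlgebra AddCommGroupWithOne.toAddCommGroup NormedAddCommGroup.toAddCommGroup SeminormedAddCommGroup.toAddCommGroup instSMulCommClassOfIsScalarTower LeftPreLieAlgebra.toSMulCommClass LieAdmissibleAlgebra.toSMulCommClass RightPreLieAlgebra.toSMulCommClass CompleteLinearOrder.toLinearOrder ConditionallyCompleteLinearOrder.toLinearOrder LinearOrderedAddCommGroupWithTop.toLinearOrder LinearOrderedAddCommMonoidWithTop.toLinearOrder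 LinearOrderedCommMonoidWithZero.toLinearOrder Pi.subtractionMonoid CommGroupWithZero.toCommMonoidWithZero CommSemiring.toCommMonoidWithZero LinearOrderedCommMonoidWithZero.toCommMonoidWithZero Std.DTreeMap.Raw.instSingletonSigma OrderDual.instDivisionSemiring Quaternion.instDivisionRing SemilatSupCat.isSemilatticeSup MonoidWithZero.toSemigroupWithZero NonUnitalNonAssocSemiring.toMulZeroClass SemigroupWithZero.toMulZeroClass Turing.FinTM2.decidableEqK instFiniteCarrierToTopAndTotallyDisconnectedSpaceSecondCountableTopologyOfObj NormedAddGroup.toAddGroup SeminormedAddGroup.toAddGroup Pi.mulZeroOneClass AlgEquivClass.toAlgHomClass BialgHomClass.toAlgHomClass CentroidHomClass.toAddMonoidHomClass Fin.instCoheytingAlgebra Fin.instHeytingAlgebra MulSemiringActionSemiHomClass.toDistribMulActionSemiHomClass AlgHom.instContinuousLinearMapClassOfAlgHomClass AlgHomClass.linearMapClass BialgHomClass.toCoalgHomClass CoalgEquivClass.toCoalgHomClass CoalgHomClass.toSemilinearMapClass ContinuousSemilinearEquivClass.continuousSemilinearMapClass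 ContinuousSemilinearMapClass.toSemilinearMapClass NonUnitalAlgHomClass.instLinearMapClass NonUnitalAlgHomClass.instSemilinearMapClassOfNonUnitalAlgSemiHomClassToMonoidHomRingHom PositiveLinearMap.instContinuousLinearMapClassComplexOfLinearMapClassOfOrderHomClass RingHomClass.toLinearMapClassNNRat RingHomClass.toLinearMapClassRat SemilinearIsometryClass.toContinuousSemilinearMapClass SemilinearIsometryClass.toSemilinearMapClass ENormedCommMonoid.toESeminormedCommMonoid NormedCommGroup.toENormedCommMonoid Pi.normedAddCommGroup instConditionallyCompletePartialOrderSup CommMonTypeEquivalenceCommMon.commMonCommMonoid CompleteLattice.toCompleteSemilatticeInf CompleteLattice.toCompleteSemilatticeSup ConditionallyCompletePartialOrder.toConditionallyCompletePartialOrderInf ENormedAddCommMonoid.toESeminormedAddCommMonoid NormedAddCommGroup.toENormedAddCommMonoid LinearOrderedAddCommGroupWithTop.toSubtractionMonoid SubNegZeroMonoid.toSubNegMonoid AddQuantale.instAddLeftMono ChainCompletePartialOrder.instOfCompleteLattice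 ChainCompletePartialOrder.instOmegaCompletePartialOrder ChainCompletePartialOrder.toPartialOrder CompletePartialOrder.toOmegaCompletePartialOrder OmegaCompletePartialOrder.toPartialOrder smoothSheafCommRing.instLocalRing_stalk Pi.normedRing TopRep.hV1 OrderRingHom.instRingHomClass DivisionRing.isSimpleRing PartOrdEmb.str IsOrderedRing.toIsStrictOrderedRing instFiniteProp NonUnitalNormedRing.toMetricSpace NormedAddCommGroup.toMetricSpace NormedAddGroup.toMetricSpace NormedCommGroup.toMetricSpace NormedDivisionRing.toMetricSpace NormedField.toMetricSpace NormedGroup.toMetricSpace NormedRing.toMetricSpace TopologicalSpace.UpgradedIsCompletelyMetrizableSpace.toMetricSpace CategoryTheory.IsSifted.isSifted_of_hasBinaryCoproducts_and_nonempty Fin.instOfNat Field.henselian HenselianLocalRing.toIsLocalRing IsRegularLocalRing.instOfIsLocalRingOfIsDomainOfIsPrincipalIdealRing LeftPreLieAlgebra.toIsScalarTower LieAdmissibleAlgebra.toIsScalarTower LieRinehartAlgebra.toIsScalarTower RightPreLieAlgebra.toIsScalarTower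 Field.instIsLocalRing ValuationRing.isLocalRing Pi.mulZeroClass TopologicalSpace.Compacts.instSetLike WithTop.instIsBotZeroClass instIsRegularRingOfIsDedekindDomain AbsoluteValue.mulHomClass IsRegularRing.toIsNoetherian PadicComplex.normedField instInfiniteOfUncountable instNontrivialOfCharZero CharZero.infinite Denumerable.instInfinite DivisionRing.toNontrivial EuclideanDomain.toNontrivial GroupWithZero.toNontrivial Infinite.instNontrivial IsAlgClosed.instInfinite IsDomain.toNontrivial IsSimpleAddGroup.toNontrivial IsSimpleGroup.toNontrivial IsSimpleOrder.toNontrivial IsSimpleRing.instNontrivial IsStrictOrderedRing.toNontrivial LinearOrderedAddCommGroupWithTop.toNontrivial NoMaxOrder.infinite NoMinOrder.infinite NontriviallyNormedField.infinite FirstOrder.Language.instInfiniteOfModelDloOrderOfNonempty CategoryTheory.instFinCategoryOfFintypeOfIsThin FinEnum.instFintype SetLike.instFintype Unique.fintype CategoryTheory.FinCategory.fintypeObj Prod.instCompleteAtomicBooleanAlgebra Prod.instCompleteBooleanAlgebra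 CommMonCat.str NumberField.to_charZero AddMonCat.addMonoidObj CategoryTheory.isConnected_of_nonempty_and_subsingleton Preorder.smallCategory CategoryTheory.Groupoid.toCategory CategoryTheory.IsSifted.instIsConnected CategoryTheory.StrictBicategory.category instSubsingleton Group.IsPerfect.subsingleton_of_isMulCommutative BooleanAlgebra.toBoundedOrder BoundedOrder.toOrderBot BoundedOrder.toOrderTop CoheytingAlgebra.toBoundedOrder CoheytingAlgebra.toOrderTop CompleteLattice.toBoundedOrder CompletePartialOrder.toOrderBot ConditionallyCompleteLinearOrderBot.toOrderBot GeneralizedBooleanAlgebra.toOrderBot GeneralizedCoheytingAlgebra.toOrderBot GeneralizedHeytingAlgebra.toOrderTop HeytingAlgebra.toBoundedOrder HeytingAlgebra.toOrderBot IdemSemiring.toOrderBot IrreducibleSpace.connectedSpace LinearOrderedAddCommGroupWithTop.toOrderTop LinearOrderedAddCommMonoidWithTop.toOrderTop LinearOrderedCommMonoidWithZero.toOrderBot PathConnectedSpace.connectedSpace Pi.distribMulAction' instMulActionSemiHomClassMulActionHom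 ValuationClass.toMonoidWithZeroHomClass CancelCommMonoid.toCancelMonoid CancelCommMonoid.toCommMonoid CancelCommMonoid.toLeftCancelMonoid CancelMonoid.toLeftCancelMonoid CancelMonoid.toRightCancelMonoid CommGroup.toCancelCommMonoid CommGroup.toCommMonoid CommGroup.toDivisionCommMonoid CommGroupWithZero.toDivisionCommMonoid CommRing.toGrindCommRing CommSemiring.toGrindCommSemiring DivInvMonoid.toMonoid DivInvOneMonoid.toDivInvMonoid DivisionCommMonoid.toCommMonoid DivisionCommMonoid.toDivisionMonoid DivisionMonoid.toDivInvMonoid DivisionMonoid.toDivInvOneMonoid DivisionRing.toDivInvMonoid ENormedCommMonoid.toENormedMonoid ENormedMonoid.toESeminormedMonoid ESeminormedCommMonoid.toCommMonoid ESeminormedCommMonoid.toESeminormedMonoid ESeminormedMonoid.toMonoid Field.toGrindField Group.toCancelMonoid Group.toDivInvMonoid Group.toDivisionMonoid GroupWithZero.toDivisionMonoid LeftCancelMonoid.toMonoid NormedGroup.toENormedMonoid RightCancelMonoid.toMonoid Ring.toGrindRing Semiring.toGrindSemiring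 GradedMonoid.GradeZero.commMonoid GradedMonoid.GradeZero.monoid instInhabitedOfMonad instNonemptyOfInhabited instNonemptyOfMonad Group.instTorsor Nontrivial.to_nonempty NormedAddTorsor.toAddTorsor SeminormedAddCommGroup.toNormedAddTorsor Torsor.nonempty Unique.instInhabited CategoryTheory.IsConnected.is_nonempty Algebra.TensorProduct.instCommRing IsEmpty.instSubsingleton Ideal.instIdemCommSemiring Submodule.instIdemCommSemiring Semigrp.str AddHom.addHomClass BooleanAlgebra.toDistribLattice CompleteLattice.toLattice CompleteLattice.toPartialOrder' CompleteSemilatticeInf.toPartialOrder CompleteSemilatticeSup.toPartialOrder ConditionallyCompletePartialOrderInf.toPartialOrder GeneralizedBooleanAlgebra.toDistribLattice GeneralizedCoheytingAlgebra.toDistribLattice GeneralizedCoheytingAlgebra.toLattice GeneralizedHeytingAlgebra.toDistribLattice GeneralizedHeytingAlgebra.toLattice LinearOrder.toLattice LinearOrder.toPartialOrder Order.Coframe.toDistribLattice Order.Frame.toDistribLattice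 bot_nonempty infSet_to_nonempty supSet_to_nonempty top_nonempty AddCancelCommMonoid.toAddCancelMonoid AddCancelCommMonoid.toAddCommMonoid AddCancelCommMonoid.toAddLeftCancelMonoid AddCancelMonoid.toAddLeftCancelMonoid AddCancelMonoid.toAddRightCancelMonoid AddCommGroup.toAddCancelCommMonoid AddCommGroup.toGrindIntModule AddCommMonoid.toGrindNatModule AddGroup.toAddCancelMonoid AddLeftCancelMonoid.toAddMonoid AddRightCancelMonoid.toAddMonoid BooleanAlgebra.toBot BooleanAlgebra.toTop CompletePartialOrder.toSupSet CompleteSemilatticeInf.toInfSet CompleteSemilatticeSup.toSupSet ConditionallyCompleteLattice.toInfSet ConditionallyCompleteLattice.toSupSet ConditionallyCompletePartialOrderInf.toInfSet ConditionallyCompletePartialOrderSup.toSupSet ConnectedSpace.toNonempty ContractibleSpace.instOfNonemptyOfIndiscreteTopology ContractibleSpace.instOfNonemptyOfSubsingleton ContractibleSpace.instPathConnectedSpace Convex.instPathConnectedSpace DivInvOneMonoid.toInvOneClass ENormedAddCommMonoid.toENormedAddMonoid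 ENormedAddMonoid.toESeminormedAddMonoid ESeminormedAddCommMonoid.toAddCommMonoid ESeminormedAddCommMonoid.toESeminormedAddMonoid ESeminormedAddMonoid.toAddMonoid GeneralizedBooleanAlgebra.toBot InvOneClass.toOne IrreducibleSpace.toNonempty MulZeroClass.negZeroClass NormedAddGroup.toENormedAddMonoid NormedAddTorsor.toAddTorsor' NormedSpace.instPathConnectedSpace One.instNonempty One.ofOfNat1 RealTopologicalVectorSpace.contractibleSpace SimplyConnectedSpace.instPathConnectedSpace SimplyConnectedSpace.ofContractible UnitalShelf.toOne Zero.instNonempty Zero.ofOfNat0 GradedMonoid.GradeZero.one Algebra.TensorProduct.instRing Pi.commMagma Prod.instBooleanAlgebra Prod.instCompleteDistribLattice Prod.instCompletelyDistribLattice BialgEquivClass.toCoalgEquivClass Fin.addCommGroup Fin.instBoundedOrder Fin.instNonUnitalCommRing AbsoluteValue.zeroHomClass Pi.addZeroClass IsScalarTower.of_algHom Semigroup.isScalarTower instCharZeroOfIsSemireal IsStrictOrderedRing.toCharZero RCLike.charZero_rclike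 instTopologicalSpaceFin Fin.addCommMonoid Fin.instCommMonoid Fin.instInhabited Fin.instNontrivial Fin.instPartialOrder instCStarAlgebraProd instCommCStarAlgebraProd Prod.normedCommRing Prod.normedRing NonUnitalAlgHomClass.toNonUnitalRingHomClass NonUnitalAlgSemiHomClass.toMulHomClass RingEquivClass.toNonUnitalRingHomClass MetricSpace.toPseudoMetricSpace NonUnitalSeminormedRing.toPseudoMetricSpace SeminormedAddCommGroup.toPseudoMetricSpace SeminormedAddGroup.toPseudoMetricSpace SeminormedCommGroup.toPseudoMetricSpace SeminormedGroup.toPseudoMetricSpace SeminormedRing.toPseudoMetricSpace TopologicalSpace.UpgradedIsCompletelyPseudoMetrizableSpace.toPseudoMetricSpace instIsSemirealOfIsStrictOrderedRingOfExistsAddOfLE IsRealClosed.toIsSemireal Algebra.TensorProduct.instNonAssocRing Prod.instBiheytingAlgebra Prod.instCoframe Prod.instFrame Pi.mulOneClass OrderDual.instRightDistribClass LinearOrderedAddCommGroupWithTop.toIsOrderedAddMonoid Std.LinearOrderPackage.toLinearPreorderPackage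 Std.LinearPreorderPackage.toPreorderPackage SemilinearIsometryEquivClass.toSemilinearIsometryClass instNonUnitalCStarAlgebraProd instNonUnitalCommCStarAlgebraProd Prod.nonUnitalNormedCommRing Prod.nonUnitalNormedRing Prod.normedAddCommGroup BialgHomClass.toMonoidHomClass MulCharClass.toMonoidHomClass MulDistribMulActionSemiHomClass.toMonoidHomClass EMetricSpace.toPseudoEMetricSpace IsValuativeTopology.instValuedValueGroupWithZeroOfIsUniformAddGroup MetricSpace.toEMetricSpace PseudoEMetricSpace.toUniformSpace PseudoMetricSpace.toPseudoEMetricSpace PseudoMetricSpace.toUniformSpace UniformSpace.toTopologicalSpace UpgradedStandardBorel.toTopologicalSpace Valued.toUniformSpace WithIdeal.instTopologicalSpace WithIdeal.instUniformSpace Set.instAddLeftMono forall_prop_decidable Array.instDecidableForallForallMemOfDecidablePred Finset.decidableDforallFinset Fintype.decidableForallFintype Multiset.decidableDforallMultiset Option.decidableForallMem Vector.instDecidableForallForallMemOfDecidablePred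 Algebra.TensorProduct.instNonUnitalRing Pi.instBotForall IdemSemiring.toCanonicallyOrderedAdd Pi.distribSMul' NumberField.instFiniteDimensional Finsupp.mapDomain_tendstoCofinite Prod.normedCommGroup Prod.seminormedCommRing Prod.seminormedRing AddQuantale.instAddRightMono Quantale.instMulRightMono FirstOrder.Language.instDecidableEqFunctions FirstOrder.Language.instDecidableEqRelations Algebra.TensorProduct.instCommSemiring Algebra.TensorProduct.instSemiring MonoidWithZeroHomClass.toZeroHomClass MulEquivClass.toMonoidWithZeroHomClass MulRingSeminormClass.toMonoidWithZeroHomClass FiniteDimensional.finiteDimensional_quotient Module.Finite.tensorProduct AlgebraicGeometry.instIsNoetherianRingCarrierStalkCommRingCatPresheafOfIsLocallyNoetherian SimpleGraph.TripartiteFromTriangles.graph.instDecidableRelAdj Algebra.TensorProduct.instNonUnitalNonAssocRing Prod.instCoheytingAlgebra Prod.instCompleteLattice Prod.instGeneralizedBooleanAlgebra Prod.instHeytingAlgebra WittVector.inv_pair₁ Quantale.instMulLeftMono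 Ideal.Quotient.isDomain instRingHomSurjectiveForallEvalRingHom AlgHom.instRingHomCompTripleComp LinOrd.str Pi.instMaxForall_mathlib String.Slice.Pos.instLinearOrderPackage TensorProduct.instNormedAddCommGroup RootedTree.orderBot Prod.instCommRing Prod.instRing Prod.nonUnitalSeminormedCommRing Prod.nonUnitalSeminormedRing Prod.normedAddGroup Prod.normedGroup Prod.seminormedAddCommGroup RCLike.innerProductSpace RCLike.toInnerProductSpaceReal Pi.instZeroLEOneClass Algebra.TensorProduct.instNonAssocSemiring -- iprune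

set_option linter.all false

section

/-!
From local positivity to global positivity via reduction to the diagonal.
-/

namespace Vale.Agent.P177

open CategoryTheory TensorProduct Function IsLocalRing RingTheory.Sequence Pointwise

universe u

section

theorem exists_prime_of_le_supportDim {R : Type u} [CommRing R] [IsRegularLocalRing R] {d : ℕ}
    (hd : ringKrullDim R = d) (M : Type u) [AddCommGroup M] [Module R M] (m : ℕ)
    (hm : (m : WithBot ℕ∞) ≤ Module.supportDim R M) :
    ∃ (p : PrimeSpectrum R) (P : ℕ), p ∈ Module.support R M ∧ p.asIdeal.height = P ∧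
      P + m ≤ d := by
  unfold Module.supportDim at hm
  obtain ⟨l, hl⟩ := Order.le_krullDim_iff.1 hm
  have h1 : (m : WithBot ℕ∞) ≤ Module.supportDim R (R ⧸ l.head.1.asIdeal) := by
    unfold Module.supportDim
    rw [Order.le_krullDim_iff]
    exact ⟨{ length := l.length
             toFun := fun i => ⟨(l i).1, (support_quotient_prime _ _).2 (l.head_le i)⟩
             step := fun i => l.step i }, hl⟩
  obtain ⟨zs, -, -, hz, h2, h3, -⟩ := exists_ci hd l.head.1.asIdeal
  rw [h3] at h1
  have h4 : m ≤ d - zs.length := by exact_mod_cast h1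
  exact ⟨l.head.1, zs.length, l.head.2, h2, by omega⟩

theorem supportDim_prime_eq {R : Type u} [CommRing R] [IsRegularLocalRing R] {d : ℕ}
    (hd : ringKrullDim R = d) (P : Ideal R) [P.IsPrime] :
    ∃ h : ℕ, P.height = h ∧ h ≤ d ∧ Module.supportDim R (R ⧸ P) = ((d - h : ℕ) : WithBot ℕ∞) := by
  obtain ⟨zs, -, -, hz, h2, h3, -⟩ := exists_ci hd P
  exact ⟨zs.length, h2, hz, h3⟩

end

theorem global_pos {R₁ R₂ T : Type u} [CommRing R₁] [CommRing R₂] [CommRing T]
    [IsRegularLocalRing R₁] [IsRegularLocalRing R₂] [IsRegularLocalRing T]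
    [Algebra R₁ T] [Algebra R₂ T] [Module.Flat R₁ T] [Module.Flat R₂ T]
    (a : ℕ) (hLoc : LocPos.{u} a)
    (μ : T →+* R₁) (hμ : ∀ s, μ (algebraMap R₁ T s) = s) (z : List T)
    (hkerμ : RingHom.ker μ = Ideal.ofList z) (hz : IsWeaklyRegular T z)
    (θ : R₂ ≃+* R₁) (hθ : ∀ s, μ (algebraMap R₂ T s) = θ s)
    (d : ℕ) (hd : ringKrullDim R₁ = d)
    (hb : ∀ (Q : Ideal T) [Q.IsPrime] (r₁ r₂ q : ℕ), (Q.comap (algebraMap R₁ T)).height = r₁ →
      (Q.comap (algebraMap R₂ T)).height = r₂ → Q.height = q → r₁ + r₂ ≤ q + a)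
    (M N : Type u) [AddCommGroup M] [Module R₂ M] [Module.Finite R₂ M]
    [AddCommGroup N] [Module R₁ N] [Module R₂ N] [Module.Finite R₁ N]
    (hN : ∀ (s : R₂) (t : N), s • t = θ s • t)
    (hlen : Module.length R₂ (M ⊗[R₂] N) ≠ ⊤) :
    0 ≤ eulerTor R₂ (d + 1) M N ∧ ∀ m n : ℕ, (m : WithBot ℕ∞) ≤ Module.supportDim R₂ M →
      (n : WithBot ℕ∞) ≤ Module.supportDim R₁ N →
      (m + n ≤ d) ∧ (d ≤ m + n → 0 < eulerTor R₂ (d + 1) M N) := by
  classical
  -- basic facts
  have hμs : Surjective μ := fun s => ⟨algebraMap R₁ T s, hμ s⟩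
  have hμloc : IsLocalHom μ := IsLocalHom.of_surjective μ hμs
  have hl₁ : IsLocalHom (algebraMap R₁ T) := ⟨fun s hs => by
    have := hs.map μ
    rwa [hμ] at this⟩
  have hl₂ : IsLocalHom (algebraMap R₂ T) := ⟨fun s hs => by
    have h1 := (hs.map μ).map θ.symm
    rwa [hθ, RingEquiv.symm_apply_apply] at h1⟩
  have hzm : ∀ y ∈ z, y ∈ maximalIdeal T := by
    intro y hy
    have h1 : y ∈ RingHom.ker μ := by
      rw [hkerμ]
      exact Ideal.subset_span hy
    rw [mem_maximalIdeal, mem_nonunits_iff]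
    intro hu
    have h2 := hu.map μ
    rw [(RingHom.mem_ker).1 h1] at h2
    exact not_isUnit_zero h2
  have hd₂ : ringKrullDim R₂ = d := by rw [ringKrullDim_eq_of_ringEquiv θ, hd]
  have ht : ringKrullDim T = ((d + z.length : ℕ) : WithBot ℕ∞) := by
    have hreg : IsRegular T z := by
      refine ⟨hz, ?_⟩
      intro h
      have h1 : (Ideal.ofList z • ⊤ : Ideal T) ≤ maximalIdeal T := by
        rw [smul_eq_mul, Ideal.mul_top]
        exact Ideal.span_le.2 hzm
      rw [← h] at h1
      exact (maximalIdeal.isMaximal T).ne_top (top_le_iff.1 h1)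
    have h2 := ringKrullDim_add_length_eq_ringKrullDim_of_isRegular _ hreg
    rw [← h2]
    have e : (T ⧸ Ideal.ofList z) ≃+* R₁ :=
      (Ideal.quotEquivOfEq hkerμ.symm).trans (RingHom.quotientKerEquivOfSurjective hμs)
    rw [ringKrullDim_eq_of_ringEquiv e, hd]
    push_cast
    rfl
  -- the ideal
  let I : Ideal T := (Module.annihilator R₁ N).map (algebraMap R₁ T) ⊔
    (Module.annihilator R₂ M).map (algebraMap R₂ T)
  -- Fact A
  have hann : ∀ v ∈ Module.annihilator R₂ N, θ v ∈ Module.annihilator R₁ N := by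
    intro v hv
    rw [Module.mem_annihilator] at hv ⊢
    intro t
    rw [← hN, hv]
  have : Module.Finite R₂ N := by
    let _ : Algebra R₂ R₁ := (θ : R₂ →+* R₁).toAlgebra
    have : IsScalarTower R₂ R₁ N := IsScalarTower.of_algebraMap_smul fun s t => (hN s t).symm
    have : Module.Finite R₂ R₁ := Module.Finite.of_surjective (Algebra.linearMap R₂ R₁)
      θ.surjective
    exact Module.Finite.trans R₁ N
  have hA : maximalIdeal T ≤ (I ⊔ Ideal.ofList z).radical := by
    obtain ⟨k, hk⟩ := exists_pow_le_sup_annihilator (R := R₂) M N hlen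
    intro x hx
    refine ⟨k, ?_⟩
    have h1 : θ.symm (μ x) ∈ maximalIdeal R₂ := by
      rw [mem_maximalIdeal, mem_nonunits_iff] at hx ⊢
      intro hu
      apply hx
      have h2 := hu.map θ
      rw [RingEquiv.apply_symm_apply] at h2
      exact isUnit_of_map_unit μ x h2
    obtain ⟨u, hu, v, hv, huv⟩ := Submodule.mem_sup.1 (hk (Ideal.pow_mem_pow h1 k))
    have h3 : x ^ k - algebraMap R₂ T u - algebraMap R₁ T (θ v) ∈ Ideal.ofList z := by
      rw [← hkerμ, RingHom.mem_ker, map_sub, map_sub, hθ, hμ, map_pow, sub_sub, ← map_add, huv,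
        map_pow, RingEquiv.apply_symm_apply, sub_self]
    have h4 : x ^ k = (algebraMap R₁ T (θ v) + algebraMap R₂ T u) +
        (x ^ k - algebraMap R₂ T u - algebraMap R₁ T (θ v)) := by ring
    rw [h4]
    exact Submodule.add_mem_sup (Submodule.add_mem_sup (Ideal.mem_map_of_mem _ (hann v hv))
      (Ideal.mem_map_of_mem _ hu)) h3
  -- Fact C
  have hC : ∀ Q : Ideal T, I ≤ Q → Module.supportDim T (T ⧸ Q) ≤ (z.length : WithBot ℕ∞) := by
    intro Q hQ
    apply supportDim_le_length z hzm
    unfold FL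
    rw [Ideal.annihilator_quotient]
    exact hA.trans (Ideal.radical_mono (sup_le_sup_right hQ _))
  have hmin : ∀ Q : PrimeSpectrum T, I ≤ Q.asIdeal → (z.length : WithBot ℕ∞) ≤
      Module.supportDim T (T ⧸ Q.asIdeal) → Q.asIdeal ∈ I.minimalPrimes := by
    intro Q hQ hQd
    refine ⟨⟨Q.isPrime, hQ⟩, ?_⟩
    rintro Q' ⟨hQ'p, hQ'⟩ hle
    by_contra hcon
    have hlt : Q' < Q.asIdeal := lt_of_le_not_ge hle hcon
    have h1 := (supportDim_quotient_strict hlt z.length hQd).trans (hC Q' hQ')
    have h2 : z.length + 1 ≤ z.length := by exact_mod_cast h1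
    omega
  have hWfin : {Q : PrimeSpectrum T | I ≤ Q.asIdeal ∧ (z.length : WithBot ℕ∞) ≤
      Module.supportDim T (T ⧸ Q.asIdeal)}.Finite := by
    refine Set.Finite.of_finite_image (f := PrimeSpectrum.asIdeal) ?_ ?_
    · refine (Ideal.finite_minimalPrimes_of_isNoetherianRing T I).subset ?_
      rintro _ ⟨Q, hQ, rfl⟩
      exact hmin Q hQ.1 hQ.2
    · intro Q _ Q' _ h
      exact PrimeSpectrum.ext h
  let W : Finset (PrimeSpectrum T) := hWfin.toFinset
  have hWmem : ∀ Q, Q ∈ W ↔ I ≤ Q.asIdeal ∧ (z.length : WithBot ℕ∞) ≤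
      Module.supportDim T (T ⧸ Q.asIdeal) := fun Q => by
    rw [Set.Finite.mem_toFinset]; rfl
  have hWdim : ∀ Q ∈ W, Module.supportDim T (T ⧸ Q.asIdeal) = (z.length : WithBot ℕ∞) := by
    intro Q hQ
    rw [hWmem] at hQ
    exact le_antisymm (hC _ hQ.1) hQ.2
  -- the main identity
  have hfin : ∀ j, Module.Finite T (TorM T j (T ⊗[R₁] N) (T ⊗[R₂] M)) := fun j =>
    tor_finite (R := T) j _ _
  have hIann : ∀ j, I ≤ Module.annihilator T (TorM T j (T ⊗[R₁] N) (T ⊗[R₂] M)) := by
    intro j
    refine sup_le ?_ ?_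
    · refine (map_annihilator_le N).trans ?_
      intro x hx
      rw [Module.mem_annihilator]
      exact tor_smul_eq_zero_left x (fun m => Module.mem_annihilator.1 hx m) j _
    · refine (map_annihilator_le M).trans ?_
      intro x hx
      rw [Module.mem_annihilator]
      exact tor_smul_eq_zero_right x (fun m => Module.mem_annihilator.1 hx m) j _
  have hv : ∀ j, d + z.length + 1 ≤ j →
      Subsingleton (TorM T j (T ⊗[R₁] N) (T ⊗[R₂] M)) := fun j hj =>
    regular_tor_vanish T _ ht _ _ j hj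
  let n : ℕ := d + z.length + 1 + z.length
  obtain ⟨heq, hFL⟩ : eulerTor R₂ n M N = ∑ j ∈ Finset.range n,
        (-1 : ℤ) ^ j * eul z (TorM T j (T ⊗[R₁] N) (T ⊗[R₂] M)) ∧
      FL2 z (T ⊗[R₁] N) (T ⊗[R₂] M) := by
    let _ : Module T N := Module.compHom N μ
    have hsN : ∀ (b : T) (t : N), b • t = μ b • t := fun b t => rfl
    have : IsScalarTower R₁ T N := ⟨fun s b t => by
      rw [hsN, hsN, Algebra.smul_def, map_mul, hμ, mul_smul]⟩
    have : IsScalarTower R₂ T N := ⟨fun s b t => by
      rw [hsN, hsN, Algebra.smul_def, map_mul, hθ, mul_smul, hN]⟩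
    have hres : ∀ b : T, ∃ s : R₁, b - algebraMap R₁ T s ∈ Ideal.ofList z := by
      intro b
      refine ⟨μ b, ?_⟩
      rw [← hkerμ, RingHom.mem_ker, map_sub, hμ, sub_self]
    have hkill : ∀ y ∈ Ideal.ofList z, ∀ t : N, y • t = 0 := by
      intro y hy t
      rw [← hkerμ, RingHom.mem_ker] at hy
      rw [hsN, hy, zero_smul]
    have hN2 : ∀ b : T, ∃ s : R₂, ∀ t : N, b • t = s • t := by
      intro b
      refine ⟨θ.symm (μ b), fun t => ?_⟩
      rw [hN, RingEquiv.apply_symm_apply, hsN]
    let _ : Module T R₁ := Module.compHom R₁ μ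
    have hsm : ∀ (b : T) (t : R₁), b • t = μ b * t := fun b t => rfl
    have : IsScalarTower R₁ T R₁ := ⟨fun s b t => by
      rw [hsm, hsm, Algebra.smul_def, map_mul, hμ, smul_eq_mul, mul_assoc]⟩
    let μl : T →ₗ[T] R₁ :=
      { toFun := μ
        map_add' := map_add μ
        map_smul' := fun b c => by
          rw [smul_eq_mul, map_mul, RingHom.id_apply, hsm] }
    have hker : LinearMap.ker μl = (Ideal.ofList z • ⊤ : Submodule T T) := by
      rw [smul_eq_mul, Ideal.mul_top, ← hkerμ]
      rfl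
    have e : (T ⧸ (Ideal.ofList z • ⊤ : Submodule T T)) ≃ₗ[T] R₁ :=
      Submodule.quotEquivOfEq _ _ hker.symm ≪≫ₗ μl.quotKerEquivOfSurjective hμs
    exact eulerTor_eq_sum_eul z hzm hz hres R₁ e N hkill hN2 M (d + z.length + 1) hv hlen n le_rfl
  have hassoc : ∀ j, eul z (TorM T j (T ⊗[R₁] N) (T ⊗[R₂] M)) =
      ∑ Q ∈ W, ((locLen Q.asIdeal (TorM T j (T ⊗[R₁] N) (T ⊗[R₂] M))).toNat : ℤ) *
        eul z (T ⧸ Q.asIdeal) := by
    intro j
    have := hfin j
    refine (assoc_formula z hzm W hWdim _ (hFL.tor j) ?_).2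
    intro Q hQ hQd
    rw [hWmem]
    refine ⟨?_, hQd⟩
    rw [Module.support_eq_zeroLocus] at hQ
    exact (hIann j).trans hQ
  have hsum : eulerTor R₂ n M N = ∑ Q ∈ W,
      locEul Q.asIdeal n (T ⊗[R₁] N) (T ⊗[R₂] M) * eul z (T ⧸ Q.asIdeal) := by
    rw [heq]
    simp only [hassoc, Finset.mul_sum]
    rw [Finset.sum_comm]
    refine Finset.sum_congr rfl fun Q _ => ?_
    unfold locEul
    rw [Finset.sum_mul]
    refine Finset.sum_congr rfl fun j _ => ?_
    ring
  have hshrink : eulerTor R₂ n M N = eulerTor R₂ (d + 1) M N := by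
    have : Module.Finite R₂ N := ‹_›
    exact eulerTor_shrink M N (d + 1) n (by omega) fun j hj =>
      regular_tor_vanish R₂ d hd₂ M N j hj
  rw [← hshrink, hsum]
  -- positivity of the second factor
  have heul : ∀ Q : Ideal T, I ≤ Q → 0 ≤ eul z (T ⧸ Q) ∧
      ((z.length : WithBot ℕ∞) ≤ Module.supportDim T (T ⧸ Q) → 0 < eul z (T ⧸ Q)) := by
    intro Q hQ
    apply eul_nonneg_pos z hzm
    unfold FL
    rw [Ideal.annihilator_quotient]
    exact hA.trans (Ideal.radical_mono (sup_le_sup_right hQ _))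
  -- heights
  have hht : ∀ Q : Ideal T, Q.IsPrime → ∃ r₁ r₂ q : ℕ, (Q.comap (algebraMap R₁ T)).height = r₁ ∧
      (Q.comap (algebraMap R₂ T)).height = r₂ ∧ Q.height = q ∧ r₁ + r₂ ≤ q + a ∧
      q ≤ d + z.length ∧ Module.supportDim T (T ⧸ Q) = ((d + z.length - q : ℕ) : WithBot ℕ∞) := by
    intro Q hQ
    have h1 : (Q.comap (algebraMap R₁ T)).IsPrime := Ideal.IsPrime.comap _
    have h2 : (Q.comap (algebraMap R₂ T)).IsPrime := Ideal.IsPrime.comap _
    obtain ⟨r₁, hr₁, -, -⟩ := supportDim_prime_eq hd (Q.comap (algebraMap R₁ T))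
    obtain ⟨r₂, hr₂, -, -⟩ := supportDim_prime_eq hd₂ (Q.comap (algebraMap R₂ T))
    obtain ⟨q, hq, hq', hq''⟩ := supportDim_prime_eq ht Q
    exact ⟨r₁, r₂, q, hr₁, hr₂, hq, hb Q r₁ r₂ q hr₁ hr₂ hq, hq', hq''⟩
  have hterm : ∀ Q ∈ W, 0 ≤ locEul Q.asIdeal n (T ⊗[R₁] N) (T ⊗[R₂] M) *
      eul z (T ⧸ Q.asIdeal) := by
    intro Q hQ
    have hQ' := (hWmem Q).1 hQ
    have hQp := Q.isPrime
    obtain ⟨r₁, r₂, q, hr₁, hr₂, hq, hbb, hqt, -⟩ := hht Q.asIdeal Q.isPrime
    obtain ⟨b, -, h1, -⟩ := local_value a hLoc N M Q.asIdeal (hmin Q hQ'.1 hQ'.2) r₁ r₂ q hr₁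
      hr₂ hq hbb n (by omega)
    exact mul_nonneg h1 (heul _ hQ'.1).1
  refine ⟨Finset.sum_nonneg hterm, ?_⟩
  intro m k hm hk
  obtain ⟨p₂, P₂, hp₂, hP₂, hm'⟩ := exists_prime_of_le_supportDim hd₂ M m hm
  obtain ⟨p₁, P₁, hp₁, hP₁, hk'⟩ := exists_prime_of_le_supportDim hd N k hk
  -- the minimal prime
  let J : Ideal T := p₁.asIdeal.map (algebraMap R₁ T) ⊔ p₂.asIdeal.map (algebraMap R₂ T)
  have hJ : J ≤ maximalIdeal T := by
    refine sup_le ?_ ?_
    · exact (Ideal.map_mono (le_maximalIdeal p₁.isPrime.ne_top)).trans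
        (((IsLocalRing.local_hom_TFAE (algebraMap R₁ T)).out 0 2).mp hl₁)
    · exact (Ideal.map_mono (le_maximalIdeal p₂.isPrime.ne_top)).trans
        (((IsLocalRing.local_hom_TFAE (algebraMap R₂ T)).out 0 2).mp hl₂)
  obtain ⟨Q, hQ, -⟩ := Ideal.exists_minimalPrimes_le hJ
  have hQp : Q.IsPrime := hQ.1.1
  have hIJ : I ≤ J := by
    rw [Module.support_eq_zeroLocus] at hp₁ hp₂
    exact sup_le_sup (Ideal.map_mono hp₁) (Ideal.map_mono hp₂)
  have hIQ : I ≤ Q := hIJ.trans hQ.1.2
  obtain ⟨r₁, r₂, q, hr₁, hr₂, hq, hbb, hqt, hQd⟩ := hht Q hQp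
  have hle₁ : p₁.asIdeal ≤ Q.comap (algebraMap R₁ T) := by
    rw [← Ideal.map_le_iff_le_comap]
    exact le_sup_left.trans hQ.1.2
  have hle₂ : p₂.asIdeal ≤ Q.comap (algebraMap R₂ T) := by
    rw [← Ideal.map_le_iff_le_comap]
    exact le_sup_right.trans hQ.1.2
  have hP₁r : P₁ ≤ r₁ := by
    have := Ideal.height_mono hle₁
    rw [hP₁, hr₁] at this
    exact_mod_cast this
  have hP₂r : P₂ ≤ r₂ := by
    have := Ideal.height_mono hle₂
    rw [hP₂, hr₂] at this
    exact_mod_cast this
  have hqP : q ≤ P₁ + P₂ := by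
    have hQ2 : Q ∈ ((Module.annihilator R₁ (R₁ ⧸ p₁.asIdeal)).map (algebraMap R₁ T) ⊔
        (Module.annihilator R₂ (R₂ ⧸ p₂.asIdeal)).map (algebraMap R₂ T)).minimalPrimes := by
      rw [Ideal.annihilator_quotient, Ideal.annihilator_quotient]
      exact hQ
    obtain ⟨b, hb1, -, hb2⟩ := local_value a hLoc (R₁ ⧸ p₁.asIdeal) (R₂ ⧸ p₂.asIdeal) Q hQ2
      r₁ r₂ q hr₁ hr₂ hq hbb n (by omega)
    have h5 := (hb2 P₁ P₂ p₁ p₂ ((support_quotient_prime _ _).2 le_rfl)
      ((support_quotient_prime _ _).2 le_rfl) hle₁ hle₂ hP₁ hP₂).1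
    omega
  have hCQ := hC Q hIQ
  rw [hQd] at hCQ
  have hCQ' : d + z.length - q ≤ z.length := by exact_mod_cast hCQ
  constructor
  · omega
  · intro hdm
    have hqd : q = d := by omega
    have hPP : P₁ + P₂ = d := by omega
    have hQz : (z.length : WithBot ℕ∞) ≤ Module.supportDim T (T ⧸ Q) := by
      rw [hQd]
      have : z.length ≤ d + z.length - q := by omega
      exact_mod_cast this
    have hQW : (⟨Q, hQp⟩ : PrimeSpectrum T) ∈ W := (hWmem _).2 ⟨hIQ, hQz⟩
    obtain ⟨b, hb1, -, hb2⟩ := local_value a hLoc N M Q (hmin ⟨Q, hQp⟩ hIQ hQz)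
      r₁ r₂ q hr₁ hr₂ hq hbb n (by omega)
    have h6 := (hb2 P₁ P₂ p₁ p₂ hp₁ hp₂ hle₁ hle₂ hP₁ hP₂).2 (by omega)
    exact Finset.sum_pos' hterm ⟨_, hQW, mul_pos h6 ((heul Q hIQ).2 hQz)⟩

end Vale.Agent.P177
end

section

/-!
Positivity for essentially smooth algebras over a regular local ring of small dimension, from the
local positivity statement.
-/

namespace Vale.Agent.P177

open CategoryTheory TensorProduct Function IsLocalRing RingTheory.Sequence Pointwise

universe u

/-- `global_pos` with explicit ring homomorphisms. -/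
theorem global_pos_hom {R₁ R₂ T : Type u} [CommRing R₁] [CommRing R₂] [CommRing T]
    [IsRegularLocalRing R₁] [IsRegularLocalRing R₂] [IsRegularLocalRing T]
    (i₁ : R₁ →+* T) (i₂ : R₂ →+* T) (h₁ : i₁.Flat) (h₂ : i₂.Flat)
    (a : ℕ) (hLoc : LocPos.{u} a)
    (μ : T →+* R₁) (hμ : ∀ s, μ (i₁ s) = s) (z : List T)
    (hkerμ : RingHom.ker μ = Ideal.ofList z) (hz : IsWeaklyRegular T z)
    (θ : R₂ ≃+* R₁) (hθ : ∀ s, μ (i₂ s) = θ s)
    (d : ℕ) (hd : ringKrullDim R₁ = d)
    (hb : ∀ (Q : Ideal T) [Q.IsPrime] (r₁ r₂ q : ℕ), (Q.comap i₁).height = r₁ →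
      (Q.comap i₂).height = r₂ → Q.height = q → r₁ + r₂ ≤ q + a)
    (M N : Type u) [AddCommGroup M] [Module R₂ M] [Module.Finite R₂ M]
    [AddCommGroup N] [Module R₁ N] [Module R₂ N] [Module.Finite R₁ N]
    (hN : ∀ (s : R₂) (t : N), s • t = θ s • t)
    (hlen : Module.length R₂ (M ⊗[R₂] N) ≠ ⊤) :
    0 ≤ eulerTor R₂ (d + 1) M N ∧ ∀ m n : ℕ, (m : WithBot ℕ∞) ≤ Module.supportDim R₂ M →
      (n : WithBot ℕ∞) ≤ Module.supportDim R₁ N →
      (m + n ≤ d) ∧ (d ≤ m + n → 0 < eulerTor R₂ (d + 1) M N) := by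
  let _ : Algebra R₁ T := i₁.toAlgebra
  let _ : Algebra R₂ T := i₂.toAlgebra
  have : Module.Flat R₁ T := h₁
  have : Module.Flat R₂ T := h₂
  exact global_pos a hLoc μ hμ z hkerμ hz θ hθ d hd hb M N hN hlen

end Vale.Agent.P177
end

section

/-!
Serre's statements for power series rings over a regular local ring of small dimension.
-/

namespace Vale.Agent.P177

open CategoryTheory TensorProduct Function IsLocalRing RingTheory.Sequence Pointwise

section

variable (A : Type*) [CommRing A] (n : ℕ)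

theorem idealX_eq_sup :
    (Ideal.span (Set.range MvPowerSeries.X) : Ideal (MvPowerSeries (Fin n ⊕ Fin n) A)) =
      Ideal.span (Set.range (fun j : Fin n => MvPowerSeries.X (Sum.inl j))) ⊔
      Ideal.span (Set.range (fun j : Fin n => MvPowerSeries.X (Sum.inr j))) := by
  rw [← Ideal.span_union]
  congr 1
  ext x
  simp

/-- The diagonal elements. -/
noncomputable def diagListGen : List (MvPowerSeries (Fin n ⊕ Fin n) A) :=
  List.ofFn (fun j : Fin n => MvPowerSeries.X (Sum.inl j) - MvPowerSeries.X (Sum.inr j))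

theorem ofList_diagListGen : Ideal.ofList (diagListGen A n) =
    Ideal.span (Set.range (fun j : Fin n =>
      (MvPowerSeries.X (Sum.inl j) - MvPowerSeries.X (Sum.inr j) :
        MvPowerSeries (Fin n ⊕ Fin n) A))) := by
  rw [Ideal.ofList, diagListGen]
  congr 1
  ext x
  simp [List.mem_ofFn]

theorem map_idealX_rename (e : Fin n ↪ Fin n ⊕ Fin n) :
    (Ideal.span (Set.range MvPowerSeries.X) : Ideal (MvPowerSeries (Fin n) A)).map
      (MvPowerSeries.rename (R := A) e).toRingHom =
      Ideal.span (Set.range (fun j : Fin n => MvPowerSeries.X (e j))) := by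
  rw [Ideal.map_span, ← Set.range_comp]
  congr 2
  ext1 j
  exact MvPowerSeries.rename_X e j

theorem idealX_eq_sup' :
    (Ideal.span (Set.range MvPowerSeries.X) : Ideal (MvPowerSeries (Fin n ⊕ Fin n) A)) =
      Ideal.span (Set.range (fun j : Fin n => MvPowerSeries.X (Sum.inl j))) ⊔
      Ideal.ofList (diagListGen A n) := by
  rw [idealX_eq_sup, ofList_diagListGen]
  apply le_antisymm
  · refine sup_le le_sup_left ?_
    rw [Ideal.span_le]
    rintro _ ⟨j, rfl⟩
    have h1 : (MvPowerSeries.X (Sum.inl j) : MvPowerSeries (Fin n ⊕ Fin n) A) ∈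
        Ideal.span (Set.range (fun j : Fin n =>
          (MvPowerSeries.X (Sum.inl j) : MvPowerSeries (Fin n ⊕ Fin n) A))) :=
      Ideal.subset_span ⟨j, rfl⟩
    have h2 : (MvPowerSeries.X (Sum.inl j) - MvPowerSeries.X (Sum.inr j) :
        MvPowerSeries (Fin n ⊕ Fin n) A) ∈ Ideal.span (Set.range (fun j : Fin n =>
          (MvPowerSeries.X (Sum.inl j) - MvPowerSeries.X (Sum.inr j) :
          MvPowerSeries (Fin n ⊕ Fin n) A))) :=
      Ideal.subset_span ⟨j, rfl⟩
    have h3 := Ideal.sub_mem _ (Ideal.mem_sup_left h1) (Ideal.mem_sup_right h2)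
    rwa [sub_sub_cancel] at h3
  · refine sup_le le_sup_left ?_
    rw [Ideal.span_le]
    rintro _ ⟨j, rfl⟩
    exact Ideal.sub_mem _ (Ideal.mem_sup_left (Ideal.subset_span ⟨j, rfl⟩))
      (Ideal.mem_sup_right (Ideal.subset_span ⟨j, rfl⟩))

theorem sub_C_mem_gen (σ : Type*) [Finite σ] (b : MvPowerSeries σ A) :
    b - MvPowerSeries.C (MvPowerSeries.constantCoeff b) ∈
      (Ideal.span (Set.range MvPowerSeries.X) : Ideal (MvPowerSeries σ A)) := by
  apply mem_span_X_of_constantCoeff_eq_zero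
  simp

variable [IsRegularLocalRing A]

theorem isWeaklyRegular_diagListGen {a : ℕ} (ha : ringKrullDim A = a) :
    IsWeaklyRegular (MvPowerSeries (Fin n ⊕ Fin n) A) (diagListGen A n) := by
  obtain ⟨hreg, hdim⟩ := mvPowerSeries_regular (A := A) (n + n) (finSumFinEquiv (m := n) (n := n)) ha
  obtain ⟨rs, hrs, hlen⟩ := exists_list_maximalIdeal A
  have hlen' : rs.length = a := by
    rw [ha] at hlen
    exact_mod_cast hlen
  have h1 := isRegular_of_ofList_eq_maximalIdeal (MvPowerSeries (Fin n ⊕ Fin n) A)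
    (diagListGen A n ++ (List.ofFn (fun j : Fin n => MvPowerSeries.X (Sum.inl j)) ++
      rs.map (MvPowerSeries.C (σ := Fin n ⊕ Fin n)))) (by
      rw [Ideal.ofList_append, Ideal.ofList_append, ← Ideal.map_ofList, hrs,
        mvPowerSeries_maximalIdeal_gen, idealX_eq_sup', ← sup_assoc, sup_comm,
        sup_comm (Ideal.ofList (diagListGen A n))]
      congr 2
      rw [Ideal.ofList]
      congr 1
      ext x
      simp [List.mem_ofFn]) (by
      rw [hdim]
      simp only [List.length_append, List.length_ofFn, List.length_map, hlen', diagListGen]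
      congr 1
      omega)
  exact ((isWeaklyRegular_append_iff _ _ _).mp h1.toIsWeaklyRegular).1

end

universe u

/-- Serre's statements for power series rings over a regular local ring. -/
theorem serre_powerSeries (a : ℕ) (hLoc : LocPos.{u} a) (A : Type u) [CommRing A]
    [IsRegularLocalRing A] (hA : ringKrullDim A ≤ a) (n : ℕ) (d : ℕ)
    (hd : ringKrullDim (MvPowerSeries (Fin n) A) = d)
    (M N : Type u) [AddCommGroup M] [Module (MvPowerSeries (Fin n) A) M]
    [Module.Finite (MvPowerSeries (Fin n) A) M]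
    [AddCommGroup N] [Module (MvPowerSeries (Fin n) A) N]
    [Module.Finite (MvPowerSeries (Fin n) A) N]
    (hlen : Module.length (MvPowerSeries (Fin n) A) (M ⊗[MvPowerSeries (Fin n) A] N) ≠ ⊤) :
    0 ≤ eulerTor (MvPowerSeries (Fin n) A) (d + 1) M N ∧ ∀ m n' : ℕ,
      (m : WithBot ℕ∞) ≤ Module.supportDim (MvPowerSeries (Fin n) A) M →
      (n' : WithBot ℕ∞) ≤ Module.supportDim (MvPowerSeries (Fin n) A) N →
      (m + n' ≤ d) ∧ (d ≤ m + n' → 0 < eulerTor (MvPowerSeries (Fin n) A) (d + 1) M N) := by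
  obtain ⟨a', ha'⟩ : ∃ a' : ℕ, ringKrullDim A = a' := by
    obtain ⟨rs, -, hlen⟩ := exists_list_maximalIdeal A
    exact ⟨_, hlen.symm⟩
  have haa : a' ≤ a := by
    rw [ha'] at hA
    exact_mod_cast hA
  obtain ⟨hregR, hdimR⟩ := mvPowerSeries_regular (A := A) n (Equiv.refl (Fin n)) ha'
  obtain ⟨hregT, hdimT⟩ :=
    mvPowerSeries_regular (A := A) (n + n) (finSumFinEquiv (m := n) (n := n)) ha'
  have hcomp : IsAdicComplete (Ideal.span (Set.range MvPowerSeries.X) :
    Ideal (MvPowerSeries (Fin n) A)) (MvPowerSeries (Fin n) A) := inferInstance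
  have hker : RingHom.ker (MvPowerSeries.rename (R := A)
      (Sum.elim id id : Fin n ⊕ Fin n → Fin n)).toRingHom = Ideal.ofList (diagListGen A n) := by
    refine ker_le_of_retraction_ideal (Ideal.span (Set.range MvPowerSeries.X))
      (MvPowerSeries.rename (R := A) (Embedding.inl : Fin n ↪ Fin n ⊕ Fin n)).toRingHom
      _ ?_ (Ideal.ofList (diagListGen A n)) (Ideal.span (Set.range MvPowerSeries.X)) ?_ ?_ ?_ ?_
    · ext1 p
      change MvPowerSeries.rename (Sum.elim id id) (MvPowerSeries.rename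
        (Function.Embedding.inl : Fin n ↪ Fin n ⊕ Fin n) p) = p
      rw [MvPowerSeries.rename_rename]
      exact MvPowerSeries.rename_id_apply p
    · rw [ofList_diagListGen, Ideal.span_le]
      rintro _ ⟨j, rfl⟩
      change MvPowerSeries.rename (Sum.elim id id) _ = 0
      rw [map_sub, MvPowerSeries.rename_X, MvPowerSeries.rename_X]
      simp
    · rw [mvPowerSeries_maximalIdeal_gen]
      exact le_sup_right
    · rw [map_idealX_rename, idealX_eq_sup']
      rfl
    · intro b
      refine ⟨MvPowerSeries.C (MvPowerSeries.constantCoeff b), ?_⟩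
      have h1 : (MvPowerSeries.rename (R := A)
          (Function.Embedding.inl : Fin n ↪ Fin n ⊕ Fin n)).toRingHom
          (MvPowerSeries.C (MvPowerSeries.constantCoeff b)) =
          MvPowerSeries.C (MvPowerSeries.constantCoeff b) := MvPowerSeries.rename_C _ _
      rw [h1]
      exact sub_C_mem_gen A _ b
  have hsup : (maximalIdeal (MvPowerSeries (Fin n) A)).map (MvPowerSeries.rename (R := A)
      (Embedding.inl : Fin n ↪ Fin n ⊕ Fin n)).toRingHom ⊔
      (maximalIdeal (MvPowerSeries (Fin n) A)).map (MvPowerSeries.rename (R := A)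
      (Embedding.inr : Fin n ↪ Fin n ⊕ Fin n)).toRingHom =
      maximalIdeal (MvPowerSeries (Fin n ⊕ Fin n) A) := by
    have hC : ∀ e : Fin n ↪ Fin n ⊕ Fin n, ((maximalIdeal A).map
        (MvPowerSeries.C (σ := Fin n))).map (MvPowerSeries.rename (R := A) e).toRingHom =
        (maximalIdeal A).map (MvPowerSeries.C (σ := Fin n ⊕ Fin n)) := by
      intro e
      rw [Ideal.map_map]
      congr 1
      ext1 x
      exact MvPowerSeries.rename_C _ _
    rw [mvPowerSeries_maximalIdeal_gen, mvPowerSeries_maximalIdeal_gen, Ideal.map_sup,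
      Ideal.map_sup, map_idealX_rename, map_idealX_rename, hC, hC, ← sup_sup_distrib_left,
      idealX_eq_sup]
    rfl
  have hdd : d = a' + n := by
    rw [hd] at hdimR
    exact_mod_cast hdimR
  refine global_pos_hom
    (MvPowerSeries.rename (R := A) (Embedding.inl : Fin n ↪ Fin n ⊕ Fin n)).toRingHom
    (MvPowerSeries.rename (R := A) (Embedding.inr : Fin n ↪ Fin n ⊕ Fin n)).toRingHom
    (flat_rename _) (flat_rename _) a hLoc
    (MvPowerSeries.rename (R := A) (Sum.elim id id : Fin n ⊕ Fin n → Fin n)).toRingHom ?_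
    (diagListGen A n) hker (isWeaklyRegular_diagListGen A n ha')
    (RingEquiv.refl _) ?_ d hd ?_ M N (fun s t => rfl) hlen
  · intro p
    change MvPowerSeries.rename (Sum.elim id id) (MvPowerSeries.rename
      (Function.Embedding.inl : Fin n ↪ Fin n ⊕ Fin n) p) = p
    rw [MvPowerSeries.rename_rename]
    exact MvPowerSeries.rename_id_apply p
  · intro p
    change MvPowerSeries.rename (Sum.elim id id) (MvPowerSeries.rename
      (Function.Embedding.inr : Fin n ↪ Fin n ⊕ Fin n) p) = p
    rw [MvPowerSeries.rename_rename]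
    exact MvPowerSeries.rename_id_apply p
  · intro Q hQ r₁ r₂ q h₁ h₂ hq
    have h3 := height_le_of_sup _ _ hdimR hdimT hsup (a := a') (by omega) Q r₁ r₂ q h₁ h₂ hq
    omega

end Vale.Agent.P177
end

section

/-!
Descent of Serre's statements along flat local maps with trivial closed fibre.
-/

namespace Vale.Agent.P177

open CategoryTheory TensorProduct Function IsLocalRing RingTheory.Sequence Pointwise

universe u

/-- Serre's statements for all pairs of modules over a ring of dimension `d`. -/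
def SerreAll (R : Type u) [CommRing R] (d : ℕ) : Prop :=
  ∀ (M N : Type u) [AddCommGroup M] [Module R M] [Module.Finite R M]
    [AddCommGroup N] [Module R N] [Module.Finite R N],
    Module.length R (M ⊗[R] N) ≠ ⊤ →
    0 ≤ eulerTor R (d + 1) M N ∧ ∀ m n : ℕ, (m : WithBot ℕ∞) ≤ Module.supportDim R M →
      (n : WithBot ℕ∞) ≤ Module.supportDim R N →
      (m + n ≤ d) ∧ (d ≤ m + n → 0 < eulerTor R (d + 1) M N)

theorem serreAll_powerSeries (a : ℕ) (hLoc : LocPos.{u} a) (A : Type u) [CommRing A]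
    [IsRegularLocalRing A] (hA : ringKrullDim A ≤ a) (n : ℕ) (d : ℕ)
    (hd : ringKrullDim (MvPowerSeries (Fin n) A) = d) : SerreAll (MvPowerSeries (Fin n) A) d :=
  fun M N _ _ _ _ _ _ hlen => serre_powerSeries a hLoc A hA n d hd M N hlen

section

variable {R C : Type u} [CommRing R] [CommRing C] [IsLocalRing R] [IsNoetherianRing R]
  [IsLocalRing C] [IsNoetherianRing C] [Algebra R C] [Module.Flat R C]

theorem SerreAll.descend (hloc : (maximalIdeal R).map (algebraMap R C) = maximalIdeal C) {d : ℕ}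
    (h : SerreAll C d) : SerreAll R d := by
  intro M N _ _ _ _ _ _ hlen
  have e : (C ⊗[R] M) ⊗[C] (C ⊗[R] N) ≃ₗ[C] C ⊗[R] (M ⊗[R] N) :=
    (AlgebraTensorModule.distribBaseChange R C M N).symm
  have hlenC : Module.length C ((C ⊗[R] M) ⊗[C] (C ⊗[R] N)) ≠ ⊤ := by
    rw [e.length_eq, length_baseChange' R C hloc]
    exact hlen
  obtain ⟨h1, h2⟩ := h (C ⊗[R] M) (C ⊗[R] N) hlenC
  have heq : eulerTor C (d + 1) (C ⊗[R] M) (C ⊗[R] N) = eulerTor R (d + 1) M N := by
    unfold eulerTor
    refine Finset.sum_congr rfl fun j _ => ?_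
    rw [length_tor_bc₂ (A := R) (C := C) hloc j (TensorProduct.isBaseChange R M C)
      (TensorProduct.isBaseChange R N C)]
  rw [heq] at h1 h2
  exact ⟨h1, fun m n hm hn => h2 m n (hm.trans (supportDim_le_baseChange R C hloc M))
    (hn.trans (supportDim_le_baseChange R C hloc N))⟩

end

theorem ringKrullDim_eq_of_flat {R C : Type u} [CommRing R] [CommRing C] [IsRegularLocalRing R]
    [IsLocalRing C] [IsNoetherianRing C] [Algebra R C] [Module.Flat R C]
    (hloc : (maximalIdeal R).map (algebraMap R C) = maximalIdeal C) :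
    ringKrullDim C = ringKrullDim R := by
  obtain ⟨rs, hrs, hlen⟩ := exists_list_maximalIdeal R
  have hreg := isRegular_of_ofList_eq_maximalIdeal R rs hrs hlen
  have h1 : IsWeaklyRegular C (rs.map (algebraMap R C)) := hreg.toIsWeaklyRegular.of_flat
  have h2 := length_le_height (maximalIdeal C) _ (fun z hz => by
    rw [List.mem_map] at hz
    obtain ⟨y, hy, rfl⟩ := hz
    rw [← hloc]
    exact Ideal.mem_map_of_mem _ (by rw [← hrs]; exact Ideal.subset_span hy)) h1
  rw [List.length_map] at h2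
  have h3 : (rs.length : WithBot ℕ∞) ≤ ringKrullDim C := by
    refine le_trans ?_ (Ideal.height_le_ringKrullDim_of_isPrime (I := maximalIdeal C))
    exact_mod_cast h2
  have h4 := isRegularLocalRing_of_list (B := C) (rs.map (algebraMap R C)) (by
    rw [← Ideal.map_ofList, hrs, hloc]) (by rw [List.length_map]; exact h3)
  rw [h4.2, List.length_map, hlen]

end Vale.Agent.P177
end

section

/-!
The data attached to a quadratic hypersurface in a power series ring over a discrete valuation
ring.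
-/

namespace Vale.Agent.P177

open TensorProduct IsLocalRing RingTheory.Sequence Function

universe u

theorem exists_polar {B Γ : Type*} [CommRing B] [CommRing Γ] {d : ℕ} (a₁ a₂ : B →+* Γ)
    (x : Fin d → B) (c : Fin d → Fin d → B)
    (diag : ∀ b, a₂ b - a₁ b ∈ Ideal.span (Set.range fun i => a₂ (x i) - a₁ (x i))) :
    ∃ w : Fin d → Fin d → Γ, (∀ l m, w l m ∈ Ideal.span (Set.range fun i => a₁ (x i))) ∧
      a₂ (∑ i, ∑ j, x i * c i j * x j) - a₁ (∑ i, ∑ j, x i * c i j * x j) =
        ∑ l, (a₂ (x l) - a₁ (x l)) * (∑ m, (a₂ (c l m) + a₂ (c m l) + w l m) * a₁ (x m) +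
          ∑ m, a₂ (c l m) * (a₂ (x m) - a₁ (x m))) := by
  have h1 : ∀ i j, ∃ e : Fin d → Γ, ∑ l, e l * (a₂ (x l) - a₁ (x l)) =
      a₂ (c i j) - a₁ (c i j) := fun i j =>
    (Ideal.mem_span_range_iff_exists_fun).1 (diag (c i j))
  choose e he using h1
  refine ⟨fun l m => ∑ i, a₁ (x i) * e i m l, ?_, ?_⟩
  · intro l m
    exact Ideal.sum_mem _ fun i _ => Ideal.mul_mem_right _ _ (Ideal.subset_span ⟨i, rfl⟩)
  · simp only [map_sum, map_mul]
    set X : Fin d → Γ := fun i => a₁ (x i) with hX
    set Y : Fin d → Γ := fun i => a₂ (x i) with hY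
    have hXi : ∀ i, a₁ (x i) = X i := fun i => rfl
    have hYi : ∀ i, a₂ (x i) = Y i := fun i => rfl
    simp only [hXi, hYi] at he ⊢
    have e1 : ∀ i j, Y i * a₂ (c i j) * Y j - X i * a₁ (c i j) * X j =
        (Y i - X i) * a₂ (c i j) * X j + X i * a₂ (c i j) * (Y j - X j) +
        (Y i - X i) * a₂ (c i j) * (Y j - X j) +
          ∑ l, X i * e i j l * (Y l - X l) * X j := by
      intro i j
      have h2 : ∑ l, X i * e i j l * (Y l - X l) * X j =
          X i * (a₂ (c i j) - a₁ (c i j)) * X j := by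
        rw [← he, Finset.mul_sum, Finset.sum_mul]
        refine Finset.sum_congr rfl fun l _ => ?_
        ring
      rw [h2]
      ring
    have e2 : ∑ i, ∑ j, Y i * a₂ (c i j) * Y j - ∑ i, ∑ j, X i * a₁ (c i j) * X j =
        ∑ i, ∑ j, (Y i - X i) * a₂ (c i j) * X j + ∑ i, ∑ j, X i * a₂ (c i j) * (Y j - X j) +
        ∑ i, ∑ j, (Y i - X i) * a₂ (c i j) * (Y j - X j) +
          ∑ i, ∑ j, ∑ l, X i * e i j l * (Y l - X l) * X j := by
      simp only [← Finset.sum_sub_distrib, ← Finset.sum_add_distrib]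
      exact Finset.sum_congr rfl fun i _ => Finset.sum_congr rfl fun j _ => e1 i j
    rw [e2]
    have e3 : ∑ l, (Y l - X l) * (∑ m, (a₂ (c l m) + a₂ (c m l) + ∑ i, X i * e i m l) * X m +
        ∑ m, a₂ (c l m) * (Y m - X m)) =
        ∑ l, ∑ m, (Y l - X l) * a₂ (c l m) * X m + ∑ l, ∑ m, (Y l - X l) * a₂ (c m l) * X m +
        ∑ l, ∑ m, (Y l - X l) * a₂ (c l m) * (Y m - X m) +
          ∑ l, ∑ m, ∑ i, X i * e i m l * (Y l - X l) * X m := by
      simp only [← Finset.sum_add_distrib]
      refine Finset.sum_congr rfl fun l _ => ?_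
      rw [Finset.mul_sum]
      refine Finset.sum_congr rfl fun m _ => ?_
      have h2 : ∑ i, X i * e i m l * (Y l - X l) * X m =
          (Y l - X l) * (∑ i, X i * e i m l) * X m := by
        rw [Finset.mul_sum, Finset.sum_mul]
        refine Finset.sum_congr rfl fun i _ => ?_
        ring
      rw [h2]
      ring
    rw [e3]
    congr 1
    · congr 1
      congr 1
      rw [Finset.sum_comm]
      refine Finset.sum_congr rfl fun l _ => Finset.sum_congr rfl fun m _ => ?_
      ring
    · symm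
      calc ∑ l, ∑ m, ∑ i, X i * e i m l * (Y l - X l) * X m =
          ∑ m, ∑ l, ∑ i, X i * e i m l * (Y l - X l) * X m := Finset.sum_comm
        _ = ∑ m, ∑ i, ∑ l, X i * e i m l * (Y l - X l) * X m :=
          Finset.sum_congr rfl fun m _ => Finset.sum_comm
        _ = _ := Finset.sum_comm

theorem ker_rename_elim (A : Type*) [CommRing A] [IsRegularLocalRing A] (n : ℕ) :
    RingHom.ker (MvPowerSeries.rename (R := A)
      (Sum.elim id id : Fin n ⊕ Fin n → Fin n)).toRingHom = Ideal.ofList (diagListGen A n) := by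
  obtain ⟨a', ha'⟩ := QData.exists_nat_ringKrullDim A
  obtain ⟨hregT, hdimT⟩ :=
    mvPowerSeries_regular (A := A) (n + n) (finSumFinEquiv (m := n) (n := n)) ha'
  have hcomp : IsAdicComplete (Ideal.span (Set.range MvPowerSeries.X) :
    Ideal (MvPowerSeries (Fin n) A)) (MvPowerSeries (Fin n) A) := inferInstance
  refine ker_le_of_retraction_ideal (Ideal.span (Set.range MvPowerSeries.X))
    (MvPowerSeries.rename (R := A) (Embedding.inl : Fin n ↪ Fin n ⊕ Fin n)).toRingHom
    _ ?_ (Ideal.ofList (diagListGen A n)) (Ideal.span (Set.range MvPowerSeries.X)) ?_ ?_ ?_ ?_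
  · ext1 p
    change MvPowerSeries.rename (Sum.elim id id) (MvPowerSeries.rename
      (Function.Embedding.inl : Fin n ↪ Fin n ⊕ Fin n) p) = p
    rw [MvPowerSeries.rename_rename]
    exact MvPowerSeries.rename_id_apply p
  · rw [ofList_diagListGen, Ideal.span_le]
    rintro _ ⟨j, rfl⟩
    change MvPowerSeries.rename (Sum.elim id id) _ = 0
    rw [map_sub, MvPowerSeries.rename_X, MvPowerSeries.rename_X]
    simp
  · rw [mvPowerSeries_maximalIdeal_gen]
    exact le_sup_right
  · rw [map_idealX_rename, idealX_eq_sup']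
    rfl
  · intro b
    refine ⟨MvPowerSeries.C (MvPowerSeries.constantCoeff b), ?_⟩
    have h1 : (MvPowerSeries.rename (R := A)
        (Function.Embedding.inl : Fin n ↪ Fin n ⊕ Fin n)).toRingHom
        (MvPowerSeries.C (MvPowerSeries.constantCoeff b)) =
        MvPowerSeries.C (MvPowerSeries.constantCoeff b) := MvPowerSeries.rename_C _ _
    rw [h1]
    exact sub_C_mem_gen A _ b

section mk

variable (V : Type u) [CommRing V] [IsRegularLocalRing V] (ϖ : V)
  (hϖ : maximalIdeal V = Ideal.span {ϖ}) (hV : ringKrullDim V = (1 : ℕ)) (d : ℕ)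
  (c : Fin d → Fin d → MvPowerSeries (Fin d) V)

/-- The equation `ϖ - ∑ x_i c_ij x_j`. -/
noncomputable def quadEq : MvPowerSeries (Fin d) V :=
  MvPowerSeries.C ϖ - ∑ i, ∑ j, MvPowerSeries.X i * c i j * MvPowerSeries.X j

/-- The polar matrix. -/
noncomputable def polarMatrix : Matrix (Fin d) (Fin d) (MvPowerSeries (Fin d) V) :=
  fun i j => c i j + c j i

include hϖ hV in
theorem exists_QData :
    ∃ (_ : IsRegularLocalRing (MvPowerSeries (Fin d) V))
      (_ : IsRegularLocalRing (MvPowerSeries (Fin d ⊕ Fin d) V))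
      (D : QData d (MvPowerSeries (Fin d) V) (MvPowerSeries (Fin d ⊕ Fin d) V)),
      D.G = quadEq V ϖ d c ∧ D.x = MvPowerSeries.X ∧
      ∀ l m, D.μ (D.β l m) - polarMatrix V d c l m ∈
        maximalIdeal (MvPowerSeries (Fin d) V) := by
  obtain ⟨hregB, hdimB⟩ := mvPowerSeries_regular (A := V) d (Equiv.refl (Fin d)) hV
  obtain ⟨hregΓ, hdimΓ⟩ :=
    mvPowerSeries_regular (A := V) (d + d) (finSumFinEquiv (m := d) (n := d)) hV
  let a₁ : MvPowerSeries (Fin d) V →+* MvPowerSeries (Fin d ⊕ Fin d) V :=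
    (MvPowerSeries.rename (R := V) (Embedding.inl : Fin d ↪ Fin d ⊕ Fin d)).toRingHom
  let a₂ : MvPowerSeries (Fin d) V →+* MvPowerSeries (Fin d ⊕ Fin d) V :=
    (MvPowerSeries.rename (R := V) (Embedding.inr : Fin d ↪ Fin d ⊕ Fin d)).toRingHom
  let μ : MvPowerSeries (Fin d ⊕ Fin d) V →+* MvPowerSeries (Fin d) V :=
    (MvPowerSeries.rename (R := V) (Sum.elim id id : Fin d ⊕ Fin d → Fin d)).toRingHom
  have hμ₁ : ∀ b, μ (a₁ b) = b := by
    intro p
    change MvPowerSeries.rename (Sum.elim id id) (MvPowerSeries.rename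
      (Function.Embedding.inl : Fin d ↪ Fin d ⊕ Fin d) p) = p
    rw [MvPowerSeries.rename_rename]
    exact MvPowerSeries.rename_id_apply p
  have hμ₂ : ∀ b, μ (a₂ b) = b := by
    intro p
    change MvPowerSeries.rename (Sum.elim id id) (MvPowerSeries.rename
      (Function.Embedding.inr : Fin d ↪ Fin d ⊕ Fin d) p) = p
    rw [MvPowerSeries.rename_rename]
    exact MvPowerSeries.rename_id_apply p
  have hX₁ : ∀ i, a₁ (MvPowerSeries.X i) = MvPowerSeries.X (Sum.inl i) := fun i =>
    MvPowerSeries.rename_X _ _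
  have hX₂ : ∀ i, a₂ (MvPowerSeries.X i) = MvPowerSeries.X (Sum.inr i) := fun i =>
    MvPowerSeries.rename_X _ _
  have hC₁ : ∀ v, a₁ (MvPowerSeries.C v) = MvPowerSeries.C v := fun v =>
    MvPowerSeries.rename_C _ _
  have hC₂ : ∀ v, a₂ (MvPowerSeries.C v) = MvPowerSeries.C v := fun v =>
    MvPowerSeries.rename_C _ _
  have hdiag : ∀ b, a₂ b - a₁ b ∈ Ideal.span (Set.range fun i =>
      a₂ (MvPowerSeries.X i) - a₁ (MvPowerSeries.X i)) := by
    intro b
    have h1 : a₂ b - a₁ b ∈ RingHom.ker μ := by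
      rw [RingHom.mem_ker, map_sub, hμ₁, hμ₂, sub_self]
    rw [ker_rename_elim, ofList_diagListGen] at h1
    have h2 : Ideal.span (Set.range (fun j : Fin d =>
        (MvPowerSeries.X (Sum.inl j) - MvPowerSeries.X (Sum.inr j) :
        MvPowerSeries (Fin d ⊕ Fin d) V))) ≤ Ideal.span (Set.range fun i =>
          a₂ (MvPowerSeries.X i) - a₁ (MvPowerSeries.X i)) := by
      rw [Ideal.span_le]
      rintro _ ⟨i, rfl⟩
      rw [SetLike.mem_coe, ← neg_mem_iff, neg_sub, ← hX₁, ← hX₂]
      exact Ideal.subset_span ⟨i, rfl⟩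
    exact h2 h1
  obtain ⟨w, hw1, hw2⟩ := exists_polar a₁ a₂ MvPowerSeries.X c hdiag
  have hmaxB : maximalIdeal (MvPowerSeries (Fin d) V) = Ideal.span {MvPowerSeries.C ϖ} ⊔
      Ideal.span (Set.range MvPowerSeries.X) := by
    rw [mvPowerSeries_maximalIdeal_gen, hϖ, Ideal.map_span, Set.image_singleton]
  have hgX : ∑ i, ∑ j, MvPowerSeries.X i * c i j * MvPowerSeries.X j ∈
      (Ideal.span (Set.range MvPowerSeries.X) : Ideal (MvPowerSeries (Fin d) V)) :=
    Ideal.sum_mem _ fun i _ => Ideal.sum_mem _ fun j _ =>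
      Ideal.mul_mem_left _ _ (Ideal.subset_span ⟨j, rfl⟩)
  let β : Matrix (Fin d) (Fin d) (MvPowerSeries (Fin d ⊕ Fin d) V) := fun l m =>
    a₂ (c l m) + a₂ (c m l) + w l m
  have hβ : ∀ l m, μ (β l m) - polarMatrix V d c l m ∈
      maximalIdeal (MvPowerSeries (Fin d) V) := by
    intro l m
    have h1 : μ (β l m) - polarMatrix V d c l m = μ (w l m) := by
      change μ (a₂ (c l m) + a₂ (c m l) + w l m) - (c l m + c m l) = _
      rw [map_add μ, map_add μ, hμ₂, hμ₂]
      ring
    rw [h1, hmaxB]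
    apply Ideal.mem_sup_right
    have h3 : Ideal.span (Set.range fun i => a₁ (MvPowerSeries.X i)) ≤
        (Ideal.span (Set.range MvPowerSeries.X) :
          Ideal (MvPowerSeries (Fin d) V)).comap μ := by
      rw [Ideal.span_le]
      rintro _ ⟨i, rfl⟩
      rw [SetLike.mem_coe, Ideal.mem_comap, hμ₁]
      exact Ideal.subset_span ⟨i, rfl⟩
    exact h3 (hw1 l m)
  refine ⟨hregB, hregΓ, {
    a₁ := a₁
    a₂ := a₂
    μ := μ
    μ₁ := hμ₁
    μ₂ := hμ₂
    x := MvPowerSeries.X
    G := quadEq V ϖ d c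
    u := fun l => ∑ m, (a₂ (c l m) + a₂ (c m l) + w l m) * a₁ (MvPowerSeries.X m) +
          ∑ m, a₂ (c l m) * (a₂ (MvPowerSeries.X m) - a₁ (MvPowerSeries.X m))
    β := β
    γ := fun l m => a₂ (c l m)
    dimB := by rw [hdimB]; congr 1; omega
    dimΓ := by rw [hdimΓ]; congr 1; omega
    maxB := ?_
    maxΓ := ?_
    hG := ?_
    hu := fun i => rfl
    diag := hdiag }, rfl, rfl, hβ⟩
  · rw [hmaxB]
    apply le_antisymm
    · refine sup_le ?_ le_sup_right
      rw [Ideal.span_singleton_le_iff_mem]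
      have h1 : MvPowerSeries.C ϖ = quadEq V ϖ d c +
          ∑ i, ∑ j, MvPowerSeries.X i * c i j * MvPowerSeries.X j := by
        rw [quadEq, sub_add_cancel]
      rw [h1]
      exact Ideal.add_mem _ (Ideal.mem_sup_left (Ideal.subset_span rfl))
        (Ideal.mem_sup_right hgX)
    · refine sup_le ?_ le_sup_right
      rw [Ideal.span_singleton_le_iff_mem, quadEq]
      exact Ideal.sub_mem _ (Ideal.mem_sup_left (Ideal.subset_span rfl))
        (Ideal.mem_sup_right hgX)
  · have hg₁ : a₁ (∑ i, ∑ j, MvPowerSeries.X i * c i j * MvPowerSeries.X j) ∈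
        Ideal.span (Set.range fun i => a₁ (MvPowerSeries.X i)) := by
      rw [map_sum]
      refine Ideal.sum_mem _ fun i _ => ?_
      rw [map_sum]
      refine Ideal.sum_mem _ fun j _ => ?_
      rw [map_mul]
      exact Ideal.mul_mem_left _ _ (Ideal.subset_span ⟨j, rfl⟩)
    rw [mvPowerSeries_maximalIdeal_gen, hϖ, Ideal.map_span, Set.image_singleton]
    apply le_antisymm
    · refine sup_le ?_ ?_
      · rw [Ideal.span_singleton_le_iff_mem]
        have h1 : MvPowerSeries.C ϖ = a₁ (quadEq V ϖ d c) +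
            a₁ (∑ i, ∑ j, MvPowerSeries.X i * c i j * MvPowerSeries.X j) := by
          rw [← map_add, quadEq, sub_add_cancel, hC₁]
        rw [h1]
        exact Ideal.mem_sup_left (Ideal.add_mem _ (Ideal.mem_sup_left (Ideal.subset_span rfl))
          (Ideal.mem_sup_right hg₁))
      · rw [Ideal.span_le]
        rintro _ ⟨i | i, rfl⟩
        · rw [SetLike.mem_coe, ← hX₁]
          exact Ideal.mem_sup_left (Ideal.mem_sup_right (Ideal.subset_span ⟨i, rfl⟩))
        · rw [SetLike.mem_coe, ← hX₂]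
          have h1 : a₂ (MvPowerSeries.X i) = a₁ (MvPowerSeries.X i) +
              (a₂ (MvPowerSeries.X i) - a₁ (MvPowerSeries.X i)) := by ring
          rw [h1]
          exact Ideal.add_mem _
            (Ideal.mem_sup_left (Ideal.mem_sup_right (Ideal.subset_span ⟨i, rfl⟩)))
            (Ideal.mem_sup_right (Ideal.subset_span ⟨i, rfl⟩))
    · have hle : Ideal.span (Set.range fun i => a₁ (MvPowerSeries.X i)) ≤
          (Ideal.span {MvPowerSeries.C ϖ} ⊔ Ideal.span (Set.range MvPowerSeries.X) :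
            Ideal (MvPowerSeries (Fin d ⊕ Fin d) V)) := by
        rw [Ideal.span_le]
        rintro _ ⟨i, rfl⟩
        simp only [hX₁]
        exact Ideal.mem_sup_right (Ideal.subset_span ⟨_, rfl⟩)
      refine sup_le (sup_le ?_ hle) ?_
      · rw [Ideal.span_singleton_le_iff_mem, quadEq, map_sub, hC₁]
        exact Ideal.sub_mem _ (Ideal.mem_sup_left (Ideal.subset_span rfl)) (hle hg₁)
      · rw [Ideal.span_le]
        rintro _ ⟨i, rfl⟩
        simp only [hX₁, hX₂]
        exact Ideal.sub_mem _ (Ideal.mem_sup_right (Ideal.subset_span ⟨_, rfl⟩))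
          (Ideal.mem_sup_right (Ideal.subset_span ⟨_, rfl⟩))
  · rw [quadEq, map_sub, map_sub, hC₁, hC₂]
    rw [← hw2]
    ring

end mk

end Vale.Agent.P177
end

section

/-!
Global positivity from local positivity at the relevant primes.
-/

namespace Vale.Agent.P177

open CategoryTheory TensorProduct Function IsLocalRing RingTheory.Sequence Pointwise

universe u

end Vale.Agent.P177
end

section

/-!
Properties of the ring `T` attached to a quadratic hypersurface.
-/

namespace Vale.Agent.P177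

open TensorProduct IsLocalRing MvPolynomial RingTheory.Sequence

universe u

namespace QData

variable {d : ℕ} {B Γ : Type u} [CommRing B] [IsRegularLocalRing B] [CommRing Γ]
  [IsRegularLocalRing Γ] (D : QData d B Γ)

theorem G_mem : D.G ∈ maximalIdeal B := by
  rw [D.maxB]
  exact Ideal.mem_sup_left (Ideal.subset_span rfl)

/-- The list of parameters of `B/G`. -/
noncomputable def xs : List (B ⧸ Ideal.span {D.G}) :=
  List.ofFn (fun i => Ideal.Quotient.mk (Ideal.span {D.G}) (D.x i))

theorem nontrivial_quot : Nontrivial (B ⧸ Ideal.span {D.G}) := by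
  apply Ideal.Quotient.nontrivial_iff.2
  rw [Ne, Ideal.span_singleton_eq_top]
  exact D.G_mem

theorem isLocal_quot : IsLocalRing (B ⧸ Ideal.span {D.G}) :=
  have := D.nontrivial_quot
  .of_surjective' (Ideal.Quotient.mk _) Ideal.Quotient.mk_surjective

theorem quot_regular : ∃ (_ : IsRegularLocalRing (B ⧸ Ideal.span {D.G})),
    Ideal.ofList D.xs = maximalIdeal (B ⧸ Ideal.span {D.G}) ∧
    ringKrullDim (B ⧸ Ideal.span {D.G}) = (d : WithBot ℕ∞) := by
  have h0 := D.nontrivial_quot
  have h1 := D.isLocal_quot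
  have hm : (maximalIdeal B).map (Ideal.Quotient.mk (Ideal.span {D.G})) =
      maximalIdeal (B ⧸ Ideal.span {D.G}) :=
    map_maximalIdeal_of_surjective _ Ideal.Quotient.mk_surjective
  have h2 : Ideal.ofList D.xs = maximalIdeal (B ⧸ Ideal.span {D.G}) := by
    rw [← hm, D.maxB, Ideal.map_sup, Ideal.map_quotient_self, bot_sup_eq, Ideal.map_span,
      ← Set.range_comp, Ideal.ofList]
    congr 1
    ext y
    simp [xs, List.mem_ofFn]
  obtain ⟨t, ht⟩ := exists_nat_ringKrullDim (B ⧸ Ideal.span {D.G})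
  have h3 := ringKrullDim_le_ringKrullDim_quotient_add_card ({D.G} : Finset B) (by
    rw [IsLocalRing.ringJacobson_eq_maximalIdeal]
    simpa using D.G_mem)
  rw [Finset.coe_singleton, D.dimB, ht, Finset.card_singleton] at h3
  have h4 : d + 1 ≤ t + 1 := by exact_mod_cast h3
  have hlen : D.xs.length = d := by simp [xs]
  obtain ⟨h5, h6⟩ := isRegularLocalRing_of_list D.xs h2 (by
    rw [ht, hlen]
    exact_mod_cast (by omega : d ≤ t))
  refine ⟨h5, h2, ?_⟩
  rw [h6, hlen]

section TD

variable {D} {T : Type u} [CommRing T] [IsRegularLocalRing T] (t : D.TD T)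

theorem TD.f_a₂G : t.f (C (D.a₂ D.G)) = 0 := by
  rw [D.hG, map_sub, map_sub, t.hG, zero_sub, neg_eq_zero, map_sum, map_sum]
  have h1 : ∀ i, t.f (C ((D.a₂ (D.x i) - D.a₁ (D.x i)) * D.u i)) =
      t.f (C (D.u i)) * ∑ l, (t.f (X (i, l)) - t.f (X (l, i))) * t.f (C (D.u l)) := by
    intro i
    rw [map_mul, map_mul, ← D.h_eq t.f t.hE i, mul_comm]
    rfl
  rw [Finset.sum_congr rfl fun i _ => h1 i]
  exact sum_alt_eq_zero (fun p => t.f (X p)) (fun i => t.f (C (D.u i)))

/-- The first map. -/
noncomputable def TD.i₁ : B ⧸ Ideal.span {D.G} →+* T :=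
  Ideal.Quotient.lift _ ((t.f.comp C).comp D.a₁) (fun a ha => by
    have h1 : Ideal.span {D.G} ≤ RingHom.ker ((t.f.comp C).comp D.a₁) := by
      rw [Ideal.span_singleton_le_iff_mem, RingHom.mem_ker]
      exact t.hG
    exact h1 ha)

/-- The second map. -/
noncomputable def TD.i₂ : B ⧸ Ideal.span {D.G} →+* T :=
  Ideal.Quotient.lift _ ((t.f.comp C).comp D.a₂) (fun a ha => by
    have h1 : Ideal.span {D.G} ≤ RingHom.ker ((t.f.comp C).comp D.a₂) := by
      rw [Ideal.span_singleton_le_iff_mem, RingHom.mem_ker]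
      exact t.f_a₂G
    exact h1 ha)

theorem TD.i₁_mk (b : B) : t.i₁ (Ideal.Quotient.mk _ b) = t.f (C (D.a₁ b)) :=
  Ideal.Quotient.lift_mk _ _ _

theorem TD.i₂_mk (b : B) : t.i₂ (Ideal.Quotient.mk _ b) = t.f (C (D.a₂ b)) :=
  Ideal.Quotient.lift_mk _ _ _

theorem TD.ν_i₂ (r : B ⧸ Ideal.span {D.G}) : t.ν (t.i₂ r) = r := by
  obtain ⟨b, rfl⟩ := Ideal.Quotient.mk_surjective r
  rw [t.i₂_mk, t.hν, D.μ₂]

theorem TD.isLocalHom₂ : IsLocalHom t.i₂ := ⟨fun s hs => by
    have := hs.map t.ν
    rwa [t.ν_i₂] at this⟩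

/-- The list of the variables. -/
noncomputable def TD.z : List T :=
  (Finset.univ : Finset (Fin d × Fin d)).toList.map (fun p => t.f (X p))

theorem TD.length_z : t.z.length = d * d := by simp [TD.z]

theorem TD.ofList_z : Ideal.ofList t.z = Ideal.span (Set.range fun p => t.f (X p)) := by
  rw [Ideal.ofList]
  congr 1
  ext y
  simp [TD.z]

theorem TD.h_mem (i : Fin d) : t.f (C (D.h i)) ∈ Ideal.ofList t.z := by
  rw [D.h_eq t.f t.hE i, t.ofList_z]
  exact Ideal.sum_mem _ fun l _ => Ideal.mul_mem_right _ _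
    (Ideal.sub_mem _ (Ideal.subset_span ⟨_, rfl⟩) (Ideal.subset_span ⟨_, rfl⟩))

theorem TD.ofList_i₁ : Ideal.ofList (D.xs.map t.i₁) =
    Ideal.span (Set.range fun i => t.f (C (D.a₁ (D.x i)))) := by
  rw [Ideal.ofList]
  congr 1
  ext y
  simp only [xs, List.map_ofFn, List.mem_ofFn, Set.mem_ofPred_eq, Set.mem_range, Function.comp_apply,
    t.i₁_mk]

theorem TD.ofList_i₂ : Ideal.ofList (D.xs.map t.i₂) =
    Ideal.span (Set.range fun i => t.f (C (D.a₂ (D.x i)))) := by
  rw [Ideal.ofList]
  congr 1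
  ext y
  simp only [xs, List.map_ofFn, List.mem_ofFn, Set.mem_ofPred_eq, Set.mem_range, Function.comp_apply,
    t.i₂_mk]

theorem TD.max₁ : Ideal.ofList (D.xs.map t.i₁) ⊔ Ideal.ofList t.z = maximalIdeal T := by
  rw [t.maxT, t.ofList_z, t.ofList_i₁]

theorem TD.a₂_eq (i : Fin d) : t.f (C (D.a₂ (D.x i))) = t.f (C (D.a₁ (D.x i))) +
    t.f (C (D.h i)) := by
  rw [← map_add, ← map_add, QData.h, add_sub_cancel]

theorem TD.max₂ : Ideal.ofList (D.xs.map t.i₂) ⊔ Ideal.ofList t.z = maximalIdeal T := by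
  rw [← t.max₁, t.ofList_i₁, t.ofList_i₂]
  apply le_antisymm
  · refine sup_le (Ideal.span_le.2 ?_) le_sup_right
    rintro _ ⟨i, rfl⟩
    simp only [t.a₂_eq]
    exact Ideal.add_mem _ (Ideal.mem_sup_left (Ideal.subset_span ⟨i, rfl⟩))
      (Ideal.mem_sup_right (t.h_mem i))
  · refine sup_le (Ideal.span_le.2 ?_) le_sup_right
    rintro _ ⟨i, rfl⟩
    have h1 : t.f (C (D.a₁ (D.x i))) = t.f (C (D.a₂ (D.x i))) - t.f (C (D.h i)) := by
      rw [t.a₂_eq, add_sub_cancel_right]
    simp only [h1]
    exact Ideal.sub_mem _ (Ideal.mem_sup_left (Ideal.subset_span ⟨i, rfl⟩))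
      (Ideal.mem_sup_right (t.h_mem i))

theorem TD.isRegular_append (rs : List T) (hrs : Ideal.ofList rs ⊔ Ideal.ofList t.z =
    maximalIdeal T) (hlen : rs.length = d) :
    IsWeaklyRegular T (rs ++ t.z) ∧ IsWeaklyRegular T (t.z ++ rs) := by
  constructor
  · refine (isRegular_of_ofList_eq_maximalIdeal T (rs ++ t.z) ?_ ?_).toIsWeaklyRegular
    · rw [Ideal.ofList_append, hrs]
    · rw [t.dimT, List.length_append, hlen, t.length_z]
  · refine (isRegular_of_ofList_eq_maximalIdeal T (t.z ++ rs) ?_ ?_).toIsWeaklyRegular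
    · rw [Ideal.ofList_append, sup_comm, hrs]
    · rw [t.dimT, List.length_append, hlen, t.length_z, add_comm]

theorem TD.length_xs_map (i : B ⧸ Ideal.span {D.G} →+* T) : (D.xs.map i).length = d := by
  simp [xs]

theorem TD.flat₂ : t.i₂.Flat := by
  obtain ⟨h1, h2, h3⟩ := D.quot_regular
  let _ : Algebra (B ⧸ Ideal.span {D.G}) T := t.i₂.toAlgebra
  have hl : IsLocalHom (algebraMap (B ⧸ Ideal.span {D.G}) T) := t.isLocalHom₂
  refine flat_of_weaklyRegular D.xs h2 (isRegular_of_ofList_eq_maximalIdeal _ D.xs h2 ?_).toIsWeaklyRegular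
    ((isWeaklyRegular_append_iff _ _ _).mp
      (t.isRegular_append _ t.max₂ (TD.length_xs_map _)).1).1
  rw [h3]
  simp [xs]

end TD

end QData

end Vale.Agent.P177
end

section

/-!
The dimension inequality over a regular hypersurface.
-/

namespace Vale.Agent.P177

open CategoryTheory TensorProduct Function IsLocalRing

universe u

theorem dimension_inequality_hypersurface {B A : Type u} [CommRing B] [IsRegularLocalRing B]
    [CommRing A] [IsRegularLocalRing A] [Algebra B A] {f : B} (H : IsHypersurface B A f) (d : ℕ)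
    (hdB : ringKrullDim B = ((d + 1 : ℕ) : WithBot ℕ∞))
    (hdA : ringKrullDim A = (d : WithBot ℕ∞)) (hS : SerreAll B (d + 1))
    (M N : Type u) [AddCommGroup M] [Module A M] [Module.Finite A M]
    [AddCommGroup N] [Module A N] [Module.Finite A N]
    (hlen : Module.length A (M ⊗[A] N) ≠ ⊤) (a b : ℕ)
    (ha : (a : WithBot ℕ∞) ≤ Module.supportDim A M)
    (hb : (b : WithBot ℕ∞) ≤ Module.supportDim A N) : a + b ≤ d := by
  let _ : Module B M := Module.compHom M (algebraMap B A)
  let _ : Module B N := Module.compHom N (algebraMap B A)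
  have tM : IsScalarTower B A M := ⟨fun x y z => by
    rw [Algebra.smul_def, mul_smul]
    rfl⟩
  have tN : IsScalarTower B A N := ⟨fun x y z => by
    rw [Algebra.smul_def, mul_smul]
    rfl⟩
  have fA : Module.Finite B A := Module.Finite.of_surjective (Algebra.linearMap B A) H.surj
  have fM : Module.Finite B M := Module.Finite.trans A M
  have fN : Module.Finite B N := Module.Finite.trans A N
  have hlenB : Module.length B (M ⊗[B] N) ≠ ⊤ := by
    rw [length_tensor_baseChange H.surj (isBaseChange_id_of_surjective H.surj M) N]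
    exact hlen
  obtain ⟨-, h2⟩ := hS M N hlenB
  rw [← supportDim_eq_of_surjective H.surj M] at ha
  rw [← supportDim_eq_of_surjective H.surj N] at hb
  obtain ⟨h3, h4⟩ := h2 a b ha hb
  by_contra hcon
  have h5 := h4 (by omega)
  have hBv : Module.length B (TorM B (d + 1 + 1) M N) = 0 := by
    have := regular_tor_vanish B (d + 1) hdB M N (d + 1 + 1) le_rfl
    exact Module.length_eq_zero
  have h6 := H.eulerTor_eq M N (fun n => tor_length_ne_top n M N hlen) (d + 1) hBv
  have h7 : Module.length A (TorM A (d + 1) M N) = 0 := by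
    have := regular_tor_vanish A d hdA M N (d + 1) le_rfl
    exact Module.length_eq_zero
  have h8 : Module.length A (TorM A (d + 1 + 1) M N) = 0 := by
    have := regular_tor_vanish A d hdA M N (d + 1 + 1) (by omega)
    exact Module.length_eq_zero
  rw [h7, h8, sub_self, mul_zero] at h6
  rw [h6] at h5
  exact lt_irrefl _ h5

end Vale.Agent.P177
end

section

/-!
The growth of the Tor modules of the thickenings, and vanishing of the Euler characteristic.
-/

namespace Vale.Agent.P177.SL

open Vale.Agent.P202.Mix Function TensorProduct IsLocalRing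
open scoped ENNReal

universe u

/-- the ideal of the variables is nilpotent. -/
theorem vars_pow_eq_bot (S : Type u) [CommRing S] (d t : ℕ) :
    (Ideal.span (Set.range fun i : Fin d =>
      (Ideal.Quotient.mk _ (MvPolynomial.X i) : TB S d t))) ^ (d * t + 1) = ⊥ := by
  have h1 : (Ideal.span (Set.range fun i : Fin d =>
      (Ideal.Quotient.mk _ (MvPolynomial.X i) : TB S d t))) =
      (Ideal.span (Set.range (MvPolynomial.X : Fin d → MvPolynomial (Fin d) S))).map
        (Ideal.Quotient.mk (boxI S fun _ : Fin d => t)) := by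
    rw [Ideal.map_span, ← Set.range_comp]
    rfl
  rw [h1, ← Ideal.map_pow, ← le_bot_iff]
  refine (Ideal.map_mono ((Ideal.pow_le_pow_right ?_).trans
    (box_nil (S := S) fun _ : Fin d => t))).trans ?_
  · rw [Finset.sum_const, Finset.card_univ, Fintype.card_fin, smul_eq_mul]
    have : d * (t - 1) ≤ d * t := Nat.mul_le_mul_left d (Nat.sub_le t 1)
    omega
  · rw [Ideal.map_quotient_self]

theorem Nilp.exists_pos {S : Type u} {D : Type u} [CommRing S] [IsLocalRing S] [CommRing D]
    [Algebra S D] {I : Ideal S} {X : Type u} [AddCommGroup X] [Module D X] (h : Nilp D I X) :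
    ∃ c : ℕ, 1 ≤ c ∧ ∀ s ∈ maximalIdeal S, algebraMap S D (s ^ c) ∈
      I.map (algebraMap S D) ⊔ Module.annihilator D X := by
  obtain ⟨c, hc⟩ := h
  refine ⟨c + 1, Nat.le_add_left 1 c, fun s hs => ?_⟩
  rw [pow_succ, map_mul]
  exact Ideal.mul_mem_right _ _ (hc s hs)

section

variable {S D : Type u} [CommRing S] [IsLocalRing S] [CommRing D]
  [Algebra S D] {L : AddLen D} {d : ℕ} {π : S} {z : Fin d → S} (T : Thick S d π z)
  {X : Type u} [AddCommGroup X] [Module D X] {I : Ideal S}

include T in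
/-- the thickening for `t = 1`. -/
theorem th_one (N : Type u) [AddCommGroup N] [Module S N] :
    Nonempty (Th (T.Θ 1) (TB S d 1) N ≃ₗ[S] N) := by
  have h1 : ∀ s, T.Θ 1 s = algebraMap S (TB S d 1) s := by
    intro s
    have h2 := T.near 1 s
    have h3 : Ideal.span (Set.range fun i : Fin d =>
        (Ideal.Quotient.mk _ (MvPolynomial.X i) : TB S d 1)) = ⊥ := by
      rw [Ideal.span_eq_bot]
      rintro _ ⟨i, rfl⟩
      have := X_pow_mem_boxI (S := S) (fun _ : Fin d => 1) i
      rw [pow_one] at this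
      exact Ideal.Quotient.eq_zero_iff_mem.2 this
    rw [h3, Ideal.mem_bot] at h2
    exact sub_eq_zero.1 h2
  let e1 : Th (T.Θ 1) (TB S d 1) N ≃ₗ[S] TB S d 1 ⊗[S] N :=
    { toFun := fun x => x
      invFun := fun x => x
      left_inv := fun _ => rfl
      right_inv := fun _ => rfl
      map_add' := fun _ _ => rfl
      map_smul' := fun s x => by
        rw [th_smul, h1]
        exact algebraMap_smul (TB S d 1) s (show TB S d 1 ⊗[S] N from x) }
  exact ⟨(e1.trans (TensorProduct.congr (boxOne S d) (LinearEquiv.refl S N))).trans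
    (TensorProduct.lid S N)⟩

end

section

variable {S D : Type u} [CommRing S] [IsLocalRing S] [IsNoetherianRing S] [CommRing D]
  [Algebra S D] [Module.Flat S D] {L : AddLen D} {d : ℕ} {π : S} {z : Fin d → S}
  (T : Thick S d π z) {X : Type u} [AddCommGroup X] [Module D X] {I : Ideal S} {m : ℕ}
  (hG : BaseGrowth L π z m X) (hX : Nilp D I X)
include T hG hX

/-- the lengths of the Tor modules of the thickenings grow at most like `t ^ (dim N + m)`. -/
theorem tau_thick_growth (N : Type u) [AddCommGroup N] [Module S N] [Module.Finite S N]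
    (hI : I ≤ Module.annihilator S N) (a : ℕ) (ha : Module.supportDim S N ≤ a) :
    ∃ C : ℝ≥0∞, C < ⊤ ∧ ∀ t, 1 ≤ t → ∀ i,
      tau S L i (Th (T.Θ t) (TB S d t) N) X ≤ C * (t : ℝ≥0∞) ^ (a + m) := by
  obtain ⟨B, hB, hBt⟩ := hG
  obtain ⟨c, hc1, hc⟩ := hX.exists_pos
  obtain ⟨C, hC⟩ := growth I a N hI ha
  refine ⟨C * ((c * (d + 1) : ℕ) : ℝ≥0∞) ^ a * B, ?_, fun t ht i => ?_⟩
  · refine ENNReal.mul_lt_top (ENNReal.mul_lt_top (ENNReal.natCast_lt_top C) ?_) hB
    exact ENNReal.pow_lt_top (ENNReal.natCast_lt_top _)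
  · have hk : Kills L (1 : D) := fun M _ _ h => by
      have : Subsingleton M := ⟨fun x y => by rw [← one_smul D x, ← one_smul D y, h, h]⟩
      exact len_subsingleton L
    obtain ⟨G, hGτ⟩ := tau_th_growth (S := S) (T := TB S d t) (D := D) (I := I) (T.Θ t) (T.near t)
      (X := X) hk (d * t + 1) (vars_pow_eq_bot S d t) 0 c (fun s hs => by
        rw [pow_zero, one_mul]
        exact hc s hs) i
    have h1 : (1 : ℝ≥0∞) ≤ ((c * (d * t + 1) : ℕ) : ℝ≥0∞) := by
      have : 1 ≤ c * (d * t + 1) := Nat.mul_pos hc1 (Nat.succ_pos _)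
      exact_mod_cast this
    have h2 := hC _ h1 G
    rw [hGτ, hGτ] at h2
    obtain ⟨e⟩ := T.res t ht
    rw [tau_congr L i e] at h2
    refine h2.trans ?_
    have h3 : ((c * (d * t + 1) : ℕ) : ℝ≥0∞) ≤ ((c * (d + 1) : ℕ) : ℝ≥0∞) * t := by
      have : c * (d * t + 1) ≤ c * (d + 1) * t := by
        rw [mul_assoc]
        refine Nat.mul_le_mul_left c ?_
        rw [add_mul, one_mul]
        omega
      exact_mod_cast this
    calc (C : ℝ≥0∞) * ((c * (d * t + 1) : ℕ) : ℝ≥0∞) ^ a *
          tau S L i (S ⧸ Ideal.ofList (pz π z t)) X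
        ≤ C * (((c * (d + 1) : ℕ) : ℝ≥0∞) * t) ^ a * (B * (t : ℝ≥0∞) ^ m) := by
          gcongr
          exact hBt t ht i
      _ = C * ((c * (d + 1) : ℕ) : ℝ≥0∞) ^ a * B * (t : ℝ≥0∞) ^ (a + m) := by
          rw [mul_pow, pow_add]
          ring

/-- finiteness. -/
theorem tau_ne_top {N : Type u} [AddCommGroup N] [Module S N] [Module.Finite S N]
    (hdim : ∃ a : ℕ, Module.supportDim S N ≤ a)
    (hI : I ≤ Module.annihilator S N) (i : ℕ) : tau S L i N X ≠ ⊤ := by
  obtain ⟨a, ha⟩ := hdim
  obtain ⟨C, hC, h1⟩ := tau_thick_growth T hG hX N hI a ha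
  obtain ⟨e⟩ := th_one T N
  have h2 := h1 1 le_rfl i
  rw [tau_congr L i e] at h2
  refine ne_top_of_le_ne_top ?_ h2
  rw [Nat.cast_one, one_pow, mul_one]
  exact hC.ne

/-- **vanishing**: `dim N + m < d`. -/
theorem chi_eq_zero
    (hchi : ∀ (t : ℕ) (n : ℕ) (N : Type u) [AddCommGroup N] [Module S N],
      (∀ i, tau S L i N X ≠ ⊤) → tau S L n N X = 0 →
        Vale.Agent.P177.SL.chi S L n (Th (T.Θ t) (TB S d t) N) X = (t : ℝ) ^ d * Vale.Agent.P177.SL.chi S L n N X)
    (N : Type u) [AddCommGroup N] [Module S N] [Module.Finite S N]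
    (hI : I ≤ Module.annihilator S N) (a : ℕ) (ha : Module.supportDim S N ≤ a)
    (had : a + m < d) (n : ℕ) (hn : tau S L n N X = 0) : Vale.Agent.P177.SL.chi S L n N X = 0 := by
  obtain ⟨C, hC, h1⟩ := tau_thick_growth T hG hX N hI a ha
  have h2 : ∀ t : ℕ, 1 ≤ t → (t : ℝ) * |Vale.Agent.P177.SL.chi S L n N X| ≤ n * C.toReal := by
    intro t ht
    have ht0 : (0 : ℝ) < t := by exact_mod_cast ht
    have ht1 : (1 : ℝ) ≤ t := by exact_mod_cast ht
    have e1 := hchi t n N (tau_ne_top T hG hX ⟨a, ha⟩ hI) hn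
    have e2 := abs_chi_le (S := S) L (X := X) (N := Th (T.Θ t) (TB S d t) N) n
    rw [e1, abs_mul, abs_of_pos (pow_pos ht0 d)] at e2
    have e3 : ∑ i ∈ Finset.range n, (tau S L i (Th (T.Θ t) (TB S d t) N) X).toReal ≤
        n * (C.toReal * (t : ℝ) ^ (a + m)) := by
      refine (Finset.sum_le_card_nsmul _ _ (C.toReal * (t : ℝ) ^ (a + m)) fun i _ => ?_).trans ?_
      · have := ENNReal.toReal_mono (by finiteness) (h1 t ht i)
        rwa [ENNReal.toReal_mul, ENNReal.toReal_pow, ENNReal.toReal_natCast] at this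
      · rw [Finset.card_range, nsmul_eq_mul]
    have e4 : (t : ℝ) ^ (a + m) * ((t : ℝ) * |Vale.Agent.P177.SL.chi S L n N X|) ≤
        (t : ℝ) ^ (a + m) * (n * C.toReal) := by
      calc (t : ℝ) ^ (a + m) * ((t : ℝ) * |Vale.Agent.P177.SL.chi S L n N X|)
          = (t : ℝ) ^ (a + m + 1) * |Vale.Agent.P177.SL.chi S L n N X| := by rw [pow_succ]; ring
        _ ≤ (t : ℝ) ^ d * |Vale.Agent.P177.SL.chi S L n N X| := by
            exact mul_le_mul_of_nonneg_right (pow_le_pow_right₀ ht1 (by omega)) (abs_nonneg _)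
        _ ≤ n * (C.toReal * (t : ℝ) ^ (a + m)) := e2.trans e3
        _ = (t : ℝ) ^ (a + m) * (n * C.toReal) := by ring
    exact le_of_mul_le_mul_left e4 (pow_pos ht0 _)
  by_contra hne
  have h3 : 0 < |Vale.Agent.P177.SL.chi S L n N X| := abs_pos.2 hne
  obtain ⟨t, ht⟩ := exists_nat_gt (n * C.toReal / |Vale.Agent.P177.SL.chi S L n N X|)
  have h4 := h2 (t + 1) (Nat.succ_pos t)
  rw [div_lt_iff₀ h3] at ht
  have h5 : (t : ℝ) * |Vale.Agent.P177.SL.chi S L n N X| ≤ ((t + 1 : ℕ) : ℝ) * |Vale.Agent.P177.SL.chi S L n N X| := by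
    gcongr
    exact_mod_cast Nat.le_succ t
  linarith

end

end Vale.Agent.P177.SL
end

section

/-!
Multiplicativity of the Tor lengths and of the Euler characteristic for the thickenings
`S[X_1, .., X_d] / (X_1 ^ t, .., X_d ^ t)`.
-/

namespace Vale.Agent.P177.SL

open Vale.Agent.P202.Mix Function TensorProduct IsLocalRing
open scoped ENNReal

universe u

section ses

variable {T : Type u} [CommRing T]

/-- the exact sequence of the colon ideal. -/
theorem ses_quot (I I' I'' : Ideal T) (x : T) (h1 : ∀ a, x * a ∈ I ↔ a ∈ I')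
    (h2 : I ⊔ Ideal.span {x} = I'') :
    ∃ (f : (T ⧸ I') →ₗ[T] (T ⧸ I)) (g : (T ⧸ I) →ₗ[T] (T ⧸ I'')),
      Injective f ∧ Surjective g ∧ Exact f g := by
  have hle : I ≤ I'' := by rw [← h2]; exact le_sup_left
  let f : (T ⧸ I') →ₗ[T] (T ⧸ I) :=
    Submodule.mapQ I' I (LinearMap.lsmul T T x) (fun a ha => (h1 a).2 ha)
  let g : (T ⧸ I) →ₗ[T] (T ⧸ I'') := Submodule.factor hle
  have hf : ∀ a, f (Submodule.Quotient.mk a) = Submodule.Quotient.mk (x * a) := fun _ => rfl
  have hg : ∀ a, g (Submodule.Quotient.mk a) = Submodule.Quotient.mk a := fun _ => rfl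
  refine ⟨f, g, ?_, ?_, ?_⟩
  · rw [injective_iff_map_eq_zero]
    intro a
    obtain ⟨a, rfl⟩ := Submodule.Quotient.mk_surjective _ a
    intro h
    rw [hf, Submodule.Quotient.mk_eq_zero, h1] at h
    rwa [Submodule.Quotient.mk_eq_zero]
  · intro a
    obtain ⟨a, rfl⟩ := Submodule.Quotient.mk_surjective _ a
    exact ⟨Submodule.Quotient.mk a, hg a⟩
  · intro a
    obtain ⟨a, rfl⟩ := Submodule.Quotient.mk_surjective _ a
    rw [hg, Submodule.Quotient.mk_eq_zero, ← h2, Submodule.mem_sup]
    constructor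
    · rintro ⟨y, hy, z, hz, rfl⟩
      obtain ⟨c, rfl⟩ := Ideal.mem_span_singleton'.1 hz
      refine ⟨Submodule.Quotient.mk c, ?_⟩
      rw [hf, Submodule.Quotient.eq]
      have : x * c - (y + c * x) = - y := by ring
      rw [this]
      exact I.neg_mem hy
    · rintro ⟨c, hc⟩
      obtain ⟨c, rfl⟩ := Submodule.Quotient.mk_surjective _ c
      rw [hf, Submodule.Quotient.eq] at hc
      refine ⟨a - x * c, ?_, x * c, Ideal.mul_mem_right _ _ (Ideal.mem_span_singleton_self x), ?_⟩
      · rw [← neg_sub]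
        exact I.neg_mem hc
      · ring

end ses

section th

variable {S T : Type u} [CommRing S] [CommRing T] [Algebra S T]
  (Θ : S →+* T) {Q Q' : Type u} [AddCommGroup Q] [Module S Q] [Module T Q]
  [IsScalarTower S T Q] [AddCommGroup Q'] [Module S Q'] [Module T Q'] [IsScalarTower S T Q']
  (N : Type u) [AddCommGroup N] [Module S N]

/-- an isomorphism of `T`-modules gives an isomorphism of thickenings. -/
noncomputable def thCongrQ (e : Q ≃ₗ[T] Q') : Th Θ Q N ≃ₗ[S] Th Θ Q' N :=
  LinearEquiv.ofBijective (thMapQ Θ N (e : Q →ₗ[T] Q'))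
    (LinearEquiv.rTensor N (e.restrictScalars S)).bijective

/-- if `Θ s` acts as `s` on `Q` and `Q` is isomorphic to `S`, the thickening is trivial. -/
noncomputable def thOne (e : Q ≃ₗ[S] S) (hq : ∀ (s : S) (q : Q), Θ s • q = s • q) :
    Th Θ Q N ≃ₗ[S] N :=
  let F : Q ⊗[S] N ≃ₗ[S] N := (e.rTensor N).trans (TensorProduct.lid S N)
  have hF : ∀ (s : S) (x : Q ⊗[S] N), (Θ s • x : Q ⊗[S] N) = s • x := by
    intro s x
    induction x using TensorProduct.induction_on with
    | zero => simp
    | tmul q n => rw [TensorProduct.smul_tmul', TensorProduct.smul_tmul', hq]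
    | add y z hy hz => rw [smul_add, smul_add, hy, hz]
  { toFun := F
    map_add' := F.map_add
    map_smul' := fun s x => by
      change F (Θ s • (show Q ⊗[S] N from x)) = s • F x
      rw [hF, map_smul]
    invFun := F.symm
    left_inv := F.left_inv
    right_inv := F.right_inv }

end th

section box

variable (S : Type u) [CommRing S] (d t : ℕ)

/-- the ideal generated by the `X_i ^ b_i` in `S[X] / (X ^ t)`. -/
noncomputable def JB (b : Fin d → ℕ) : Ideal (TB S d t) :=
  (boxI S b).map (Ideal.Quotient.mk (boxI S fun _ : Fin d => t))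

variable {S d t} {b : Fin d → ℕ}

theorem boxI_le_of_le {b c : Fin d → ℕ} (h : ∀ i, b i ≤ c i) : boxI S c ≤ boxI S b := by
  intro f hf
  rw [mem_boxI] at hf ⊢
  intro β hβ
  obtain ⟨i, hi⟩ := hf β hβ
  exact ⟨i, (h i).trans hi⟩

theorem mk_mem_JB (hb : ∀ i, b i ≤ t) {f : MvPolynomial (Fin d) S} :
    (Ideal.Quotient.mk (boxI S fun _ : Fin d => t) f) ∈ JB S d t b ↔ f ∈ boxI S b :=
  Ideal.mem_quotient_iff_mem (boxI_le_of_le hb)

/-- the double quotient. -/
noncomputable def qbEquiv (hb : ∀ i, b i ≤ t) :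
    (TB S d t ⧸ JB S d t b) ≃ₗ[S] (MvPolynomial (Fin d) S ⧸ boxI S b) :=
  (DoubleQuot.quotQuotEquivQuotOfLEₐ S (boxI_le_of_le hb)).toLinearEquiv

theorem flat_QB (hb : ∀ i, b i ≤ t) : Module.Flat S (TB S d t ⧸ JB S d t b) := by
  have : Module.Free S (TB S d t ⧸ JB S d t b) := Module.Free.of_equiv (qbEquiv hb).symm
  infer_instance

theorem ses_QB (hb : ∀ i, b i ≤ t) {i : Fin d} (hi : 1 ≤ b i) :
    ∃ (f : (TB S d t ⧸ JB S d t (update b i (b i - 1))) →ₗ[TB S d t] (TB S d t ⧸ JB S d t b))
      (g : (TB S d t ⧸ JB S d t b) →ₗ[TB S d t] (TB S d t ⧸ JB S d t (update b i 1))),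
      Injective f ∧ Surjective g ∧ Exact f g := by
  have hb' : ∀ j, update b i (b i - 1) j ≤ t := by
    intro j
    rcases eq_or_ne j i with rfl | hne
    · rw [update_self]
      exact (Nat.sub_le _ _).trans (hb j)
    · rw [update_of_ne hne]
      exact hb j
  refine ses_quot _ _ _ (Ideal.Quotient.mk _ (MvPolynomial.X i)) ?_ ?_
  · intro a
    obtain ⟨a, rfl⟩ := Ideal.Quotient.mk_surjective a
    rw [← map_mul, mk_mem_JB hb, mk_mem_JB hb', box_colon hi]
  · rw [JB, JB, ← box_sup hi, Ideal.map_sup, Ideal.map_span, Set.image_singleton]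

theorem subsingleton_QB {i : Fin d} (hi : b i = 0) : Subsingleton (TB S d t ⧸ JB S d t b) := by
  rw [Ideal.Quotient.subsingleton_iff, Ideal.eq_top_iff_one, JB]
  have h1 := X_pow_mem_boxI (S := S) b i
  rw [hi, pow_zero] at h1
  have h2 := Ideal.mem_map_of_mem (Ideal.Quotient.mk (boxI S fun _ : Fin d => t)) h1
  rwa [map_one] at h2

end box

section comb

variable {d : ℕ}

theorem sum_update_lt {b : Fin d → ℕ} {i : Fin d} {c : ℕ} (h : c < b i) :
    ∑ j, update b i c j < ∑ j, b j := by
  refine Finset.sum_lt_sum (fun j _ => ?_) ⟨i, Finset.mem_univ _, by rwa [update_self]⟩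
  rcases eq_or_ne j i with rfl | hne
  · rw [update_self]
    exact h.le
  · rw [update_of_ne hne]

theorem prod_update_add {b : Fin d → ℕ} {i : Fin d} (h : 1 ≤ b i) :
    ∏ j, b j = ∏ j, update b i (b i - 1) j + ∏ j, update b i 1 j := by
  rw [Finset.prod_update_of_mem (Finset.mem_univ i), Finset.prod_update_of_mem (Finset.mem_univ i),
    ← add_mul, Nat.sub_add_cancel h, ← Finset.prod_eq_mul_prod_sdiff_singleton_of_mem]
  exact Finset.mem_univ i

theorem box_induction {t : ℕ} {P : (Fin d → ℕ) → Prop}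
    (h0 : ∀ b, (∃ i, b i = 0) → P b)
    (h1 : (∀ _ : Fin d, 1 ≤ t) → P fun _ => 1)
    (hs : ∀ b, (∀ i, b i ≤ t) → ∀ i, 2 ≤ b i → (∀ j, update b i 1 j ≤ t) →
      P (update b i (b i - 1)) → P (update b i 1) → P b)
    (b : Fin d → ℕ) (hb : ∀ i, b i ≤ t) : P b := by
  suffices h : ∀ n, ∀ b : Fin d → ℕ, (∀ i, b i ≤ t) → ∑ j, b j = n → P b from h _ b hb rfl
  intro n
  induction n using Nat.strong_induction_on with
  | _ n ih =>
    intro b hb hn
    by_cases hz : ∃ i, b i = 0
    · exact h0 b hz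
    by_cases hg : ∃ i, 2 ≤ b i
    · obtain ⟨i, hi⟩ := hg
      have hb' : ∀ c, c ≤ b i → ∀ j, update b i c j ≤ t := by
        intro c hc j
        rcases eq_or_ne j i with rfl | hne
        · rw [update_self]
          exact hc.trans (hb j)
        · rw [update_of_ne hne]
          exact hb j
      have h2 : b i - 1 ≤ b i := Nat.sub_le _ _
      have h3 : 1 ≤ b i := by omega
      refine hs b hb i hi (hb' 1 h3) (ih _ ?_ _ (hb' _ h2) rfl) (ih _ ?_ _ (hb' _ h3) rfl)
      · rw [← hn]
        exact sum_update_lt (by omega)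
      · rw [← hn]
        exact sum_update_lt (by omega)
    · have h2 : b = fun _ => 1 := by
        funext i
        have h3 : b i ≠ 0 := fun h => hz ⟨i, h⟩
        have h4 : ¬ 2 ≤ b i := fun h => hg ⟨i, h⟩
        omega
      rw [h2]
      refine h1 fun i => ?_
      have h3 := hb i
      rwa [h2] at h3

end comb

section main

variable {S D : Type u} [CommRing S] [CommRing D] [Algebra S D] [Module.Flat S D] (L : AddLen D)
  {d t : ℕ} (Θ : S →+* TB S d t)
  (near : ∀ s, Θ s - algebraMap S (TB S d t) s ∈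
    Ideal.span (Set.range fun i : Fin d =>
      (Ideal.Quotient.mk _ (MvPolynomial.X i) : TB S d t)))
  (N : Type u) [AddCommGroup N] [Module S N] (X : Type u) [AddCommGroup X] [Module D X]

/-- `Q_b ⊗ N` with the action through `Θ`. -/
abbrev TQ (b : Fin d → ℕ) : Type u := Th Θ (TB S d t ⧸ JB S d t b) N

include near in
theorem nonempty_one (h1 : ∀ _ : Fin d, 1 ≤ t) :
    Nonempty (TQ Θ N (fun _ : Fin d => 1) ≃ₗ[S] N) := by
  refine ⟨thOne Θ N ((qbEquiv h1).trans (boxOne S d)) fun s q => ?_⟩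
  obtain ⟨q, rfl⟩ := Ideal.Quotient.mk_surjective q
  have h2 : Θ s - algebraMap S (TB S d t) s ∈ JB S d t (fun _ : Fin d => 1) := by
    refine (Ideal.span_le.2 ?_) (near s)
    rintro _ ⟨i, rfl⟩
    have h3 := X_pow_mem_boxI (S := S) (fun _ : Fin d => 1) i
    rw [pow_one] at h3
    exact Ideal.mem_map_of_mem _ h3
  have h4 : (s • (Ideal.Quotient.mk (JB S d t fun _ : Fin d => 1) q) :
      TB S d t ⧸ JB S d t fun _ : Fin d => 1) =
      Ideal.Quotient.mk _ (algebraMap S (TB S d t) s * q) := by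
    rw [← Algebra.smul_def]
    rfl
  have h5 : (Θ s • (Ideal.Quotient.mk (JB S d t fun _ : Fin d => 1) q) :
      TB S d t ⧸ JB S d t fun _ : Fin d => 1) = Ideal.Quotient.mk _ (Θ s * q) := rfl
  rw [h4, h5, Ideal.Quotient.eq, ← sub_mul]
  exact Ideal.mul_mem_right _ _ h2

theorem nonempty_top : Nonempty (TQ Θ N (fun _ : Fin d => t) ≃ₗ[S] Th Θ (TB S d t) N) := by
  have h1 : JB S d t (fun _ : Fin d => t) = ⊥ := by
    rw [JB, Ideal.map_quotient_self]
  exact ⟨thCongrQ Θ N ((Submodule.quotEquivOfEqBot _ h1))⟩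

theorem subsingleton_TQ {b : Fin d → ℕ} {i : Fin d} (hi : b i = 0) :
    Subsingleton (TQ Θ N b) := by
  have := subsingleton_QB (S := S) (t := t) hi
  exact inferInstanceAs (Subsingleton ((TB S d t ⧸ JB S d t b) ⊗[S] N))

theorem ses_TQ {b : Fin d → ℕ} (hb : ∀ i, b i ≤ t) {i : Fin d} (hi : 1 ≤ b i)
    (hb1 : ∀ j, update b i 1 j ≤ t) :
    ∃ (f : TQ Θ N (update b i (b i - 1)) →ₗ[S] TQ Θ N b)
      (g : TQ Θ N b →ₗ[S] TQ Θ N (update b i 1)),
      Injective f ∧ Surjective g ∧ Exact f g := by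
  obtain ⟨f, g, h1, h2, h3⟩ := ses_QB (S := S) hb hi
  have := flat_QB (S := S) hb1
  obtain ⟨k1, k2, k3⟩ := th_sesQ (N := N) Θ f g h1 h2 h3
  exact ⟨_, _, k1, k2, k3⟩

include near in
theorem tau_box_le (i : ℕ) (b : Fin d → ℕ) (hb : ∀ i, b i ≤ t) :
    tau S L i (TQ Θ N b) X ≤ ((∏ j, b j : ℕ) : ℝ≥0∞) * tau S L i N X := by
  refine box_induction (t := t)
    (P := fun b => tau S L i (TQ Θ N b) X ≤ ((∏ j, b j : ℕ) : ℝ≥0∞) * tau S L i N X)
    ?_ ?_ ?_ b hb
  · rintro b ⟨j, hj⟩
    have := subsingleton_TQ Θ N hj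
    rw [tau_subsingleton]
    exact zero_le
  · intro h1
    obtain ⟨e⟩ := nonempty_one Θ near N h1
    rw [tau_congr L i e]
    simp
  · intro b hb j hj hb1 h1 h2
    obtain ⟨f, g, k1, k2, k3⟩ := ses_TQ Θ N hb (one_le_two.trans hj) hb1
    refine (tau_le L X i f g k1 k2 k3).trans ((add_le_add h1 h2).trans ?_)
    rw [← add_mul, prod_update_add (one_le_two.trans hj), Nat.cast_add]

include near in
theorem tau_thick_le (i : ℕ) :
    tau S L i (Th Θ (TB S d t) N) X ≤ (t : ℝ≥0∞) ^ d * tau S L i N X := by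
  obtain ⟨e⟩ := nonempty_top (S := S) (d := d) (t := t) Θ N
  rw [← tau_congr L i e]
  refine (tau_box_le L Θ near N X i _ fun _ => le_rfl).trans ?_
  rw [Finset.prod_const, Finset.card_univ, Fintype.card_fin, Nat.cast_pow]

include near in
theorem chi_box (hfin : ∀ i, tau S L i N X ≠ ⊤) (m : ℕ) (hm : tau S L m N X = 0)
    (b : Fin d → ℕ) (hb : ∀ i, b i ≤ t) :
    Vale.Agent.P177.SL.chi S L m (TQ Θ N b) X = ((∏ j, b j : ℕ) : ℝ) * Vale.Agent.P177.SL.chi S L m N X := by
  have hfin' : ∀ (b : Fin d → ℕ), (∀ i, b i ≤ t) → ∀ i, tau S L i (TQ Θ N b) X ≠ ⊤ := by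
    intro b hb i
    refine ne_top_of_le_ne_top ?_ (tau_box_le L Θ near N X i b hb)
    exact ENNReal.mul_ne_top (ENNReal.natCast_ne_top _) (hfin i)
  refine box_induction (t := t)
    (P := fun b => Vale.Agent.P177.SL.chi S L m (TQ Θ N b) X = ((∏ j, b j : ℕ) : ℝ) * Vale.Agent.P177.SL.chi S L m N X)
    ?_ ?_ ?_ b hb
  · rintro b ⟨j, hj⟩
    have := subsingleton_TQ Θ N hj
    rw [chi_subsingleton, Finset.prod_eq_zero (Finset.mem_univ j) hj, Nat.cast_zero, zero_mul]
  · intro h1
    obtain ⟨e⟩ := nonempty_one Θ near N h1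
    rw [Vale.Agent.P177.SL.chi_congr L m e]
    simp
  · intro b hb j hj hb1 h1 h2
    have hb' : ∀ i, update b j (b j - 1) i ≤ t := by
      intro i
      rcases eq_or_ne i j with rfl | hne
      · rw [update_self]
        exact (Nat.sub_le _ _).trans (hb i)
      · rw [update_of_ne hne]
        exact hb i
    obtain ⟨f, g, k1, k2, k3⟩ := ses_TQ Θ N hb (one_le_two.trans hj) hb1
    have h3 : tau S L m (TQ Θ N (update b j 1)) X = 0 := by
      have h4 := tau_box_le L Θ near N X m _ hb1
      rw [hm, mul_zero] at h4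
      exact le_antisymm h4 zero_le
    rw [Vale.Agent.P177.SL.chi_add L f g k1 k2 k3 (hfin' _ hb') (hfin' _ hb) m h3, h1, h2, ← add_mul,
      prod_update_add (one_le_two.trans hj), Nat.cast_add]

include near in
theorem chi_thick (hfin : ∀ i, tau S L i N X ≠ ⊤) (m : ℕ) (hm : tau S L m N X = 0) :
    Vale.Agent.P177.SL.chi S L m (Th Θ (TB S d t) N) X = (t : ℝ) ^ d * Vale.Agent.P177.SL.chi S L m N X := by
  obtain ⟨e⟩ := nonempty_top (S := S) (d := d) (t := t) Θ N
  rw [← Vale.Agent.P177.SL.chi_congr L m e, chi_box L Θ near N X hfin m hm _ fun _ => le_rfl]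
  rw [Finset.prod_const, Finset.card_univ, Fintype.card_fin, Nat.cast_pow]

end main

end Vale.Agent.P177.SL
end

section

/-!
The higher Tor modules of the thickenings of `S / P`.
-/

namespace Vale.Agent.P177.SL

open Vale.Agent.P202.Mix Function TensorProduct IsLocalRing
open scoped ENNReal

universe u

section upper

variable {S D : Type u} [CommRing S] [IsLocalRing S] [IsNoetherianRing S] [CommRing D]
  [Algebra S D] [Module.Flat S D] {L : AddLen D} {d : ℕ} {π : S} {z : Fin d → S}
  (T : Thick S d π z) {X : Type u} [AddCommGroup X] [Module D X] {m : ℕ}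
  (hG : BaseGrowth L π z m X)
include hG

/-- the higher Tor modules of the thickenings grow more slowly. -/
theorem tau_higher (P : Ideal S) [P.IsPrime] (hXP : Nilp D P X) {K : Type u} [AddCommGroup K]
    [Module S K] (hK : ∀ i, 1 ≤ i → tau S L i K X = 0) (s : S) (hs : s ∉ P)
    (α : S ⧸ P →ₗ[S] K) (β : K →ₗ[S] S ⧸ P) (hαβ : ∀ x, β (α x) = s • x) (a : ℕ)
    (ha : Module.supportDim S (S ⧸ P) ≤ a) :
    ∃ C : ℝ≥0∞, C < ⊤ ∧ ∀ t : ℕ, 1 ≤ t → ∀ i, 1 ≤ i →
      (t : ℝ≥0∞) * tau S L i (Th (T.Θ t) (TB S d t) (S ⧸ P)) X ≤ C * (t : ℝ≥0∞) ^ (a + m) := by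
  let Q := QuotSMulTop s (S ⧸ P)
  obtain ⟨q1, q2, q3⟩ := ses_quot_prime P s hs
  have hcomp : β ∘ₗ α = LinearMap.lsmul S (S ⧸ P) s := LinearMap.ext hαβ
  have hstep : ∀ t i, 1 ≤ i → tau S L i (Th (T.Θ t) (TB S d t) (S ⧸ P)) X ≤
      tau S L i (Th (T.Θ t) (TB S d t) Q) X := by
    intro t i hi
    obtain ⟨k1, k2, k3⟩ := th_ses (Q := TB S d t) (T.Θ t) _ _ q1 q2 q3
    have h1 := tau_factor (D := D) L X i _ _ k1 k2 k3 (thMap (T.Θ t) (TB S d t) α)
      (thMap (T.Θ t) (TB S d t) β) (fun n => by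
        rw [← thMap_comp, hcomp])
    have h2 := tau_thick_le L (T.Θ t) (T.near t) K X i
    rw [hK i hi, mul_zero] at h2
    refine h1.trans ?_
    rw [le_zero_iff.1 h2, zero_add]
  have hQI : P ≤ Module.annihilator S Q := by
    intro x hx
    rw [Module.mem_annihilator]
    intro y
    obtain ⟨y, rfl⟩ := Submodule.mkQ_surjective _ y
    obtain ⟨y, rfl⟩ := Ideal.Quotient.mk_surjective y
    rw [← map_smul]
    have : x • (Ideal.Quotient.mk P y) = 0 := by
      change Ideal.Quotient.mk P (x * y) = 0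
      exact Ideal.Quotient.eq_zero_iff_mem.2 (P.mul_mem_right y hx)
    rw [this, map_zero]
  have hsub : Subsingleton Q → ∃ C : ℝ≥0∞, C < ⊤ ∧ ∀ t : ℕ, 1 ≤ t → ∀ i, 1 ≤ i →
      (t : ℝ≥0∞) * tau S L i (Th (T.Θ t) (TB S d t) (S ⧸ P)) X ≤
        C * (t : ℝ≥0∞) ^ (a + m) := by
    intro hQ
    refine ⟨0, ENNReal.zero_lt_top, fun t _ i hi => ?_⟩
    have hTh : Subsingleton (Th (T.Θ t) (TB S d t) Q) :=
      inferInstanceAs (Subsingleton (TB S d t ⊗[S] Q))
    have h1 := hstep t i hi
    have h0 : tau S L i (Th (T.Θ t) (TB S d t) Q) X = 0 := tau_subsingleton L i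
    rw [h0] at h1
    rw [le_zero_iff.1 h1, mul_zero]
    exact zero_le
  by_cases hsm : s ∈ maximalIdeal S
  · have hd := dim_quot P s hs hsm
    cases a with
    | zero =>
      apply hsub
      rw [← Module.supportDim_eq_bot_iff_subsingleton (R := S)]
      by_contra hne
      have h0 : (0 : WithBot ℕ∞) ≤ Module.supportDim S Q := by
        obtain ⟨v, hv⟩ := WithBot.ne_bot_iff_exists.1 hne
        rw [← hv]
        exact_mod_cast zero_le
      rw [← hd] at ha
      have h3 : (0 : WithBot ℕ∞) + 1 ≤ 0 := (add_le_add_left h0 1).trans (by simpa using ha)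
      exact absurd h3 (by decide)
    | succ a =>
      have h1 : Module.supportDim S Q ≤ a := by
        rw [← hd] at ha
        have h6 : Module.supportDim S Q + 1 ≤ ((a : WithBot ℕ∞) + 1) := by exact_mod_cast ha
        exact ENat.WithBot.add_le_add_one_right_iff.1 h6
      obtain ⟨C, hC, h2⟩ := tau_thick_growth T hG hXP Q hQI a h1
      refine ⟨C, hC, fun t ht i hi => ?_⟩
      calc (t : ℝ≥0∞) * tau S L i (Th (T.Θ t) (TB S d t) (S ⧸ P)) X
          ≤ t * (C * (t : ℝ≥0∞) ^ (a + m)) := by
            gcongr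
            exact (hstep t i hi).trans (h2 t ht i)
        _ = C * (t : ℝ≥0∞) ^ (a + 1 + m) := by
            rw [show a + 1 + m = a + m + 1 by ring, pow_succ]
            ring
  · apply hsub
    have hu : IsUnit s := by
      by_contra h
      exact hsm ((mem_maximalIdeal s).2 h)
    obtain ⟨v, hv⟩ := hu.exists_left_inv
    refine ⟨fun x y => ?_⟩
    have key : ∀ x : Q, x = 0 := by
      intro x
      obtain ⟨x, rfl⟩ := Submodule.mkQ_surjective _ x
      rw [Submodule.mkQ_apply, Submodule.Quotient.mk_eq_zero]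
      rw [← one_smul S x, ← hv, mul_comm, mul_smul]
      exact Submodule.smul_mem_pointwise_smul _ s _ Submodule.mem_top
    rw [key x, key y]

end upper

end Vale.Agent.P177.SL
end

section

/-!
P177, B7 block L2: powers of a sequence with null higher Koszul homology, and tensor products with
modules of finite length over a discrete valuation ring.
-/

namespace Vale.Agent.P177.KG

open scoped ENNReal Pointwise

universe u

section power

variable {R : Type u} [CommRing R] (L : ALen R) (Q : Type u) [AddCommGroup Q] [Module R Q]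

variable {Q} in
theorem mem_sT {x : R} {q : Q} : q ∈ x • (⊤ : Submodule R Q) ↔ ∃ y, x • y = q := by
  rw [Submodule.mem_smul_pointwise_iff_exists]
  simp

theorem len_quot_pow (x : R) (h : L.len (Submodule.torsionBy R Q x) = 0) (N : ℕ) :
    L.len (QuotSMulTop (x ^ N) Q) = N * L.len (QuotSMulTop x Q) := by
  induction N with
  | zero =>
    have : Subsingleton (QuotSMulTop (x ^ 0) Q) := by
      rw [pow_zero]
      refine ⟨fun a b => ?_⟩
      obtain ⟨a, rfl⟩ := Submodule.mkQ_surjective _ a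
      obtain ⟨b, rfl⟩ := Submodule.mkQ_surjective _ b
      rw [← sub_eq_zero, ← map_sub, Submodule.mkQ_apply, Submodule.Quotient.mk_eq_zero, mem_sT]
      exact ⟨_, one_smul _ _⟩
    rw [len_subsingleton, Nat.cast_zero, zero_mul]
  | succ n ih =>
    let f : QuotSMulTop (x ^ n) Q →ₗ[R] QuotSMulTop (x ^ (n + 1)) Q :=
      Submodule.mapQ _ _ (LinearMap.lsmul R Q x) (by
        intro q hq
        rw [mem_sT] at hq
        obtain ⟨y, rfl⟩ := hq
        rw [Submodule.mem_comap, mem_sT]
        exact ⟨y, by rw [LinearMap.lsmul_apply, smul_smul, pow_succ']⟩)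
    let g : QuotSMulTop (x ^ (n + 1)) Q →ₗ[R] QuotSMulTop x Q :=
      Submodule.mapQ _ _ LinearMap.id (by
        intro q hq
        rw [mem_sT] at hq
        obtain ⟨y, rfl⟩ := hq
        rw [Submodule.mem_comap, mem_sT]
        exact ⟨x ^ n • y, by rw [LinearMap.id_apply, smul_smul, pow_succ']⟩)
    have hg : Function.Surjective g := by
      intro q
      obtain ⟨q, rfl⟩ := Submodule.mkQ_surjective _ q
      exact ⟨Submodule.mkQ _ q, rfl⟩
    have hex : LinearMap.ker g = LinearMap.range f := by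
      ext q
      obtain ⟨q, rfl⟩ := Submodule.mkQ_surjective _ q
      rw [LinearMap.mem_ker, LinearMap.mem_range]
      constructor
      · intro hq
        change (x • (⊤ : Submodule R Q)).mkQ q = 0 at hq
        rw [Submodule.mkQ_apply, Submodule.Quotient.mk_eq_zero, mem_sT] at hq
        obtain ⟨y, rfl⟩ := hq
        exact ⟨Submodule.mkQ _ y, rfl⟩
      · rintro ⟨y, hy⟩
        rw [← hy]
        obtain ⟨y, rfl⟩ := Submodule.mkQ_surjective _ y
        change (x • (⊤ : Submodule R Q)).mkQ (x • y) = 0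
        rw [Submodule.mkQ_apply, Submodule.Quotient.mk_eq_zero, mem_sT]
        exact ⟨y, rfl⟩
    let φ : Submodule.torsionBy R Q x →ₗ[R] QuotSMulTop (x ^ n) Q :=
      (Submodule.mkQ _) ∘ₗ (Submodule.torsionBy R Q x).subtype
    have hker : LinearMap.ker f ≤ LinearMap.range φ := by
      intro q hq
      obtain ⟨q, rfl⟩ := Submodule.mkQ_surjective _ q
      rw [LinearMap.mem_ker] at hq
      change (x ^ (n + 1) • (⊤ : Submodule R Q)).mkQ (x • q) = 0 at hq
      rw [Submodule.mkQ_apply, Submodule.Quotient.mk_eq_zero, mem_sT] at hq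
      obtain ⟨y, hy⟩ := hq
      refine ⟨⟨q - x ^ n • y, ?_⟩, ?_⟩
      · rw [Submodule.mem_torsionBy_iff, smul_sub, smul_smul, ← pow_succ', hy, sub_self]
      · change Submodule.mkQ _ (q - x ^ n • y) = _
        rw [map_sub, sub_eq_self, Submodule.mkQ_apply, Submodule.Quotient.mk_eq_zero, mem_sT]
        exact ⟨y, rfl⟩
    have h0 : L.len (LinearMap.ker f) = 0 := by
      refine le_antisymm ?_ zero_le
      rw [← h]
      exact (len_sub_mono L hker).trans (len_range_le L φ)
    have h1 : L.len (QuotSMulTop (x ^ n) Q) = L.len (LinearMap.range f) := by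
      rw [len_sub_quot L (LinearMap.ker f), h0, zero_add, len_congr L f.quotKerEquivRange]
    have h2 : L.len (QuotSMulTop (x ^ (n + 1)) Q) =
        L.len (LinearMap.range f) + L.len (QuotSMulTop x Q) := by
      rw [len_sub_quot L (LinearMap.ker g), hex,
        ← len_congr L (g.quotKerEquivOfSurjective hg), ← hex]
    rw [h2, ← h1, ih]
    push_cast
    ring

variable {Q} in
theorem len_torsion_congr {Q' : Type u} [AddCommGroup Q'] [Module R Q'] (e : Q ≃ₗ[R] Q') (x : R) :
    L.len (Submodule.torsionBy R Q x) = L.len (Submodule.torsionBy R Q' x) := by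
  refine len_congr L (LinearEquiv.ofSubmodules e _ _ ?_)
  ext y
  simp only [Submodule.mem_map, Submodule.mem_torsionBy_iff]
  constructor
  · rintro ⟨z, hz, rfl⟩
    change x • e z = 0
    rw [← map_smul, hz, map_zero]
  · intro hy
    refine ⟨e.symm y, ?_, by simp⟩
    rw [← map_smul, hy, map_zero]

end power

section cone

variable {R : Type u} [CommRing R] (L : ALen R) (A : Cx R)

theorem ker_incH_zero (y : R) : LinearMap.ker (A.incH y 0) = y • (⊤ : Submodule R (A.H 0)) := by
  ext z
  obtain ⟨a, ha, rfl⟩ := A.cl_surj 0 z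
  rw [LinearMap.mem_ker, Cx.incH, Cx.mapH_cl, Cx.cl_eq_zero, Cx.inc_zero, Cx.mem_B_cone_zero,
    mem_sT]
  constructor
  · rintro ⟨a', b', h⟩
    refine ⟨A.cl 0 ⟨b', A.mem_Z_zero _⟩, ?_⟩
    rw [← map_smul]
    refine A.cl_eq_cl.2 ?_
    refine ⟨-a', ?_⟩
    rw [map_neg]
    change -(A.d 0 a') = y • b' - a
    rw [← h]
    abel
  · rintro ⟨w, hw⟩
    obtain ⟨b', hb', rfl⟩ := A.cl_surj 0 w
    rw [← map_smul] at hw
    obtain ⟨c, hc⟩ := A.cl_eq_cl.1 hw
    refine ⟨-c, b', ?_⟩
    rw [map_neg]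
    have h1 : A.d 0 c = y • b' - a := hc
    rw [h1]
    abel

theorem len_H0_cone (y : R) : L.len ((A.cone y).H 0) = L.len (QuotSMulTop y (A.H 0)) := by
  rw [← len_congr L ((A.incH y 0).quotKerEquivOfSurjective (A.incH_zero_surjective y))]
  exact len_congr L (Submodule.quotEquivOfEq _ _ (ker_incH_zero A y))

theorem len_torsion_H (y : R) (i : ℕ) (h : L.len ((A.cone y).H (i + 1)) = 0) :
    L.len (Submodule.torsionBy R (A.H i) y) = 0 := by
  refine le_antisymm ?_ zero_le
  rw [← h]
  refine (len_sub_mono L ?_).trans (len_range_le L (A.prjH y i))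
  intro z hz
  exact A.exists_prjH y i z hz

theorem len_H0_pow_cons (x : R) (N : ℕ) (h : L.len ((A.cone x).H 1) = 0) :
    L.len ((A.cone (x ^ N)).H 0) = N * L.len ((A.cone x).H 0) := by
  rw [len_H0_cone, len_H0_cone, len_quot_pow L _ x (len_torsion_H L A x 0 h)]

end cone

section list

variable {R : Type u} [CommRing R] (L : ALen R) (M : Type u) [AddCommGroup M] [Module R M]

theorem len_H_map_pow_eq_zero (ys zs : List R) (N i : ℕ)
    (h : L.len ((KC M (ys ++ zs)).H i) = 0) :
    L.len ((KC M (ys.map (· ^ N) ++ zs)).H i) = 0 := by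
  refine le_antisymm ?_ zero_le
  refine ((kfam M).len_map_pow_append L ys zs N i).trans ?_
  have h1 : L.len ((kfam M).H (ys ++ zs) i) = 0 := h
  rw [h1, mul_zero]

theorem len_H0_map_pow_append (ys zs : List R) (N : ℕ)
    (h0 : ∀ i, 1 ≤ i → L.len ((KC M (ys ++ zs)).H i) = 0) :
    L.len ((KC M (ys.map (· ^ N) ++ zs)).H 0) =
      (N : ℝ≥0∞) ^ ys.length * L.len ((KC M (ys ++ zs)).H 0) := by
  induction ys generalizing zs with
  | nil =>
    rw [List.length_nil, pow_zero, one_mul]
    rfl
  | cons y ys ih =>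
    have hperm : (ys ++ (y :: zs)).Perm (y :: (ys ++ zs)) := List.perm_middle
    have h0' : ∀ i, 1 ≤ i → L.len ((KC M (ys ++ (y :: zs))).H i) = 0 := by
      intro i hi
      rw [KC_len_perm L M hperm i]
      exact h0 i hi
    have hperm2 : (ys.map (· ^ N) ++ (y :: zs)).Perm (y :: (ys.map (· ^ N) ++ zs)) :=
      List.perm_middle
    have h1 : L.len ((KC M (y :: (ys.map (· ^ N) ++ zs))).H 1) = 0 := by
      rw [← KC_len_perm L M hperm2 1]
      exact len_H_map_pow_eq_zero L M ys (y :: zs) N 1 (h0' 1 le_rfl)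
    have h2 : L.len ((KC M (y ^ N :: (ys.map (· ^ N) ++ zs))).H 0) =
        N * L.len ((KC M (y :: (ys.map (· ^ N) ++ zs))).H 0) :=
      len_H0_pow_cons L (KC M (ys.map (· ^ N) ++ zs)) y N h1
    rw [List.map_cons, List.cons_append, h2, ← KC_len_perm L M hperm2 0, ih (y :: zs) h0',
      KC_len_perm L M hperm 0, List.length_cons, pow_succ, List.cons_append]
    ring

end list

end Vale.Agent.P177.KG

namespace Vale.Agent.P177.SL

open Vale.Agent.P202.Mix Function TensorProduct IsLocalRing
open scoped ENNReal Pointwise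

universe u

section

variable {D : Type u} [CommRing D] (L : AddLen D) (X : Type u) [AddCommGroup X] [Module D X]

end

section ten

variable {D : Type u} [CommRing D] (L : KG.ALen D)
  {W₀ : Type u} [CommRing W₀] [Algebra W₀ D] (Y : Type u) [AddCommGroup Y] [Module D Y]
  [Module W₀ Y] [IsScalarTower W₀ D Y]

/-- `y ↦ y ⊗ m`. -/
def tmR {M : Type u} [AddCommGroup M] [Module W₀ M] (m : M) : Y →ₗ[D] Y ⊗[W₀] M where
  toFun y := y ⊗ₜ m
  map_add' a b := add_tmul a b m
  map_smul' d y := by rw [RingHom.id_apply, smul_tmul']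

/-- `id ⊗ f`. -/
noncomputable def idT {M N : Type u} [AddCommGroup M] [Module W₀ M] [AddCommGroup N] [Module W₀ N]
    (f : M →ₗ[W₀] N) : Y ⊗[W₀] M →ₗ[D] Y ⊗[W₀] N := AlgebraTensorModule.lTensor D Y f

theorem idT_apply {M N : Type u} [AddCommGroup M] [Module W₀ M] [AddCommGroup N] [Module W₀ N]
    (f : M →ₗ[W₀] N) (x : Y ⊗[W₀] M) : idT (D := D) Y f x = f.lTensor Y x := by
  induction x using TensorProduct.induction_on with
  | zero => rw [map_zero, map_zero]
  | tmul y m => rfl
  | add x y hx hy => rw [map_add, map_add, hx, hy]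

variable {Y} in
omit [CommRing D] [Algebra W₀ D] [Module D Y] [IsScalarTower W₀ D Y] in
theorem eq_tmul_one (z : Y ⊗[W₀] W₀) : z = (TensorProduct.rid W₀ Y z) ⊗ₜ (1 : W₀) := by
  rw [← TensorProduct.rid_symm_apply, LinearEquiv.symm_apply_apply]

/-- kernel of `Y → Y ⊗ K`, `K = W₀ m̄ ≅ W₀ / π`. -/
theorem ker_tmR (π : W₀) {K : Type u} [AddCommGroup K] [Module W₀ K] (m : K)
    (hm : ∀ w : W₀, w • m = 0 ↔ ∃ w', w = π * w') (hgen : ∀ k : K, ∃ w : W₀, w • m = k) :
    Surjective (tmR (D := D) (W₀ := W₀) Y m) ∧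
      LinearMap.ker (tmR (D := D) (W₀ := W₀) Y m) =
        algebraMap W₀ D π • (⊤ : Submodule D Y) := by
  constructor
  · intro x
    induction x using TensorProduct.induction_on with
    | zero => exact ⟨0, map_zero _⟩
    | tmul y k =>
      obtain ⟨w, rfl⟩ := hgen k
      exact ⟨w • y, by change (w • y) ⊗ₜ m = _; rw [smul_tmul]⟩
    | add x y hx hy =>
      obtain ⟨a, ha⟩ := hx
      obtain ⟨b, hb⟩ := hy
      exact ⟨a + b, by rw [map_add, ha, hb]⟩
  · ext y
    rw [LinearMap.mem_ker, KG.mem_sT]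
    let φ : W₀ →ₗ[W₀] K := LinearMap.toSpanSingleton W₀ K m
    let ψ : W₀ →ₗ[W₀] W₀ := LinearMap.toSpanSingleton W₀ W₀ π
    have hex : Exact ψ φ := by
      intro w
      change w • m = 0 ↔ _
      rw [hm w]
      constructor
      · rintro ⟨w', rfl⟩
        exact ⟨w', by change w' • π = _; rw [smul_eq_mul, mul_comm]⟩
      · rintro ⟨w', hw'⟩
        exact ⟨w', by rw [← hw']; change w' • π = _; rw [smul_eq_mul, mul_comm]⟩
    have hsurj : Surjective φ := fun k => hgen k
    constructor
    · intro hy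
      have h1 : φ.lTensor Y (y ⊗ₜ (1 : W₀)) = 0 := by
        rw [LinearMap.lTensor_tmul]
        change y ⊗ₜ ((1 : W₀) • m) = 0
        rw [one_smul]
        exact hy
      obtain ⟨z, hz⟩ := ((lTensor_exact Y hex hsurj) _).1 h1
      rw [eq_tmul_one z, LinearMap.lTensor_tmul] at hz
      refine ⟨TensorProduct.rid W₀ Y z, ?_⟩
      have h2 := congrArg (TensorProduct.rid W₀ Y) hz
      rw [TensorProduct.rid_tmul, TensorProduct.rid_tmul, one_smul] at h2
      rw [← h2, algebraMap_smul]
      change _ = ((1 : W₀) • π) • _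
      rw [one_smul]
    · rintro ⟨z, rfl⟩
      change (algebraMap W₀ D π • z) ⊗ₜ m = 0
      rw [algebraMap_smul, smul_tmul, (hm π).2 ⟨1, (mul_one π).symm⟩, tmul_zero]

/-- kernel of `Y ⊗ N → Y ⊗ M` for `M / N ≅ W₀ / π`. -/
theorem ker_idT_le (π : W₀) {M : Type u} [AddCommGroup M] [Module W₀ M] (N : Submodule W₀ M)
    (m : M) (hm : ∀ w : W₀, w • m ∈ N ↔ ∃ w', w = π * w')
    (hgen : ∀ k : M, ∃ w : W₀, k - w • m ∈ N) (x : Y ⊗[W₀] N)
    (hx : idT (D := D) Y N.subtype x = 0) :
    ∃ y : Y, algebraMap W₀ D π • y = 0 ∧ x = y ⊗ₜ (⟨π • m, (hm π).2 ⟨1, (mul_one π).symm⟩⟩ : N) := by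
  let m' : N := ⟨π • m, (hm π).2 ⟨1, (mul_one π).symm⟩⟩
  let φ : (N × W₀) →ₗ[W₀] M := N.subtype.coprod (LinearMap.toSpanSingleton W₀ M m)
  let ψ : W₀ →ₗ[W₀] (N × W₀) :=
    (-(LinearMap.toSpanSingleton W₀ N m')).prod (LinearMap.toSpanSingleton W₀ W₀ π)
  have hex : Exact ψ φ := by
    rintro ⟨k, w⟩
    change (k : M) + w • m = 0 ↔ _
    constructor
    · intro h
      have h1 : w • m ∈ N := by
        rw [← neg_eq_of_add_eq_zero_right h]
        exact N.neg_mem k.2
      obtain ⟨w', rfl⟩ := (hm w).1 h1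
      refine ⟨w', Prod.ext (Subtype.ext ?_) ?_⟩
      · change -(w' • (π • m)) = (k : M)
        rw [smul_smul, mul_comm w' π]
        exact (eq_neg_of_add_eq_zero_left h).symm
      · change w' • π = _
        rw [smul_eq_mul, mul_comm]
    · rintro ⟨w', hw'⟩
      have h1 : -(w' • (π • m)) = (k : M) := congrArg Subtype.val (congrArg Prod.fst hw')
      have h2 : w' • π = w := congrArg Prod.snd hw'
      rw [← h1, ← h2, smul_smul, smul_eq_mul, neg_add_cancel]
  have hsurj : Surjective φ := by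
    intro k
    obtain ⟨w, hw⟩ := hgen k
    exact ⟨(⟨_, hw⟩, w), sub_add_cancel _ _⟩
  have h1 : φ.lTensor Y ((LinearMap.inl W₀ N W₀).lTensor Y x) = 0 := by
    rw [← LinearMap.comp_apply, ← LinearMap.lTensor_comp]
    have h2 : φ ∘ₗ LinearMap.inl W₀ N W₀ = N.subtype := by
      ext k
      simp [φ]
    rw [h2, ← idT_apply (D := D)]
    exact hx
  obtain ⟨z, hz⟩ := ((lTensor_exact Y hex hsurj) _).1 h1
  rw [eq_tmul_one z, LinearMap.lTensor_tmul] at hz
  set y : Y := TensorProduct.rid W₀ Y z with hy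
  refine ⟨-y, ?_, ?_⟩
  · have h2 := congrArg ((LinearMap.snd W₀ N W₀).lTensor Y) hz
    have h20 : (LinearMap.snd W₀ N W₀).lTensor Y ((LinearMap.inl W₀ N W₀).lTensor Y x) = 0 := by
      rw [← LinearMap.comp_apply, ← LinearMap.lTensor_comp,
        LinearMap.snd_comp_inl, LinearMap.lTensor_zero, LinearMap.zero_apply]
    rw [LinearMap.lTensor_tmul, h20] at h2
    have h3 := congrArg (TensorProduct.rid W₀ Y) h2
    rw [map_zero, TensorProduct.rid_tmul] at h3
    have h4 : (LinearMap.snd W₀ N W₀) (ψ 1) = π := by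
      change (1 : W₀) • π = π
      rw [one_smul]
    rw [h4] at h3
    rw [algebraMap_smul, smul_neg, h3, neg_zero]
  · have h2 := congrArg ((LinearMap.fst W₀ N W₀).lTensor Y) hz
    have h20 : (LinearMap.fst W₀ N W₀).lTensor Y ((LinearMap.inl W₀ N W₀).lTensor Y x) = x := by
      rw [← LinearMap.comp_apply, ← LinearMap.lTensor_comp,
        LinearMap.fst_comp_inl, LinearMap.lTensor_id, LinearMap.id_apply]
    rw [LinearMap.lTensor_tmul, h20] at h2
    rw [← h2]
    have h4 : (LinearMap.fst W₀ N W₀) (ψ 1) = -m' := by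
      change -((1 : W₀) • m') = -m'
      rw [one_smul]
    rw [h4, tmul_neg, neg_tmul]

/-- the core estimate. -/
theorem le_len_of_isFiniteLength [IsLocalRing W₀] (π : W₀)
    (hπ : maximalIdeal W₀ = Ideal.span {π})
    (hY : L.len (Submodule.torsionBy D Y (algebraMap W₀ D π)) = 0)
    {M : Type u} [AddCommGroup M] [Module W₀ M] (hM : IsFiniteLength W₀ M) (l : ℕ)
    (hl : (l : ℕ∞) ≤ Module.length W₀ M) :
    (l : ℝ≥0∞) * L.len (QuotSMulTop (algebraMap W₀ D π) Y) ≤ L.len (Y ⊗[W₀] M) := by
  induction hM generalizing l with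
  | of_subsingleton =>
    rw [Module.length_eq_zero] at hl
    have h0 : l = 0 := by
      have : (l : ℕ∞) ≤ 0 := hl
      exact_mod_cast le_antisymm this bot_le
    rw [h0, Nat.cast_zero, zero_mul]
    exact zero_le
  | @of_simple_quotient M _ _ N hs hN ih =>
    rcases Nat.eq_zero_or_pos l with rfl | hl0
    · rw [Nat.cast_zero, zero_mul]
      exact zero_le
    obtain ⟨l, rfl⟩ : ∃ l', l = l' + 1 := ⟨l - 1, by omega⟩
    have hlen : Module.length W₀ M = Module.length W₀ N + 1 := by
      rw [Module.length_eq_add_of_exact N.subtype N.mkQ N.injective_subtype N.mkQ_surjective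
        (by rw [LinearMap.exact_iff, Submodule.ker_mkQ, Submodule.range_subtype])]
      congr 1
      exact Module.length_eq_one W₀ (M ⧸ N)
    rw [hlen] at hl
    have hl' : (l : ℕ∞) ≤ Module.length W₀ N := by
      push_cast at hl
      exact (ENat.add_le_add_iff_right (by simp)).1 hl
    have ih' := ih l hl'
    -- the simple quotient
    obtain ⟨m, hm⟩ : ∃ m : M, m ∉ N := by
      by_contra hcon
      push Not at hcon
      have h1 : N = ⊤ := (Submodule.eq_top_iff').2 hcon
      have h2 : Nontrivial (M ⧸ N) := IsSimpleModule.nontrivial W₀ (M ⧸ N)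
      have h3 : Subsingleton (M ⧸ N) := Submodule.Quotient.subsingleton_iff.2 h1
      exact false_of_nontrivial_of_subsingleton (M ⧸ N)
    have hmk : N.mkQ m ≠ 0 := by
      rw [Submodule.mkQ_apply, ne_eq, Submodule.Quotient.mk_eq_zero]
      exact hm
    have hgen : ∀ k : M ⧸ N, ∃ w : W₀, w • N.mkQ m = k := by
      intro k
      have h1 := IsSimpleModule.toSpanSingleton_surjective W₀ hmk
      exact h1 k
    have hann : ∀ w : W₀, w • N.mkQ m = 0 ↔ ∃ w', w = π * w' := by
      intro w
      have h1 : Ideal.torsionOf W₀ (M ⧸ N) (N.mkQ m) = maximalIdeal W₀ := by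
        have h2 : (Ideal.torsionOf W₀ (M ⧸ N) (N.mkQ m)).IsMaximal := by
          have h3 := IsSimpleModule.ker_toSpanSingleton_isMaximal W₀ hmk
          exact h3
        exact IsLocalRing.eq_maximalIdeal h2
      have h2 : w • N.mkQ m = 0 ↔ w ∈ Ideal.torsionOf W₀ (M ⧸ N) (N.mkQ m) := Iff.rfl
      rw [h2, h1, hπ, Ideal.mem_span_singleton']
      exact ⟨fun ⟨a, ha⟩ => ⟨a, by rw [← ha, mul_comm]⟩, fun ⟨a, ha⟩ => ⟨a, by rw [ha, mul_comm]⟩⟩
    obtain ⟨hs1, hk1⟩ := ker_tmR (D := D) Y π (N.mkQ m) hann hgen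
    have e1 : L.len (Y ⊗[W₀] (M ⧸ N)) = L.len (QuotSMulTop (algebraMap W₀ D π) Y) := by
      rw [← KG.len_congr L ((tmR (D := D) (W₀ := W₀) Y (N.mkQ m)).quotKerEquivOfSurjective hs1)]
      exact KG.len_congr L (Submodule.quotEquivOfEq _ _ hk1)
    -- the exact sequence
    have hann' : ∀ w : W₀, w • m ∈ N ↔ ∃ w', w = π * w' := by
      intro w
      rw [← hann w, ← map_smul, Submodule.mkQ_apply, Submodule.Quotient.mk_eq_zero]
    have hgen' : ∀ k : M, ∃ w : W₀, k - w • m ∈ N := by
      intro k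
      obtain ⟨w, hw⟩ := hgen (N.mkQ k)
      refine ⟨w, ?_⟩
      rw [← Submodule.Quotient.mk_eq_zero, ← Submodule.mkQ_apply, map_sub, map_smul, hw, sub_self]
    set f := idT (D := D) Y N.subtype with hf
    set g := idT (D := D) Y N.mkQ with hg
    have hexf : LinearMap.ker g = LinearMap.range f := by
      have h1 : Exact (N.subtype.lTensor Y) (N.mkQ.lTensor Y) :=
        lTensor_exact Y (by rw [LinearMap.exact_iff, Submodule.ker_mkQ, Submodule.range_subtype])
          N.mkQ_surjective
      ext x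
      rw [LinearMap.mem_ker, hg, idT_apply, h1 x]
      constructor
      · rintro ⟨z, hz⟩
        exact ⟨z, by rw [hf, idT_apply, hz]⟩
      · rintro ⟨z, hz⟩
        exact ⟨z, by rw [← hz, hf, idT_apply]⟩
    have hgs : Surjective g := by
      intro x
      obtain ⟨z, hz⟩ := LinearMap.lTensor_surjective Y N.mkQ_surjective x
      exact ⟨z, by rw [hg, idT_apply, hz]⟩
    have hker0 : L.len (LinearMap.ker f) = 0 := by
      let m' : N := ⟨π • m, (hann' π).2 ⟨1, (mul_one π).symm⟩⟩
      let φ : Submodule.torsionBy D Y (algebraMap W₀ D π) →ₗ[D] Y ⊗[W₀] N :=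
        (tmR (D := D) (W₀ := W₀) Y m') ∘ₗ (Submodule.torsionBy D Y (algebraMap W₀ D π)).subtype
      refine le_antisymm ?_ zero_le
      rw [← hY]
      refine (KG.len_sub_mono L ?_).trans (KG.len_range_le L φ)
      intro x hx
      obtain ⟨y, hy, hxy⟩ := ker_idT_le (D := D) Y π N m hann' hgen' x hx
      exact ⟨⟨y, hy⟩, hxy.symm⟩
    have e2 : L.len (Y ⊗[W₀] N) = L.len (LinearMap.range f) := by
      rw [KG.len_sub_quot L (LinearMap.ker f), hker0, zero_add, KG.len_congr L f.quotKerEquivRange]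
    have e3 : L.len (Y ⊗[W₀] M) = L.len (LinearMap.range f) + L.len (Y ⊗[W₀] (M ⧸ N)) := by
      rw [KG.len_sub_quot L (LinearMap.ker g), hexf,
        ← KG.len_congr L (g.quotKerEquivOfSurjective hgs), ← hexf]
    rw [e3, ← e2, e1]
    push_cast
    rw [add_mul, one_mul]
    exact add_le_add ih' le_rfl

end ten

section

variable {D : Type u} [CommRing D] (L : AddLen D) (X : Type u) [AddCommGroup X] [Module D X]

/-- **(L2)**, second part. -/
theorem le_len_ten {W₀ : Type u} [CommRing W₀] [IsDomain W₀] [IsDiscreteValuationRing W₀]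
    [Algebra W₀ D] [Module W₀ X] [IsScalarTower W₀ D X] (π : W₀) (hπ : Irreducible π)
    (ys : List D)
    (h0 : ∀ i, 1 ≤ i → L.len ((KG.KC X (algebraMap W₀ D π :: ys)).H i) = 0) (u : ℕ)
    (M : Type u) [AddCommGroup M] [Module W₀ M] (l : ℕ) (hl : (l : ℕ∞) ≤ Module.length W₀ M)
    (hM : IsFiniteLength W₀ M) :
    (l : ℝ≥0∞) * ((u : ℝ≥0∞) ^ ys.length * L.len ((KG.KC X (algebraMap W₀ D π :: ys)).H 0)) ≤
      L.len ((X ⧸ (Ideal.ofList (ys.map (· ^ u)) • ⊤ : Submodule D X)) ⊗[W₀] M) := by
  set x := algebraMap W₀ D π with hx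
  set ys' := ys.map (· ^ u) with hys'
  set L' := KG.ALen.of L with hL'
  have hperm : (ys ++ [x]).Perm (x :: ys) := by
    have := List.perm_middle (a := x) (l₁ := ys) (l₂ := [])
    rwa [List.append_nil] at this
  have hperm2 : (ys' ++ [x]).Perm (x :: ys') := by
    have := List.perm_middle (a := x) (l₁ := ys') (l₂ := [])
    rwa [List.append_nil] at this
  have h0' : ∀ i, 1 ≤ i → L'.len ((KG.KC X (ys ++ [x])).H i) = 0 := by
    intro i hi
    rw [KG.KC_len_perm L' X hperm i]
    exact h0 i hi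
  have h1 : L'.len ((KG.KC X (x :: ys')).H 1) = 0 := by
    rw [← KG.KC_len_perm L' X hperm2 1]
    exact KG.len_H_map_pow_eq_zero L' X ys [x] u 1 (h0' 1 le_rfl)
  have h2 : L'.len ((KG.KC X (x :: ys')).H 0) =
      (u : ℝ≥0∞) ^ ys.length * L'.len ((KG.KC X (x :: ys)).H 0) := by
    rw [← KG.KC_len_perm L' X hperm2 0, ← KG.KC_len_perm L' X hperm 0]
    exact KG.len_H0_map_pow_append L' X ys [x] u h0'
  -- `Y = X / (ys ^ u) X`
  let e : (X ⧸ (Ideal.ofList ys' • ⊤ : Submodule D X)) ≃ₗ[D] (KG.KC X ys').H 0 :=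
    (Submodule.quotEquivOfEq _ _ (KG.ker_u0 X ys').symm).trans
      ((KG.u0 X ys').quotKerEquivOfSurjective (KG.u0_surjective X ys'))
  have h3 : L'.len (Submodule.torsionBy D (X ⧸ (Ideal.ofList ys' • ⊤ : Submodule D X)) x) = 0 := by
    rw [KG.len_torsion_congr L' e x]
    exact KG.len_torsion_H L' (KG.KC X ys') x 0 h1
  have h4 : L'.len (QuotSMulTop x (X ⧸ (Ideal.ofList ys' • ⊤ : Submodule D X))) =
      L'.len ((KG.KC X (x :: ys')).H 0) := by
    rw [KG.len_congr L' (QuotSMulTop.congr x e)]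
    exact (KG.len_H0_cone L' (KG.KC X ys') x).symm
  have h5 := le_len_of_isFiniteLength L' (W₀ := W₀)
    (X ⧸ (Ideal.ofList ys' • ⊤ : Submodule D X)) π hπ.maximalIdeal_eq h3 hM l hl
  rw [← hx, h4, h2] at h5
  exact h5

end

end Vale.Agent.P177.SL
end
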