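import Mathlib
import Vale.Agent.P177.Bd4.B2
import Vale.Agent.P177.Bd4.B6
import Vale.Agent.P177.Bd4.B13
import Vale.Agent.P177.Bd4.B7
import Vale.Agent.P177.Bd4.B11
import Vale.Agent.P177.Bd4.B9
import Vale.Agent.P177.Bd4.B5
import Vale.Agent.P177.Bd4.B12
import Vale.Agent.P177.Bd4.B10
attribute [-instance] LieAdmissibleRing.instLieRing Ring.toNonUnitalRing NonUnitalSeminormedCommRing.toNonUnitalCommRing CommCStarAlgebra.toNonUnitalCommCStarAlgebra SeminormedRing.toRing OrderAddMonoidHom.instAddMonoidHomClass LeftPreLieRing.instLieAdmissibleRing CategoryTheory.RingObj.toMonObj NormedRing.toMetricSpace CategoryTheory.Preadditive.instGrpObj CStarAlgebra.toNonUnitalCStarAlgebra NonUnitalSeminormedRing.toSeminormedAddCommGroup BialgEquivClass.toBialgHomClass NonUnitalNormedRing.toNormedAddCommGroup Pi.mulZeroOneClass littleWedderburn SeminormedCommGroup.toSeminormedGroup NormedDivisionRing.toNormedRing NormedCommGroup.toSeminormedCommGroup Bialgebra.toAlgebra RingHomClass.toLinearMapClassNNRat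 CommGroupWithZero.toGroupWithZero MulSemiringAction.toDistribMulAction LeftPreLieAlgebra.toModule EuclideanDomain.toCommRing RightPreLieRing.toNonUnitalNonAssocRing NormedDivisionRing.toDivisionRing SemilinearIsometryClass.toContinuousSemilinearMapClass NormedCommGroup.toCommGroup SeminormedCommRing.toNonUnitalSeminormedCommRing CommSemiring.toHopfAlgebra NormedAddCommGroup.toNormedAddGroup LinearOrderedCommMonoidWithZero.toCommMonoidWithZero RightPreLieRing.instLieAdmissibleRing NormedSpace.toModule NormedField.toMetricSpace NonUnitalNormedCommRing.toNonUnitalNormedRing CentroidHomClass.toAddMonoidHomClass BoxIntegral.Box.instMembershipForallReal CommGroup.toGroup TopRep.hV1 CommRing.toAddCommGroupWithOne NormedField.toNormedCommRing LinearOrderedAddCommGroupWithTop.toLinearOrder LinearOrderedAddCommGroupWithTop.instLinearOrderedAddCommMonoidWithTop ContinuousSemilinearEquivClass.continuousSemilinearMapClass NormedRing.toNonUnitalNormedRing LieAlgebra.toModule Action.instMulAction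 Action.FintypeCat.instMulActionObjFiniteOf AddCommMonCat.FilteredColimits.colimitAddCommMonoid CoalgEquivClass.toCoalgHomClass HopfAlgebra.toHopfAlgebraStruct NonUnitalCommCStarAlgebra.toNonUnitalCStarAlgebra NonUnitalAlgHomClass.instSemilinearMapClassOfNonUnitalAlgSemiHomClassToMonoidHomRingHom CommMonTypeEquivalenceCommMon.commMonCommMonoid LieAdmissibleRing.toNonUnitalNonAssocRing instSMulZeroClass ValuationClass.toMonoidWithZeroHomClass Pi.normedRing NormedCommGroup.toNormedGroup NormedAddGroup.toMetricSpace SeminormedGroup.toGroup CommGrpTypeEquivalenceCommGrp.commGrpCommGroup PositiveLinearMap.instContinuousLinearMapClassComplexOfLinearMapClassOfOrderHomClass instCommGroupOfIsSimpleGroupOfIsNilpotent NormedField.toNormedDivisionRing CommCStarAlgebra.toCStarAlgebra HopfAlgebraStruct.toBialgebra NormedAddCommGroup.toMetricSpace NonAssocCommRing.toNonAssocCommSemiring CategoryTheory.GrpObj.toMonObj NormedField.toField NonUnitalCStarAlgebra.toNonUnitalNormedRing NonAssocCommSemiring.toNonAssocSemiring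 AlgHomClass.linearMapClass SeminormedRing.toNonUnitalSeminormedRing Torsor.toMulAction AlgHom.instContinuousLinearMapClassOfAlgHomClass NormedCommGroup.toMetricSpace SeminormedCommGroup.toCommGroup LieRing.toAddCommGroup ConditionallyCompleteLinearOrder.toLinearOrder ContinuousSemilinearMapClass.toSemilinearMapClass GradedMonoid.GradeZero.mulAction SemiRingCat.instSemiringObjForgetRingHomCarrier NormedCommRing.toNormedRing Pi.instTopForall CategoryTheory.HopfObj.toBimonObj NontriviallyNormedField.toNormedField CategoryTheory.CommRingObj.toRingObj SemilinearIsometryClass.toSemilinearMapClass NormedAddCommGroup.toAddCommGroup KleeneAlgebra.toIdemSemiring NormedDivisionRing.toMetricSpace RCLike.toDenselyNormedField NormedRing.toSeminormedRing NormedGroup.toGroup NonUnitalNormedRing.toNonUnitalSeminormedRing CommCStarAlgebra.toNormedCommRing LinearOrderedAddCommGroupWithTop.toAddCommMonoid CommSemiring.toBialgebra DenselyNormedField.toNontriviallyNormedField CStarAlgebra.toNormedRing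 NonUnitalNormedCommRing.toNonUnitalSeminormedCommRing SemiNormedGrp.str NonUnitalRing.toNonUnitalNonAssocRing LinearOrderedCommGroupWithZero.toLinearOrderedCommMonoidWithZero CompleteLinearOrder.toLinearOrder RightPreLieAlgebra.toModule LieAdmissibleAlgebra.toModule TopologicalSpace.UpgradedIsCompletelyMetrizableSpace.toMetricSpace NonUnitalNormedCommRing.toNonUnitalCommRing instNonUnitalAlgHomClassOfNonUnitalAlgEquivClass NormedAddCommGroup.toSeminormedAddCommGroup BooleanRing.toCommRing SeminormedCommRing.toCommRing BialgHomClass.toCoalgHomClass LinearOrderedCommMonoidWithZero.toLinearOrder CategoryTheory.BimonObj.toMonObj LinearOrderedCommGroupWithZero.toCommGroupWithZero GrpTypeEquivalenceGrp.grpGroup MulSemiringActionSemiHomClass.toDistribMulActionSemiHomClass AbsoluteValue.zeroHomClass NonUnitalNormedRing.toMetricSpace CategoryTheory.CommGrpObj.toGrpObj DenselyNormedField.toNormedField CommSemiRingCat.FilteredColimits.colimitCommSemiring Field.toEuclideanDomain SeminormedCommRing.toSeminormedRing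 LeftPreLieRing.toNonUnitalNonAssocRing CoalgHomClass.toSemilinearMapClass RingCat.FilteredColimits.colimitRing RingHomClass.toLinearMapClassRat MonCat.monoidObj AddOpposite.instAddZero NormedCommRing.toSeminormedCommRing NonUnitalSeminormedRing.toNonUnitalRing LinearOrderedAddCommGroupWithTop.toSubNegMonoid AddCommGroupWithOne.toAddCommGroup NormedAlgebra.toAlgebra NormedGroup.toSeminormedGroup NormedCommRing.toNonUnitalNormedCommRing NonUnitalCommCStarAlgebra.toNonUnitalNormedCommRing NormedAddGroup.toSeminormedAddGroup NormedRing.toRing NonAssocCommSemiring.toNonUnitalNonAssocCommSemiring NormedCommRing.toCommRing CommSemiring.toNonAssocCommSemiring SemigroupWithZero.toMulZeroClass ProfiniteAddGrp.addGroup SeminormedAddCommGroup.toSeminormedAddGroup NormedGroup.toMetricSpace SeminormedAddCommGroup.toAddCommGroup NonUnitalSeminormedCommRing.toNonUnitalSeminormedRing Complex.instRCLike NonAssocCommRing.toNonUnitalNonAssocCommRing MonTypeEquivalenceMon.monMonoid instNonUnitalCStarAlgebraForall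 NonUnitalNormedRing.toNonUnitalRing NonUnitalNonAssocCommSemiring.toNonUnitalNonAssocSemiring BooleanRing.toRing CompleteBooleanAlgebra.toCompleteDistribLattice WithIdeal.instUniformSpace Order.Frame.toDistribLattice NonUnitalSemiring.toNonUnitalNonAssocSemiring BiheytingAlgebra.toCoheytingAlgebra FinEnum.instFintype GeneralizedCoheytingAlgebra.toDistribLattice PseudoMetricSpace.toUniformSpace Quaternion.instDivisionRing BiheytingAlgebra.toHeytingAlgebra SeminormedGroup.toPseudoMetricSpace CategoryTheory.Limits.Concrete.instUniqueToTypeTerminal GeneralizedHeytingAlgebra.toDistribLattice Order.Frame.toCompleteLattice BialgHomClass.toAlgHomClass instConditionallyCompletePartialOrderSup SeminormedAddCommGroup.toPseudoMetricSpace BooleanAlgebra.toBiheytingAlgebra instDistribSMul MonoidWithZero.toSemigroupWithZero CompleteDistribLattice.toFrame CategoryTheory.instFinCategoryOfFintypeOfIsThin OrderDual.instDivisionSemiring Order.Coframe.toDistribLattice CategoryTheory.Abelian.toPreadditive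 TopologicalSpace.Compacts.instSetLike Pi.nonUnitalNonAssocSemiring MetricSpace.toEMetricSpace OmegaCompletePartialOrder.toPartialOrder CompleteLattice.toPartialOrder' IsEmpty.instSubsingleton CoheytingAlgebra.toGeneralizedCoheytingAlgebra instSubsingleton Order.Frame.toHeytingAlgebra CompleteDistribLattice.toBiheytingAlgebra CompleteDistribLattice.toCoframe SeminormedRing.toPseudoMetricSpace ConditionallyCompletePartialOrderInf.toPartialOrder BooleanAlgebra.toDistribLattice GeneralizedBooleanAlgebra.toDistribLattice WithIdeal.instTopologicalSpace HeytingAlgebra.toGeneralizedHeytingAlgebra Order.Coframe.toCompleteLattice Unique.fintype IsValuativeTopology.instValuedValueGroupWithZeroOfIsUniformAddGroup Valued.toUniformSpace CompleteLinearOrder.toBiheytingAlgebra CompletelyDistribLattice.toBiheytingAlgebra CategoryTheory.Mat_.fintype SeminormedCommGroup.toPseudoMetricSpace UniformSpace.toTopologicalSpace PadicComplex.normedField Order.Coframe.toCoheytingAlgebra Group.IsPerfect.subsingleton_of_isMulCommutative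 PseudoMetricSpace.toPseudoEMetricSpace CompleteBooleanAlgebra.toBooleanAlgebra GeneralizedHeytingAlgebra.toLattice NumberField.to_charZero Pi.normedAddCommGroup GeneralizedCoheytingAlgebra.toLattice EMetricSpace.toPseudoEMetricSpace OrderRingHom.instRingHomClass CompleteAtomicBooleanAlgebra.toCompletelyDistribLattice BooleanAlgebra.toGeneralizedBooleanAlgebra UpgradedStandardBorel.toTopologicalSpace NonUnitalSeminormedRing.toPseudoMetricSpace GeneralizedBooleanAlgebra.toGeneralizedCoheytingAlgebra CompletelyDistribLattice.toCompleteDistribLattice MetricSpace.toPseudoMetricSpace Pi.mulOneClass ChainCompletePartialOrder.toPartialOrder NonUnitalRing.toNonUnitalSemiring SetLike.instFintype Std.DTreeMap.Raw.instSingletonSigma ChainCompletePartialOrder.instOmegaCompletePartialOrder TopologicalSpace.UpgradedIsCompletelyPseudoMetrizableSpace.toPseudoMetricSpace CategoryTheory.FinCategory.fintypeObj CompletePartialOrder.toOmegaCompletePartialOrder SeminormedAddGroup.toPseudoMetricSpace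 ChainCompletePartialOrder.instOfCompleteLattice PseudoEMetricSpace.toUniformSpace NormedAddGroup.toAddGroup SeminormedAddGroup.toAddGroup instIsDedekindDomainOfIsDomainOfIsDedekindRing NormedCommGroup.toENormedCommMonoid LieAdmissibleAlgebra.toIsScalarTower MulEquivClass.toMonoidWithZeroHomClass IsStrictOrderedRing.isDomain Fin.completeLinearOrder AlgebraicGeometry.Scheme.instPreorderCarrierCarrierCommRingCat IsDedekindDomainDvr.isDedekindDomain LeftPreLieAlgebra.toIsScalarTower Pi.nonUnitalSemiring NormedAddCommGroup.toENormedAddCommMonoid Fin.instBiheytingAlgebra CommGroupWithZero.toCommMonoidWithZero ENormedAddCommMonoid.toESeminormedAddCommMonoid EuclideanDomain.instIsDomain RightPreLieAlgebra.instLieAdmissibleAlgebra BialgEquivClass.toCoalgEquivClass boolToProp Pi.addMonoidWithOne AddMonCat.addMonoidObj LieRinehartAlgebra.toIsScalarTower AlgEquivClass.toAlgHomClass ENormedCommMonoid.toESeminormedCommMonoid RightPreLieAlgebra.toIsScalarTower Field.isDomain TensorProduct.instModuleFstSnd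 Pi.mulZeroClass CategoryTheory.CommGrpObj.mk DivisionRing.isDomain AddHom.addHomClass IsDedekindDomain.toIsDomain MulRingSeminormClass.toMonoidWithZeroHomClass CompleteLinearOrder.toCompleteLattice Invertible.toNeZero CategoryTheory.instBraidedCategoryType Nat.AtLeastTwo.toNeZero LinearOrderedAddCommGroupWithTop.toSubtractionMonoid Fin.instHeytingAlgebra instMulActionSemiHomClassMulActionHom AbsoluteValue.mulHomClass StarSubalgebra.commCStarAlgebra ValuationRing.isLocalRing LieAdmissibleAlgebra.toSMulCommClass SemilatSupCat.isSemilatticeSup StarSubalgebra.cstarAlgebra NeZero.of_gt' SubringClass.toNormedRing Nat.Prime.one_lt' MonoidWithZero.toMulActionWithZero PartOrdEmb.str Field.instIsLocalRing Fin.instCoheytingAlgebra MulOpposite.instMulOne RightPreLieAlgebra.toSMulCommClass SubfieldClass.toNormedField LeftPreLieAlgebra.toSMulCommClass FirstOrder.Language.instDecidableEqRelations FirstOrder.Language.instDecidableEqFunctions SubringClass.toNormedCommRing SubalgebraClass.normedRing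 SemilinearIsometryEquivClass.toSemilinearIsometryClass LinearOrder.toLattice Nat.instNontrivial AddQuantale.instAddLeftMono AddLeftCancelMonoid.toAddMonoid Field.toGrindField ESeminormedAddCommMonoid.toESeminormedAddMonoid AddCancelCommMonoid.toAddCommMonoid CommRing.toGrindCommRing ENormedAddCommMonoid.toENormedAddMonoid AddRightCancelMonoid.toAddMonoid AddCancelMonoid.toAddLeftCancelMonoid ESeminormedAddMonoid.toAddMonoid ESeminormedAddCommMonoid.toAddCommMonoid ENormedAddMonoid.toESeminormedAddMonoid NormedAddGroup.toENormedAddMonoid AddCancelCommMonoid.toAddCancelMonoid FinEnum.decEq instIsSemirealOfIsStrictOrderedRingOfExistsAddOfLE IsRealClosed.toIsSemireal IsStrictOrderedRing.toCharZero Semifield.toCommGroupWithZero Ideal.Quotient.normedCommRing MulCharClass.toMonoidHomClass CategoryTheory.StrictBicategory.category instCharZeroOfIsSemireal RCLike.toDecidableEq CommMonCat.str CompleteLinearOrder.toConditionallyCompleteLinearOrderBot Pi.instBotForall RCLike.charZero_rclike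 NonUnitalAlgHomClass.toNonUnitalRingHomClass DivisionRing.toDivisionSemiring CategoryTheory.Groupoid.toCategory instRingHomSurjectiveForallEvalRingHom decidableEq_of_subsingleton BialgHomClass.toMonoidHomClass ConditionallyCompleteLinearOrderBot.toConditionallyCompleteLinearOrder MulDistribMulActionSemiHomClass.toMonoidHomClass Ring.toGrindRing Pi.addZeroClass Pi.subtractionMonoid RCLike.toInnerProductSpaceReal IsOrderedRing.toIsStrictOrderedRing LinearOrderedAddCommGroupWithTop.toNontrivial IsStrictOrderedRing.toNontrivial IsSimpleOrder.toNontrivial GroupWithZero.toNontrivial EuclideanDomain.toNontrivial instNonemptyOfMonad instInhabitedOfMonad instInfiniteOfUncountable CharZero.infinite IsAlgClosed.instInfinite DivisionRing.toNontrivial NontriviallyNormedField.infinite Turing.FinTM2.decidableEqK NoMaxOrder.infinite NoMinOrder.infinite Infinite.instNontrivial FirstOrder.Language.instInfiniteOfModelDloOrderOfNonempty Denumerable.instInfinite IsSimpleAddGroup.toNontrivial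 IsSimpleRing.instNontrivial instNontrivialOfCharZero IsSimpleGroup.toNontrivial SubringClass.toSeminormedCommRing OrderDual.instPow_1 Semiring.toNonUnitalSemiring SubfieldClass.toDivisionRing SubalgebraClass.seminormedRing Monoid.End.instMonoidHomClass CompleteSemilatticeSup.toPartialOrder CompleteBooleanAlgebra.toCompleteLattice SubringClass.toSeminormedRing ConditionallyCompletePartialOrder.toConditionallyCompletePartialOrderInf CompleteLattice.toLattice LinearOrderedAddCommMonoidWithTop.toLinearOrder Preorder.smallCategory Real.instRCLike SubfieldClass.toField CompleteAtomicBooleanAlgebra.toCompleteBooleanAlgebra Semiring.toGrindSemiring CommSemiring.toGrindCommSemiring CategoryTheory.isConnected_of_nonempty_and_subsingleton NonUnitalCommRing.toNonUnitalRing Torsor.nonempty Group.instTorsor CategoryTheory.IsConnected.is_nonempty SeminormedAddCommGroup.toNormedAddTorsor CategoryTheory.IsSifted.instIsConnected NormedAddTorsor.toAddTorsor SubfieldClass.toSubringClass Pi.instMaxForall_mathlib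 Pi.distribSMul' MulZeroClass.toSMulWithZero SetLike.GradeZero.instCommRing Pi.distribMulAction' Ideal.Quotient.semiNormedCommRing Semigrp.str Pi.commMagma instFiniteProp AddCommGroup.toGrindIntModule ConnectedSpace.toNonempty Unique.instInhabited top_nonempty CommGroup.toCancelCommMonoid IrreducibleSpace.toNonempty Zero.instNonempty CancelCommMonoid.toLeftCancelMonoid supSet_to_nonempty One.instNonempty bot_nonempty CancelMonoid.toLeftCancelMonoid CategoryTheory.IsSifted.isSifted_of_hasBinaryCoproducts_and_nonempty CancelCommMonoid.toCancelMonoid AddCommGroup.toAddCancelCommMonoid infSet_to_nonempty Group.toCancelMonoid FloorSemiring.instCharZero RootedTree.orderBot NonAssocRing.toNonAssocSemiring IdemCommSemiring.toCommSemiring GradedMonoid.GradeZero.smul RCLike.innerProductSpace OneHom.oneHomClass LinearOrderedCommMonoidWithZero.toIsBotZeroClass SimpleGraph.TripartiteFromTriangles.graph.instDecidableRelAdj Pi.instOne Pi.smulZeroClass' Nat.instOne GroupWithZero.toMonoidWithZero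 PositiveLinearMap.instInnerProductSpaceComplexPreGNS MulActionWithZero.toMulAction NonUnitalCommSemiring.toNonUnitalNonAssocCommSemiring MulDistribMulAction.toMulAction MulSemiringAction.toMulDistribMulAction AddCommMonoid.toGrindNatModule NonUnitalNonAssocSemiring.toDistribSMul Group.toDivisionMonoid Nontrivial.to_nonempty CommGroup.toDivisionCommMonoid DivisionRing.toDivInvMonoid FiniteDimensional.finiteDimensional_quotient NormedAlgebra.id CompleteLattice.toCompleteSemilatticeSup LinOrd.str RingEquivClass.toNonUnitalRingHomClass SubringClass.toRing MulSemiringActionSemiHomClass.toRingHomClass NonUnitalAlgSemiHomClass.toDistribMulActionSemiHomClass SetLike.GradeZero.instRing RingConeClass.toSubsemiringClass AlgebraicGeometry.instOrderTopCarrierCarrierCommRingCatOfIsIntegral SubringClass.toCommRing LieAlgebra.ofAssociativeAlgebra LieAdmissibleAlgebra.instLieAlgebra LeftPreLieAlgebra.instLieAdmissibleAlgebra ENormedCommMonoid.toENormedMonoid GradedMonoid.GradeZero.commMonoid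 MulZeroClass.negZeroClass LeftCancelMonoid.toMonoid ENormedMonoid.toESeminormedMonoid DivInvOneMonoid.toDivInvMonoid CommGroup.toCommMonoid IsDomain.toNontrivial SaturatedAddSubmonoid.instAddSubmonoidClass ESeminormedMonoid.toMonoid CancelCommMonoid.toCommMonoid ESeminormedCommMonoid.toCommMonoid DivisionMonoid.toDivInvMonoid NormedGroup.toENormedMonoid RightCancelMonoid.toMonoid CancelMonoid.toRightCancelMonoid ESeminormedCommMonoid.toESeminormedMonoid DivisionCommMonoid.toCommMonoid SubringClass.toNegMemClass Algebra.TensorProduct.instNonUnitalRing TensorProduct.instNormedAddCommGroup TensorProduct.isScalarTower_right Algebra.TensorProduct.instNonUnitalNonAssocRing NumberField.instFiniteDimensional Algebra.TensorProduct.right_isScalarTower Algebra.TensorProduct.instNonAssocRing NonUnitalNonAssocSemiring.toMulZeroClass AddQuantale.instAddRightMono SetLike.GradeZero.instCommSemiring Quantale.instMulRightMono SetLike.GradeZero.instSemiring BooleanAlgebra.toBot Fin.addCommMonoid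 CompleteSemilatticeSup.toSupSet NormedSpace.instPathConnectedSpace BooleanAlgebra.toTop SimplyConnectedSpace.ofContractible SimplyConnectedSpace.instPathConnectedSpace Fin.instCommMonoid Convex.instPathConnectedSpace ConditionallyCompleteLinearOrderBot.toOrderBot HeytingAlgebra.toOrderBot LinearOrderedAddCommMonoidWithTop.toOrderTop GeneralizedBooleanAlgebra.toBot ContractibleSpace.instOfNonemptyOfIndiscreteTopology ConditionallyCompleteLattice.toInfSet Fin.instBoundedOrder HeytingAlgebra.toBoundedOrder GeneralizedHeytingAlgebra.toOrderTop GeneralizedBooleanAlgebra.toOrderBot Fin.addCommGroup UnitalShelf.toOne NormedAddTorsor.toAddTorsor' ContractibleSpace.instOfNonemptyOfSubsingleton CoheytingAlgebra.toOrderTop BooleanAlgebra.toBoundedOrder Group.toDivInvMonoid RealTopologicalVectorSpace.contractibleSpace IdemSemiring.toOrderBot ContractibleSpace.instPathConnectedSpace ConditionallyCompleteLattice.toSupSet IrreducibleSpace.connectedSpace LinearOrderedAddCommGroupWithTop.toOrderTop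 Fin.instNontrivial LinearOrderedCommMonoidWithZero.toOrderBot CoheytingAlgebra.toBoundedOrder PathConnectedSpace.connectedSpace GeneralizedCoheytingAlgebra.toOrderBot GradedMonoid.GradeZero.monoid SemilatticeInf.toPartialOrder DistribLattice.toLattice Std.LinearPreorderPackage.toPreorderPackage ConvexCone.instAddMemClass Std.LinearOrderPackage.toLinearPreorderPackage instDistribLatticeOfLinearOrder SubsemiringClass.toSemiring Quantale.instMulLeftMono AddCancelCommMonoid.toAddLeftCancelMonoid CommGroupWithZero.toDivisionCommMonoid CompleteSemilatticeInf.toInfSet CommMonoidWithZero.toCommMonoid BoundedOrder.toOrderTop DivisionCommMonoid.toDivisionMonoid instNonemptyOfInhabited instTopologicalSpaceFin Pi.nonAssocRing IsSemisimpleRing.isSemisimpleModule instIsSemisimpleRingOfSubsingleton ValuationRing.of_field IsSimpleRing.instIsSemisimpleRing smoothSheafCommRing.instLocalRing_stalk instIsSemisimpleModuleOfIsSimpleModule of_isDiscreteValuationRing ConditionallyCompletePartialOrderSup.toSupSet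 CompletePartialOrder.toSupSet AlgHom.instRingHomCompTripleComp -- iprune

set_option linter.all false

section

/-!
P177, block B8, part 5: the multiplicativity formula.
-/

namespace Vale.Agent.P177.B8

open Vale.Agent.P202.Mix Vale.Agent.P177.Mass TensorProduct IsLocalRing
open scoped ENNReal

universe u

variable {Λ R E D : Type u} [CommRing Λ] [CommRing R] [CommRing E] [CommRing D]
  [Algebra Λ R] [Algebra Λ E] [Algebra R D] [Algebra E D]
  {P : Type u} [AddCommGroup P] [Module R P] [Module Λ P] [IsScalarTower Λ R P]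
  {Y : Type u} [AddCommGroup Y] [Module E Y] [Module Λ Y] [IsScalarTower Λ E Y]
  {X : Type u} [AddCommGroup X] [Module D X] [Module R X] [IsScalarTower R D X]
  [Module E X] [IsScalarTower E D X]

section Seq

variable {K F : ℕ → Type u} [∀ i, AddCommGroup (K i)] [∀ i, Module R (K i)]
  [∀ i, AddCommGroup (F i)] [∀ i, Module R (F i)]
  (f : ∀ i, K (i + 1) →ₗ[R] F i) (g : ∀ i, F i →ₗ[R] K i)

variable (Λ P) in
/-- the homology of `P ⊗ F` over `Λ`: `Tor_i^R (K 0, P)` with its structure of `Λ`-module. -/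
noncomputable def hΛ : ℕ → ModuleCat.{u} Λ
  | 0 => ModuleCat.of Λ (P ⊗[R] (K 0))
  | i + 1 => ModuleCat.of Λ (LinearMap.ker ((f i).lTensor P))

theorem length_hΛ [IsLocalRing Λ] [IsLocalRing R] [IsLocalHom (algebraMap Λ R)]
    [∀ i, Module.Flat R (F i)] (hf : ∀ i, Function.Injective (f i))
    (hg : ∀ i, Function.Surjective (g i)) (h : ∀ i, Function.Exact (f i) (g i)) (i : ℕ) :
    Module.length Λ (hΛ Λ P f i) = Module.length R (TorM R i (K 0) P) *
      Module.length (ResidueField Λ) (ResidueField R) := by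
  cases i with
  | zero =>
    have h1 := IsLocalRing.length_restrictScalars Λ R (P ⊗[R] (K 0))
    have h2 : Module.length R (P ⊗[R] (K 0)) = Module.length R (TorM R 0 (K 0) P) :=
      LinearEquiv.length_eq ((TensorProduct.comm R P (K 0)).trans (torZero (K 0) P).symm)
    rw [← h2]
    exact h1
  | succ i =>
    have h1 := IsLocalRing.length_restrictScalars Λ R (LinearMap.ker ((f i).lTensor P))
    have h2 : Module.length R (LinearMap.ker ((f i).lTensor P)) =
        Module.length R (TorM R (i + 1) (K 0) P) := by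
      obtain ⟨e1⟩ := ker_comm (N := P) (f i)
      obtain ⟨e2⟩ := tor_syz K F f g hf hg h P i
      exact (LinearEquiv.length_eq e1).symm.trans (LinearEquiv.length_eq e2).symm
    rw [← h2]
    exact h1

variable (Λ P) in
/-- the inclusion of the homology. -/
noncomputable def ihΛ (i : ℕ) : hΛ Λ P f (i + 1) →ₗ[Λ] P ⊗[R] (K (i + 1)) :=
  (LinearMap.ker ((f i).lTensor P)).subtype.restrictScalars Λ

theorem ihΛ_injective (i : ℕ) : Function.Injective (ihΛ Λ P f i) :=
  Submodule.injective_subtype (LinearMap.ker ((f i).lTensor P))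

theorem ihΛ_exact (i : ℕ) :
    Function.Exact (ihΛ Λ P f i) (((f i).lTensor P).restrictScalars Λ) := by
  intro x
  constructor
  · intro hx
    exact ⟨(⟨x, hx⟩ : LinearMap.ker ((f i).lTensor P)), rfl⟩
  · rintro ⟨y, rfl⟩
    exact (show LinearMap.ker ((f i).lTensor P) from y).2

theorem ihΛ_injective' [Module.Flat Λ E] (i : ℕ) :
    Function.Injective ((ihΛ Λ P f i).baseChange E) :=
  Module.Flat.lTensor_preserves_injective_linearMap (M := E) (ihΛ Λ P f i) (ihΛ_injective f i)

theorem ihΛ_exact' [Module.Flat Λ E] (i : ℕ) :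
    Function.Exact ((ihΛ Λ P f i).baseChange E) (dd Λ E P (f i)) :=
  Module.Flat.lTensor_exact E (ihΛ_exact f i)

theorem dd_exact (hg : ∀ i, Function.Surjective (g i)) (h : ∀ i, Function.Exact (f i) (g i))
    (i : ℕ) : Function.Exact (dd Λ E P (f i)) (dd Λ E P (g i)) :=
  lTensor_exact E (lTensor_exact P (h i) (hg i)) (LinearMap.lTensor_surjective P (hg i))

theorem dd_surjective (hg : ∀ i, Function.Surjective (g i)) (i : ℕ) :
    Function.Surjective (dd Λ E P (g i)) :=
  LinearMap.lTensor_surjective E (LinearMap.lTensor_surjective P (hg i))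

omit [∀ i, AddCommGroup (F i)] [∀ i, Module R (F i)] in
theorem len_tor_zero (T : TData (Λ := Λ) (R := R) (E := E) P Y X) (LE : AddLen E)
    (LD : AddLen D)
    (hL : ∀ (M : Type u) [AddCommGroup M] [Module D M],
      LD.len M = @AddLen.len E _ LE M _ (Module.compHom M (algebraMap E D))) :
    LD.len (TorM D 0 X (D ⊗[R] (K 0))) = LE.len ((E ⊗[Λ] (P ⊗[R] (K 0))) ⊗[E] Y) := by
  have h1 : LD.len (TorM D 0 X (D ⊗[R] (K 0))) = LD.len ((D ⊗[R] (K 0)) ⊗[D] X) :=
    Vale.Agent.P177.Mass.len_congr LD ((torZero X (D ⊗[R] (K 0))).trans (TensorProduct.comm D X (D ⊗[R] (K 0))))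
  exact h1.trans (T.len_cmp LE LD hL (K 0))

omit [Module Λ Y] [IsScalarTower Λ E Y] in
theorem tl_tensor_subsingleton (LE : AddLen E) (M : Type u) [AddCommGroup M] [Module Λ M]
    [Subsingleton M] (j : ℕ) : tl LE Y j (E ⊗[Λ] M) = 0 := by
  have : Subsingleton (E ⊗[Λ] M) := by
    refine ⟨fun a b => ?_⟩
    have h : ∀ a : E ⊗[Λ] M, a = 0 := by
      intro a
      induction a using TensorProduct.induction_on with
      | zero => rfl
      | tmul x y =>
        have : y = 0 := Subsingleton.elim _ _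
        rw [this, TensorProduct.tmul_zero]
      | add a b ha hb => rw [ha, hb, add_zero]
    rw [h a, h b]
  exact tl_subsingleton LE Y j

set_option maxSynthPendingDepth 3 in
theorem len_tor_succ [Module.Flat R D] [∀ i, Module.Flat R (F i)]
    (hf : ∀ i, Function.Injective (f i))
    (hg : ∀ i, Function.Surjective (g i)) (h : ∀ i, Function.Exact (f i) (g i))
    (T : TData (Λ := Λ) (R := R) (E := E) P Y X) (LE : AddLen E) (LD : AddLen D)
    (hL : ∀ (M : Type u) [AddCommGroup M] [Module D M],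
      LD.len M = @AddLen.len E _ LE M _ (Module.compHom M (algebraMap E D))) (i : ℕ) :
    LD.len (TorM D (i + 1) X (D ⊗[R] (K 0))) =
      LE.len (LinearMap.ker ((dd Λ E P (f i)).rTensor Y)) := by
  have hs : ∀ (a : E) (x : (E ⊗[Λ] (P ⊗[R] (K (i + 1)))) ⊗[E] Y),
    T.cmp (D := D) (K (i + 1)) (a • x) = algebraMap E D a • T.cmp (D := D) (K (i + 1)) x :=
    fun a x => T.cmp_smul a x
  have hn : ∀ x : (E ⊗[Λ] (P ⊗[R] (K (i + 1)))) ⊗[E] Y,
      T.cmp (D := D) (F i) ((dd Λ E P (f i)).rTensor Y x) =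
      ((f i).baseChange D).rTensor X (T.cmp (D := D) (K (i + 1)) x) := fun x => T.cmp_nat (f i) x
  exact len_tor_D K F f g hf hg h LE LD hL i ((dd Λ E P (f i)).rTensor Y)
    (T.cmp (D := D) (K (i + 1))) (T.cmp (D := D) (F i)) hs hn

set_option maxSynthPendingDepth 3 in
theorem b8_kunneth [Module.Flat Λ E]
    [Module.Flat R D] [∀ i, Module.Flat R (F i)] (hPF : ∀ i, Module.Flat Λ (P ⊗[R] (F i)))
    (hf : ∀ i, Function.Injective (f i))
    (hg : ∀ i, Function.Surjective (g i)) (h : ∀ i, Function.Exact (f i) (g i))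
    (T : TData (Λ := Λ) (R := R) (E := E) P Y X) (LE : AddLen E) (LD : AddLen D)
    (hL : ∀ (M : Type u) [AddCommGroup M] [Module D M],
      LD.len M = @AddLen.len E _ LE M _ (Module.compHom M (algebraMap E D)))
    (b : ℕ) (hb : 1 ≤ b)
    (hfin : ∀ i j, tl LE Y j (E ⊗[Λ] (hΛ Λ P f i)) ≠ ⊤)
    (hvan : ∀ i j, b ≤ j → tl LE Y j (E ⊗[Λ] (hΛ Λ P f i)) = 0)
    (d : ℕ) (hd : ∀ i, d ≤ i → ∀ j, tl LE Y j (E ⊗[Λ] (hΛ Λ P f i)) = 0) :
    (∀ i, LD.len (TorM D i X (D ⊗[R] (K 0))) ≠ ⊤) ∧ ∀ n, d + b ≤ n →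
      ∑ i ∈ Finset.range n, (-1 : ℝ) ^ i * (LD.len (TorM D i X (D ⊗[R] (K 0)))).toReal =
        ∑ i ∈ Finset.range n, (-1 : ℝ) ^ i * Vale.Agent.P177.B8.chi LE Y (b + 1) (E ⊗[Λ] (hΛ Λ P f i)) := by
  have hGflat : ∀ i, Module.Flat E (E ⊗[Λ] (P ⊗[R] (F i))) := fun i => by
    have := hPF i
    infer_instance
  have hw : ∀ i, LD.len (TorM D (i + 1) X (D ⊗[R] (K 0))) =
      LE.len (LinearMap.ker ((dd Λ E P (f i)).rTensor Y)) :=
    fun i => len_tor_succ f g hf hg h T LE LD hL i
  exact kunneth LE Y (fun i => E ⊗[Λ] (P ⊗[R] (F i)))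
    (fun i => E ⊗[Λ] (P ⊗[R] (K i))) (fun i => E ⊗[Λ] (hΛ Λ P f i))
    (fun i => dd Λ E P (f i)) (fun i => dd Λ E P (g i))
    (fun i => (ihΛ Λ P f i).baseChange E) (LinearEquiv.refl E _) (ihΛ_injective' f)
    (ihΛ_exact' f) (dd_exact f g hg h) (dd_surjective g hg) b d hb hfin hvan hd
    (fun i => LD.len (TorM D i X (D ⊗[R] (K 0)))) (len_tor_zero T LE LD hL) hw

theorem b8_seq [IsLocalRing Λ] [IsLocalRing R] [IsLocalHom (algebraMap Λ R)] [Module.Flat Λ E]
    [Module.Flat R D] [∀ i, Module.Flat R (F i)] (hPF : ∀ i, Module.Flat Λ (P ⊗[R] (F i)))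
    (hf : ∀ i, Function.Injective (f i))
    (hg : ∀ i, Function.Surjective (g i)) (h : ∀ i, Function.Exact (f i) (g i))
    (T : TData (Λ := Λ) (R := R) (E := E) P Y X) (LE : AddLen E) (LD : AddLen D)
    (hL : ∀ (M : Type u) [AddCommGroup M] [Module D M],
      LD.len M = @AddLen.len E _ LE M _ (Module.compHom M (algebraMap E D)))
    (b : ℕ) (hb : 1 ≤ b)
    (hfin : ∀ j, tl LE Y j (E ⊗[Λ] (Λ ⧸ maximalIdeal Λ)) ≠ ⊤)
    (hvan : ∀ j, b ≤ j → tl LE Y j (E ⊗[Λ] (Λ ⧸ maximalIdeal Λ)) = 0)
    (d : ℕ) (hd : ∀ i, d ≤ i → Subsingleton (TorM R i (K 0) P))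
    (hfl : ∀ i, Module.length R (TorM R i (K 0) P) ≠ ⊤)
    (hρ : Module.length (ResidueField Λ) (ResidueField R) = 1) :
    (∀ i, LD.len (TorM D i X (D ⊗[R] (K 0))) ≠ ⊤) ∧ ∀ n, d + b ≤ n →
      ∑ i ∈ Finset.range n, (-1 : ℝ) ^ i * (LD.len (TorM D i X (D ⊗[R] (K 0)))).toReal =
        (eulerTor R n (K 0) P : ℝ) * Vale.Agent.P177.B8.chi LE Y (b + 1) (E ⊗[Λ] (Λ ⧸ maximalIdeal Λ)) := by
  have hlen : ∀ i, Module.length Λ (hΛ Λ P f i) = Module.length R (TorM R i (K 0) P) := fun i => by
    rw [length_hΛ f g hf hg h, hρ, mul_one]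
  have hflΛ : ∀ i, IsFiniteLength Λ (hΛ Λ P f i) := fun i => by
    rw [← Module.length_ne_top_iff, hlen]
    exact hfl i
  have dev := fun i => devissage LE Y b hfin hvan (hΛ Λ P f i) (hflΛ i)
  have hnull : ∀ i, d ≤ i → ∀ j, tl LE Y j (E ⊗[Λ] (hΛ Λ P f i)) = 0 := fun i hi j => by
    have : Subsingleton (hΛ Λ P f i) := by
      rw [← Module.length_eq_zero_iff (R := Λ), hlen, Module.length_eq_zero_iff]
      exact hd i hi
    exact tl_tensor_subsingleton LE _ j
  obtain ⟨k1, k2⟩ := b8_kunneth f g hPF hf hg h T LE LD hL b hb (fun i => (dev i).1)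
    (fun i => (dev i).2.1) d hnull
  refine ⟨k1, fun n hn => ?_⟩
  rw [k2 n hn]
  have h3 : ∀ i, Vale.Agent.P177.B8.chi LE Y (b + 1) (E ⊗[Λ] (hΛ Λ P f i)) =
      ((Module.length R (TorM R i (K 0) P)).toNat : ℝ) *
        Vale.Agent.P177.B8.chi LE Y (b + 1) (E ⊗[Λ] (Λ ⧸ maximalIdeal Λ)) := fun i => by
    rw [(dev i).2.2, hlen]
  unfold eulerTor
  push_cast
  rw [Finset.sum_mul]
  exact Finset.sum_congr rfl fun i _ => by rw [h3]; ring

end Seq

/-- **The multiplicativity formula (B8).** `X = Y ⊗[Λ] P` with `P` flat over the local ring `Λ`: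
the Euler characteristic of `X` and `D ⊗ A` over `D`, for the additive length `LD`, is the Euler
characteristic of `A` and `P` over `R` times the Euler characteristic of the residue field of `Λ`
and `Y` over `E`. -/
theorem b8 [IsLocalRing Λ] [IsLocalRing R] [IsLocalHom (algebraMap Λ R)] [Module.Flat Λ E]
    [Module.Flat R D] [Module.Flat Λ P]
    (T : TData (Λ := Λ) (R := R) (E := E) P Y X) (LE : AddLen E) (LD : AddLen D)
    (hL : ∀ (M : Type u) [AddCommGroup M] [Module D M],
      LD.len M = @AddLen.len E _ LE M _ (Module.compHom M (algebraMap E D)))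
    (A : Type u) [AddCommGroup A] [Module R A] (b : ℕ) (hb : 1 ≤ b)
    (hfin : ∀ j, tl LE Y j (E ⊗[Λ] (Λ ⧸ maximalIdeal Λ)) ≠ ⊤)
    (hvan : ∀ j, b ≤ j → tl LE Y j (E ⊗[Λ] (Λ ⧸ maximalIdeal Λ)) = 0)
    (d : ℕ) (hd : ∀ i, d ≤ i → Subsingleton (TorM R i A P))
    (hfl : ∀ i, Module.length R (TorM R i A P) ≠ ⊤)
    (hρ : Module.length (ResidueField Λ) (ResidueField R) = 1) :
    (∀ i, LD.len (TorM D i X (D ⊗[R] A)) ≠ ⊤) ∧ ∀ n, d + b ≤ n →
      ∑ i ∈ Finset.range n, (-1 : ℝ) ^ i * (LD.len (TorM D i X (D ⊗[R] A))).toReal =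
        (eulerTor R n A P : ℝ) * Vale.Agent.P177.B8.chi LE Y (b + 1) (E ⊗[Λ] (Λ ⧸ maximalIdeal Λ)) :=
  b8_seq (K := fun i => syz (ModuleCat.of R A) i) (F := Fs (ModuleCat.of R A))
    (fs (ModuleCat.of R A)) (gs (ModuleCat.of R A)) (fun _ => flat_finsupp_tensor _)
    (fs_injective _) (gs_surjective _) (fs_exact _) T LE LD hL b hb hfin hvan d hd hfl hρ

end Vale.Agent.P177.B8
end

section

/-!
P177, block B8, part 6: the multiplicativity formula for `X = Y ⊗[Λ] P`, `D = R ⊗[ℤ] W`,
`E = Λ ⊗[ℤ] W`.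
-/

namespace Vale.Agent.P177.B8

open Vale.Agent.P202.Mix Vale.Agent.P177.Mass Vale.Agent.P177.Ap TensorProduct IsLocalRing
open scoped ENNReal

universe u

section Pull

variable {W S T : Type u} [CommRing W] [CommRing S] [CommRing T]

theorem len_sub0 (L : AddLen W) (M : Type u) [AddCommGroup M] [Module W M] [Subsingleton M] :
    L.len M = 0 := by
  have e : M ≃ₗ[W] PUnit.{u + 1} :=
    { toFun := fun _ => PUnit.unit
      map_add' := fun _ _ => rfl
      map_smul' := fun _ _ => rfl
      invFun := fun _ => 0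
      left_inv := fun _ => Subsingleton.elim _ _
      right_inv := fun _ => rfl }
  rw [Vale.Agent.P177.Mass.len_congr L e, L.zero]

/-- the additive length on `S`-modules induced by `i : W → S`. -/
noncomputable def pullL (i : W →+* S) (L : AddLen W) : AddLen S where
  len M _ _ := @AddLen.len W _ L M _ (Module.compHom M i)
  zero := by
    let _ : Module W PUnit.{u + 1} := Module.compHom PUnit.{u + 1} i
    exact len_sub0 L PUnit.{u + 1}
  add := by
    intro M N K _ _ _ _ _ _ f g hf hg h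
    let _ : Module W M := Module.compHom M i
    let _ : Module W N := Module.compHom N i
    let _ : Module W K := Module.compHom K i
    exact L.add (M := M) (N := N) (K := K)
      { toFun := f, map_add' := f.map_add, map_smul' := fun w x => f.map_smul (i w) x }
      { toFun := g, map_add' := g.map_add, map_smul' := fun w x => g.map_smul (i w) x } hf hg h

theorem pullL_len (i : W →+* S) (L : AddLen W) (M : Type u) [AddCommGroup M] [Module S M]
    [Module W M] (h : ∀ (w : W) (x : M), w • x = i w • x) : (pullL i L).len M = L.len M := by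
  have h1 : (pullL i L).len M = @AddLen.len W _ L M _ (Module.compHom M i) := rfl
  rw [h1]
  congr 1
  ext w x
  exact (h w x).symm

theorem pullL_comp (i : W →+* S) (j : S →+* T) (L : AddLen W) (M : Type u) [AddCommGroup M]
    [Module T M] : (pullL (j.comp i) L).len M =
      @AddLen.len S _ (pullL i L) M _ (Module.compHom M j) := by
  let _ : Module W M := Module.compHom M (j.comp i)
  let _ : Module S M := Module.compHom M j
  rw [pullL_len (j.comp i) L M fun _ _ => rfl]
  exact (pullL_len i L M fun _ _ => rfl).symm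

end Pull

section Ten

variable {Λ R W : Type u} [CommRing Λ] [CommRing R] [Algebra Λ R] [CommRing W] (φ : Λ →+* W)

/-- The ring homomorphism `Λ ⊗ W → W` given by `φ` and the identity. -/
noncomputable def augE : Λ ⊗[ℤ] W →+* W :=
  (Algebra.TensorProduct.lift φ.toIntAlgHom (AlgHom.id ℤ W) fun _ _ => Commute.all _ _).toRingHom

theorem augE_tmul (a : Λ) (w : W) : augE φ (a ⊗ₜ w) = φ a * w :=
  Algebra.TensorProduct.lift_tmul _ _ _ _ _

variable (Y : Type u) [AddCommGroup Y] [Module W Y]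

/-- `Λ ⊗ W` acts on `Y` through `W`. -/
noncomputable instance LM.moduleE : Module (Λ ⊗[ℤ] W) (LM φ Y) := Module.compHom (LM φ Y) (augE φ)

theorem LM.smulE_def (z : Λ ⊗[ℤ] W) (y : LM φ Y) : z • y = augE φ z • y := rfl

instance LM.towerE : IsScalarTower Λ (Λ ⊗[ℤ] W) (LM φ Y) where
  smul_assoc a z y := by
    rw [LM.smulE_def, LM.smul_def, LM.smulE_def, smul_smul]
    congr 1
    induction z using TensorProduct.induction_on with
    | zero => rw [smul_zero, map_zero, mul_zero]
    | tmul b w =>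
      rw [TensorProduct.smul_tmul', augE_tmul, augE_tmul, smul_eq_mul, map_mul, mul_assoc]
    | add x y hx hy => rw [smul_add, map_add, map_add, hx, hy, mul_add]

variable (Λ R W) in
/-- The ring homomorphism `Λ ⊗ W → R ⊗ W`. -/
noncomputable def mapED : Λ ⊗[ℤ] W →+* R ⊗[ℤ] W :=
  (Algebra.TensorProduct.map (algebraMap Λ R).toIntAlgHom (AlgHom.id ℤ W)).toRingHom

theorem mapED_tmul (a : Λ) (w : W) : mapED Λ R W (a ⊗ₜ w) = algebraMap Λ R a ⊗ₜ w :=
  Algebra.TensorProduct.map_tmul _ _ _ _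

theorem mapED_inW : (mapED Λ R W).comp (inW Λ W) = inW R W := by
  ext w
  change mapED Λ R W ((1 : Λ) ⊗ₜ w) = (1 : R) ⊗ₜ w
  rw [mapED_tmul, map_one]

variable {Y} {P : Type u} [AddCommGroup P] [Module R P] [Module Λ P] [IsScalarTower Λ R P]
  {X : Type u} [AddCommGroup X] [Module (R ⊗[ℤ] W) X]

variable {φ} in
theorem mapED_smul (e : LM φ Y ⊗[Λ] P ≃+ X)
    (hR : ∀ (r : R) (y : LM φ Y) (l : P), e (y ⊗ₜ (r • l)) = inR R W r • e (y ⊗ₜ l))
    (hW : ∀ (w : W) (y : LM φ Y) (l : P), e ((w • y) ⊗ₜ l) = inW R W w • e (y ⊗ₜ l))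
    (a : Λ ⊗[ℤ] W) (y : LM φ Y) (l : P) :
    e ((a • y) ⊗ₜ l) = mapED Λ R W a • e (y ⊗ₜ l) := by
  induction a using TensorProduct.induction_on with
  | zero =>
    have h0 : (0 : Λ ⊗[ℤ] W) • y = 0 := zero_smul _ _
    rw [h0, TensorProduct.zero_tmul, map_zero, map_zero]
    exact (zero_smul (R ⊗[ℤ] W) (e (y ⊗ₜ[Λ] l))).symm
  | tmul a w =>
    have h1 : (a ⊗ₜ[ℤ] w : Λ ⊗[ℤ] W) • y = a • (w • y) := by
      rw [LM.smulE_def, augE_tmul, LM.smul_def, mul_smul]
    have h2 : (mapED Λ R W (a ⊗ₜ w)) = inR R W (algebraMap Λ R a) * inW R W w := by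
      rw [mapED_tmul]
      change _ = (algebraMap Λ R a ⊗ₜ[ℤ] (1 : W)) * ((1 : R) ⊗ₜ[ℤ] w)
      rw [Algebra.TensorProduct.tmul_mul_tmul, one_mul, mul_one]
    rw [h1, TensorProduct.smul_tmul, h2, mul_smul, ← hW, ← hR, algebraMap_smul]
  | add a b ha hb =>
    have h0 : (a + b : Λ ⊗[ℤ] W) • y = a • y + b • y := add_smul _ _ _
    rw [h0, TensorProduct.add_tmul, map_add, ha, hb, map_add, add_smul]

variable {φ} in
/-- **The multiplicativity formula (B8)** for `X = Y ⊗[Λ] P`, `D = R ⊗ W`, `E = Λ ⊗ W`. -/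
theorem b8_equiv [IsLocalRing Λ] [IsLocalRing R] [IsLocalHom (algebraMap Λ R)] [Module.Flat ℤ W]
    [Module.Flat Λ P] (e : LM φ Y ⊗[Λ] P ≃+ X)
    (hR : ∀ (r : R) (y : LM φ Y) (l : P), e (y ⊗ₜ (r • l)) = inR R W r • e (y ⊗ₜ l))
    (hW : ∀ (w : W) (y : LM φ Y) (l : P), e ((w • y) ⊗ₜ l) = inW R W w • e (y ⊗ₜ l))
    (L : AddLen W) (A : Type u) [AddCommGroup A] [Module R A] (b : ℕ) (hb : 1 ≤ b)
    (hfin : ∀ j, tl (pullL (inW Λ W) L) (LM φ Y) j
      ((Λ ⊗[ℤ] W) ⊗[Λ] (Λ ⧸ maximalIdeal Λ)) ≠ ⊤)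
    (hvan : ∀ j, b ≤ j → tl (pullL (inW Λ W) L) (LM φ Y) j
      ((Λ ⊗[ℤ] W) ⊗[Λ] (Λ ⧸ maximalIdeal Λ)) = 0)
    (d : ℕ) (hd : ∀ i, d ≤ i → Subsingleton (TorM R i A P))
    (hfl : ∀ i, Module.length R (TorM R i A P) ≠ ⊤)
    (hρ : Module.length (ResidueField Λ) (ResidueField R) = 1) :
    (∀ i, (pullL (inW R W) L).len (TorM (R ⊗[ℤ] W) i X ((R ⊗[ℤ] W) ⊗[R] A)) ≠ ⊤) ∧
    ∀ n, d + b ≤ n → ∑ i ∈ Finset.range n, (-1 : ℝ) ^ i *
        ((pullL (inW R W) L).len (TorM (R ⊗[ℤ] W) i X ((R ⊗[ℤ] W) ⊗[R] A))).toReal =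
      (eulerTor R n A P : ℝ) * Vale.Agent.P177.B8.chi (pullL (inW Λ W) L) (LM φ Y) (b + 1)
        ((Λ ⊗[ℤ] W) ⊗[Λ] (Λ ⧸ maximalIdeal Λ)) := by
  let _ : Algebra (Λ ⊗[ℤ] W) (R ⊗[ℤ] W) := (mapED Λ R W).toAlgebra
  let _ : Module R X := Module.compHom X (inR R W)
  let _ : Module (Λ ⊗[ℤ] W) X := Module.compHom X (mapED Λ R W)
  have _ : IsScalarTower R (R ⊗[ℤ] W) X := ⟨fun r z x => by
    have h1 : r • z = inR R W r * z := Algebra.smul_def r z
    rw [h1, mul_smul]
    rfl⟩
  have _ : IsScalarTower (Λ ⊗[ℤ] W) (R ⊗[ℤ] W) X := ⟨fun r z x => by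
    have h1 : r • z = mapED Λ R W r * z := Algebra.smul_def r z
    rw [h1, mul_smul]
    rfl⟩
  let T : TData (Λ := Λ) (R := R) (E := Λ ⊗[ℤ] W) P (LM φ Y) X :=
    { e := e
      hE := fun a y l => mapED_smul e hR hW a y l
      hR := hR }
  exact b8 T (pullL (inW Λ W) L) (pullL (inW R W) L)
    (fun M _ _ => by rw [← mapED_inW (Λ := Λ) (R := R)]; exact pullL_comp _ _ L M) A b hb hfin
    hvan d hd hfl hρ

variable (Y P) in
/-- **The multiplicativity formula (B8)** for `TenM φ Y P`. -/
theorem b8_ten [IsLocalRing Λ] [IsLocalRing R] [IsLocalHom (algebraMap Λ R)] [Module.Flat ℤ W]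
    [Module.Flat Λ P] (L : AddLen W) (A : Type u) [AddCommGroup A] [Module R A] (b : ℕ)
    (hb : 1 ≤ b)
    (hfin : ∀ j, tl (pullL (inW Λ W) L) (LM φ Y) j
      ((Λ ⊗[ℤ] W) ⊗[Λ] (Λ ⧸ maximalIdeal Λ)) ≠ ⊤)
    (hvan : ∀ j, b ≤ j → tl (pullL (inW Λ W) L) (LM φ Y) j
      ((Λ ⊗[ℤ] W) ⊗[Λ] (Λ ⧸ maximalIdeal Λ)) = 0)
    (d : ℕ) (hd : ∀ i, d ≤ i → Subsingleton (TorM R i A P))
    (hfl : ∀ i, Module.length R (TorM R i A P) ≠ ⊤)
    (hρ : Module.length (ResidueField Λ) (ResidueField R) = 1) :
    (∀ i, (pullL (inW R W) L).len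
      (TorM (R ⊗[ℤ] W) i (TenM φ Y P) ((R ⊗[ℤ] W) ⊗[R] A)) ≠ ⊤) ∧
    ∀ n, d + b ≤ n → ∑ i ∈ Finset.range n, (-1 : ℝ) ^ i *
        ((pullL (inW R W) L).len
          (TorM (R ⊗[ℤ] W) i (TenM φ Y P) ((R ⊗[ℤ] W) ⊗[R] A))).toReal =
      (eulerTor R n A P : ℝ) * Vale.Agent.P177.B8.chi (pullL (inW Λ W) L) (LM φ Y) (b + 1)
        ((Λ ⊗[ℤ] W) ⊗[Λ] (Λ ⧸ maximalIdeal Λ)) :=
  b8_equiv (AddEquiv.refl (TenM φ Y P))
    (fun r y l => (inR_smul_tmul r y l).symm) (fun w y l => (inW_smul_tmul w y l).symm)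
    L A b hb hfin hvan d hd hfl hρ

end Ten

end Vale.Agent.P177.B8
end

section

/-!
P177: the Witt vectors of a perfect ring are flat over `ℤ`, so `R ⊗ W(C)` is flat over `R`.
-/

namespace Vale.Agent.P177.Full

open TensorProduct WittVector

universe u

variable (p : ℕ) [hp : Fact p.Prime] (C : Type u) [CommRing C] [CharP C p] [PerfectRing C p]

theorem witt_int_smul {n : ℤ} (hn : n ≠ 0) {x : WittVector p C} (h : n • x = 0) : x = 0 := by
  obtain ⟨a, n', hn', rfl⟩ : ∃ (a : ℕ) (n' : ℤ), ¬ (p : ℤ) ∣ n' ∧ n = (p : ℤ) ^ a * n' := by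
    have hfin : FiniteMultiplicity (p : ℤ) n := by
      refine Int.finiteMultiplicity_iff.2 ⟨?_, hn⟩
      simpa using hp.1.ne_one
    obtain ⟨c, hc, hc'⟩ := hfin.exists_eq_pow_mul_and_not_dvd
    exact ⟨_, c, hc', hc⟩
  have h1 : ∀ (a : ℕ) (y : WittVector p C), ((p : ℤ) ^ a) • y = 0 → y = 0 := by
    intro a
    induction a with
    | zero => intro y hy; simpa using hy
    | succ a ih =>
      intro y hy
      refine WittVector.eq_zero_of_p_mul_eq_zero y ?_
      apply ih
      rw [pow_succ, mul_smul] at hy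
      rw [← hy]
      congr 1
      rw [zsmul_eq_mul, mul_comm]
      simp
  rw [mul_smul] at h
  have h2 := h1 a _ h
  -- Bezout
  have hcop : ∀ m : ℕ, IsCoprime n' ((p : ℤ) ^ m) := fun m =>
    IsCoprime.pow_right ((Prime.coprime_iff_not_dvd (Nat.prime_iff_prime_int.1 hp.1)).2 hn').symm
  have h3 : ∀ m : ℕ, x ∈ Ideal.span {(p : WittVector p C) ^ m} := by
    intro m
    obtain ⟨u, v, huv⟩ := hcop m
    rw [Ideal.mem_span_singleton']
    refine ⟨v • x, ?_⟩
    have h4 : (u * n' + v * (p : ℤ) ^ m) • x = x := by rw [huv, one_smul]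
    rw [add_smul, mul_smul, h2, smul_zero, zero_add] at h4
    conv_rhs => rw [← h4]
    rw [mul_smul, zsmul_eq_mul, zsmul_eq_mul, zsmul_eq_mul]
    push_cast
    ring
  ext m
  have h4 := (WittVector.mem_span_p_pow_iff_le_coeff_eq_zero x (m + 1)).1 (h3 (m + 1)) m
    (Nat.lt_succ_self m)
  rw [h4, WittVector.zero_coeff]

instance flat_int_witt : Module.Flat ℤ (WittVector p C) := by
  have : Module.IsTorsionFree ℤ (WittVector p C) := by
    refine ⟨fun n hn x y hxy => ?_⟩
    have hn0 : n ≠ 0 := by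
      rintro rfl
      exact not_isRegular_zero hn
    have h1 : n • (x - y) = 0 := by
      rw [smul_sub]
      exact sub_eq_zero.2 hxy
    exact sub_eq_zero.1 (witt_int_smul p C hn0 h1)
  infer_instance

instance flat_tensor_witt (R : Type u) [CommRing R] : Module.Flat R (R ⊗[ℤ] WittVector p C) :=
  inferInstance

end Vale.Agent.P177.Full
end

section

/-!
P177, block XMOD: the `R ⊗[ℤ] W`-modules `(WI J / ξ) ⊗ L` and `(M s / N s) ⊗ L`; their truncated
Euler characteristic.
-/

namespace Vale.Agent.P177.Ap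

open Vale.Agent.P177.Flag Vale.Agent.P177.PI Vale.Agent.P177.TH Vale.Agent.P202.Mix TensorProduct
  WittVector

universe u v

section Quot

variable {W : Type u} [CommRing W]

/-- `M / ξ M`. -/
abbrev JSh (ξ : W) (M : Ideal W) : Type u :=
  M ⧸ (Submodule.comap M.subtype (Ideal.span {ξ} * M))

theorem JSh.mk_eq_zero_iff {ξ : W} {M : Ideal W} (x : M) :
    (Submodule.Quotient.mk x : JSh ξ M) = 0 ↔ ∃ z ∈ M, (x : W) = ξ * z := by
  rw [Submodule.Quotient.mk_eq_zero, Submodule.mem_comap]
  change (x : W) ∈ Ideal.span {ξ} * M ↔ _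
  rw [Ideal.mem_span_singleton_mul]
  exact ⟨fun ⟨z, hz, h⟩ => ⟨z, hz, h.symm⟩, fun ⟨z, hz, h⟩ => ⟨z, hz, h.symm⟩⟩

variable {G : Type v} [AddCommGroup G] (F : RFam W G) (ξ : W) (s : G)

/-- `M s / ξ → M s / N s`. -/
noncomputable def jshGr (h : Ideal.span {ξ} * F.M s ≤ F.N s) : JSh ξ (F.M s) →ₗ[W] Gr F s :=
  Submodule.mapQ _ _ LinearMap.id (by
    intro x hx
    exact h hx)

theorem jshGr_mk (h : Ideal.span {ξ} * F.M s ≤ F.N s) (x : F.M s) :
    jshGr F ξ s h (Submodule.Quotient.mk x) = Submodule.Quotient.mk x := rfl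

theorem jshGr_surjective (h : Ideal.span {ξ} * F.M s ≤ F.N s) :
    Function.Surjective (jshGr F ξ s h) := by
  intro y
  obtain ⟨x, rfl⟩ := Submodule.Quotient.mk_surjective _ y
  exact ⟨Submodule.Quotient.mk x, rfl⟩

theorem jshGr_eq_zero_iff (h : Ideal.span {ξ} * F.M s ≤ F.N s) {a : W}
    (hN : F.N s = (Ideal.span {ξ} ⊔ Ideal.span {a}) * F.M s) (y : JSh ξ (F.M s)) :
    jshGr F ξ s h y = 0 ↔ ∃ z, y = a • z := by
  obtain ⟨x, rfl⟩ := Submodule.Quotient.mk_surjective _ y
  rw [jshGr_mk, Submodule.Quotient.mk_eq_zero, Submodule.mem_comap]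
  change (x : W) ∈ F.N s ↔ _
  rw [hN, Ideal.sup_mul, Submodule.mem_sup]
  constructor
  · rintro ⟨u, hu, v, hv, huv⟩
    obtain ⟨m, hm, rfl⟩ := Ideal.mem_span_singleton_mul.1 hv
    refine ⟨Submodule.Quotient.mk ⟨m, hm⟩, ?_⟩
    rw [← Submodule.Quotient.mk_smul, Submodule.Quotient.eq, Submodule.mem_comap]
    change (x : W) - a * m ∈ _
    rw [← huv, add_sub_cancel_right]
    exact hu
  · rintro ⟨z, hz⟩
    obtain ⟨m, rfl⟩ := Submodule.Quotient.mk_surjective _ z
    rw [← Submodule.Quotient.mk_smul, Submodule.Quotient.eq, Submodule.mem_comap] at hz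
    refine ⟨_, hz, a * m, Ideal.mem_span_singleton_mul.2 ⟨m, m.2, rfl⟩, ?_⟩
    change (x : W) - a * m + a * m = x
    ring

end Quot

section Witt

variable (p : ℕ) [hp : Fact p.Prime] {C : Type u} [CommRing C] [CharP C p] [PerfectRing C p]

/-- `WI J / (p - [t])` is `p`-torsion free. -/
theorem jsh_regular {J : Ideal C} (hJ : IsPerf p J) {t : C} (ht : t ∈ nonZeroDivisors C)
    (y : JSh ((p : WittVector p C) - teichmuller p t) (WI p J))
    (hy : (p : WittVector p C) • y = 0) : y = 0 := by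
  obtain ⟨x, rfl⟩ := Submodule.Quotient.mk_surjective _ y
  rw [← Submodule.Quotient.mk_smul, JSh.mk_eq_zero_iff] at hy
  rw [JSh.mk_eq_zero_iff]
  obtain ⟨m, hm, he⟩ := hy
  change (p : WittVector p C) * (x : WittVector p C) = _ at he
  have h0 : m.coeff 0 = 0 := by
    have h1 := congrArg WittVector.constantCoeff he
    rw [map_mul, map_mul, map_sub, map_natCast, CharP.cast_eq_zero, zero_mul, zero_sub] at h1
    have h2 : 0 = -(teichmuller p t).coeff 0 * m.coeff 0 := h1
    rw [teichmuller_coeff_zero, neg_mul, zero_eq_neg] at h2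
    exact (mul_left_mem_nonZeroDivisors_eq_zero_iff ht).1 h2
  obtain ⟨m', hm', rfl⟩ := exists_p_mul_of_coeff_zero p hJ hm h0
  refine ⟨m', hm', ?_⟩
  have h3 : ((x : WittVector p C) - ((p : WittVector p C) - teichmuller p t) * m') *
      (p : WittVector p C) = 0 := by
    linear_combination he
  exact sub_eq_zero.1 (WittVector.eq_zero_of_p_mul_eq_zero _ h3)

end Witt

section Flag

variable {Λ R W : Type u} [CommRing Λ] [CommRing R] [Algebra Λ R] [CommRing W] (φ : Λ →+* W)
  {L : Type u} [AddCommGroup L] [Module R L] [Module Λ L] [IsScalarTower Λ R L]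
  {G : Type v} [AddCommGroup G] {n : ℕ} (b : Module.Basis (Fin n) Λ L)
  {F : RFam W G} {τ : ∀ j : ℕ, (Fin j → Fin n) → W} {d : ℕ → G} {good : G → Prop} {η : W}
  {q : R ⊗[ℤ] W}
  {θ : ∀ (X : Type u) [AddCommGroup X] [Module (R ⊗[ℤ] W) X], ℝ}
  {Adm : ∀ (X : Type u) [AddCommGroup X] [Module (R ⊗[ℤ] W) X], Prop}

end Flag

section Trunc

variable {Λ R W : Type u} [CommRing Λ] [CommRing R] [Algebra Λ R] [CommRing W] (φ : Λ →+* W)
  (L : Type u) [AddCommGroup L] [Module R L] [Module Λ L] [IsScalarTower Λ R L] [Module.Flat Λ L]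
  {G : Type v} [AddCommGroup G] {F : RFam W G} {s : G} {p c m : ℕ} {α β : R} {ξ : W}
  (B : Type u) [CommRing B] [Algebra (R ⊗[ℤ] W) B] {ℓ : AddLen (R ⊗[ℤ] W)} {η : R ⊗[ℤ] W}

end Trunc

section FamP

variable (p : ℕ) [hp : Fact p.Prime] {ι : Type u} [Nonempty ι] {C : ι → Type u}
  [∀ e, CommRing (C e)] [∀ e, CharP (C e) p] [∀ e, PerfectRing (C e) p] {r : ℕ}

attribute [local instance] charP_pi perfectRing_pi

/-- `ξ = p - [t]`. -/
noncomputable abbrev xiW {C : Type u} [CommRing C] (t : C) : WittVector p C :=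
  (p : WittVector p C) - teichmuller p t

theorem famP_N_eq (I : ∀ e, Fin r → Ideal (C e)) (t : ∀ e, C e) (N : ℕ) (s : Fin r → ℤ) :
    (famP p I t N).N s = (Ideal.span {xiW p t} ⊔
      Ideal.span {(p : WittVector p (∀ e, C e)) ^ N}) * (famP p I t N).M s := by
  rw [famP_N, famP_M]
  rfl

end FamP

end Vale.Agent.P177.Ap
end

section

/-!
P177, block B8, part 7: the lengths of `Tor (E ⊗ Λ/m, Y)` are the lengths of the Koszul homology
of `Y`.
-/

namespace Vale.Agent.P177.B8

open Vale.Agent.P202.Mix Vale.Agent.P177.Mass Vale.Agent.P177.Ap TensorProduct IsLocalRing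
open Vale.Agent.P177.KG RingTheory.Sequence
open scoped ENNReal

universe u

variable {Λ W : Type u} [CommRing Λ] [CommRing W] (φ : Λ →+* W) (Y : Type u) [AddCommGroup Y]
  [Module W Y]

theorem augE_inW (w : W) : augE φ (inW Λ W w) = w := by
  change augE φ ((1 : Λ) ⊗ₜ w) = w
  rw [augE_tmul, map_one, one_mul]

theorem augE_algebraMap (a : Λ) : augE φ (algebraMap Λ (Λ ⊗[ℤ] W) a) = φ a := by
  change augE φ (a ⊗ₜ[ℤ] (1 : W)) = φ a
  rw [augE_tmul, mul_one]

/-- `Tor_j (E ⊗ Λ/(ys), Y)` and the Koszul homology of `Y`, lengths. -/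
theorem tl_koszul (L : AddLen W) [Module.Flat ℤ W] {ys : List Λ} (hreg : IsWeaklyRegular Λ ys)
    (j : ℕ) : tl (pullL (inW Λ W) L) (LM φ Y) j ((Λ ⊗[ℤ] W) ⊗[Λ] (Λ ⧸ Ideal.ofList ys)) =
      L.len ((KC (R := W) Y (ys.map φ)).H j) := by
  obtain ⟨e1⟩ := tor_symm (R := Λ ⊗[ℤ] W) j ((Λ ⊗[ℤ] W) ⊗[Λ] (Λ ⧸ Ideal.ofList ys)) (LM φ Y)
  obtain ⟨e2⟩ := tor_equiv_flat (A := Λ) (D := Λ ⊗[ℤ] W) hreg j (LM φ Y)
  let _ : Algebra (Λ ⊗[ℤ] W) W := (augE φ).toAlgebra
  have _ : IsScalarTower (Λ ⊗[ℤ] W) W (LM φ Y) := ⟨fun a w y => by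
    have h1 : a • w = augE φ a * w := Algebra.smul_def a w
    rw [h1, mul_smul]
    rfl⟩
  have e3 := cH (C := Λ ⊗[ℤ] W) (D := W) (M := LM φ Y) (ys.map (algebraMap Λ (Λ ⊗[ℤ] W))) j
  have h4 : (ys.map (algebraMap Λ (Λ ⊗[ℤ] W))).map (algebraMap (Λ ⊗[ℤ] W) W) = ys.map φ := by
    rw [List.map_map]
    exact List.map_congr_left fun a _ => augE_algebraMap φ a
  rw [h4] at e3
  unfold tl
  rw [Mass.len_congr _ e1, Mass.len_congr _ e2, Mass.len_congr _ e3]
  let _ : Module W (Rs (Λ ⊗[ℤ] W) W ((KC (R := W) (LM φ Y) (ys.map φ)).H j)) :=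
    inferInstanceAs (Module W ((KC (R := W) (LM φ Y) (ys.map φ)).H j))
  rw [pullL_len (inW Λ W) L (Rs (Λ ⊗[ℤ] W) W ((KC (R := W) (LM φ Y) (ys.map φ)).H j))
    (fun w x => by
      change w • (show (KC (R := W) (LM φ Y) (ys.map φ)).H j from x) =
        augE φ (inW Λ W w) • (show (KC (R := W) (LM φ Y) (ys.map φ)).H j from x)
      rw [augE_inW])]
  rfl

section Max

variable [IsLocalRing Λ]

theorem tl_koszul_max (L : AddLen W) [Module.Flat ℤ W] {ys : List Λ}
    (hreg : IsWeaklyRegular Λ ys) (hm : Ideal.ofList ys = maximalIdeal Λ) (j : ℕ) :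
    tl (pullL (inW Λ W) L) (LM φ Y) j ((Λ ⊗[ℤ] W) ⊗[Λ] (Λ ⧸ maximalIdeal Λ)) =
      L.len ((KC (R := W) Y (ys.map φ)).H j) := by
  rw [← hm]
  exact tl_koszul φ Y L hreg j

/-- vanishing in degrees larger than the length of the sequence. -/
theorem tl_max_eq_zero (L : AddLen W) [Module.Flat ℤ W] {ys : List Λ}
    (hreg : IsWeaklyRegular Λ ys) (hm : Ideal.ofList ys = maximalIdeal Λ) (j : ℕ)
    (hj : ys.length + 1 ≤ j) :
    tl (pullL (inW Λ W) L) (LM φ Y) j ((Λ ⊗[ℤ] W) ⊗[Λ] (Λ ⧸ maximalIdeal Λ)) = 0 := by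
  rw [tl_koszul_max φ Y L hreg hm]
  have : Subsingleton ((KC (R := W) Y (ys.map φ)).H j) :=
    KC_H_subsingleton Y (ys.map φ) (by rw [List.length_map]; omega)
  exact len_sub0 L _

theorem chi_koszul (L : AddLen W) [Module.Flat ℤ W] {ys : List Λ}
    (hreg : IsWeaklyRegular Λ ys) (hm : Ideal.ofList ys = maximalIdeal Λ) (n : ℕ) :
    Vale.Agent.P177.B8.chi (pullL (inW Λ W) L) (LM φ Y) n ((Λ ⊗[ℤ] W) ⊗[Λ] (Λ ⧸ maximalIdeal Λ)) =
      ∑ j ∈ Finset.range n, (-1 : ℝ) ^ j *
        (L.len ((KC (R := W) Y (ys.map φ)).H j)).toReal := by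
  unfold Vale.Agent.P177.B8.chi
  exact Finset.sum_congr rfl fun j _ => by rw [tl_koszul_max φ Y L hreg hm]

theorem chi_koszul_max (L : AddLen W) [Module.Flat ℤ W] {ys : List Λ}
    (hreg : IsWeaklyRegular Λ ys) (hm : Ideal.ofList ys = maximalIdeal Λ) (m : ℕ) :
    Vale.Agent.P177.B8.chi (pullL (inW Λ W) L) (LM φ Y) (ys.length + 1 + m)
      ((Λ ⊗[ℤ] W) ⊗[Λ] (Λ ⧸ maximalIdeal Λ)) =
      ∑ j ∈ Finset.range (ys.length + 1), (-1 : ℝ) ^ j *
        (L.len ((KC (R := W) Y (ys.map φ)).H j)).toReal := by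
  rw [chi_koszul φ Y L hreg hm, Finset.sum_range_add, add_eq_left]
  refine Finset.sum_eq_zero fun j _ => ?_
  rw [← tl_koszul_max φ Y L hreg hm, tl_max_eq_zero φ Y L hreg hm _ (by omega)]
  simp

/-- the residue field condition. -/
theorem length_residue_eq_one {R : Type u} [CommRing R] [Algebra Λ R] [IsLocalRing R]
    [IsLocalHom (algebraMap Λ R)]
    (h : ∀ r : R, ∃ a : Λ, r - algebraMap Λ R a ∈ maximalIdeal R) :
    Module.length (ResidueField Λ) (ResidueField R) = 1 := by
  have hb : Function.Bijective (Algebra.linearMap (ResidueField Λ) (ResidueField R)) := by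
    refine ⟨(algebraMap (ResidueField Λ) (ResidueField R)).injective, fun z => ?_⟩
    obtain ⟨r, rfl⟩ := IsLocalRing.residue_surjective z
    obtain ⟨a, ha⟩ := h r
    refine ⟨IsLocalRing.residue Λ a, ?_⟩
    change algebraMap (ResidueField Λ) (ResidueField R) (IsLocalRing.residue Λ a) = _
    have h1 : IsLocalRing.residue R (r - algebraMap Λ R a) = 0 :=
      Ideal.Quotient.eq_zero_iff_mem.2 ha
    rw [map_sub, sub_eq_zero] at h1
    exact h1.symm
  rw [← (LinearEquiv.ofBijective _ hb).length_eq]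
  exact Module.length_eq_one _ _

end Max

section Final

variable {φ} {R : Type u} [CommRing R] [Algebra Λ R] {P : Type u} [AddCommGroup P] [Module R P]
  [Module Λ P] [IsScalarTower Λ R P]

/-- **The multiplicativity formula (B8)**, with Koszul homology: `ys` a regular sequence
generating the maximal ideal of `Λ`, `W` flat over the integers, `P` flat over `Λ`. -/
theorem b8_koszul [IsLocalRing Λ] [IsLocalRing R] [IsLocalHom (algebraMap Λ R)] [Module.Flat ℤ W]
    [Module.Flat Λ P] (L : AddLen W) (A : Type u) [AddCommGroup A] [Module R A]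
    {ys : List Λ} (hreg : IsWeaklyRegular Λ ys) (hm : Ideal.ofList ys = maximalIdeal Λ)
    (hfin : ∀ j, L.len ((KC (R := W) Y (ys.map φ)).H j) ≠ ⊤)
    (d : ℕ) (hd : ∀ i, d ≤ i → Subsingleton (TorM R i A P))
    (hfl : ∀ i, Module.length R (TorM R i A P) ≠ ⊤)
    (h : ∀ r : R, ∃ a : Λ, r - algebraMap Λ R a ∈ maximalIdeal R) :
    (∀ i, (pullL (inW R W) L).len
      (TorM (R ⊗[ℤ] W) i (TenM φ Y P) ((R ⊗[ℤ] W) ⊗[R] A)) ≠ ⊤) ∧
    ∀ n, d + (ys.length + 1) ≤ n → ∑ i ∈ Finset.range n, (-1 : ℝ) ^ i *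
        ((pullL (inW R W) L).len
          (TorM (R ⊗[ℤ] W) i (TenM φ Y P) ((R ⊗[ℤ] W) ⊗[R] A))).toReal =
      (eulerTor R n A P : ℝ) * ∑ j ∈ Finset.range (ys.length + 1), (-1 : ℝ) ^ j *
        (L.len ((KC (R := W) Y (ys.map φ)).H j)).toReal := by
  obtain ⟨h1, h2⟩ := b8_ten (φ := φ) Y P L A (ys.length + 1) (Nat.le_add_left _ _)
    (fun j => by rw [tl_koszul_max φ Y L hreg hm]; exact hfin j)
    (fun j hj => tl_max_eq_zero φ Y L hreg hm j hj) d hd hfl (length_residue_eq_one h)
  refine ⟨h1, fun n hn => ?_⟩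
  rw [h2 n hn, chi_koszul_max φ Y L hreg hm 1]

end Final

end Vale.Agent.P177.B8
end

section

/-!
P177, inner assembly: the multiplicativity formula for the modules `(WI J / ξ) ⊗ L`.
-/

namespace Vale.Agent.P177.Full

open TensorProduct IsLocalRing RingTheory.Sequence Function Module Vale.Agent.P177.Flag
  Vale.Agent.P202.Mix Vale.Agent.P177.Lev WittVector Vale.Agent.P177.KG
open scoped ENNReal

universe u

section Lam

variable {p : ℕ} [Fact p.Prime] {R : Type u} [CommRing R] [IsRegularLocalRing R]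
    {hs : List R} {r : ℕ} [IsRegularLocalRing (Lam p (ResidueField R) r)]
    [Algebra (Lam p (ResidueField R) r) R]

/-- the parameters `p, u_1, .., u_r` of `Λ`. -/
noncomputable def parL (p : ℕ) [Fact p.Prime] (k : Type u) [CommRing k] (r : ℕ) :
    List (Lam p k r) :=
  (p : Lam p k r) :: List.ofFn fun l : Fin r => MvPowerSeries.X l

theorem parL_length (p : ℕ) [Fact p.Prime] (k : Type u) [CommRing k] (r : ℕ) :
    (parL p k r).length = r + 1 := by
  rw [parL, List.length_cons, List.length_ofFn]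

theorem Norm.ofList_parL (h : Norm p R r hs) :
    Ideal.ofList (parL p (ResidueField R) r) = maximalIdeal (Lam p (ResidueField R) r) := by
  rw [h.max, parL, Ideal.ofList_cons, Ideal.span_union, Ideal.ofList]
  congr 2
  ext x
  simp only [List.mem_ofFn, Set.mem_ofPred_eq, Set.mem_range]

theorem Norm.isWeaklyRegular_parL (h : Norm p R r hs)
    (hdim : ringKrullDim (R ⧸ Ideal.ofList hs) = ((r + 1 : ℕ) : WithBot ℕ∞)) :
    IsWeaklyRegular (Lam p (ResidueField R) r) (parL p (ResidueField R) r) := by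
  refine SR.isWeaklyRegular_of_sop (t := r + 1) (h.dim.trans hdim) _ (parL_length _ _ _)
    (fun z hz => ?_) ?_
  · rw [← h.ofList_parL]
    exact Ideal.subset_span hz
  · rw [h.ofList_parL]
    exact Ideal.le_radical

theorem Norm.exists_sub_mem (h : Norm p R r hs) (x : R) :
    ∃ a : Lam p (ResidueField R) r, x - algebraMap _ R a ∈ maximalIdeal R := by
  refine ⟨MvPowerSeries.C (WittVector.teichmuller p (IsLocalRing.residue R x)), ?_⟩
  rw [← residue_eq_zero_iff, map_sub, h.residue, WittVector.teichmuller_coeff_zero, sub_self]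

end Lam

namespace Core

variable {p : ℕ} [Fact p.Prime] {R : Type u} [CommRing R] [IsRegularLocalRing R]
    [CharP (ResidueField R) p] [PerfectRing (ResidueField R) p] {d : ℕ} {P : Ideal R}
    {hs : List R} {r : ℕ} [IsRegularLocalRing (Lam p (ResidueField R) r)]
    [Algebra (Lam p (ResidueField R) r) R] {Ω : Type u} [Field Ω]
    [Algebra (Lam p (ResidueField R) r) Ω] {F : Fin 2 → FlagMod (Lam p (ResidueField R) r) Ω hs}
    (X : Core p d P hs r Ω F)

/-- `Λ → W(C)` -/
noncomputable abbrev la : Lam p (ResidueField R) r →+* WittVector p X.K.C := laW X.ψ X.K.C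

/-- the mass over `R ⊗ W(C)`. -/
noncomputable def LD : AddLen (R ⊗[ℤ] WittVector p X.K.C) :=
  B8.pullL (Ap.inW R (WittVector p X.K.C)) X.K.mass

/-- the mass of the residue field. -/
noncomputable def rho : ℝ :=
  (X.K.mass.len (WittVector p X.K.C ⧸ vW p (ResidueField R) r X.K.C)).toReal

theorem rho_pos : 0 < X.rho := by
  refine ENNReal.toReal_pos ?_ X.K.mass_ne_top
  intro h0
  exact X.ε_ne (le_antisymm (h0 ▸ X.K.le_mass_vW) bot_le)

/-- the `W(C)`-module `WI J / (p - [t])`. -/
abbrev YJ (J : Ideal X.K.C) : Type u :=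
  Ap.JSh (Ap.xiW p (tC p (ResidueField R) r X.K.C)) (PI.WI p J)

/-- **The multiplicativity formula** for `(WI J / ξ) ⊗ L`. -/
theorem euler_mul (hN : Norm p R r hs) (hd : ringKrullDim R = d)
    (hdim : ringKrullDim (R ⧸ Ideal.ofList hs) = ((r + 1 : ℕ) : WithBot ℕ∞))
    (hrad : maximalIdeal R ≤ (P ⊔ Ideal.ofList hs).radical) (i : Fin 2) (J : Ideal X.K.C)
    (hfin : ∀ j, X.K.mass.len ((KC (R := WittVector p X.K.C) (X.YJ J)
      ((parL p (ResidueField R) r).map X.la)).H j) ≠ ⊤)
    (hchi : ∑ j ∈ Finset.range (r + 2), (-1 : ℝ) ^ j * (X.K.mass.len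
      ((KC (R := WittVector p X.K.C) (X.YJ J)
        ((parL p (ResidueField R) r).map X.la)).H j)).toReal = X.rho) :
    (∀ j, X.LD.len (TorM (R ⊗[ℤ] WittVector p X.K.C) j (Ap.TenM X.la (X.YJ J) (F i).L)
      ((R ⊗[ℤ] WittVector p X.K.C) ⊗[R] (R ⧸ P))) < ⊤) ∧
    ∀ nn, d + r + 3 ≤ nn → TH.chi X.LD nn (Ap.TenM X.la (X.YJ J) (F i).L)
      ((R ⊗[ℤ] WittVector p X.K.C) ⊗[R] (R ⧸ P)) =
        (eulerTor R (d + 1) (R ⧸ P) (F i).L : ℝ) * X.rho := by
  have h1 : IsLocalHom (algebraMap (Lam p (ResidueField R) r) R) := hN.isLocalHom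
  have h2 : Module.Flat ℤ (WittVector p X.K.C) := flat_int_witt p X.K.C
  have h3 : Module.Free (Lam p (ResidueField R) r) (F i).L := Module.Free.of_basis (F i).b
  obtain ⟨h4, h5⟩ := B8.b8_koszul (φ := X.la) (Y := X.YJ J) (P := (F i).L) X.K.mass (R ⧸ P)
    (hN.isWeaklyRegular_parL hdim) hN.ofList_parL hfin (d + 1)
    (fun j hj => regular_tor_vanish R d hd (R ⧸ P) (F i).L j hj)
    (fun j => length_tor_ne_top hrad (F i).L (F i).kill j) hN.exists_sub_mem
  refine ⟨fun j => lt_top_iff_ne_top.2 (h4 j), fun nn hnn => ?_⟩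
  rw [parL_length] at h5
  have h6 := h5 nn (by omega)
  rw [eulerTor_eq_of_le hd P (F i).L (by omega), hchi] at h6
  exact h6

end Core

end Vale.Agent.P177.Full
end

section

/-!
P177, inner assembly: `InnerStmt` from the flag formula, the masses and the signs.
-/

namespace Vale.Agent.P177.Full

open TensorProduct IsLocalRing RingTheory.Sequence Function Module Vale.Agent.P177.Flag
  Vale.Agent.P202.Mix Vale.Agent.P177.Lev WittVector Vale.Agent.P177.KG
open scoped ENNReal

universe u

namespace Core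

variable {p : ℕ} [Fact p.Prime] {R : Type u} [CommRing R] [IsRegularLocalRing R]
    [CharP (ResidueField R) p] [PerfectRing (ResidueField R) p] {d : ℕ} {P : Ideal R}
    {hs : List R} {r : ℕ} [IsRegularLocalRing (Lam p (ResidueField R) r)]
    [Algebra (Lam p (ResidueField R) r) R] {Ω : Type u} [Field Ω]
    [Algebra (Lam p (ResidueField R) r) Ω] {F : Fin 2 → FlagMod (Lam p (ResidueField R) r) Ω hs}
    (X : Core p d P hs r Ω F)

/-- the ideal of the flag in the base degree. -/
noncomputable abbrev Jb (i : Fin 2) : Ideal X.K.C := X.K.J (F i).n (X.pl i) (PI.sb (F i).n)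

/-- the masses of the Koszul homology of `WI J / ξ`. -/
def RhoStmt (J : Ideal X.K.C) : Prop :=
  (∀ j, X.K.mass.len ((KC (R := WittVector p X.K.C) (X.YJ J)
      ((parL p (ResidueField R) r).map X.la)).H j) ≠ ⊤) ∧
  ∑ j ∈ Finset.range (r + 2), (-1 : ℝ) ^ j * (X.K.mass.len
      ((KC (R := WittVector p X.K.C) (X.YJ J)
        ((parL p (ResidueField R) r).map X.la)).H j)).toReal = X.rho

/-- **The conclusion of `InnerStmt`** from the flag formula. -/
theorem conclude (hN : Norm p R r hs) (hd : ringKrullDim R = d)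
    (hdim : ringKrullDim (R ⧸ Ideal.ofList hs) = ((r + 1 : ℕ) : WithBot ℕ∞))
    (hrad : maximalIdeal R ≤ (P ⊔ Ideal.ofList hs).radical) {strict : Prop} {nn : ℕ}
    (hnn : d + r + 3 ≤ nn) (hrho : ∀ i, 0 < (F i).n → X.RhoStmt (X.Jb i))
    (Hσ : (R →ₐ[Lam p (ResidueField R) r] Ω) → ℝ)
    (hpos : ∀ i j, 0 ≤ Hσ ((F i).σ j) ∧ (strict → 0 < Hσ ((F i).σ j)))
    (hflag : ∀ i, 0 < (F i).n →
      TH.chi X.LD nn (Ap.TenM X.la (X.YJ (X.Jb i)) (F i).L)
        ((R ⊗[ℤ] WittVector p X.K.C) ⊗[R] (R ⧸ P)) = ∑ j, Hσ ((F i).σ j)) :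
    ∃ w : (R →ₐ[Lam p (ResidueField R) r] Ω) → ℝ,
      (∀ i j, 0 ≤ w ((F i).σ j) ∧ (strict → 0 < w ((F i).σ j))) ∧
      ∀ i, (eulerTor R (d + 1) (R ⧸ P) (F i).L : ℝ) = ∑ j, w ((F i).σ j) := by
  have hρ := X.rho_pos
  refine ⟨fun σ => Hσ σ / X.rho, fun i j => ⟨div_nonneg (hpos i j).1 hρ.le,
    fun h => div_pos ((hpos i j).2 h) hρ⟩, fun i => ?_⟩
  rcases Nat.eq_zero_or_pos (F i).n with h0 | h0
  · have h1 : IsEmpty (Fin (F i).n) := by
      rw [h0]
      infer_instance
    have h2 : Subsingleton (F i).L := by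
      have := (F i).b.repr.toEquiv.subsingleton
      exact this
    rw [eulerTor_subsingleton, Finset.univ_eq_empty, Finset.sum_empty, Int.cast_zero]
  · obtain ⟨h1, h2⟩ := hrho i h0
    have h3 := (X.euler_mul hN hd hdim hrad i (X.Jb i) h1 h2).2 nn hnn
    rw [hflag i h0] at h3
    rw [← Finset.sum_div, h3, mul_div_assoc, div_self hρ.ne', mul_one]

end Core

end Vale.Agent.P177.Full
end

section

/-!
# The pieces of the flag as honest modules (P177, final form of NAT-G)
-/

namespace Vale.Agent.P177.NatG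

open Vale.Agent.P177.PI Vale.Agent.P177.NatC WittVector TensorProduct Function
  Vale.Agent.P202.Mix

set_option linter.all false

universe u

section flat

variable (p : ℕ) [hp : Fact p.Prime] (C : Type u) [CommRing C] [CharP C p] [PerfectRing C p]

theorem eq_zero_of_int_smul {n : ℤ} (hn : n ≠ 0) {x : WittVector p C} (h : n • x = 0) : x = 0 := by
  have hpow : ∀ (k : ℕ) (y : WittVector p C), (p : WittVector p C) ^ k * y = 0 → y = 0 := by
    intro k
    induction k with
    | zero => intro y hy; simpa using hy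
    | succ k ih =>
      intro y hy
      apply ih
      apply WittVector.eq_zero_of_p_mul_eq_zero
      rw [← hy]; ring
  obtain ⟨k, m, hm, hnm⟩ : ∃ (k : ℕ) (m : ℤ), ¬ (p : ℤ) ∣ m ∧ n = (p : ℤ) ^ k * m := by
    have hfin : FiniteMultiplicity (p : ℤ) n := by
      apply Int.finiteMultiplicity_iff.2
      exact ⟨by rw [Int.natAbs_natCast]; exact hp.out.ne_one, hn⟩
    obtain ⟨m, h1, h2⟩ := hfin.exists_eq_pow_mul_and_not_dvd
    exact ⟨_, m, h2, h1⟩
  have hcop : IsCoprime (p : ℤ) m := by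
    rw [Int.isCoprime_iff_gcd_eq_one, Int.gcd_comm]
    by_contra hg
    apply hm
    have h1 : Int.gcd m p ∣ p := by
      have := Int.gcd_dvd_right m (p : ℤ)
      exact_mod_cast this
    rcases (Nat.dvd_prime hp.out).1 h1 with h2 | h2
    · exact absurd h2 hg
    · have h3 := Int.gcd_dvd_left m (p : ℤ)
      rwa [h2] at h3
  obtain ⟨a, b, hab⟩ := hcop
  have h1 : (m : WittVector p C) * x = 0 := by
    apply hpow k
    rw [← h, hnm, zsmul_eq_mul]
    push_cast
    ring
  have h2 : x = (p : WittVector p C) * ((a : WittVector p C) * x) := by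
    have h3 : ((a * p + b * m : ℤ) : WittVector p C) = 1 := by rw [hab, Int.cast_one]
    push_cast at h3
    linear_combination (-x) * h3 + (b : WittVector p C) * h1
  have key : ∀ j : ℕ, (p : WittVector p C) ^ j ∣ x := by
    intro j
    induction j with
    | zero => simp
    | succ j ih =>
      obtain ⟨y, hy⟩ := ih
      refine ⟨(a : WittVector p C) * y, ?_⟩
      rw [h2]
      nth_rewrite 1 [hy]
      ring
  ext j
  have h4 := key (j + 1)
  rw [← sub_zero x] at h4
  exact P202.Mix.coeff_eq_of_dvd_sub h4 (Nat.lt_succ_self j)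

/-- `W(C)` is flat over `ℤ`. -/
theorem flat_int_witt : Module.Flat ℤ (WittVector p C) := by
  rw [Module.Flat.flat_iff_torsion_eq_bot_of_isBezout, eq_bot_iff]
  intro x hx
  rw [Submodule.mem_torsion_iff] at hx
  obtain ⟨⟨n, hn⟩, h⟩ := hx
  exact eq_zero_of_int_smul p C (nonZeroDivisors.ne_zero hn) h

theorem flat_tensor_witt (R : Type u) [CommRing R] : Module.Flat R (R ⊗[ℤ] WittVector p C) := by
  have := flat_int_witt p C
  infer_instance

end flat

section glueH

variable (p : ℕ) [hp : Fact p.Prime] {C C' D : Type u} [CommRing D]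
  [CommRing C] [CharP C p] [PerfectRing C p] [CommRing C'] [CharP C' p] [PerfectRing C' p]
  (f : C →+* C')

/-- `exists_glue` for `HMod`. -/
theorem exists_glueH {J : Ideal C} {J' : Ideal C'} (hJ : IsPerf p J) (hJ' : IsPerf p J')
    (hf : ∀ x ∈ J, f x ∈ J') (t η : C) (ht : f t ∈ nonZeroDivisors C')
    (hS : ∀ y ∈ J', ∃ x ∈ J, ∃ z ∈ J', f η * y = f x + f t * z)
    (hI : ∀ x ∈ J, (∃ z ∈ J', f x = f t * z) → ∃ y ∈ J, η ^ 3 * x = t * y)
    (M1 N1 : Ideal (WittVector p C)) (N : ℕ) (hM1 : ∀ x, x ∈ M1 ↔ x ∈ WI p J)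
    (hN1 : ∀ x, x ∈ N1 ↔ ∃ u ∈ WI p J, ∃ v ∈ WI p J,
      x = ((p : WittVector p C) - teichmuller p t) * u + (p : WittVector p C) ^ N * v)
    (E' : WittVector p C')
    (hE1 : ∃ a b : WittVector p C', (p : WittVector p C') - teichmuller p (f t) =
      a * E' + b * (p : WittVector p C') ^ N)
    (hE2 : ∃ a b : WittVector p C', E' =
      a * ((p : WittVector p C') - teichmuller p (f t)) + b * (p : WittVector p C') ^ N)
    (ρ : D →+* WittVector p C' ⧸ Ideal.span {E'})
    (α : D) (c m : ℕ) (u : WittVector p C') (hu : IsUnit u)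
    (hα : ρ α = Ideal.Quotient.mk _ ((p : WittVector p C') ^ c * u)) (hN : c * (m + 1) = N)
    (K : Submodule D (HMod p J' E' ρ)) (hK : ∀ h, h ∈ K ↔ ∃ h', h = α ^ (m + 1) • h')
    (η' : D) (hη' : ρ η' = Ideal.Quotient.mk _ (teichmuller p (f η))) :
    ∃ π : (M1 ⧸ (Submodule.comap M1.subtype N1)) →+ (HMod p J' E' ρ ⧸ K),
      (∀ y, ∃ x, π x = η' ^ (3 * N) • y) ∧
      (∀ x, π x = 0 → teichmuller p η ^ (3 * N) • x = 0) ∧
      (∀ (d : D) (w : WittVector p C) (z : WittVector p C'),
        ρ d = Ideal.Quotient.mk _ (WittVector.map f w + (p : WittVector p C') ^ N * z) →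
        ∀ x, π (w • x) = d • π x) := by
  let _ : Module D (HM p J' E') := inferInstanceAs (Module D (HMod p J' E' ρ))
  exact exists_glue (D := D) p f hJ hJ' hf t η ht hS hI M1 N1 N hM1 hN1 E' hE1 hE2 ρ
    (fun d w h x => hmod_smul (E' := E') (ρ := ρ) d w h x) α c m u hu hα hN K hK η' hη'

/-- torsion of the honest module. -/
theorem smul_eq_zero_H {J' : Ideal C'} (hJ' : IsPerf p J') {t' : C'} (ht : t' ∈ nonZeroDivisors C')
    {E' z w : WittVector p C'} {M : ℕ} (hz : IsUnit z) (hM : 1 ≤ M)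
    (hE' : E' = ((p : WittVector p C') - teichmuller p t') * z + (p : WittVector p C') ^ M * w)
    (ρ : D →+* WittVector p C' ⧸ Ideal.span {E'}) (α : D) (c : ℕ) (u : WittVector p C')
    (hu : IsUnit u) (hα : ρ α = Ideal.Quotient.mk _ ((p : WittVector p C') ^ c * u))
    (h : HMod p J' E' ρ) (hh : α • h = 0) : h = 0 := by
  obtain ⟨x, rfl⟩ := hcl_surj h
  rw [hmod_smul _ _ hα, ← hcl_smul, hcl_eq_zero] at hh
  obtain ⟨y, hy, he⟩ := hh
  rw [hcl_eq_zero]
  have h1 : (p : WittVector p C') ^ c * (u * x) = E' * y := by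
    rw [← he]
    change _ = (p : WittVector p C') ^ c * u * x.1
    ring
  have key : ∀ (k : ℕ) (v y : WittVector p C'), y ∈ WI p J' →
      (p : WittVector p C') ^ k * v = E' * y → ∃ y' ∈ WI p J', v = E' * y' := by
    intro k
    induction k with
    | zero => intro v y hy h; exact ⟨y, hy, by simpa using h⟩
    | succ k ih =>
      intro v y hy h
      obtain ⟨a', ha', -, h2⟩ := exists_of_p_mul_E p hJ' ht hz hM hE'
        (x := (p : WittVector p C') ^ k * v) hy (by rw [← h]; ring)
      exact ih v a' ha' h2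
  obtain ⟨y', hy', h2⟩ := key c _ y hy h1
  obtain ⟨ui, hui⟩ := hu.exists_right_inv
  refine ⟨ui * y', Ideal.mul_mem_left _ _ hy', ?_⟩
  linear_combination ui * h2 - (x : WittVector p C') * hui

end glueH

section piece

variable (p : ℕ) [hp : Fact p.Prime] {S R C C' : Type u} [CommRing S] [CommRing R]
  [CommRing C] [CharP C p] [PerfectRing C p] [CommRing C'] [CharP C' p] [PerfectRing C' p]
  (f : C →+* C') (Φ : S →+* R) (hΦ : Surjective Φ) (E : S) (hE : RingHom.ker Φ = Ideal.span {E})
  (ψ : S →+* WittVector p C)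

/-- the action of `R ⊗ W(C)` on the honest modules. -/
noncomputable abbrev rhoF : R ⊗[ℤ] WittVector p C →+*
    WittVector p C' ⧸ Ideal.span {((WittVector.map f).comp ψ) E} :=
  rhoD Φ hΦ E hE ((WittVector.map f).comp ψ) (WittVector.map f)

/-- the honest module of the ideal `J` of `C`. -/
abbrev HJ (J : Ideal C) : Type u :=
  HMod p (J.map f) (((WittVector.map f).comp ψ) E) (rhoF p f Φ hΦ E hE ψ)

/-- the submodule `α ^ (m + 1) H`. -/
noncomputable abbrev KJ (J : Ideal C) (α : R) (m : ℕ) :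
    Submodule (R ⊗[ℤ] WittVector p C) (HJ p f Φ hΦ E hE ψ J) :=
  LinearMap.range (LinearMap.lsmul (R ⊗[ℤ] WittVector p C) (HJ p f Φ hΦ E hE ψ J)
    ((α ⊗ₜ 1 : R ⊗[ℤ] WittVector p C) ^ (m + 1)))

variable {p}

theorem one_add_p_mul_isUnit (y : WittVector p C') : IsUnit (1 + (p : WittVector p C') * y) := by
  have h4 : Ideal.span {(p : WittVector p C')} ≤ Ideal.jacobson ⊥ :=
    IsAdicComplete.le_jacobson_bot _
  have h5 := Ideal.mem_jacobson_bot.1 (h4 (Ideal.mem_span_singleton_self _)) y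
  rwa [add_comm] at h5

/-- **The pieces of the flag are the truncations of the honest modules, up to `η`.** -/
theorem exists_piece {J : Ideal C} (hJ : IsPerf p J) (hJ' : IsPerf p (J.map f)) (t η : C)
    (ht : f t ∈ nonZeroDivisors C')
    (hS : ∀ y ∈ J.map f, ∃ x ∈ J, ∃ z ∈ J.map f, f η * y = f x + f t * z)
    (hI : ∀ x ∈ J, (∃ z ∈ J.map f, f x = f t * z) → ∃ y ∈ J, η ^ 3 * x = t * y)
    (M1 N1 : Ideal (WittVector p C)) (N : ℕ) (hM1 : ∀ x, x ∈ M1 ↔ x ∈ WI p J)
    (hN1 : ∀ x, x ∈ N1 ↔ ∃ u ∈ WI p J, ∃ v ∈ WI p J,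
      x = ((p : WittVector p C) - teichmuller p t) * u + (p : WittVector p C) ^ N * v)
    {z w : WittVector p C'} {M : ℕ} (hz : IsUnit z) (hM : 1 ≤ M) (hNM : N ≤ M)
    (hE' : WittVector.map f (ψ E) = ((p : WittVector p C') - teichmuller p (f t)) * z +
      (p : WittVector p C') ^ M * w)
    (α : R) (c m : ℕ) (hN : c * (m + 1) = N)
    (hα : ∃ y, rhoR Φ hΦ E hE ((WittVector.map f).comp ψ) α =
      Ideal.Quotient.mk _ ((p : WittVector p C') ^ c + (p : WittVector p C') ^ (c + 1) * y)) :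
    (∀ h : HJ p f Φ hΦ E hE ψ J, (α ⊗ₜ 1 : R ⊗[ℤ] WittVector p C) • h = 0 → h = 0) ∧
    ∃ π : (M1 ⧸ (Submodule.comap M1.subtype N1)) →+
        (HJ p f Φ hΦ E hE ψ J ⧸ KJ p f Φ hΦ E hE ψ J α m),
      (∀ y, ∃ x, π x = ((1 : R) ⊗ₜ[ℤ] teichmuller p η) ^ (3 * N) • y) ∧
      (∀ x, π x = 0 → teichmuller p η ^ (3 * N) • x = 0) ∧
      (∀ (a : WittVector p C) x, π (a • x) = ((1 : R) ⊗ₜ[ℤ] a) • π x) ∧
      (∀ (s : S) (a : WittVector p C), (∃ x y : WittVector p C', WittVector.map f (ψ s) -
        WittVector.map f a = WittVector.map f (ψ E) * x + (p : WittVector p C') ^ N * y) →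
        ∀ x, π (a • x) = ((Φ s) ⊗ₜ[ℤ] (1 : WittVector p C)) • π x) := by
  obtain ⟨y0, hy0⟩ := hα
  have hE'' : ((WittVector.map f).comp ψ) E = ((p : WittVector p C') - teichmuller p (f t)) * z +
      (p : WittVector p C') ^ M * w := hE'
  have hρα : rhoF p f Φ hΦ E hE ψ (α ⊗ₜ 1) = Ideal.Quotient.mk _
      ((p : WittVector p C') ^ c * (1 + (p : WittVector p C') * y0)) := by
    have e1 := rhoD_tmul Φ hΦ E hE ((WittVector.map f).comp ψ) (WittVector.map f) α 1
    rw [hy0, map_one (WittVector.map f), map_one (Ideal.Quotient.mk _), mul_one] at e1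
    refine e1.trans ?_
    have e2 : (p : WittVector p C') ^ c + (p : WittVector p C') ^ (c + 1) * y0 =
        (p : WittVector p C') ^ c * (1 + (p : WittVector p C') * y0) := by ring
    rw [e2]
  have hu := one_add_p_mul_isUnit y0
  constructor
  · intro h hh
    exact smul_eq_zero_H p hJ' ht hz hM hE'' _ _ c _ hu hρα h hh
  · obtain ⟨zi, hzi⟩ := hz.exists_right_inv
    have hpM : (p : WittVector p C') ^ M = (p : WittVector p C') ^ (M - N) *
        (p : WittVector p C') ^ N := by rw [← pow_add, Nat.sub_add_cancel hNM]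
    obtain ⟨π, h1, h2, h3⟩ := exists_glueH (D := R ⊗[ℤ] WittVector p C) p f hJ hJ'
      (fun x hx => Ideal.mem_map_of_mem f hx) t η ht hS hI M1 N1 N hM1 hN1
      (((WittVector.map f).comp ψ) E)
      ⟨zi, -(zi * w * (p : WittVector p C') ^ (M - N)), by
        rw [hE'', hpM]
        linear_combination (-((p : WittVector p C') - teichmuller p (f t))) * hzi⟩
      ⟨z, w * (p : WittVector p C') ^ (M - N), by rw [hE'', hpM]; ring⟩
      (rhoF p f Φ hΦ E hE ψ) (α ⊗ₜ 1) c m (1 + (p : WittVector p C') * y0) hu hρα hN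
      (KJ p f Φ hΦ E hE ψ J α m)
      (fun h => ⟨fun ⟨h', hh'⟩ => ⟨h', hh'.symm⟩, fun ⟨h', hh'⟩ => ⟨h', hh'.symm⟩⟩)
      (1 ⊗ₜ teichmuller p η) (by
        rw [rhoF, rhoD_right, map_teichmuller])
    refine ⟨π, h1, h2, fun a x => h3 _ a 0 ?_ x, fun s a ⟨x', y', hxy⟩ x => h3 _ a y' ?_ x⟩
    · rw [rhoF, rhoD_right, mul_zero, add_zero]
    · rw [rhoF, rhoD_left, Ideal.Quotient.eq, Ideal.mem_span_singleton']
      refine ⟨x', ?_⟩
      simp only [RingHom.comp_apply]
      linear_combination -hxy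

end piece

end Vale.Agent.P177.NatG
end

section

/-!
# Tor of the honest modules over `R ⊗ W(C)` and over `R ⊗ W(C')` (P177)
-/

namespace Vale.Agent.P177.NatG

open Vale.Agent.P177.PI Vale.Agent.P177.NatC WittVector TensorProduct Function
  Vale.Agent.P202.Mix

set_option linter.all false

universe u

section res

variable {A B C : Type u} [CommRing A] [CommRing B] [CommRing C]

theorem restrict_restrict (L : AddLen A) (a : A →+* B) (b : B →+* C) (M : Type u)
    [AddCommGroup M] [Module C M] : ((L.restrict a).restrict b).len M =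
      (L.restrict (b.comp a)).len M := rfl

theorem restrict_len_congr (L : AddLen A) {a a' : A →+* B} (h : a = a') (M : Type u)
    [AddCommGroup M] [Module B M] : (L.restrict a).len M = (L.restrict a').len M := by
  rw [h]

end res

section chi

variable (p : ℕ) [hp : Fact p.Prime] {S R C C' : Type u} [CommRing S] [CommRing R]
  [CommRing C] [CharP C p] [PerfectRing C p] [CommRing C'] [CharP C' p] [PerfectRing C' p]
  (f : C →+* C') (Φ : S →+* R) (hΦ : Surjective Φ) (E : S) (hE : RingHom.ker Φ = Ideal.span {E})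
  (ψ : S →+* WittVector p C)

/-- `R ⊗ W(C) → R ⊗ W(C')`. -/
noncomputable def tF (R : Type u) [CommRing R] (f : C →+* C') :
    R ⊗[ℤ] WittVector p C →ₐ[R] R ⊗[ℤ] WittVector p C' :=
  Algebra.TensorProduct.map (AlgHom.id R R) (WittVector.map f).toIntAlgHom

theorem tF_tmul (r : R) (w : WittVector p C) :
    tF p R f (r ⊗ₜ w) = r ⊗ₜ WittVector.map f w := rfl

theorem tF_comp_right : ((tF p R f : R ⊗[ℤ] WittVector p C →+* R ⊗[ℤ] WittVector p C')).comp
    (Algebra.TensorProduct.includeRight : WittVector p C →ₐ[ℤ] R ⊗[ℤ] WittVector p C).toRingHom =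
    ((Algebra.TensorProduct.includeRight : WittVector p C' →ₐ[ℤ]
      R ⊗[ℤ] WittVector p C').toRingHom).comp (WittVector.map f) := by
  ext w
  rfl

/-- the honest module of `J` over `R ⊗ W(C')`. -/
abbrev HJ' (J : Ideal C) : Type u :=
  HMod p (J.map f) (((WittVector.map f).comp ψ) E)
    (rhoD Φ hΦ E hE ((WittVector.map f).comp ψ) (RingHom.id (WittVector p C')))

theorem rhoF_eq (d : R ⊗[ℤ] WittVector p C) : rhoF p f Φ hΦ E hE ψ d =
    rhoD Φ hΦ E hE ((WittVector.map f).comp ψ) (RingHom.id (WittVector p C')) (tF p R f d) := by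
  induction d using TensorProduct.induction_on with
  | zero => simp only [map_zero]
  | tmul r w =>
    rw [tF_tmul]
    have e1 := rhoD_tmul Φ hΦ E hE ((WittVector.map f).comp ψ) (WittVector.map f) r w
    have e2 := rhoD_tmul Φ hΦ E hE ((WittVector.map f).comp ψ) (RingHom.id (WittVector p C')) r
      (WittVector.map f w)
    exact e1.trans e2.symm
  | add x y hx hy => rw [map_add, hx, hy, map_add, map_add]

/-- **Tor of the honest module over `R ⊗ W(C)` and over `R ⊗ W(C')`.** -/
theorem len_tor_HJ (L : AddLen (R ⊗[ℤ] WittVector p C)) (J : Ideal C) (n : ℕ) (K : Type u)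
    [AddCommGroup K] [Module R K] :
    L.len (TorM (R ⊗[ℤ] WittVector p C) n (HJ p f Φ hΦ E hE ψ J)
        ((R ⊗[ℤ] WittVector p C) ⊗[R] K)) =
      (L.restrict (tF p R f : R ⊗[ℤ] WittVector p C →+* R ⊗[ℤ] WittVector p C')).len
        (TorM (R ⊗[ℤ] WittVector p C') n (HJ' p f Φ hΦ E hE ψ J)
          ((R ⊗[ℤ] WittVector p C') ⊗[R] K)) := by
  let _ : Algebra (R ⊗[ℤ] WittVector p C) (R ⊗[ℤ] WittVector p C') :=
    (tF p R f : R ⊗[ℤ] WittVector p C →+* R ⊗[ℤ] WittVector p C').toAlgebra
  have hst : IsScalarTower R (R ⊗[ℤ] WittVector p C) (R ⊗[ℤ] WittVector p C') :=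
    IsScalarTower.of_algebraMap_eq fun r => (AlgHom.commutes (tF p R f) r).symm
  have hf1 := flat_tensor_witt p C R
  have hf2 := flat_tensor_witt p C' R
  exact len_tor_hmod L _ (fun d => rhoF_eq p f Φ hΦ E hE ψ d) n K

/-- the same for a length pulled back from `W(C)`. -/
theorem len_tor_HJ_W (L : AddLen (WittVector p C)) (J : Ideal C) (n : ℕ) (K : Type u)
    [AddCommGroup K] [Module R K] :
    (L.restrict (Algebra.TensorProduct.includeRight :
      WittVector p C →ₐ[ℤ] R ⊗[ℤ] WittVector p C).toRingHom).len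
      (TorM (R ⊗[ℤ] WittVector p C) n (HJ p f Φ hΦ E hE ψ J)
        ((R ⊗[ℤ] WittVector p C) ⊗[R] K)) =
      ((L.restrict (WittVector.map f)).restrict (Algebra.TensorProduct.includeRight :
        WittVector p C' →ₐ[ℤ] R ⊗[ℤ] WittVector p C').toRingHom).len
        (TorM (R ⊗[ℤ] WittVector p C') n (HJ' p f Φ hΦ E hE ψ J)
          ((R ⊗[ℤ] WittVector p C') ⊗[R] K)) := by
  rw [len_tor_HJ, restrict_restrict, restrict_restrict]
  exact restrict_len_congr L (tF_comp_right p f) _

end chi

end Vale.Agent.P177.NatG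
end

section

/-!
P177, inner assembly: notation for the honest modules of the characters of a flag.
-/

namespace Vale.Agent.P177.Full

open TensorProduct IsLocalRing RingTheory.Sequence Function Vale.Agent.P202.Mix
  Vale.Agent.P177.Flag Vale.Agent.P177.PI Vale.Agent.P177.Lev WittVector
open scoped ENNReal

universe u

namespace Core

variable {p : ℕ} [Fact p.Prime] {R : Type u} [CommRing R] [IsRegularLocalRing R]
    [CharP (ResidueField R) p] [PerfectRing (ResidueField R) p] {d : ℕ} {P : Ideal R}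
    {hs : List R} {r : ℕ} [IsRegularLocalRing (Lam p (ResidueField R) r)]
    [Algebra (Lam p (ResidueField R) r) R] {Ω : Type u} [Field Ω]
    [Algebra (Lam p (ResidueField R) r) Ω] {F : Fin 2 → FlagMod (Lam p (ResidueField R) r) Ω hs}
    (X : Core p d P hs r Ω F)

/-- `E = p - g`. -/
noncomputable def E : Sx p (ResidueField R) d := (p : Sx p (ResidueField R) d) - X.g

theorem ker_Φ : RingHom.ker X.Φ = Ideal.span {X.E} := X.Φ_ker

/-- `ψ_σ : W(k)[[x]] → W(C)`. -/
noncomputable abbrev psi (σ : R →ₐ[Lam p (ResidueField R) r] Ω) :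
    Sx p (ResidueField R) d →+* WittVector p X.K.C :=
  (X.φ σ).comp (MvPowerSeries.map MvPowerSeries.C)

variable {C' : Type u} [CommRing C'] [CharP C' p] [PerfectRing C' p] (f : X.K.C →+* C')

/-- the honest module of the ideal `J` and of the character `σ`, over `R ⊗ W(C)`. -/
abbrev HJ (σ : R →ₐ[Lam p (ResidueField R) r] Ω) (J : Ideal X.K.C) : Type u :=
  NatG.HJ p f X.Φ X.Φ_surj X.E X.ker_Φ (X.psi σ) J

/-- `α ^ (m + 1) H`. -/
noncomputable abbrev KJ (σ : R →ₐ[Lam p (ResidueField R) r] Ω) (J : Ideal X.K.C) (m : ℕ) :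
    Submodule (R ⊗[ℤ] WittVector p X.K.C) (X.HJ f σ J) :=
  NatG.KJ p f X.Φ X.Φ_surj X.E X.ker_Φ (X.psi σ) J X.α m

end Core

end Vale.Agent.P177.Full
end

section

/-!
P177, hypothesis (H2) of block B7: powers of `p`, `[t]`, `[u_i]` and of the maximal ideal of `S`
act on `W(C')`-modules through `I`, for every ideal `I` of `S` with `E ∈ I` and
`m_R ^ K ≤ I R + (hs)`.
-/

namespace Vale.Agent.P177.Full

open IsLocalRing Function Vale.Agent.P177.NatC WittVector

universe u v

section max

variable {S R : Type u} [CommRing S] [CommRing R] [IsLocalRing S] [IsLocalRing R]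

/-- the maximal ideal of `S` modulo `I + 𝔥`. -/
theorem maxpow_le {Φ : S →+* R} (hΦ : Surjective Φ) {I : Ideal S} (hk : RingHom.ker Φ ≤ I)
    {𝔞 : Ideal R} {K : ℕ} (h : maximalIdeal R ^ K ≤ I.map Φ ⊔ 𝔞) :
    maximalIdeal S ^ K ≤ I ⊔ 𝔞.comap Φ := by
  have hloc : ∀ x ∈ maximalIdeal S, Φ x ∈ maximalIdeal R := by
    intro x hx
    rw [mem_maximalIdeal, mem_nonunits_iff] at hx ⊢
    intro hu
    obtain ⟨y, hy⟩ := hΦ (↑hu.unit⁻¹ : R)
    have h1 : Φ (1 - x * y) = 0 := by
      rw [map_sub, map_one, map_mul, hy, IsUnit.mul_val_inv, sub_self]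
    have h2 : (1 : S) - x * y ∈ maximalIdeal S := by
      rw [mem_maximalIdeal, mem_nonunits_iff]
      intro hu2
      have h3 := hu2.map Φ
      rw [h1] at h3
      exact not_isUnit_zero h3
    have h3 : x * y ∈ maximalIdeal S :=
      Ideal.mul_mem_right _ _ ((mem_maximalIdeal _).2 hx)
    have h4 := add_mem h2 h3
    rw [sub_add_cancel] at h4
    exact (mem_maximalIdeal _).1 h4 isUnit_one
  have h1 : (maximalIdeal S).map Φ ≤ maximalIdeal R := by
    rw [Ideal.map_le_iff_le_comap]
    intro x hx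
    exact hloc x hx
  intro x hx
  have h2 : Φ x ∈ (I ⊔ 𝔞.comap Φ).map Φ := by
    rw [Ideal.map_sup, Ideal.map_comap_of_surjective Φ hΦ]
    apply h
    apply Ideal.pow_right_mono h1 K
    rw [← Ideal.map_pow]
    exact Ideal.mem_map_of_mem Φ hx
  rw [Ideal.mem_map_iff_of_surjective Φ hΦ] at h2
  obtain ⟨y, hy, hxy⟩ := h2
  have h3 : x - y ∈ I := hk (by rw [RingHom.mem_ker, map_sub, hxy, sub_self])
  have h4 := add_mem ((le_sup_left : I ≤ I ⊔ 𝔞.comap Φ) h3) hy
  rwa [sub_add_cancel] at h4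

end max

section nilp

variable {S D W : Type u} [CommRing S] [IsLocalRing S] [CommRing D] [Algebra S D] [CommRing W]

end nilp

section h2

variable {p : ℕ} [hp : Fact p.Prime] {S R : Type u} [CommRing S] [CommRing R] [IsLocalRing S]
  [IsLocalRing R] {C : Type v} [CommRing C] [CharP C p] [PerfectRing C p]

omit [IsLocalRing R] in
/-- **(H2)** over `S`. -/
theorem H2_gen {φ : S →+* WittVector p C} {t : C} {M : ℕ} {E : S}
    {z w : WittVector p C} (hz : IsUnit z)
    (hE : φ E = ((p : WittVector p C) - teichmuller p t) * z + (p : WittVector p C) ^ M * w)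
    {𝔥 : Ideal S} (h𝔥 : ∀ s ∈ 𝔥, φ s ∈ XM p t M)
    {I : Ideal S} (hEI : E ∈ I) {K K0 : ℕ} (hKM : K < M) (hpK : (p : S) ^ K ∈ I ⊔ 𝔥)
    (hm : maximalIdeal S ^ K0 ≤ I ⊔ 𝔥) :
    XM p t M ≤ I.map φ ∧ (p : WittVector p C) ^ K ∈ I.map φ ∧
      teichmuller p t ^ K ∈ I.map φ ∧ (∀ s ∈ maximalIdeal S, φ s ^ K0 ∈ I.map φ) ∧
      ∀ s ∈ maximalIdeal S, ∀ v : WittVector p C, φ s - v ∈ XM p t M → v ^ K0 ∈ I.map φ := by
  obtain ⟨h1, h2⟩ := p_pow_mem_map p φ hKM hz hEI hE h𝔥 hpK
  refine ⟨h2, h1, te_pow_mem_map p φ h2 h1, fun s hs => ?_, fun s hs v hv => ?_⟩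
  · exact pow_mem_map_of_sub_mem p φ h2 h𝔥 (hm (Ideal.pow_mem_pow hs K0))
      (by rw [sub_self]; exact zero_mem _)
  · exact pow_mem_map_of_sub_mem p φ h2 h𝔥 (hm (Ideal.pow_mem_pow hs K0)) hv

end h2

end Vale.Agent.P177.Full
end

section

/-!
Finite length under a residually surjective base ring, and systems of parameters for modules.
-/

set_option linter.all false

namespace Vale.Agent.P177.SL

open IsLocalRing Function

universe u

section base

variable {W₀ S : Type u} [CommRing W₀] [CommRing S] [IsLocalRing S] [Algebra W₀ S]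

/-- A simple module over `S` is simple over `W₀`. -/
theorem isSimpleModule_of_residual
    (hres : Surjective ((Ideal.Quotient.mk (maximalIdeal S)).comp (algebraMap W₀ S)))
    (M : Type u) [AddCommGroup M] [Module S M] [Module W₀ M] [IsScalarTower W₀ S M]
    (h : IsSimpleModule S M) : IsSimpleModule W₀ M := by
  have hnt : Nontrivial M := IsSimpleModule.nontrivial S M
  have hann : Module.annihilator S M = maximalIdeal S := by
    have : (Module.annihilator S M).IsMaximal := IsSimpleModule.annihilator_isMaximal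
    exact IsLocalRing.eq_maximalIdeal this
  rw [isSimpleModule_iff_toSpanSingleton_surjective] at h ⊢
  refine ⟨hnt, fun x hx y => ?_⟩
  obtain ⟨s, hs⟩ := h.2 x hx y
  obtain ⟨w, hw⟩ := hres (Ideal.Quotient.mk _ s)
  refine ⟨w, ?_⟩
  rw [RingHom.comp_apply, Ideal.Quotient.mk_eq_mk_iff_sub_mem, ← hann,
    Module.mem_annihilator] at hw
  have h1 := hw x
  rw [sub_smul, sub_eq_zero] at h1
  rw [LinearMap.toSpanSingleton_apply] at hs ⊢
  rw [← hs, ← h1, algebraMap_smul]

theorem length_add_quot {M : Type u} [AddCommGroup M] [Module S M] [Module W₀ M]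
    [IsScalarTower W₀ S M] (N : Submodule S M) :
    Module.length W₀ M = Module.length W₀ N + Module.length W₀ (M ⧸ N) := by
  have hi : Injective (N.subtype.restrictScalars W₀) := fun a b h => Subtype.ext h
  have hs : Surjective (N.mkQ.restrictScalars W₀) := fun y => by
    obtain ⟨z, hz⟩ := N.mkQ_surjective y
    exact ⟨z, hz⟩
  have hex : Exact (N.subtype.restrictScalars W₀) (N.mkQ.restrictScalars W₀) := fun y =>
    LinearMap.exact_subtype_mkQ N y
  exact Module.length_eq_add_of_exact _ _ hi hs hex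

theorem isFiniteLength_of_aux
    (hres : Surjective ((Ideal.Quotient.mk (maximalIdeal S)).comp (algebraMap W₀ S)))
    (M : Type u) [AddCommGroup M] [Module S M] (h : IsFiniteLength S M) :
    ∀ [Module W₀ M] [IsScalarTower W₀ S M], IsFiniteLength W₀ M := by
  induction h with
  | of_subsingleton =>
    intro _ _
    exact IsFiniteLength.of_subsingleton
  | of_simple_quotient hN ih =>
    rename_i M _ _ N hsimple
    intro _ _
    have h1 : IsFiniteLength W₀ N := ih
    have h2 : IsSimpleModule W₀ (M ⧸ N) := isSimpleModule_of_residual hres _ hsimple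
    rw [← Module.length_ne_top_iff] at h1 ⊢
    rw [length_add_quot N]
    have h3 : Module.length W₀ (M ⧸ N) = 1 := Module.length_eq_one_iff.2 h2
    rw [h3]
    exact WithTop.add_ne_top.2 ⟨h1, ENat.one_ne_top⟩

/-- Finite length descends to a residually surjective base ring. -/
theorem isFiniteLength_of
    (hres : Surjective ((Ideal.Quotient.mk (maximalIdeal S)).comp (algebraMap W₀ S)))
    {M : Type u} [AddCommGroup M] [Module S M] [Module W₀ M] [IsScalarTower W₀ S M]
    (h : IsFiniteLength S M) : IsFiniteLength W₀ M :=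
  isFiniteLength_of_aux hres M h

omit [IsLocalRing S] in
/-- Lengths increase under restriction of scalars. -/
theorem length_le (M : Type u) [AddCommGroup M] [Module S M] [Module W₀ M]
    [IsScalarTower W₀ S M] : Module.length S M ≤ Module.length W₀ M := by
  have h : StrictMono (fun N : Submodule S M => N.restrictScalars W₀) := fun N N' h => h
  have h1 := Order.krullDim_le_of_strictMono _ h
  rw [← Module.coe_length, ← Module.coe_length] at h1
  exact_mod_cast h1

end base

section sop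

variable {S : Type u} [CommRing S] [IsLocalRing S] [IsNoetherianRing S]

theorem isFiniteLength_quot (N : Type u) [AddCommGroup N] [Module S N] [Module.Finite S N]
    (ss : List S) (h : maximalIdeal S ≤ (Module.annihilator S N ⊔ Ideal.ofList ss).radical)
    (n : ℕ) : IsFiniteLength S
      (N ⧸ (Ideal.ofList (ss.map (· ^ n)) • ⊤ : Submodule S N)) := by
  have h1 : FL ([] : List S) (N ⧸ (Ideal.ofList (ss.map (· ^ n)) • ⊤ : Submodule S N)) := by
    unfold FL
    rw [Ideal.ofList_nil, sup_bot_eq]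
    refine h.trans ?_
    rw [Ideal.radical_eq_sInf, Ideal.radical_eq_sInf]
    refine le_sInf ?_
    rintro q ⟨hq1, hq⟩
    refine sInf_le ⟨sup_le ?_ ?_, hq⟩
    · refine le_trans ?_ hq1
      exact LinearMap.annihilator_le_of_surjective (Submodule.mkQ _) (Submodule.mkQ_surjective _)
    · rw [Ideal.ofList, Ideal.span_le]
      intro x hx
      refine hq.mem_of_pow_mem n (hq1 ?_)
      rw [Module.mem_annihilator]
      intro y
      obtain ⟨z, rfl⟩ := Submodule.mkQ_surjective _ y
      rw [← map_smul, Submodule.mkQ_apply, Submodule.Quotient.mk_eq_zero]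
      refine Submodule.smul_mem_smul (Ideal.subset_span ?_) trivial
      exact List.mem_map.2 ⟨x, hx, rfl⟩
  rw [← Module.length_ne_top_iff]
  exact h1.length_ne_top

theorem exists_sop (N : Type u) [AddCommGroup N] [Module S N] [Module.Finite S N] (a : ℕ)
    (ha : Module.supportDim S N = a) :
    ∃ ss : List S, ss.length = a ∧ (∀ x ∈ ss, x ∈ maximalIdeal S) ∧
      maximalIdeal S ≤ (Module.annihilator S N ⊔ Ideal.ofList ss).radical := by
  have h1 : Module.supportDim S (S ⧸ Module.annihilator S N) = (a : WithBot ℕ∞) := by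
    rw [Module.supportDim_quotient_eq_ringKrullDim,
      ← Module.supportDim_eq_ringKrullDim_quotient_annihilator, ha]
  refine exists_parameters (Module.annihilator S N) ?_ a h1
  intro htop
  rw [htop] at h1
  have : Subsingleton (S ⧸ (⊤ : Ideal S)) := Ideal.Quotient.subsingleton_iff.2 rfl
  rw [Module.supportDim_eq_bot_of_subsingleton] at h1
  exact absurd h1.symm (WithBot.coe_ne_bot)

end sop

end Vale.Agent.P177.SL
end
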