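import Mathlib
import Vale.Agent.P177.Bd4.B8
import Vale.Agent.P177.Bd4.B7
import Vale.Agent.P177.Bd4.B11
import Vale.Agent.P177.Bd4.B10
import Vale.Agent.P177.Bd4.B1
import Vale.Agent.P177.Bd4.B3
import Vale.Agent.P177.Bd4.B5
import Vale.Agent.P177.Bd4.B2
import Vale.Agent.P177.Bd4.B6
import Vale.Agent.P177.Bd4.B4
import Vale.Agent.P177.Bd4.B12
attribute [-instance] DenselyNormedField.toNontriviallyNormedField RCLike.toDenselyNormedField DenselyNormedField.toNormedField NontriviallyNormedField.toNormedField NormedField.toNormedDivisionRing littleWedderburn NormedDivisionRing.toDivisionRing NormedField.toField IdemCommSemiring.toIdemSemiring KleeneAlgebra.toIdemSemiring DivisionRing.toDivisionSemiring SemiRingCat.instSemiringObjForgetRingHomCarrier CommSemiRingCat.FilteredColimits.colimitCommSemiring BooleanRing.toRing CommCStarAlgebra.toNormedCommRing NormedField.toNormedCommRing CommCStarAlgebra.toCStarAlgebra CStarAlgebra.toNormedRing NormedCommRing.toNormedRing NormedDivisionRing.toNormedRing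 NormedCommRing.toSeminormedCommRing NormedRing.toSeminormedRing SeminormedCommRing.toSeminormedRing BooleanRing.toCommRing EuclideanDomain.toCommRing Field.toEuclideanDomain NormedCommRing.toCommRing SeminormedCommRing.toCommRing NormedRing.toRing SeminormedRing.toRing CommCStarAlgebra.toNonUnitalCommCStarAlgebra CStarAlgebra.toNonUnitalCStarAlgebra NonUnitalCommCStarAlgebra.toNonUnitalCStarAlgebra NonUnitalCommCStarAlgebra.toNonUnitalNormedCommRing NormedCommRing.toNonUnitalNormedCommRing NonUnitalCStarAlgebra.toNonUnitalNormedRing NonUnitalNormedCommRing.toNonUnitalNormedRing NormedRing.toNonUnitalNormedRing LeftPreLieRing.instLieAdmissibleRing RightPreLieRing.instLieAdmissibleRing CommRing.toAddCommGroupWithOne NonAssocRing.toAddCommGroupWithOne CommSemiring.toNonAssocCommSemiring NonAssocCommRing.toNonAssocCommSemiring NonAssocCommSemiring.toNonAssocSemiring AddCommGroupWithOne.toAddCommMonoidWithOne LeftPreLieRing.toNonUnitalNonAssocRing LieAdmissibleRing.toNonUnitalNonAssocRing RightPreLieRing.toNonUnitalNonAssocRing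 NonUnitalNormedCommRing.toNonUnitalSeminormedCommRing SeminormedCommRing.toNonUnitalSeminormedCommRing LinearOrderedAddCommGroupWithTop.instLinearOrderedAddCommMonoidWithTop instCoeT NonUnitalNormedRing.toNonUnitalSeminormedRing NonUnitalSeminormedCommRing.toNonUnitalSeminormedRing SeminormedRing.toNonUnitalSeminormedRing NonUnitalNormedCommRing.toNonUnitalCommRing NonUnitalSeminormedCommRing.toNonUnitalCommRing LinearOrderedAddCommGroupWithTop.toAddCommMonoid NonAssocCommRing.toNonUnitalNonAssocCommRing NonUnitalCommRing.toNonUnitalRing NonUnitalNormedRing.toNonUnitalRing NonUnitalRing.toNonUnitalNonAssocRing NonUnitalSeminormedRing.toNonUnitalRing Ring.toNonUnitalRing CategoryTheory.CommGrpObj.toGrpObj CategoryTheory.Preadditive.instGrpObj CategoryTheory.instBraidedCategoryType CategoryTheory.Abelian.toPreadditive NonAssocCommSemiring.toNonUnitalNonAssocCommSemiring NonUnitalCommSemiring.toNonUnitalNonAssocCommSemiring NonUnitalNonAssocCommSemiring.toNonUnitalNonAssocSemiring NonUnitalRing.toNonUnitalSemiring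 NonUnitalSemiring.toNonUnitalNonAssocSemiring Semiring.toNonUnitalSemiring CategoryTheory.BimonObj.toMonObj CategoryTheory.CommRingObj.toRingObj CategoryTheory.GrpObj.toMonObj CategoryTheory.HopfObj.toBimonObj CategoryTheory.RingObj.toMonObj AddCommMonCat.FilteredColimits.colimitAddCommMonoid instCoeTOfCoeDep MonTypeEquivalenceMon.monMonoid Pi.nonUnitalNonAssocSemiring instCoeHTC instCoeHTCT instCoeTC RingCat.FilteredColimits.colimitRing instCoeTCOfCoe BoxIntegral.Box.instMembershipForallReal NonUnitalNormedRing.toNormedAddCommGroup LinearOrderedAddCommGroupWithTop.toSubNegMonoid AddCommGroupWithOne.toAddGroupWithOne IsCyclotomicExtension.Rat.isPrime_span_zeta_sub_one' Pi.nonAssocSemiring Complex.instRCLike instCoeLieSubalgebraSubmodule LieAlgebra.instLieRingL ContDiffMapSupportedInClass.toDFunLike RKHS.instFunLike Real.instRCLike TestFunctionClass.toDFunLike SSet.stdSimplex.instFunLikeObjOppositeSimplexCategoryMkOpFinHAddNatOfNat MulSemiringAction.toDistribMulAction NormedCommGroup.toNormedGroup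 NormedCommGroup.toSeminormedCommGroup NormedGroup.toSeminormedGroup SeminormedCommGroup.toSeminormedGroup instCommGroupOfIsSimpleGroupOfIsNilpotent CommGroup.toGroup CommGrpTypeEquivalenceCommGrp.commGrpCommGroup GrpTypeEquivalenceGrp.grpGroup NormedCommGroup.toCommGroup NormedGroup.toGroup SeminormedCommGroup.toCommGroup SeminormedGroup.toGroup LieAdmissibleRing.instLieRing CompleteAtomicBooleanAlgebra.toCompleteBooleanAlgebra MonCat.monoidObj SemiNormedGrp.str CompleteAtomicBooleanAlgebra.toCompletelyDistribLattice boolToProp ContinuousAddMonoidHom.instCoeOutOfAddMonoidHomClassOfContinuousMapClass ContinuousMonoidHom.instCoeOutOfMonoidHomClassOfContinuousMapClass HomeomorphClass.instCoeOutHomeomorph IsometryClass.instCoeOutIsometryEquiv LinearOrderedCommGroupWithZero.toLinearOrderedCommMonoidWithZero Pi.instTopForall TopologicalSpace.Compacts.instSetLike CompleteBooleanAlgebra.toCompleteLattice CategoryTheory.Mat_.fintype LieRing.toAddCommGroup instNonUnitalCStarAlgebraForall CompleteBooleanAlgebra.toCompleteDistribLattice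 CompletelyDistribLattice.toCompleteDistribLattice instDistribSMul instSMulZeroClass NonUnitalNonAssocSemiring.toDistribSMul LinearOrderedCommMonoidWithZero.toIsBotZeroClass Bialgebra.toAlgebra CommSemiring.toBialgebra CommSemiring.toHopfAlgebra HopfAlgebra.toHopfAlgebraStruct HopfAlgebraStruct.toBialgebra NormedAlgebra.id NormedAlgebra.toAlgebra Invertible.toNeZero NeZero.of_gt' Nat.AtLeastTwo.toNeZero CompleteDistribLattice.toCoframe CompleteDistribLattice.toFrame Std.DTreeMap.Raw.instSingletonSigma RightPreLieAlgebra.instLieAdmissibleAlgebra ProfiniteAddGrp.addGroup CommMonCat.str CompleteLinearOrder.toCompleteLattice Order.Coframe.toCompleteLattice Order.Frame.toCompleteLattice Action.instMulAction Torsor.toMulAction Action.FintypeCat.instMulActionObjFiniteOf GradedMonoid.GradeZero.mulAction CompleteBooleanAlgebra.toBooleanAlgebra instNonUnitalAlgHomClassOfNonUnitalAlgEquivClass Pi.mulZeroOneClass LinearOrderedCommGroupWithZero.toCommGroupWithZero Semifield.toCommGroupWithZero AlgebraicGeometry.Scheme.instPreorderCarrierCarrierCommRingCat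 CommGroupWithZero.toGroupWithZero DivisionSemiring.toGroupWithZero NonUnitalSeminormedRing.toSeminormedAddCommGroup NormedAddCommGroup.toSeminormedAddCommGroup SemilatSupCat.isSemilatticeSup CategoryTheory.Limits.Concrete.instUniqueToTypeTerminal CommGroupWithZero.toCommMonoidWithZero LinearOrderedCommMonoidWithZero.toCommMonoidWithZero BialgEquivClass.toBialgHomClass CommMonTypeEquivalenceCommMon.commMonCommMonoid GroupWithZero.toMonoidWithZero MonoidWithZero.toSemigroupWithZero SemigroupWithZero.toMulZeroClass Pi.instMaxForall_mathlib ChainCompletePartialOrder.instOfCompleteLattice ChainCompletePartialOrder.instOmegaCompletePartialOrder ChainCompletePartialOrder.toPartialOrder CompletePartialOrder.toOmegaCompletePartialOrder OmegaCompletePartialOrder.toPartialOrder BooleanAlgebra.toBiheytingAlgebra CompleteDistribLattice.toBiheytingAlgebra CompleteLinearOrder.toBiheytingAlgebra CompletelyDistribLattice.toBiheytingAlgebra Nat.instOne Nat.Prime.one_lt' BooleanAlgebra.toGeneralizedBooleanAlgebra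 Pi.addZeroClass Fin.completeLinearOrder OrderAddMonoidHom.instAddMonoidHomClass Pi.addMonoidWithOne BiheytingAlgebra.toCoheytingAlgebra BiheytingAlgebra.toHeytingAlgebra Order.Coframe.toCoheytingAlgebra Order.Frame.toHeytingAlgebra Pi.subtractionMonoid TwoSidedIdeal.instIsTwoSidedCoeOrderHomIdealAsIdeal CompleteLinearOrder.toLinearOrder ConditionallyCompleteLinearOrder.toLinearOrder LinearOrderedAddCommGroupWithTop.toLinearOrder LinearOrderedAddCommMonoidWithTop.toLinearOrder LinearOrderedCommMonoidWithZero.toLinearOrder AddMonCat.addMonoidObj AlgEquivClass.toAlgHomClass BialgHomClass.toAlgHomClass Pi.nonUnitalSemiring CoheytingAlgebra.toGeneralizedCoheytingAlgebra GeneralizedBooleanAlgebra.toGeneralizedCoheytingAlgebra HeytingAlgebra.toGeneralizedHeytingAlgebra Std.Time.WallTime.instHAddOffset_1 TopRep.hV1 instConditionallyCompletePartialOrderSup CompleteLattice.toCompleteSemilatticeInf LieAdmissibleAlgebra.toModule Pi.instZero Turing.FinTM2.decidableEqK LeftPreLieAlgebra.toModule LieAlgebra.toModule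 NormedSpace.toModule RightPreLieAlgebra.toModule Fin.instBiheytingAlgebra NormedAddCommGroup.toNormedAddGroup AlgHom.instContinuousLinearMapClassOfAlgHomClass AlgHomClass.linearMapClass BialgHomClass.toCoalgHomClass CentroidHomClass.toAddMonoidHomClass CoalgEquivClass.toCoalgHomClass CoalgHomClass.toSemilinearMapClass ContinuousSemilinearEquivClass.continuousSemilinearMapClass ContinuousSemilinearMapClass.toSemilinearMapClass NonUnitalAlgHomClass.instLinearMapClass NonUnitalAlgHomClass.instSemilinearMapClassOfNonUnitalAlgSemiHomClassToMonoidHomRingHom PositiveLinearMap.instContinuousLinearMapClassComplexOfLinearMapClassOfOrderHomClass RingHomClass.toLinearMapClassNNRat RingHomClass.toLinearMapClassRat SemilinearEquivClass.instSemilinearMapClass SemilinearIsometryClass.toContinuousSemilinearMapClass SemilinearIsometryClass.toSemilinearMapClass instDistribLatticeOfLinearOrder BooleanAlgebra.toDistribLattice CompleteLattice.toPartialOrder' CompleteSemilatticeInf.toPartialOrder CompleteSemilatticeSup.toPartialOrder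 ConditionallyCompletePartialOrderInf.toPartialOrder DistribLattice.toLattice GeneralizedBooleanAlgebra.toDistribLattice GeneralizedCoheytingAlgebra.toDistribLattice GeneralizedCoheytingAlgebra.toLattice GeneralizedHeytingAlgebra.toDistribLattice GeneralizedHeytingAlgebra.toLattice Lattice.toSemilatticeInf LinearOrder.toLattice SemilatticeInf.toPartialOrder Order.Coframe.toDistribLattice Order.Frame.toDistribLattice MulSemiringActionSemiHomClass.toDistribMulActionSemiHomClass AddQuantale.instAddLeftMono instRingHomSurjectiveForallEvalRingHom NormedAddGroup.toSeminormedAddGroup SeminormedAddCommGroup.toSeminormedAddGroup AbsoluteValue.mulHomClass AddCommGroupWithOne.toAddCommGroup NonUnitalNonAssocRing.toAddCommGroup NormedAddCommGroup.toAddCommGroup NormedAddGroup.toAddGroup SeminormedAddCommGroup.toAddCommGroup SeminormedAddGroup.toAddGroup CategoryTheory.instFinCategoryOfFintypeOfIsThin FinEnum.instFintype SetLike.instFintype Unique.fintype CategoryTheory.FinCategory.fintypeObj Monoid.End.instMonoidHomClass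 LinearOrderedAddCommGroupWithTop.toSubtractionMonoid ValuationClass.toMonoidWithZeroHomClass instSubsingleton IsEmpty.instSubsingleton Unique.instSubsingleton Group.IsPerfect.subsingleton_of_isMulCommutative Submodule.instIdemCommSemiring SubfieldClass.toNormedField MulOpposite.instMulOne AddOpposite.instAddZero OrderDual.instDivisionSemiring Quaternion.instDivisionRing LeftPreLieAlgebra.toIsScalarTower LieAdmissibleAlgebra.toIsScalarTower LieRinehartAlgebra.toIsScalarTower RightPreLieAlgebra.toIsScalarTower instMulActionSemiHomClassMulActionHom Fin.instCoheytingAlgebra Fin.instHeytingAlgebra Pi.normedAddCommGroup BialgHomClass.toMonoidHomClass MulCharClass.toMonoidHomClass MulDistribMulActionSemiHomClass.toMonoidHomClass PartOrdEmb.str RootedTree.orderBot instCharZeroOfIsSemireal instIsSemirealOfIsStrictOrderedRingOfExistsAddOfLE FloorSemiring.instCharZero IsRealClosed.toIsSemireal IsStrictOrderedRing.toCharZero NumberField.to_charZero RCLike.charZero_rclike SubfieldClass.toDivisionRing SubfieldClass.toField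 instInhabitedOfMonad instNonemptyOfInhabited instNonemptyOfMonad Nontrivial.to_nonempty Torsor.nonempty Unique.instInhabited CategoryTheory.IsConnected.is_nonempty RCLike.innerProductSpace Pi.instOne FirstOrder.Language.instDecidableEqFunctions FirstOrder.Language.instDecidableEqRelations AddQuantale.instAddRightMono Quantale.instMulRightMono Pi.instBotForall Pi.normedRing RCLike.toInnerProductSpaceReal RingHomInvPair.triples RingHomInvPair.triples₂ Semigrp.str Submodule.instAddCommMonoidWithOne BooleanAlgebra.toBot GeneralizedBooleanAlgebra.toBot bot_nonempty infSet_to_nonempty supSet_to_nonempty top_nonempty ConnectedSpace.toNonempty IrreducibleSpace.toNonempty One.instNonempty Zero.instNonempty FinEnum.decEq FunLike.toDecidableEq RCLike.toDecidableEq Set.instAddLeftMono ENormedAddCommMonoid.toESeminormedAddCommMonoid ENormedCommMonoid.toESeminormedCommMonoid Fin.instOfNat NormedAddCommGroup.toENormedAddCommMonoid NormedCommGroup.toENormedCommMonoid Field.instIsLocalRing IsOrderedRing.toIsStrictOrderedRing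 NonUnitalAlgHomClass.toNonUnitalRingHomClass NonUnitalAlgSemiHomClass.toMulHomClass ValuationRing.isLocalRing decidableEq_of_subsingleton StarSubalgebra.commCStarAlgebra Pi.mulOneClass Pi.mulZeroClass Set.instAddRightMono OrderDual.instPow_1 instIsDedekindDomainOfIsDomainOfIsDedekindRing DivisionRing.isDomain EuclideanDomain.instIsDomain Field.isDomain IsDedekindDomain.toIsDomain IsDedekindDomainDvr.isDedekindDomain IsPrincipalIdealRing.isDedekindDomain IsStrictOrderedRing.isDomain SubringClass.toNormedCommRing Ideal.Quotient.normedCommRing Pi.commMagma SaturatedAddSubmonoid.instAddSubmonoidClass AddGroupConeClass.toAddSubmonoidClass RingConeClass.toAddGroupConeClass instInfiniteOfUncountable instNontrivialOfCharZero CategoryTheory.isConnected_of_nonempty_and_subsingleton CharZero.infinite Denumerable.instInfinite DivisionRing.toNontrivial EuclideanDomain.toNontrivial Group.instTorsor GroupWithZero.toNontrivial Infinite.instNontrivial IsAlgClosed.instInfinite IsDomain.toNontrivial IsSimpleAddGroup.toNontrivial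 IsSimpleGroup.toNontrivial IsSimpleOrder.toNontrivial IsSimpleRing.instNontrivial IsStrictOrderedRing.toNontrivial LinearOrderedAddCommGroupWithTop.toNontrivial NoMaxOrder.infinite NoMinOrder.infinite NontriviallyNormedField.infinite NormedAddTorsor.toAddTorsor Preorder.smallCategory SeminormedAddCommGroup.toNormedAddTorsor CategoryTheory.Groupoid.toCategory CategoryTheory.IsSifted.instIsConnected CategoryTheory.StrictBicategory.category FirstOrder.Language.instInfiniteOfModelDloOrderOfNonempty Pi.nonAssocRing PadicComplex.normedField SubringClass.toSeminormedCommRing Quantale.instMulLeftMono AlgebraicGeometry.instOrderTopCarrierCarrierCommRingCatOfIsIntegral FiniteDimensional.finiteDimensional_quotient StarSubalgebra.cstarAlgebra Int.instNormedAddCommGroup instSMulCommClassOfIsScalarTower LeftPreLieAlgebra.toSMulCommClass LieAdmissibleAlgebra.toSMulCommClass RightPreLieAlgebra.toSMulCommClass Vector.instHMul OneHom.oneHomClass NonUnitalNormedRing.toMetricSpace NormedAddCommGroup.toMetricSpace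 NormedAddGroup.toMetricSpace NormedCommGroup.toMetricSpace NormedDivisionRing.toMetricSpace NormedField.toMetricSpace NormedGroup.toMetricSpace NormedRing.toMetricSpace TopologicalSpace.UpgradedIsCompletelyMetrizableSpace.toMetricSpace SubalgebraClass.normedRing SubringClass.toNormedRing AbsoluteValue.zeroHomClass OrderRingHom.instRingHomClass Pi.supSet instAlgEquivClassOfNonUnitalAlgEquivClass BialgEquivClass.toAlgEquivClass ContinuousAlgEquivClass.toAlgEquivClass LinOrd.str SubringClass.toCommRing SetLike.GradeZero.instCommRing ValuationSubring.instSubringClass instTopologicalSpaceFin AddCancelCommMonoid.toAddCancelMonoid AddCancelCommMonoid.toAddCommMonoid AddCancelCommMonoid.toAddLeftCancelMonoid AddCancelMonoid.toAddLeftCancelMonoid AddCommGroup.toAddCancelCommMonoid AddCommGroup.toGrindIntModule AddCommMonoid.toGrindNatModule AddLeftCancelMonoid.toAddMonoid AddRightCancelMonoid.toAddMonoid BooleanAlgebra.toBoundedOrder BooleanAlgebra.toTop BoundedOrder.toOrderTop CancelCommMonoid.toCancelMonoid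 CancelCommMonoid.toCommMonoid CancelCommMonoid.toLeftCancelMonoid CancelMonoid.toLeftCancelMonoid CancelMonoid.toRightCancelMonoid CoheytingAlgebra.toBoundedOrder CoheytingAlgebra.toOrderTop CommGroup.toCancelCommMonoid CommGroup.toCommMonoid CommGroup.toDivisionCommMonoid CommGroupWithZero.toDivisionCommMonoid CommMonoidWithZero.toCommMonoid CommRing.toGrindCommRing CommSemiring.toGrindCommSemiring CompleteSemilatticeInf.toInfSet CompleteSemilatticeSup.toSupSet ConditionallyCompleteLattice.toInfSet ConditionallyCompleteLattice.toSupSet ConditionallyCompleteLinearOrderBot.toOrderBot ContractibleSpace.instOfNonemptyOfIndiscreteTopology ContractibleSpace.instOfNonemptyOfSubsingleton ContractibleSpace.instPathConnectedSpace Convex.instPathConnectedSpace DivInvMonoid.toMonoid DivInvOneMonoid.toDivInvMonoid DivInvOneMonoid.toInvOneClass DivisionCommMonoid.toCommMonoid DivisionCommMonoid.toDivisionMonoid DivisionMonoid.toDivInvMonoid DivisionMonoid.toDivInvOneMonoid DivisionRing.toDivInvMonoid ENormedAddCommMonoid.toENormedAddMonoid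 ENormedAddMonoid.toESeminormedAddMonoid ENormedCommMonoid.toENormedMonoid ENormedMonoid.toESeminormedMonoid ESeminormedAddCommMonoid.toAddCommMonoid ESeminormedAddCommMonoid.toESeminormedAddMonoid ESeminormedAddMonoid.toAddMonoid ESeminormedCommMonoid.toCommMonoid ESeminormedCommMonoid.toESeminormedMonoid ESeminormedMonoid.toMonoid Field.toGrindField Fin.addCommGroup Fin.addCommMonoid Fin.instBoundedOrder Fin.instCommMonoid Fin.instInhabited Fin.instNonUnitalCommRing Fin.instNontrivial Fin.instPartialOrder GeneralizedBooleanAlgebra.toOrderBot GeneralizedCoheytingAlgebra.toOrderBot GeneralizedHeytingAlgebra.toOrderTop Group.toCancelMonoid Group.toDivInvMonoid Group.toDivisionMonoid GroupWithZero.toDivInvMonoid GroupWithZero.toDivisionMonoid HeytingAlgebra.toBoundedOrder HeytingAlgebra.toOrderBot IdemSemiring.toOrderBot InvOneClass.toOne IrreducibleSpace.connectedSpace LeftCancelMonoid.toMonoid LinearOrderedAddCommGroupWithTop.toOrderTop LinearOrderedAddCommMonoidWithTop.toOrderTop LinearOrderedCommMonoidWithZero.toOrderBot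 MonoidWithZero.toMonoid MulZeroClass.negZeroClass NormedAddGroup.toENormedAddMonoid NormedAddTorsor.toAddTorsor' NormedGroup.toENormedMonoid NormedSpace.instPathConnectedSpace One.ofOfNat1 PathConnectedSpace.connectedSpace RealTopologicalVectorSpace.contractibleSpace RightCancelMonoid.toMonoid Ring.toGrindRing Semiring.toGrindSemiring SimplyConnectedSpace.instPathConnectedSpace SimplyConnectedSpace.ofContractible SubtractionCommMonoid.toAddCommMonoid UnitalShelf.toOne Zero.ofOfNat0 CategoryTheory.IsSifted.isSifted_of_hasBinaryCoproducts_and_nonempty GradedMonoid.GradeZero.commMonoid GradedMonoid.GradeZero.monoid SubalgebraClass.seminormedRing SubringClass.toSeminormedRing BialgEquivClass.toCoalgEquivClass MulSemiringActionSemiHomClass.toRingHomClass CharP.ofCharZero PositiveLinearMap.instInnerProductSpaceComplexPreGNS AddHom.addHomClass Ideal.Quotient.semiNormedCommRing -- iprune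

set_option linter.all false

section

/-!
Finite local subalgebras of an algebraically closed field with a prescribed maximal ideal, and
adjunction of roots to the residue field.
-/

namespace Vale.Agent.P177

open IsLocalRing Function

universe u

section mA

variable {R : Type u} [CommRing R] {Ω : Type u} [Field Ω] [Algebra R Ω] {d : ℕ}
  (x : Fin d → R)

/-- The elements of the ideal generated by the elements `x` in a subalgebra. -/
def InM (A : Subalgebra R Ω) (y : Ω) : Prop :=
  ∃ a : Fin d → Ω, (∀ i, a i ∈ A) ∧ y = ∑ i, algebraMap R Ω (x i) * a i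

variable {x}

theorem InM.mono {A B : Subalgebra R Ω} (h : A ≤ B) {y : Ω} (hy : InM x A y) : InM x B y := by
  obtain ⟨a, ha, hy⟩ := hy
  exact ⟨a, fun i => h (ha i), hy⟩

variable (x)

/-- Finite subalgebras in which the elements `x` generate a maximal ideal. -/
structure FinMax (A : Subalgebra R Ω) : Prop where
  finite : Module.Finite R A
  inv : ∀ y ∈ A, ¬ InM x A y → ∃ z ∈ A, InM x A (y * z - 1)

/-- Directed unions of such subalgebras. -/
def LocUnion (A : Subalgebra R Ω) : Prop :=
  ∀ F : Finset Ω, (∀ y ∈ F, y ∈ A) → ∃ A₀ : Subalgebra R Ω, A₀ ≤ A ∧ (∀ y ∈ F, y ∈ A₀) ∧ FinMax x A₀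

variable {x}

theorem mem_map_iff [IsLocalRing R] (hx : Ideal.span (Set.range x) = maximalIdeal R)
    (A : Subalgebra R Ω) (y : A) :
    y ∈ (maximalIdeal R).map (algebraMap R A) ↔ InM x A (y : Ω) := by
  have h1 : (maximalIdeal R).map (algebraMap R A) =
      Ideal.span (Set.range fun i => algebraMap R A (x i)) := by
    rw [← hx, Ideal.map_span, ← Set.range_comp]
    rfl
  rw [h1, Ideal.mem_span_range_iff_exists_fun]
  constructor
  · rintro ⟨c, hc⟩
    refine ⟨fun i => (c i : Ω), fun i => (c i).2, ?_⟩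
    rw [← hc, AddSubmonoidClass.coe_finsetSum]
    refine Finset.sum_congr rfl fun i _ => ?_
    rw [mul_comm]
    rfl
  · rintro ⟨a, ha, hy⟩
    refine ⟨fun i => ⟨a i, ha i⟩, ?_⟩
    apply Subtype.ext
    rw [hy, AddSubmonoidClass.coe_finsetSum]
    refine Finset.sum_congr rfl fun i _ => ?_
    rw [mul_comm]
    rfl

theorem not_inM_one [IsLocalRing R] (hx : Ideal.span (Set.range x) = maximalIdeal R)
    (A : Subalgebra R Ω) (hA : Module.Finite R A) : ¬ InM x A 1 := by
  intro h
  have h1 : (1 : A) ∈ (maximalIdeal R).map (algebraMap R A) := (mem_map_iff hx A 1).2 h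
  have h2 : (⊤ : Submodule R A) ≤ maximalIdeal R • ⊤ := by
    rw [Ideal.smul_top_eq_map]
    intro y _
    have h3 : (maximalIdeal R).map (algebraMap R A) = ⊤ := (Ideal.eq_top_iff_one _).2 h1
    change y ∈ (maximalIdeal R).map (algebraMap R A)
    rw [h3]
    exact Submodule.mem_top
  have h4 : (⊤ : Submodule R A) = ⊥ :=
    Submodule.eq_bot_of_le_smul_of_le_jacobson_bot (maximalIdeal R) ⊤ Module.Finite.fg_top h2
      (IsLocalRing.maximalIdeal_le_jacobson ⊥)
  have h5 : (1 : A) ∈ (⊤ : Submodule R A) := Submodule.mem_top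
  rw [h4, Submodule.mem_bot] at h5
  exact one_ne_zero h5

theorem isMaximal_iff_inv [IsLocalRing R] (hx : Ideal.span (Set.range x) = maximalIdeal R)
    (A : Subalgebra R Ω) : ((maximalIdeal R).map (algebraMap R A)).IsMaximal ↔
      ¬ InM x A 1 ∧ ∀ y ∈ A, ¬ InM x A y → ∃ z ∈ A, InM x A (y * z - 1) := by
  constructor
  · intro h
    refine ⟨fun h1 => ?_, fun y hy hy' => ?_⟩
    · exact h.ne_top ((Ideal.eq_top_iff_one _).2 ((mem_map_iff hx A 1).2 h1))
    · obtain ⟨z, i, hi, hz⟩ := h.exists_inv (x := (⟨y, hy⟩ : A))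
        (fun h2 => hy' ((mem_map_iff hx A _).1 h2))
      refine ⟨z, z.2, ?_⟩
      have h3 : (⟨y, hy⟩ : A) * z - 1 = - i := by
        rw [← hz]
        ring
      have h4 : (⟨y, hy⟩ : A) * z - 1 ∈ (maximalIdeal R).map (algebraMap R A) := by
        rw [h3]
        exact neg_mem hi
      exact (mem_map_iff hx A _).1 h4
  · rintro ⟨h1, h2⟩
    rw [Ideal.isMaximal_iff]
    refine ⟨fun h3 => h1 ((mem_map_iff hx A 1).1 h3), fun J y hJ hy hyJ => ?_⟩
    obtain ⟨z, hz, h3⟩ := h2 y y.2 (fun h4 => hy ((mem_map_iff hx A _).2 h4))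
    have h4 : y * ⟨z, hz⟩ - 1 ∈ J := hJ ((mem_map_iff hx A (y * ⟨z, hz⟩ - 1)).2 h3)
    have h5 : (1 : A) = y * ⟨z, hz⟩ - (y * ⟨z, hz⟩ - 1) := by ring
    rw [h5]
    exact J.sub_mem (J.mul_mem_right _ hyJ) h4

theorem FinMax.isMaximal [IsLocalRing R] (hx : Ideal.span (Set.range x) = maximalIdeal R)
    {A : Subalgebra R Ω} (hA : FinMax x A) :
    ((maximalIdeal R).map (algebraMap R A)).IsMaximal :=
  (isMaximal_iff_inv hx A).2 ⟨not_inM_one hx A hA.finite, hA.inv⟩

theorem finMax_bot [IsLocalRing R] (hx : Ideal.span (Set.range x) = maximalIdeal R) :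
    FinMax x (⊥ : Subalgebra R Ω) := by
  refine ⟨inferInstance, fun y hy hy' => ?_⟩
  obtain ⟨r, rfl⟩ := Algebra.mem_bot.1 hy
  have hr : r ∉ maximalIdeal R := by
    intro hr
    rw [← hx, Ideal.mem_span_range_iff_exists_fun] at hr
    obtain ⟨c, rfl⟩ := hr
    apply hy'
    refine ⟨fun i => algebraMap R Ω (c i), fun i => Algebra.mem_bot.2 ⟨c i, rfl⟩, ?_⟩
    rw [map_sum]
    refine Finset.sum_congr rfl fun i _ => ?_
    rw [map_mul, mul_comm]
  rw [mem_maximalIdeal, mem_nonunits_iff, not_not] at hr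
  obtain ⟨s, hs⟩ := hr.exists_right_inv
  refine ⟨algebraMap R Ω s, Algebra.mem_bot.2 ⟨s, rfl⟩, ?_⟩
  rw [← map_mul, hs, map_one, sub_self]
  exact ⟨fun _ => 0, fun _ => zero_mem _, by simp⟩

theorem locUnion_bot [IsLocalRing R] (hx : Ideal.span (Set.range x) = maximalIdeal R) :
    LocUnion x (⊥ : Subalgebra R Ω) :=
  fun _ hF => ⟨⊥, le_rfl, hF, finMax_bot hx⟩

theorem LocUnion.exists_inM {A : Subalgebra R Ω} (hA : LocUnion x A) {y : Ω} (hy : InM x A y)
    (F : Finset Ω) (hF : ∀ y ∈ F, y ∈ A) :
    ∃ A₀ : Subalgebra R Ω, A₀ ≤ A ∧ (∀ y ∈ F, y ∈ A₀) ∧ FinMax x A₀ ∧ InM x A₀ y := by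
  classical
  obtain ⟨a, ha, hy⟩ := hy
  obtain ⟨A₀, h1, h2, h3⟩ := hA (F ∪ Finset.univ.image a) (by
    intro z hz
    rw [Finset.mem_union] at hz
    rcases hz with hz | hz
    · exact hF z hz
    · rw [Finset.mem_image] at hz
      obtain ⟨i, -, rfl⟩ := hz
      exact ha i)
  refine ⟨A₀, h1, fun z hz => h2 z (Finset.mem_union_left _ hz), h3, a, fun i => ?_, hy⟩
  exact h2 _ (Finset.mem_union_right _ (Finset.mem_image_of_mem a (Finset.mem_univ i)))

theorem LocUnion.isMaximal [IsLocalRing R] (hx : Ideal.span (Set.range x) = maximalIdeal R)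
    {A : Subalgebra R Ω} (hA : LocUnion x A) :
    ((maximalIdeal R).map (algebraMap R A)).IsMaximal := by
  rw [isMaximal_iff_inv hx A]
  constructor
  · intro h
    obtain ⟨A₀, -, -, h3, h4⟩ := hA.exists_inM h ∅ (by simp)
    exact not_inM_one hx A₀ h3.finite h4
  · intro y hy hy'
    obtain ⟨A₀, h1, h2, h3⟩ := hA {y} (by simpa using hy)
    obtain ⟨z, hz, h4⟩ := h3.inv y (h2 y (Finset.mem_singleton_self y))
      (fun h => hy' (h.mono h1))
    exact ⟨z, h1 hz, h4.mono h1⟩

theorem isField_quotient_of_surjective {K B : Type u} [Field K] [CommRing B] [Nontrivial B]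
    (ψ : Polynomial K →+* B) (hψ : Surjective ψ) (f : Polynomial K) (hf : Irreducible f)
    (h0 : ψ f = 0) : IsField B := by
  have h1 : (Ideal.span {f}).IsMaximal := PrincipalIdealRing.isMaximal_of_irreducible hf
  have h2 : Ideal.span {f} = RingHom.ker ψ := h1.eq_of_le (RingHom.ker_ne_top ψ) (by
    rw [Ideal.span_singleton_le_iff_mem]
    exact h0)
  rw [h2] at h1
  exact (RingHom.quotientKerEquivOfSurjective hψ).symm.toMulEquiv.isField
    ((Ideal.Quotient.maximal_ideal_iff_isField_quotient _).1 h1)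

theorem FinMax.adjoin [IsLocalRing R] (hx : Ideal.span (Set.range x) = maximalIdeal R)
    {A : Subalgebra R Ω} (hA : FinMax x A) (p : ℕ) (hp : p.Prime) (a β : Ω) (ha : a ∈ A)
    (hβ : β ^ p = a) (hr : ∀ b ∈ A, ¬ InM x A (b ^ p - a)) :
    FinMax x (A ⊔ Algebra.adjoin R {β}) := by
  have hAf : Module.Finite R A := hA.finite
  have hAint : Algebra.IsIntegral R A := inferInstance
  have hai : IsIntegral R a := by
    have := Algebra.IsIntegral.isIntegral (R := R) (⟨a, ha⟩ : A)
    exact this.map A.val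
  have hβi : IsIntegral R β := by
    apply IsIntegral.of_pow hp.pos
    rw [hβ]
    exact hai
  have hadj : Module.Finite R (Algebra.adjoin R {β}) :=
    Module.Finite.iff_fg.2 hβi.fg_adjoin_singleton
  have hfin : Module.Finite R ↥(A ⊔ Algebra.adjoin R {β}) :=
    Subalgebra.finite_sup A (Algebra.adjoin R {β})
  refine ⟨hfin, ?_⟩
  set B := A ⊔ Algebra.adjoin R {β} with hB
  have hβB : β ∈ B := (le_sup_right : Algebra.adjoin R {β} ≤ B)
    (Algebra.subset_adjoin (Set.mem_singleton β))
  have hAB : A ≤ B := le_sup_left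
  let 𝔫 : Ideal A := (maximalIdeal R).map (algebraMap R A)
  let 𝔫' : Ideal B := (maximalIdeal R).map (algebraMap R B)
  have hmax : 𝔫.IsMaximal := hA.isMaximal hx
  have hne : 𝔫' ≠ ⊤ := by
    intro h
    exact not_inM_one hx B hfin ((mem_map_iff hx B 1).1 ((Ideal.eq_top_iff_one _).1 h))
  have hle : 𝔫 ≤ 𝔫'.comap (Subalgebra.inclusion hAB : A →+* B) := by
    rw [← Ideal.map_le_iff_le_comap, Ideal.map_map]
    exact le_of_eq rfl
  let K := A ⧸ 𝔫
  let _ : Field K := Ideal.Quotient.field 𝔫
  have hnt : Nontrivial (B ⧸ 𝔫') := Ideal.Quotient.nontrivial_iff.2 hne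
  let f₀ : K →+* B ⧸ 𝔫' := Ideal.quotientMap 𝔫' (Subalgebra.inclusion hAB : A →+* B) hle
  let ψ : Polynomial K →+* B ⧸ 𝔫' := Polynomial.eval₂RingHom f₀ (Ideal.Quotient.mk 𝔫' ⟨β, hβB⟩)
  have hψC : ∀ y : A, ψ (Polynomial.C (Ideal.Quotient.mk 𝔫 y)) =
      Ideal.Quotient.mk 𝔫' ⟨y, hAB y.2⟩ := fun y => by
    simp only [ψ, Polynomial.coe_eval₂RingHom, Polynomial.eval₂_C]
    rfl
  have hψX : ψ Polynomial.X = Ideal.Quotient.mk 𝔫' ⟨β, hβB⟩ := by
    simp only [ψ, Polynomial.coe_eval₂RingHom, Polynomial.eval₂_X]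
  have hsurj : Surjective ψ := by
    let T : Subalgebra R B :=
      { carrier := {y | Ideal.Quotient.mk 𝔫' y ∈ ψ.range}
        mul_mem' := fun {a b} ha hb => by
          simp only [Set.mem_ofPred_eq, RingHom.map_mul] at ha hb ⊢
          exact mul_mem ha hb
        add_mem' := fun {a b} ha hb => by
          simp only [Set.mem_ofPred_eq, RingHom.map_add] at ha hb ⊢
          exact add_mem ha hb
        algebraMap_mem' := fun r => by
          refine ⟨Polynomial.C (Ideal.Quotient.mk 𝔫 (algebraMap R A r)), ?_⟩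
          rw [hψC]
          rfl }
    have hT : B ≤ T.map B.val := by
      refine sup_le ?_ ?_
      · intro y hy
        exact ⟨⟨y, hAB hy⟩, ⟨_, hψC ⟨y, hy⟩⟩, rfl⟩
      · rw [Algebra.adjoin_le_iff]
        rintro _ rfl
        exact ⟨⟨_, hβB⟩, ⟨_, hψX⟩, rfl⟩
    intro y
    obtain ⟨y, rfl⟩ := Ideal.Quotient.mk_surjective y
    obtain ⟨z, hz, hzy⟩ := hT y.2
    have : z = y := Subtype.ext hzy
    rw [← this]
    exact hz
  have hirr : Irreducible (Polynomial.X ^ p - Polynomial.C (Ideal.Quotient.mk 𝔫 ⟨a, ha⟩) :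
      Polynomial K) := by
    apply X_pow_sub_C_irreducible_of_prime hp
    intro b
    obtain ⟨b, rfl⟩ := Ideal.Quotient.mk_surjective b
    rw [← RingHom.map_pow, Ne, Ideal.Quotient.mk_eq_mk_iff_sub_mem]
    intro h
    exact hr b b.2 ((mem_map_iff hx A _).1 h)
  have hF : IsField (B ⧸ 𝔫') := by
    refine isField_quotient_of_surjective ψ hsurj _ hirr ?_
    rw [RingHom.map_sub, RingHom.map_pow, hψX, hψC, ← RingHom.map_pow, ← RingHom.map_sub]
    have : (⟨β, hβB⟩ : B) ^ p - ⟨a, hAB ha⟩ = 0 := by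
      apply Subtype.ext
      change β ^ p - a = 0
      rw [hβ, sub_self]
    rw [this, RingHom.map_zero]
  have hmax' : 𝔫'.IsMaximal := Ideal.Quotient.maximal_of_isField _ hF
  exact ((isMaximal_iff_inv hx B).1 hmax').2

theorem exists_finset_sup (A : Subalgebra R Ω) (β y : Ω) (hy : y ∈ A ⊔ Algebra.adjoin R {β}) :
    ∃ F : Finset Ω, (∀ z ∈ F, z ∈ A) ∧ ∀ A₀ : Subalgebra R Ω, (∀ z ∈ F, z ∈ A₀) →
      y ∈ A₀ ⊔ Algebra.adjoin R {β} := by
  classical
  let T : Subalgebra R Ω :=
    { carrier := {y | ∃ F : Finset Ω, (∀ z ∈ F, z ∈ A) ∧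
        ∀ A₀ : Subalgebra R Ω, (∀ z ∈ F, z ∈ A₀) → y ∈ A₀ ⊔ Algebra.adjoin R {β}}
      mul_mem' := by
        rintro a b ⟨F, hF, h1⟩ ⟨G, hG, h2⟩
        refine ⟨F ∪ G, fun z hz => ?_, fun A₀ hA₀ => ?_⟩
        · rcases Finset.mem_union.1 hz with h | h
          · exact hF z h
          · exact hG z h
        · exact mul_mem (h1 A₀ fun z hz => hA₀ z (Finset.mem_union_left _ hz))
            (h2 A₀ fun z hz => hA₀ z (Finset.mem_union_right _ hz))
      add_mem' := by
        rintro a b ⟨F, hF, h1⟩ ⟨G, hG, h2⟩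
        refine ⟨F ∪ G, fun z hz => ?_, fun A₀ hA₀ => ?_⟩
        · rcases Finset.mem_union.1 hz with h | h
          · exact hF z h
          · exact hG z h
        · exact add_mem (h1 A₀ fun z hz => hA₀ z (Finset.mem_union_left _ hz))
            (h2 A₀ fun z hz => hA₀ z (Finset.mem_union_right _ hz))
      algebraMap_mem' := fun r => ⟨∅, by simp, fun A₀ _ => Subalgebra.algebraMap_mem _ r⟩ }
  have hT : A ⊔ Algebra.adjoin R {β} ≤ T := by
    refine sup_le ?_ ?_
    · intro z hz
      exact ⟨{z}, by simpa using hz, fun A₀ hA₀ =>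
        (le_sup_left : A₀ ≤ A₀ ⊔ _) (hA₀ z (Finset.mem_singleton_self z))⟩
    · rw [Algebra.adjoin_le_iff]
      rintro _ rfl
      exact ⟨∅, by simp, fun A₀ _ => (le_sup_right : Algebra.adjoin R _ ≤ A₀ ⊔ _)
        (Algebra.subset_adjoin (Set.mem_singleton _))⟩
  exact hT hy

theorem LocUnion.adjoin [IsLocalRing R] (hx : Ideal.span (Set.range x) = maximalIdeal R)
    {A : Subalgebra R Ω} (hA : LocUnion x A) (p : ℕ) (hp : p.Prime) (a β : Ω) (ha : a ∈ A)
    (hβ : β ^ p = a) (hr : ∀ b ∈ A, ¬ InM x A (b ^ p - a)) :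
    LocUnion x (A ⊔ Algebra.adjoin R {β}) := by
  classical
  intro F hF
  have h1 : ∀ y : F, ∃ G : Finset Ω, (∀ z ∈ G, z ∈ A) ∧ ∀ A₀ : Subalgebra R Ω,
      (∀ z ∈ G, z ∈ A₀) → (y : Ω) ∈ A₀ ⊔ Algebra.adjoin R {β} := fun y =>
    exists_finset_sup A β y (hF y y.2)
  choose G hG hG' using h1
  obtain ⟨A₀, h2, h3, h4⟩ := hA (insert a (Finset.univ.biUnion G)) (by
    intro y hy
    rw [Finset.mem_insert, Finset.mem_biUnion] at hy
    rcases hy with rfl | ⟨z, -, hz⟩
    · exact ha
    · exact hG z y hz)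
  refine ⟨A₀ ⊔ Algebra.adjoin R {β}, sup_le_sup_right h2 _, fun y hy => ?_, ?_⟩
  · refine hG' ⟨y, hy⟩ A₀ fun z hz => h3 z ?_
    rw [Finset.mem_insert, Finset.mem_biUnion]
    exact Or.inr ⟨_, Finset.mem_univ _, hz⟩
  · exact h4.adjoin hx p hp a β (h3 a (Finset.mem_insert_self _ _)) hβ fun b hb h =>
      hr b (h2 hb) (h.mono h2)

theorem locUnion_sSup (c : Set (Subalgebra R Ω)) (hc : ∀ A ∈ c, LocUnion x A)
    (hch : IsChain (· ≤ ·) c) (hne : c.Nonempty) : LocUnion x (sSup c) := by
  classical
  intro F hF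
  have hdir : DirectedOn (· ≤ ·) c := hch.directedOn
  have h1 : ∃ A ∈ c, ∀ y ∈ F, y ∈ A := by
    induction F using Finset.induction with
    | empty =>
      obtain ⟨A, hA⟩ := hne
      exact ⟨A, hA, by simp⟩
    | insert z F _ ih =>
      obtain ⟨A, hA, h2⟩ := ih fun y hy => hF y (Finset.mem_insert_of_mem hy)
      have hne' : Nonempty c := hne.to_subtype
      have h4 : z ∈ ⨆ B : c, (B : Subalgebra R Ω) := by
        rw [← sSup_eq_iSup']
        exact hF z (Finset.mem_insert_self _ _)
      rw [← SetLike.mem_coe, Subalgebra.coe_iSup_of_directed hdir.directed_val,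
        Set.mem_iUnion] at h4
      obtain ⟨⟨B, hB⟩, h3⟩ := h4
      obtain ⟨C, hC, hAC, hBC⟩ := hdir A hA B hB
      refine ⟨C, hC, fun y hy => ?_⟩
      rcases Finset.mem_insert.1 hy with rfl | hy
      · exact hBC h3
      · exact hAC (h2 y hy)
  obtain ⟨A, hA, h2⟩ := h1
  obtain ⟨A₀, h3, h4, h5⟩ := hc A hA F h2
  exact ⟨A₀, h3.trans (le_sSup hA), h4, h5⟩

/-- A maximal directed union has a perfect residue ring. -/
theorem exists_locUnion_perfect [IsLocalRing R] [IsAlgClosed Ω]
    (hx : Ideal.span (Set.range x) = maximalIdeal R) (p : ℕ) (hp : p.Prime) :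
    ∃ A : Subalgebra R Ω, LocUnion x A ∧ ∀ a ∈ A, ∃ b ∈ A, InM x A (b ^ p - a) := by
  obtain ⟨A, -, hA⟩ := zorn_le_nonempty₀ {A : Subalgebra R Ω | LocUnion x A} (fun c hc hch y hy =>
    ⟨sSup c, locUnion_sSup c hc hch ⟨y, hy⟩, fun z hz => le_sSup hz⟩) ⊥ (locUnion_bot hx)
  refine ⟨A, hA.prop, fun a ha => ?_⟩
  by_contra hcon
  push Not at hcon
  obtain ⟨β, hβ⟩ := IsAlgClosed.exists_pow_nat_eq a hp.pos
  have h1 : LocUnion x (A ⊔ Algebra.adjoin R {β}) := LocUnion.adjoin hx hA.prop p hp a β ha hβ hcon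
  have h2 : A ⊔ Algebra.adjoin R {β} ≤ A := hA.le_of_ge h1 le_sup_left
  have h3 : β ∈ A := h2 ((le_sup_right : Algebra.adjoin R {β} ≤ A ⊔ _)
    (Algebra.subset_adjoin (Set.mem_singleton β)))
  apply hcon β h3
  rw [hβ, sub_self]
  exact ⟨fun _ => 0, fun _ => zero_mem _, by simp⟩

end mA

end Vale.Agent.P177
end

section

/-!
The canonical map from the Witt vectors of a perfect residue field to a complete local ring.
-/

namespace Vale.Agent.P177

open IsLocalRing _root_.Ideal Function

universe u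

section witt

variable {S : Type u} [CommRing S] [IsLocalRing S] (p : ℕ) [Fact p.Prime]

theorem mk_ghostComponent_eq_zero (hp : (p : S) ∈ maximalIdeal S) (n : ℕ) (x : WittVector p S)
    (hx : WittVector.map (residue S) x = 0) :
    Ideal.Quotient.mk (maximalIdeal S ^ (n + 1)) (WittVector.ghostComponent n x) = 0 := by
  have hc : ∀ i, x.coeff i ∈ maximalIdeal S := by
    intro i
    have h1 := congrArg (fun y => WittVector.coeff y i) hx
    simp only [WittVector.map_coeff, WittVector.zero_coeff] at h1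
    exact (residue_eq_zero_iff _).1 h1
  rw [Ideal.Quotient.eq_zero_iff_mem, WittVector.ghostComponent_apply, aeval_wittPolynomial]
  refine Ideal.sum_mem _ fun i hi => ?_
  have hi' : i ≤ n := Nat.lt_succ_iff.1 (Finset.mem_range.1 hi)
  have h2 : n + 1 ≤ i + p ^ (n - i) := by
    have := Nat.lt_pow_self (Fact.out (p := p.Prime)).one_lt (n := n - i)
    omega
  have h3 : (p : S) ^ i * x.coeff i ^ p ^ (n - i) ∈ maximalIdeal S ^ (i + p ^ (n - i)) := by
    rw [pow_add]
    exact Ideal.mul_mem_mul (Ideal.pow_mem_pow hp i) (Ideal.pow_mem_pow (hc i) _)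
  exact Ideal.pow_le_pow_right h2 h3

/-- The `n`-th ghost component modulo a power of the maximal ideal. -/
noncomputable def ghostMod (hp : (p : S) ∈ maximalIdeal S) (n : ℕ) :
    WittVector p (ResidueField S) →+* S ⧸ maximalIdeal S ^ (n + 1) :=
  RingHom.liftOfSurjective (WittVector.map (residue S))
    (WittVector.map_surjective _ residue_surjective)
    ⟨(Ideal.Quotient.mk (maximalIdeal S ^ (n + 1))).comp (WittVector.ghostComponent n),
      fun x hx => mk_ghostComponent_eq_zero p hp n x hx⟩

theorem ghostMod_map (hp : (p : S) ∈ maximalIdeal S) (n : ℕ) (x : WittVector p S) :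
    ghostMod p hp n (WittVector.map (residue S) x) =
      Ideal.Quotient.mk (maximalIdeal S ^ (n + 1)) (WittVector.ghostComponent n x) :=
  RingHom.liftOfSurjective_comp_apply ..

variable [CharP (ResidueField S) p] [PerfectRing (ResidueField S) p]

/-- The inverse of the Frobenius map. -/
noncomputable def rootHom (k : Type u) [Field k] [CharP k p] [PerfectRing k p] : k →+* k :=
  ((frobeniusEquiv k p).symm : k →+* k)

/-- The canonical map modulo a power of the maximal ideal. -/
noncomputable def wittMod (hp : (p : S) ∈ maximalIdeal S) (n : ℕ) :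
    WittVector p (ResidueField S) →+* S ⧸ maximalIdeal S ^ (n + 1) :=
  (ghostMod p hp n).comp (WittVector.map (rootHom p (ResidueField S) ^ n))

theorem wittMod_teichmuller (hp : (p : S) ∈ maximalIdeal S) (n : ℕ) (a : ResidueField S) (b : S)
    (hb : residue S b = (rootHom p (ResidueField S) ^ n) a) :
    wittMod p hp n (WittVector.teichmuller p a) =
      Ideal.Quotient.mk (maximalIdeal S ^ (n + 1)) (b ^ p ^ n) := by
  rw [wittMod, RingHom.comp_apply, WittVector.map_teichmuller, ← hb,
    ← WittVector.map_teichmuller, ghostMod_map, WittVector.ghostComponent_teichmuller]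

theorem factorPowSucc_comp_wittMod (hp : (p : S) ∈ maximalIdeal S) (n : ℕ) :
    (Ideal.Quotient.factorPowSucc (maximalIdeal S) (n + 1)).comp (wittMod p hp (n + 1)) =
      wittMod p hp n := by
  apply WittVector.eq_of_apply_teichmuller_eq
  · refine ⟨n + 1, ?_⟩
    rw [← map_natCast (Ideal.Quotient.mk (maximalIdeal S ^ (n + 1))), ← map_pow,
      Ideal.Quotient.eq_zero_iff_mem]
    exact Ideal.pow_mem_pow hp _
  · intro a
    obtain ⟨b, hb⟩ := residue_surjective ((rootHom p (ResidueField S) ^ (n + 1)) a)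
    have hb' : residue S (b ^ p) = (rootHom p (ResidueField S) ^ n) a := by
      rw [map_pow, hb]
      have h1 : (rootHom p (ResidueField S) ^ (n + 1)) a =
          rootHom p (ResidueField S) ((rootHom p (ResidueField S) ^ n) a) := by
        rw [pow_succ']
        rfl
      rw [h1]
      exact frobeniusEquiv_symm_pow_p _ _ _
    rw [RingHom.comp_apply, wittMod_teichmuller p hp (n + 1) a b hb,
      wittMod_teichmuller p hp n a (b ^ p) hb']
    rw [← pow_mul, ← pow_succ']
    rfl

theorem exists_witt_hom [IsAdicComplete (maximalIdeal S) S] :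
    ∃ σ : WittVector p (ResidueField S) →+* S, ∀ w, residue S (σ w) = w.coeff 0 := by
  have hp : (p : S) ∈ maximalIdeal S := by
    rw [← residue_eq_zero_iff, map_natCast]
    exact CharP.cast_eq_zero _ _
  refine ⟨IsAdicComplete.StrictMono.liftRingHom (maximalIdeal S) Order.succ_strictMono
    (fun n => wittMod p hp n) (factorPowSucc_comp_wittMod p hp _), fun w => ?_⟩
  have h1 := IsAdicComplete.StrictMono.mk_liftRingHom (maximalIdeal S) Order.succ_strictMono
    (fun n => wittMod p hp n) (factorPowSucc_comp_wittMod p hp _) (n := 0) w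
  obtain ⟨x, rfl⟩ := WittVector.map_surjective (p := p) _ (residue_surjective (R := S)) w
  set y := IsAdicComplete.StrictMono.liftRingHom (maximalIdeal S) Order.succ_strictMono
    (fun n => wittMod p hp n) (factorPowSucc_comp_wittMod p hp _)
    (WittVector.map (residue S) x)
  have h2 : wittMod p hp 0 (WittVector.map (residue S) x) =
      Ideal.Quotient.mk (maximalIdeal S ^ (0 + 1)) (x.coeff 0) := by
    have h3 : wittMod p hp 0 (WittVector.map (residue S) x) =
        ghostMod p hp 0 (WittVector.map (residue S) x) := by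
      rw [wittMod, RingHom.comp_apply]
      congr 1
    rw [h3, ghostMod_map]
    congr 1
    rw [WittVector.ghostComponent_apply, aeval_wittPolynomial]
    simp
  have h4 : Ideal.Quotient.mk (maximalIdeal S ^ (0 + 1)) y =
      Ideal.Quotient.mk (maximalIdeal S ^ (0 + 1)) (x.coeff 0) := h1.trans h2
  rw [Ideal.Quotient.mk_eq_mk_iff_sub_mem, zero_add, pow_one] at h4
  rw [WittVector.map_coeff, ← sub_eq_zero, ← map_sub, residue_eq_zero_iff]
  exact h4

end witt

end Vale.Agent.P177
end

section

/-!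
The height inequality for a generic orthogonal transformation.
-/

namespace Vale.Agent.P177

open MvPolynomial TensorProduct

universe u

end Vale.Agent.P177
end

section

/-!
Transversality of the tangent cones to a linear subspace.
-/

namespace Vale.Agent.P177

open TensorProduct IsLocalRing MvPolynomial

universe u

end Vale.Agent.P177
end

section

/-! P177, block LIFT: evaluation of power series at Teichmueller representatives of elements of an
ideal for which the ring is complete. -/

namespace Vale.Agent.P177.Lf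

open MvPowerSeries

universe u

section

variable (p : ℕ) [hp : Fact p.Prime] {A : Type*} [CommRing A] (J : Ideal A)

/-- elements of `W(A)` are determined by their images in all `W(A/J^N)`. -/
theorem extW [IsHausdorff J A] {z z' : WittVector p A}
    (h : ∀ N, WittVector.map (Ideal.Quotient.mk (J ^ N)) z =
      WittVector.map (Ideal.Quotient.mk (J ^ N)) z') : z = z' := by
  ext n
  rw [← sub_eq_zero]
  apply IsHausdorff.haus (I := J) inferInstance
  intro N
  rw [SModEq.zero, smul_eq_mul, Ideal.mul_top, ← Ideal.Quotient.eq_zero_iff_mem, map_sub,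
    sub_eq_zero]
  have := congrArg (fun w => WittVector.coeff w n) (h N)
  simpa only [WittVector.map_coeff] using this

/-- compatible families in `W(A/J^N)` come from `W(A)`. -/
theorem glueW [IsPrecomplete J A] (z : ∀ N, WittVector p (A ⧸ J ^ N))
    (hz : ∀ N, WittVector.map (Ideal.Quotient.factorPow J (Nat.le_succ N)) (z (N + 1)) = z N) :
    ∃ w : WittVector p A, ∀ N, WittVector.map (Ideal.Quotient.mk (J ^ N)) w = z N := by
  have hz' : ∀ n N : ℕ, Ideal.Quotient.factorPow J (Nat.le_succ N) ((z (N + 1)).coeff n) =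
      (z N).coeff n := fun n N => by
    have := congrArg (fun w => WittVector.coeff w n) (hz N)
    simpa only [WittVector.map_coeff] using this
  choose a ha using fun (n N : ℕ) => Ideal.Quotient.mk_surjective ((z N).coeff n)
  have hstep : ∀ n N : ℕ, a n (N + 1) - a n N ∈ J ^ N := fun n N => by
    rw [← Ideal.Quotient.eq_zero_iff_mem, map_sub, ha, ← hz', ← ha n (N + 1), sub_eq_zero]
    rfl
  have hle : ∀ n {M N : ℕ}, M ≤ N → a n N - a n M ∈ J ^ M := fun n M N hMN => by
    induction N, hMN using Nat.le_induction with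
    | base => simp
    | succ N hN ih =>
      have h1 := Ideal.add_mem _ (Ideal.pow_le_pow_right hN (hstep n N)) ih
      rwa [sub_add_sub_cancel] at h1
  have hlim : ∀ n, ∃ L : A, ∀ N, a n N - L ∈ J ^ N := fun n => by
    obtain ⟨L, hL⟩ := IsPrecomplete.prec (I := J) (M := A) inferInstance (f := a n)
      (fun {M N} hMN => by
        rw [SModEq.sub_mem, smul_eq_mul, Ideal.mul_top, ← neg_mem_iff, neg_sub]
        exact hle n hMN)
    refine ⟨L, fun N => ?_⟩
    have := hL N
    rwa [SModEq.sub_mem, smul_eq_mul, Ideal.mul_top] at this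
  choose L hL using hlim
  refine ⟨WittVector.mk p L, fun N => ?_⟩
  ext n
  rw [WittVector.map_coeff, WittVector.coeff_mk, ← ha n N, eq_comm, ← sub_eq_zero, ← map_sub,
    Ideal.Quotient.eq_zero_iff_mem]
  exact hL n N

variable {B : Type*} [CommRing B] {n : ℕ} (σ : B →+* WittVector p A) (x : Fin n → A)

/-- the evaluation modulo `J^N` on polynomials. -/
noncomputable def evN (N : ℕ) : MvPolynomial (Fin n) B →+* WittVector p (A ⧸ J ^ N) :=
  MvPolynomial.eval₂Hom ((WittVector.map (Ideal.Quotient.mk (J ^ N))).comp σ)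
    (fun l => WittVector.teichmuller p (Ideal.Quotient.mk (J ^ N) (x l)))

theorem evN_eq (N : ℕ) (f : MvPolynomial (Fin n) B) :
    evN p J σ x N f = WittVector.map (Ideal.Quotient.mk (J ^ N))
      (MvPolynomial.eval₂Hom σ (fun l => WittVector.teichmuller p (x l)) f) := by
  rw [evN, ← RingHom.comp_apply]
  congr 1
  apply MvPolynomial.ringHom_ext
  · intro b
    simp
  · intro l
    simp [WittVector.map_teichmuller]

theorem evN_zero (hx : ∀ l, x l ∈ J) (N : ℕ) {q : MvPolynomial (Fin n) B}
    (hq : q ∈ MvPolynomial.idealOfVars (Fin n) B ^ N) : evN p J σ x N q = 0 := by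
  rw [MvPolynomial.mem_pow_idealOfVars_iff] at hq
  rw [evN, MvPolynomial.coe_eval₂Hom, MvPolynomial.eval₂_eq']
  refine Finset.sum_eq_zero fun d hd => ?_
  have h1 : ∏ i, WittVector.teichmuller p (Ideal.Quotient.mk (J ^ N) (x i)) ^ d i =
      WittVector.teichmuller p (Ideal.Quotient.mk (J ^ N) (∏ i, x i ^ d i)) := by
    simp only [map_prod, map_pow]
  rw [h1]
  have h2 : (∏ i, x i ^ d i) ∈ J ^ N := by
    have h3 : (∏ i, x i ^ d i) ∈ ∏ i : Fin n, J ^ d i :=
      Ideal.prod_mem_prod fun i _ => Ideal.pow_mem_pow (hx i) _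
    rw [Finset.prod_pow_eq_pow_sum, ← Finsupp.degree_eq_sum] at h3
    exact Ideal.pow_le_pow_right (hq d hd) h3
  rw [Ideal.Quotient.eq_zero_iff_mem.2 h2, WittVector.teichmuller_zero, mul_zero]

/-- (L0): evaluation of power series at Teichmueller representatives. -/
theorem exists_evalW [IsAdicComplete J A] (hx : ∀ l, x l ∈ J) :
    ∃ φ : MvPowerSeries (Fin n) B →+* WittVector p A, ∀ f : MvPolynomial (Fin n) B,
      φ (f : MvPowerSeries (Fin n) B) =
        MvPolynomial.eval₂Hom σ (fun l => WittVector.teichmuller p (x l)) f := by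
  let φN : ∀ N, MvPowerSeries (Fin n) B →+* WittVector p (A ⧸ J ^ N) := fun N =>
    (Ideal.Quotient.lift (MvPolynomial.idealOfVars (Fin n) B ^ N) (evN p J σ x N)
      (fun _ hq => evN_zero p J σ x hx N hq)).comp (truncTotalAlgHom (Fin n) B N).toRingHom
  have hφN : ∀ N g, φN N g = evN p J σ x N (truncTotal N g) := fun N g => rfl
  have hcompat : ∀ N g, WittVector.map (Ideal.Quotient.factorPow J (Nat.le_succ N))
      (φN (N + 1) g) = φN N g := by
    intro N g
    rw [hφN, hφN, evN_eq, ← RingHom.comp_apply]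
    have h0 : (WittVector.map (p := p) (Ideal.Quotient.factorPow J (Nat.le_succ N))).comp
        (WittVector.map (Ideal.Quotient.mk (J ^ (N + 1)))) =
        WittVector.map (Ideal.Quotient.mk (J ^ N)) := by
      ext w m
      simp only [RingHom.comp_apply, WittVector.map_coeff]
      rfl
    rw [h0, ← evN_eq, ← sub_eq_zero, ← map_sub]
    apply evN_zero p J σ x hx
    exact truncTotal_sub_truncTotal_mem_pow_idealOfVars (Nat.le_succ N) le_rfl g
  choose φ hφ using fun g => glueW p J (fun N => φN N g) (fun N => hcompat N g)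
  refine ⟨{ toFun := φ, map_one' := ?_, map_mul' := ?_, map_zero' := ?_, map_add' := ?_ }, ?_⟩
  · exact extW p J fun N => by rw [hφ, map_one, map_one]
  · intro f g
    exact extW p J fun N => by rw [hφ, map_mul, map_mul, hφ, hφ]
  · exact extW p J fun N => by rw [hφ, map_zero, map_zero]
  · intro f g
    exact extW p J fun N => by rw [hφ, map_add, map_add, hφ, hφ]
  · intro f
    refine extW p J fun N => ?_
    change WittVector.map (Ideal.Quotient.mk (J ^ N)) (φ (f : MvPowerSeries (Fin n) B)) = _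
    rw [hφ, hφN, ← evN_eq, ← sub_eq_zero, ← map_sub]
    apply evN_zero p J σ x hx
    have h2 := (truncTotalAlgHom (Fin n) B N).commutes f
    have h3 : (Ideal.Quotient.mk (MvPolynomial.idealOfVars (Fin n) B ^ N))
        (truncTotal N (f : MvPowerSeries (Fin n) B)) = Ideal.Quotient.mk _ f := h2
    rw [← Ideal.Quotient.eq_zero_iff_mem, map_sub, h3, sub_self]

end

end Vale.Agent.P177.Lf
end

section

/-!
P177, B7, L5: growth of the Tor modules of `S / (π, z ^ t)` from the finiteness of one Koszul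
homology.
-/

namespace Vale.Agent.P177.KG

open scoped ENNReal

universe u

/-! ### growth modulo an ideal that kills everything -/

namespace KFam

variable {R : Type u} [CommRing R] (F : KFam R) (L : ALen R) (a : Ideal R)
  (ha : ∀ r ∈ a, ∀ xs i (z : F.H xs i), r • z = 0)
include ha

theorem kill_sup {xs : List R} {x : R} (hx : x ∈ Ideal.ofList xs ⊔ a) (i : ℕ) (z : F.H xs i) :
    x • z = 0 := by
  obtain ⟨u, hu, v, hv, rfl⟩ := Submodule.mem_sup.1 hx
  rw [add_smul, F.kill_ofList hu, ha v hv, add_zero]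

theorem len_length_le_ann (ys : List R) {cs : List R}
    (h : ∀ y ∈ ys, y ∈ Ideal.ofList cs ⊔ a) (i : ℕ) :
    L.len (F.H cs i) ≤ L.len (F.H (ys.reverse ++ cs) (i + ys.length)) := by
  induction ys generalizing cs i with
  | nil => exact le_rfl
  | cons y ys ih =>
    have h1 : ∀ z : F.H cs i, ((1 : R) * y) • z = 0 := fun z => by
      rw [one_mul]
      exact F.kill_sup a ha (h y (by simp)) i z
    have h2 : ∀ y' ∈ ys, y' ∈ Ideal.ofList (y :: cs) ⊔ a := fun y' hy' =>
      (sup_le_sup (ofList_le_append [y] cs) le_rfl : _ ≤ _) (h y' (by simp [hy']))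
    have h3 := ih h2 (i + 1)
    have h4 := F.len_pw_succ_le L h1 0
    rw [len_pw_one, len_pw_one] at h4
    have e2 : i + (y :: ys).length = i + 1 + ys.length := by rw [List.length_cons]; ring
    have e3 : (y :: ys).reverse ++ cs = ys.reverse ++ (y :: cs) := by simp
    rw [e2, e3]
    exact h4.trans h3

theorem growth1_ann {cs ys : List R} (h : ∀ y ∈ ys, y ∈ Ideal.ofList cs ⊔ a) (i : ℕ) :
    L.len (F.H cs i) ≤ bsum cs.length (fun q => L.len (F.H ys q)) (i + ys.length) := by
  refine (F.len_length_le_ann L a ha ys h i).trans ?_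
  have hp : (ys.reverse ++ cs).Perm (cs ++ ys) :=
    List.perm_append_comm.trans ((List.reverse_perm ys).append_left cs)
  rw [F.len_perm L hp]
  exact F.len_append_le L cs ys _

theorem growth3_ann {cs ys : List R} {l : ℕ} (h : ∀ y ∈ ys, y ^ l ∈ Ideal.ofList cs ⊔ a)
    (t i : ℕ) :
    L.len (F.H (cs.map (· ^ t)) i) ≤
      ((l * (cs.length * t + 1 + 1) : ℕ) : ℝ≥0∞) ^ ys.length *
        bsum cs.length (fun q => L.len (F.H ys q)) (i + ys.length) := by
  have h1 : ∀ y ∈ ys.map (· ^ (l * (cs.length * t + 1 + 1))),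
      y ∈ Ideal.ofList (cs.map (· ^ t)) ⊔ a := by
    intro y' hy'
    obtain ⟨y, hy, rfl⟩ := List.mem_map.1 hy'
    have h2 := Ideal.pow_mem_pow (h y hy) (cs.length * t + 1 + 1)
    rw [← pow_mul] at h2
    have h3 := Ideal.sup_pow_add_le_pow_sup_pow h2
    rw [pow_one] at h3
    exact (sup_le_sup (Vale.Agent.P177.KG.ofList_pow_le cs t) le_rfl : _ ≤ _) h3
  have h2 := F.growth1_ann L a ha h1 i
  rw [List.length_map, List.length_map] at h2
  refine h2.trans ?_
  rw [← bsum_const_mul]
  exact bsum_mono _ (fun q => F.growth2 L ys _ q) _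

end KFam

section Kill

variable {R : Type u} [CommRing R] {M : Type u} [AddCommGroup M] [Module R M]

theorem KC_X_smul_eq_zero {r : R} (hr : ∀ m : M, r • m = 0) (xs : List R) :
    ∀ (i : ℕ) (x : (KC M xs).X i), r • x = 0 := by
  induction xs with
  | nil =>
    intro i x
    cases i with
    | zero => exact hr x
    | succ i => rfl
  | cons y xs ih =>
    intro i x
    cases i with
    | zero => exact ih 0 x
    | succ i =>
      obtain ⟨a, b, rfl⟩ := (KC M xs).exists_pr y i x
      show r • (KC M xs).pr y i a b = 0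
      rw [Cx.pr_smul, ih (i + 1) a, ih i b]
      rfl

theorem KC_H_smul_eq_zero {r : R} (hr : ∀ m : M, r • m = 0) (xs : List R) (i : ℕ)
    (z : (KC M xs).H i) : r • z = 0 := by
  obtain ⟨x, hx, rfl⟩ := (KC M xs).cl_surj i z
  rw [← map_smul]
  refine (KC M xs).cl_eq_zero.2 ?_
  show r • x ∈ _
  rw [KC_X_smul_eq_zero hr xs i x]
  exact Submodule.zero_mem _

theorem bsum_le_const (n : ℕ) {φ : ℕ → ℝ≥0∞} {c : ℝ≥0∞} (h : ∀ q, φ q ≤ c) (i : ℕ) :
    KFam.bsum n φ i ≤ (2 ^ n : ℕ) * c := by
  refine (Finset.sum_le_sum (g := fun jq : ℕ × ℕ => (n.choose jq.1 : ENNReal) * c)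
    fun jq _ => mul_le_mul' le_rfl (h jq.2)).trans ?_
  rw [← Finset.sum_mul]
  refine mul_le_mul' ?_ le_rfl
  rw [← Nat.cast_sum]
  refine Nat.cast_le.2 ?_
  rw [Finset.Nat.sum_antidiagonal_eq_sum_range_succ_mk, ← Nat.sum_range_choose]
  rcases le_total (i + 1) (n + 1) with hle | hle
  · exact Finset.sum_le_sum_of_subset (Finset.range_mono hle)
  · refine le_of_eq (Finset.sum_subset (Finset.range_mono hle) ?_).symm
    intro x _ hx
    rw [Finset.mem_range, not_lt] at hx
    exact Nat.choose_eq_zero_of_lt hx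

/-- growth, constant form, modulo the annihilator. -/
theorem KC_growth_ann (L : ALen R) {cs ys : List R} {l : ℕ} (a : Ideal R)
    (ha : ∀ r ∈ a, ∀ m : M, r • m = 0)
    (h : ∀ y ∈ ys, y ^ l ∈ Ideal.ofList cs ⊔ a)
    {c : ℝ≥0∞} (hc : ∀ q, L.len ((KC M ys).H q) ≤ c) (t i : ℕ) (ht : 1 ≤ t) :
    L.len ((KC M (cs.map (· ^ t))).H i) ≤
      ((l * (cs.length + 2)) ^ ys.length * 2 ^ cs.length : ℕ) * c * (t : ℝ≥0∞) ^ ys.length := by
  have h0 := (kfam M).growth3_ann L a
    (fun r hr xs i z => KC_H_smul_eq_zero (ha r hr) xs i z) h t i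
  refine h0.trans ?_
  have h1 := bsum_le_const cs.length hc (i + ys.length)
  have h2 : ((l * (cs.length * t + 1 + 1) : ℕ) : ENNReal) ≤
      ((l * (cs.length + 2) * t : ℕ) : ENNReal) := by
    refine Nat.cast_le.2 ?_
    rw [mul_assoc]
    refine Nat.mul_le_mul le_rfl ?_
    nlinarith [Nat.zero_le cs.length, ht]
  refine (mul_le_mul' (pow_le_pow_left' h2 _) h1).trans (le_of_eq ?_)
  push_cast
  rw [mul_pow]
  ring

end Kill

end Vale.Agent.P177.KG

namespace Vale.Agent.P177.SL

open Vale.Agent.P202.Mix Function TensorProduct IsLocalRing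
open scoped ENNReal Pointwise

universe u

section

variable {S D : Type u} [CommRing S] [CommRing D] [Algebra S D] [Module.Flat S D]

/-- `tau` of a cyclic module of a regular sequence is Koszul homology. -/
theorem tau_eq_len_KC (L : AddLen D) (xs : List S)
    (hreg : RingTheory.Sequence.IsWeaklyRegular S xs) (X : Type u) [AddCommGroup X] [Module D X]
    (i : ℕ) : tau S L i (S ⧸ Ideal.ofList xs) X =
      L.len ((KG.KC X (xs.map (algebraMap S D))).H i) := by
  have h := KG.len_tor_flat_eq (KG.ALen.of L) hreg i X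
  obtain ⟨e⟩ := tor_symm (R := D) i X (D ⊗[S] (S ⧸ Ideal.ofList xs))
  have h2 := len_congr L e
  rw [tau, TT]
  exact h2.symm.trans h

omit [Module.Flat S D] in
theorem pz_map {d : ℕ} (π : S) (z : Fin d → S) (t : ℕ) :
    (pz π z t).map (algebraMap S D) =
      algebraMap S D π :: (List.ofFn fun i => algebraMap S D (z i)).map (· ^ t) := by
  rw [pz, List.map_cons, List.map_ofFn, List.map_ofFn]
  congr 1
  congr 1
  funext i
  simp

omit [Module.Flat S D] in
theorem exists_common_pow {I : Ideal D} (ys : List D) (h : ∀ y ∈ ys, ∃ l : ℕ, y ^ l ∈ I) :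
    ∃ l : ℕ, ∀ y ∈ ys, y ^ l ∈ I := by
  induction ys with
  | nil => exact ⟨0, fun y hy => absurd hy (List.not_mem_nil)⟩
  | cons y ys ih =>
    obtain ⟨l1, h1⟩ := h y (by simp)
    obtain ⟨l2, h2⟩ := ih fun y' hy' => h y' (by simp [hy'])
    refine ⟨l1 + l2, fun y' hy' => ?_⟩
    rcases List.mem_cons.1 hy' with rfl | hy'
    · rw [pow_add]
      exact I.mul_mem_right _ h1
    · rw [pow_add]
      exact I.mul_mem_left _ (h2 y' hy')

/-- **(L5)**: growth of `Tor (S / (π, z ^ t), X)` from the finiteness of the Koszul homology of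
`π, ys` on `X`. -/
theorem baseGrowth_of_kos (L : AddLen D) (X : Type u) [AddCommGroup X] [Module D X] {d : ℕ}
    (π : S) (z : Fin d → S)
    (hreg : ∀ t, 1 ≤ t → RingTheory.Sequence.IsWeaklyRegular S (pz π z t))
    (hX : ∀ x : X, algebraMap S D π • x = 0 → x = 0) (ys : List D)
    (hy : ∀ y ∈ ys, ∃ l : ℕ, y ^ l ∈ (Ideal.ofList (pz π z 1)).map (algebraMap S D) ⊔
      Module.annihilator D X)
    (hfin : ∀ i, L.len ((KG.KC X (algebraMap S D π :: ys)).H i) ≠ ⊤) :
    BaseGrowth L π z ys.length X := by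
  set π' : D := algebraMap S D π with hπ'
  set cs : List D := List.ofFn fun i => algebraMap S D (z i) with hcs
  obtain ⟨l, hl⟩ := exists_common_pow ys hy
  -- the quotient by `π'`
  let Y : Type u := X ⧸ (π' • (⊤ : Submodule D X))
  have hex : ∀ m : X, (π' • (⊤ : Submodule D X)).mkQ m = 0 ↔ ∃ m' : X, π' • m' = m := by
    intro m
    rw [Submodule.mkQ_apply, Submodule.Quotient.mk_eq_zero]
    constructor
    · rintro ⟨m', -, h'⟩
      exact ⟨m', h'⟩
    · rintro ⟨m', h'⟩
      exact ⟨m', trivial, h'⟩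
  have hcons : ∀ (xs : List D) (i : ℕ), L.len ((KG.KC X (π' :: xs)).H i) =
      L.len ((KG.KC Y xs).H i) := fun xs i =>
    len_congr L (KG.KC_cons_equiv π' hX (Submodule.mkQ (π' • (⊤ : Submodule D X)))
      (Submodule.mkQ_surjective _) hex xs i)
  let a : Ideal D := Ideal.span {π'} ⊔ Module.annihilator D X
  have ha : ∀ r ∈ a, ∀ m : Y, r • m = 0 := by
    intro r hr m
    obtain ⟨m, rfl⟩ := Submodule.mkQ_surjective _ m
    obtain ⟨u, hu, v, hv, rfl⟩ := Submodule.mem_sup.1 hr
    obtain ⟨u, rfl⟩ := Ideal.mem_span_singleton'.1 hu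
    rw [← map_smul, add_smul, Module.mem_annihilator.1 hv, add_zero, mul_comm, mul_smul]
    exact (hex _).2 ⟨_, rfl⟩
  have hl' : ∀ y ∈ ys, y ^ l ∈ Ideal.ofList cs ⊔ a := by
    intro y hy'
    have h1 := hl y hy'
    rw [Ideal.map_ofList, pz_map, Ideal.ofList_cons] at h1
    have e : (List.ofFn fun i => algebraMap S D (z i)).map (· ^ 1) = cs := by
      rw [hcs]
      simp only [pow_one]
      exact List.map_id _
    rw [e] at h1
    have e2 : Ideal.span {π'} ⊔ Ideal.ofList cs ⊔ Module.annihilator D X =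
        Ideal.ofList cs ⊔ a := by
      show _ = Ideal.ofList cs ⊔ (Ideal.span {π'} ⊔ Module.annihilator D X)
      rw [← sup_assoc, sup_comm (Ideal.ofList cs)]
    rw [← e2]
    exact h1
  -- a common bound
  let c : ℝ≥0∞ := ∑ q ∈ Finset.range (ys.length + 1), L.len ((KG.KC Y ys).H q)
  have hc : c < ⊤ := by
    refine ENNReal.sum_lt_top.2 fun q _ => ?_
    rw [← hcons]
    exact lt_top_iff_ne_top.2 (hfin q)
  have hcb : ∀ q, (KG.ALen.of L).len ((KG.KC Y ys).H q) ≤ c := by
    intro q
    by_cases hq : q ∈ Finset.range (ys.length + 1)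
    · exact Finset.single_le_sum (f := fun q => L.len ((KG.KC Y ys).H q))
        (fun _ _ => zero_le) hq
    · rw [Finset.mem_range, not_lt] at hq
      rw [KG.KC_len_eq_zero (KG.ALen.of L) Y ys (by omega)]
      exact zero_le
  refine ⟨((l * (cs.length + 2)) ^ ys.length * 2 ^ cs.length : ℕ) * c,
    ENNReal.mul_lt_top (ENNReal.natCast_lt_top _) hc, ?_⟩
  intro t ht i
  rw [tau_eq_len_KC L _ (hreg t ht) X i, pz_map, hcons]
  exact KG.KC_growth_ann (KG.ALen.of L) a ha hl' hcb t i ht

end

end Vale.Agent.P177.SL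
end

section

/-!
P177, block B7, piece L9: finiteness of the Koszul homology of `W(C) / W(J)` for a list with one
element less, when a power of `γ` lies in `J`.
-/

namespace Vale.Agent.P177.SL

open Vale.Agent.P202.Mix Function TensorProduct IsLocalRing
open scoped ENNReal

universe u

section gen

variable {D : Type u} [CommRing D] (L : AddLen D) (X : Type u) [AddCommGroup X] [Module D X]

/-- the associated length of `KG`. -/
def toALen {D : Type u} [CommRing D] (L : AddLen D) : KG.ALen D := ⟨L.len, L.zero, L.add⟩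

theorem exists_uniform_pow (I : Ideal D) (big : List D) (h : ∀ b ∈ big, ∃ l : ℕ, b ^ l ∈ I) :
    ∃ l : ℕ, ∀ b ∈ big, b ^ l ∈ I := by
  induction big with
  | nil => exact ⟨0, fun b hb => absurd hb (by simp)⟩
  | cons a big ih =>
    obtain ⟨l, hl⟩ := ih fun b hb => h b (by simp [hb])
    obtain ⟨l', hl'⟩ := h a (by simp)
    refine ⟨l + l', fun b hb => ?_⟩
    rcases List.mem_cons.1 hb with rfl | hb
    · rw [pow_add]
      exact Ideal.mul_mem_left _ _ hl'
    · rw [pow_add]
      exact Ideal.mul_mem_right _ _ (hl b hb)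

end gen

section W

variable (p : ℕ) [Fact p.Prime] {C : Type u} [CommRing C] [CharP C p] [PerfectRing C p]

open WittVector

/-- an element with zeroth coefficient in `(s)` lies in `(p, [s])`. -/
theorem mem_of_coeff_zero_mem_span {s : Set C} {𝔞 : Ideal (WittVector p C)}
    (hp : (p : WittVector p C) ∈ 𝔞) (hs : ∀ a ∈ s, teichmuller p a ∈ 𝔞) {x : C}
    (hx : x ∈ Ideal.span s) : ∀ w : WittVector p C, w.coeff 0 = x → w ∈ 𝔞 := by
  have key : ∀ w w' : WittVector p C, w.coeff 0 = w'.coeff 0 → w' ∈ 𝔞 → w ∈ 𝔞 := by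
    intro w w' h hw'
    have h1 : (w - w').coeff 0 = 0 := by
      have h2 : WittVector.constantCoeff (w - w') = 0 := by
        rw [map_sub, WittVector.constantCoeff_apply, WittVector.constantCoeff_apply, h, sub_self]
      rwa [WittVector.constantCoeff_apply] at h2
    have h2 := (WittVector.mem_span_p_iff_coeff_zero_eq_zero (w - w')).2 h1
    have h3 : Ideal.span {(p : WittVector p C)} ≤ 𝔞 := by
      rw [Ideal.span_singleton_le_iff_mem]
      exact hp
    have h4 : w = (w - w') + w' := by ring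
    rw [h4]
    exact 𝔞.add_mem (h3 h2) hw'
  induction hx using Submodule.span_induction with
  | mem a ha =>
    intro w hw
    exact key w (teichmuller p a) (by rw [hw, teichmuller_coeff_zero]) (hs a ha)
  | zero =>
    intro w hw
    exact key w 0 (by rw [hw, WittVector.zero_coeff]) 𝔞.zero_mem
  | add a b _ _ iha ihb =>
    intro w hw
    have h1 := iha (teichmuller p a) (teichmuller_coeff_zero p a)
    have h2 := ihb (w - teichmuller p a) (by
      have h3 : WittVector.constantCoeff (w - teichmuller p a) = b := by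
        rw [map_sub, WittVector.constantCoeff_apply, WittVector.constantCoeff_apply, hw,
          teichmuller_coeff_zero, add_sub_cancel_left]
      rwa [WittVector.constantCoeff_apply] at h3)
    have h4 : w = (w - teichmuller p a) + teichmuller p a := by ring
    rw [h4]
    exact 𝔞.add_mem h2 h1
  | smul c a _ iha =>
    intro w hw
    refine key w (teichmuller p c * teichmuller p a) ?_
      (Ideal.mul_mem_left _ _ (iha _ (teichmuller_coeff_zero p a)))
    rw [hw, ← map_mul, teichmuller_coeff_zero, smul_eq_mul]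

theorem te_mem_of_mem_span {s : Set C} {𝔞 : Ideal (WittVector p C)}
    (hp : (p : WittVector p C) ∈ 𝔞) (hs : ∀ a ∈ s, teichmuller p a ∈ 𝔞) {x : C}
    (hx : x ∈ Ideal.span s) : teichmuller p x ∈ 𝔞 :=
  mem_of_coeff_zero_mem_span p hp hs hx _ (teichmuller_coeff_zero p x)

/-- the elements of the short list lie in the radical of every ideal that contains `p` and
powers of the `[v i]`. -/
theorem te_mem_radical {a : ℕ} (v : Fin a → C) {y : C} (hy : y ∈ Ideal.span (Set.range v))
    {𝔞 : Ideal (WittVector p C)} (hp : (p : WittVector p C) ∈ 𝔞)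
    (h : ∀ i, ∃ l : ℕ, teichmuller p (v i) ^ l ∈ 𝔞) : ∃ l : ℕ, teichmuller p y ^ l ∈ 𝔞 := by
  have h1 : teichmuller p y ∈ 𝔞.radical := by
    refine te_mem_of_mem_span p (Ideal.le_radical hp) ?_ hy
    rintro _ ⟨i, rfl⟩
    exact h i
  exact h1

end W

end Vale.Agent.P177.SL
end

section

/-!
P177, block B7-L6: vanishing of the lengths of `Tor_i(D ⊗ S/(gs), X)`, `i ≥ 1`, for a weakly
regular sequence `gs` when a list `ys` of the same length in the radical of `(gs)` has
Koszul homology of length zero in positive degrees.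
-/

namespace Vale.Agent.P177.KG

open scoped ENNReal

universe u

section Ann

variable {R : Type u} [CommRing R]

/-- the cone only depends on the action of the element. -/
theorem Cx.cone_congr (A : Cx R) {y a : R} (h : ∀ i (x : A.X i), y • x = a • x) :
    A.cone y = A.cone a := by
  have h1 : A.coneD y = A.coneD a := by
    funext i
    cases i with
    | zero =>
      refine LinearMap.ext fun x => ?_
      show A.d 0 x.1 + y • x.2 = A.d 0 x.1 + a • x.2
      rw [h]
    | succ i =>
      refine LinearMap.ext fun x => ?_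
      show ((A.d (i + 1) x.1 + y • x.2, - A.d i x.2) : A.X (i + 1) × A.X i) =
        ((A.d (i + 1) x.1 + a • x.2, - A.d i x.2) : A.X (i + 1) × A.X i)
      rw [h]
  unfold Cx.cone
  congr 1

variable (M : Type u) [AddCommGroup M] [Module R M]

/-- the Koszul complex only depends on the action of the elements. -/
theorem KC_map_congr (f : R → R) (ys : List R)
    (h : ∀ y ∈ ys, ∀ m : M, y • m = f y • m) : KC M (ys.map f) = KC M ys := by
  induction ys with
  | nil => rfl
  | cons y ys ih =>
    rw [List.map_cons]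
    have h1 := ih fun y' hy' => h y' (List.mem_cons_of_mem _ hy')
    show (KC M (ys.map f)).cone (f y) = (KC M ys).cone y
    rw [h1]
    refine Cx.cone_congr _ fun i x => ?_
    have h0 : ∀ m : M, (LinearMap.lsmul R M y) m = f y • m := h y List.mem_cons_self
    rw [← KCmap_smul (f y) (LinearMap.lsmul R M y) h0 ys i x,
      KCmap_smul y (LinearMap.lsmul R M y) (fun m => rfl) ys i x]

/-- **growth 1** modulo the annihilator. -/
theorem KC_growth1_ann (L : ALen R) {cs ys : List R}
    (h : ∀ y ∈ ys, y ∈ Ideal.ofList cs ⊔ Module.annihilator R M) (i : ℕ) :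
    L.len ((KC M cs).H i) ≤
      KFam.bsum cs.length (fun q => L.len ((KC M ys).H q)) (i + ys.length) := by
  classical
  have h' : ∀ y, ∃ a, y ∈ ys → a ∈ Ideal.ofList cs ∧ ∀ m : M, y • m = a • m := by
    intro y
    by_cases hy : y ∈ ys
    · obtain ⟨a, ha, b, hb, hab⟩ := Submodule.mem_sup.1 (h y hy)
      refine ⟨a, fun _ => ⟨ha, fun m => ?_⟩⟩
      rw [← hab, add_smul, Module.mem_annihilator.1 hb m, add_zero]
    · exact ⟨0, fun h => absurd h hy⟩
  choose f hf using h'
  have h1 := (kfam M).growth1' L (cs := cs) (ys := ys.map f) (by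
    intro y' hy'
    obtain ⟨y, hy, rfl⟩ := List.mem_map.1 hy'
    exact (hf y hy).1) i
  rw [List.length_map] at h1
  refine h1.trans (le_of_eq ?_)
  congr 1
  funext q
  show L.len ((KC M (ys.map f)).H q) = _
  rw [KC_map_congr M f ys fun y hy => (hf y hy).2]

/-- a common exponent. -/
theorem exists_common_pow (I : Ideal R) (ys : List R) (h : ∀ y ∈ ys, ∃ l : ℕ, y ^ l ∈ I) :
    ∃ l : ℕ, ∀ y ∈ ys, y ^ l ∈ I := by
  induction ys with
  | nil => exact ⟨0, fun y hy => absurd hy (List.not_mem_nil)⟩
  | cons y ys ih =>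
    obtain ⟨l1, h1⟩ := h y List.mem_cons_self
    obtain ⟨l2, h2⟩ := ih fun y' hy' => h y' (List.mem_cons_of_mem _ hy')
    refine ⟨l1 + l2, fun y' hy' => ?_⟩
    rcases List.mem_cons.1 hy' with rfl | hy'
    · rw [pow_add]
      exact Ideal.mul_mem_right _ _ h1
    · rw [pow_add]
      exact Ideal.mul_mem_left _ _ (h2 y' hy')

/-- lists of the same length with the same radical: vanishing and finiteness. -/
theorem KC_len_zero_of_rad (L : ALen R) {cs ys : List R} (hlen : cs.length = ys.length)
    (h0 : ∀ i, 1 ≤ i → L.len ((KC M ys).H i) = 0) (h1 : L.len ((KC M ys).H 0) ≠ ⊤)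
    (hy : ∀ y ∈ ys, ∃ l : ℕ, y ^ l ∈ Ideal.ofList cs ⊔ Module.annihilator R M) :
    (∀ i, 1 ≤ i → L.len ((KC M cs).H i) = 0) ∧ L.len ((KC M cs).H 0) ≠ ⊤ := by
  obtain ⟨l, hl⟩ := exists_common_pow _ ys hy
  have g2 : ∀ q, L.len ((KC M (ys.map (· ^ l))).H q) ≤
      (l : ℝ≥0∞) ^ ys.length * L.len ((KC M ys).H q) := fun q => KC_growth2 L M ys l q
  have g1 : ∀ i, L.len ((KC M cs).H i) ≤ KFam.bsum cs.length
      (fun q => L.len ((KC M (ys.map (· ^ l))).H q)) (i + ys.length) := by
    intro i
    have := KC_growth1_ann M L (cs := cs) (ys := ys.map (· ^ l)) (by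
      intro y' hy'
      obtain ⟨y, hy'', rfl⟩ := List.mem_map.1 hy'
      exact hl y hy'') i
    rwa [List.length_map] at this
  have gz : ∀ q, 1 ≤ q → L.len ((KC M (ys.map (· ^ l))).H q) = 0 := by
    intro q hq
    have := g2 q
    rw [h0 q hq, mul_zero] at this
    exact nonpos_iff_eq_zero.1 this
  constructor
  · intro i hi
    refine nonpos_iff_eq_zero.1 ((g1 i).trans (le_of_eq (Finset.sum_eq_zero ?_)))
    rintro ⟨j, q⟩ hjq
    rw [Finset.HasAntidiagonal.mem_antidiagonal] at hjq
    dsimp only at hjq ⊢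
    rcases Nat.eq_zero_or_pos q with rfl | hq
    · have : cs.length.choose j = 0 := Nat.choose_eq_zero_of_lt (by omega)
      rw [this, Nat.cast_zero, zero_mul]
    · rw [gz q hq, mul_zero]
  · refine ne_top_of_le_ne_top ?_ (g1 0)
    refine ENNReal.sum_ne_top.2 fun jq _ => ENNReal.mul_ne_top (ENNReal.natCast_ne_top _) ?_
    show L.len ((KC M (ys.map (· ^ l))).H jq.2) ≠ ⊤
    rcases Nat.eq_zero_or_pos jq.2 with hq | hq
    · rw [hq]
      exact ne_top_of_le_ne_top (ENNReal.mul_ne_top
        (ENNReal.pow_ne_top (ENNReal.natCast_ne_top _)) h1) (g2 0)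
    · rw [gz _ hq]
      exact ENNReal.zero_ne_top

end Ann

end Vale.Agent.P177.KG

namespace Vale.Agent.P177.SL

open Vale.Agent.P202.Mix Function TensorProduct IsLocalRing
open scoped ENNReal

universe u

variable {S D : Type u} [CommRing S] [CommRing D] [Algebra S D] [Module.Flat S D] (L : AddLen D)
  (X : Type u) [AddCommGroup X] [Module D X]

/-- the lengths of Tor are lengths of Koszul homology. -/
theorem tau_quot_eq (gs : List S) (hreg : RingTheory.Sequence.IsWeaklyRegular S gs) (i : ℕ) :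
    tau S L i (S ⧸ Ideal.ofList gs) X =
      (KG.ALen.of L).len ((KG.KC X (gs.map (algebraMap S D))).H i) := by
  obtain ⟨e1⟩ := tor_symm (R := D) i (D ⊗[S] (S ⧸ Ideal.ofList gs)) X
  obtain ⟨e2⟩ := KG.tor_equiv_flat (D := D) hreg i X
  exact len_congr L (e1.trans e2)

/-- **L6**. -/
theorem tau_ci_eq_zero (gs : List S) (hreg : RingTheory.Sequence.IsWeaklyRegular S gs)
    (ys : List D) (hlen : gs.length = ys.length)
    (h0 : ∀ i, 1 ≤ i → L.len ((KG.KC X ys).H i) = 0) (h1 : L.len ((KG.KC X ys).H 0) ≠ ⊤)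
    (hy : ∀ y ∈ ys, ∃ l : ℕ, y ^ l ∈
      (Ideal.ofList gs).map (algebraMap S D) ⊔ Module.annihilator D X) :
    (∀ i, 1 ≤ i → tau S L i (S ⧸ Ideal.ofList gs) X = 0) ∧
      tau S L 0 (S ⧸ Ideal.ofList gs) X ≠ ⊤ := by
  have h := KG.KC_len_zero_of_rad X (KG.ALen.of L) (cs := gs.map (algebraMap S D)) (ys := ys)
    (by rw [List.length_map, hlen]) h0 h1 (by
      intro y hy'
      obtain ⟨l, hl⟩ := hy y hy'
      refine ⟨l, ?_⟩
      rwa [Ideal.map_ofList] at hl)
  constructor
  · intro i hi
    rw [tau_quot_eq L X gs hreg i]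
    exact h.1 i hi
  · rw [tau_quot_eq L X gs hreg 0]
    exact h.2

end Vale.Agent.P177.SL
end

section

/-!
P177, block B7, piece L9 with the hypothesis of `Nat/Cut.lean`: if `(t, x)^L ≤ (y) + J`, then the
Koszul homology of `W(C) / W(J)` for `p, [y_1], .., [y_r]` has finite length.
-/

namespace Vale.Agent.P177.SL

open Vale.Agent.P202.Mix Function TensorProduct IsLocalRing
open scoped ENNReal

universe u

section gen

variable {D : Type u} [CommRing D] (L : AddLen D) (X : Type u) [AddCommGroup X] [Module D X]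

/-- finiteness of the Koszul homology passes to a list `cs` such that the elements of `big` have
powers in `(cs) + ann X`. -/
theorem KC_ne_top_of_pow_ann {big cs : List D}
    (h : ∀ b ∈ big, ∃ l : ℕ, b ^ l ∈ Ideal.ofList cs ⊔ Module.annihilator D X)
    (hfin : ∀ q, L.len ((KG.KC X big).H q) ≠ ⊤) (q : ℕ) : L.len ((KG.KC X cs).H q) ≠ ⊤ := by
  obtain ⟨l, hl⟩ := exists_uniform_pow _ big h
  have h0 : ∀ y ∈ big.map (· ^ l), y ∈ Ideal.ofList cs ⊔ Module.annihilator D X := by
    intro y hy
    obtain ⟨b, hb, rfl⟩ := List.mem_map.1 hy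
    exact hl b hb
  have h1 := KG.KC_growth1_ann X (toALen L) h0 q
  refine ne_top_of_le_ne_top ?_ h1
  rw [KG.KFam.bsum]
  refine ENNReal.sum_ne_top.2 fun jq _ =>
    ENNReal.mul_ne_top (ENNReal.natCast_ne_top _) ?_
  refine ne_top_of_le_ne_top ?_ (KG.KC_growth2 (toALen L) X big l jq.2)
  exact ENNReal.mul_ne_top (ENNReal.pow_ne_top (ENNReal.natCast_ne_top _)) (hfin jq.2)

end gen

section W

variable (p : ℕ) [Fact p.Prime] {C : Type u} [CommRing C] [CharP C p] [PerfectRing C p]

open WittVector

omit [CharP C p] [PerfectRing C p] in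
theorem te_mem_annihilator {J : Ideal C} {c : C} (hc : c ∈ J) :
    teichmuller p c ∈ Module.annihilator (WittVector p C) (WittVector p C ⧸ PI.WI p J) := by
  rw [Ideal.annihilator_quotient]
  exact PI.te_mem_WI p hc

theorem te_pow_mem_of_cut {a d : ℕ} (v : Fin a → C) (y : Fin d → C) (J : Ideal C) (l : ℕ)
    (hv : Ideal.span (Set.range v) ^ l ≤ Ideal.span (Set.range y) ⊔ J) (i : Fin a) :
    teichmuller p (v i) ^ l ∈ Ideal.ofList ((p : WittVector p C) ::
      List.ofFn fun i => teichmuller p (y i)) ⊔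
        Module.annihilator (WittVector p C) (WittVector p C ⧸ PI.WI p J) := by
  have h1 : v i ^ l ∈ Ideal.span (Set.range y ∪ (J : Set C)) := by
    rw [Ideal.span_union, Ideal.span_eq]
    exact hv (Ideal.pow_mem_pow (Ideal.subset_span (Set.mem_range_self i)) l)
  rw [← map_pow]
  refine te_mem_of_mem_span p (le_sup_left (a := Ideal.ofList ((p : WittVector p C) ::
    List.ofFn fun i => teichmuller p (y i))) (Ideal.subset_span (by simp))) ?_ h1
  rintro c (⟨j, rfl⟩ | hc)
  · exact le_sup_left (a := Ideal.ofList ((p : WittVector p C) ::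
      List.ofFn fun i => teichmuller p (y i))) (Ideal.subset_span (by simp))
  · exact le_sup_right (a := Ideal.ofList ((p : WittVector p C) ::
      List.ofFn fun i => teichmuller p (y i))) (te_mem_annihilator p hc)

/-- **L9**: the list `p, [y]` of length one less has finite Koszul homology on `W(C) / W(J)`. -/
theorem ne_top_of_cut {a d : ℕ} (v : Fin a → C) (y : Fin d → C) (J : Ideal C) (l : ℕ)
    (hv : Ideal.span (Set.range v) ^ l ≤ Ideal.span (Set.range y) ⊔ J)
    (L : AddLen (WittVector p C))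
    (hfin : ∀ q, L.len ((KG.KC (WittVector p C ⧸ PI.WI p J)
      ((p : WittVector p C) :: List.ofFn fun i => teichmuller p (v i))).H q) ≠ ⊤) (q : ℕ) :
    L.len ((KG.KC (WittVector p C ⧸ PI.WI p J)
      ((p : WittVector p C) :: List.ofFn fun i => teichmuller p (y i))).H q) ≠ ⊤ := by
  refine KC_ne_top_of_pow_ann L _ ?_ hfin q
  intro b hb
  rcases List.mem_cons.1 hb with rfl | hb
  · exact ⟨1, by
      rw [pow_one]
      exact le_sup_left (a := Ideal.ofList ((p : WittVector p C) ::
        List.ofFn fun i => teichmuller p (y i))) (Ideal.subset_span (by simp))⟩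
  · obtain ⟨i, rfl⟩ := (List.mem_ofFn' _ _).1 hb
    exact ⟨l, te_pow_mem_of_cut p v y J l hv i⟩

/-- **L9**, existential form, from the output of `NatC.exists_cut`. -/
theorem exists_short_list_of_cut {a d : ℕ} (v : Fin a → C) (y : Fin d → C)
    (hy : ∀ j, y j ∈ Ideal.span (Set.range v)) (J : Ideal C) (l : ℕ)
    (hv : Ideal.span (Set.range v) ^ l ≤ Ideal.span (Set.range y) ⊔ J)
    (L : AddLen (WittVector p C))
    (hfin : ∀ q, L.len ((KG.KC (WittVector p C ⧸ PI.WI p J)
      ((p : WittVector p C) :: List.ofFn fun i => teichmuller p (v i))).H q) ≠ ⊤) :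
    ∃ ys : List (WittVector p C), ys.length = d ∧
      (∀ q, L.len ((KG.KC (WittVector p C ⧸ PI.WI p J) ((p : WittVector p C) :: ys)).H q) ≠ ⊤) ∧
      ∀ 𝔞 : Ideal (WittVector p C), (p : WittVector p C) ∈ 𝔞 →
        (∀ i, ∃ l : ℕ, teichmuller p (v i) ^ l ∈ 𝔞) → ∀ w ∈ ys, ∃ l : ℕ, w ^ l ∈ 𝔞 := by
  refine ⟨List.ofFn fun i => teichmuller p (y i), List.length_ofFn,
    ne_top_of_cut p v y J l hv L hfin, fun 𝔞 hp h w hw => ?_⟩
  obtain ⟨j, rfl⟩ := (List.mem_ofFn' _ _).1 hw
  exact te_mem_radical p v (hy j) hp h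

end W

end Vale.Agent.P177.SL
end

section

/-!
P177: `u ^ n ≤ length (N / (z_1 ^ u, .., z_n ^ u) N)` for `n = dim N`.
-/

namespace Vale.Agent.P177

open TensorProduct Function IsLocalRing Pointwise

universe u

section

variable {B : Type u} [CommRing B] [IsLocalRing B] [IsNoetherianRing B]

omit [IsLocalRing B] [IsNoetherianRing B] in
theorem mem_pow_smul_top {X : Type u} [AddCommGroup X] [Module B X] (z : B) (x : X) :
    x ∈ z • (⊤ : Submodule B X) ↔ ∃ y, z • y = x := by
  rw [Submodule.mem_smul_pointwise_iff_exists]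
  simp

theorem eul_quot_pow (z : B) (ws : List B) (X : Type u) [AddCommGroup X] [Module B X]
    [Module.Finite B X] (hreg : IsSMulRegular X z) (hX : FL (z :: ws) X) (n : ℕ) :
    FL ws (QuotSMulTop (z ^ n) X) ∧
      eul ws (QuotSMulTop (z ^ n) X) = n * eul ws (QuotSMulTop z X) := by
  have hFL : ∀ n : ℕ, FL ws (QuotSMulTop (z ^ n) X) := by
    intro n
    refine (hX.of_surjective _ (Submodule.mkQ_surjective (z ^ n • (⊤ : Submodule B X)))).of_pow n ?_
    exact QuotSMulTop.mem_annihilator X (z ^ n)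
  refine ⟨hFL n, ?_⟩
  induction n with
  | zero =>
    have : Subsingleton (QuotSMulTop (z ^ 0) X) := by
      rw [pow_zero]
      refine ⟨fun a b => ?_⟩
      obtain ⟨a, rfl⟩ := Submodule.mkQ_surjective _ a
      obtain ⟨b, rfl⟩ := Submodule.mkQ_surjective _ b
      rw [← sub_eq_zero, ← map_sub, Submodule.mkQ_apply, Submodule.Quotient.mk_eq_zero,
        mem_pow_smul_top]
      exact ⟨_, one_smul _ _⟩
    rw [eul_subsingleton, Nat.cast_zero, zero_mul]
  | succ n ih =>
    let f : QuotSMulTop (z ^ n) X →ₗ[B] QuotSMulTop (z ^ (n + 1)) X :=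
      Submodule.mapQ _ _ (LinearMap.lsmul B X z) (by
        intro x hx
        rw [mem_pow_smul_top] at hx
        obtain ⟨y, rfl⟩ := hx
        rw [Submodule.mem_comap, mem_pow_smul_top]
        exact ⟨y, by rw [LinearMap.lsmul_apply, smul_smul, pow_succ']⟩)
    let g : QuotSMulTop (z ^ (n + 1)) X →ₗ[B] QuotSMulTop z X :=
      Submodule.mapQ _ _ LinearMap.id (by
        intro x hx
        rw [mem_pow_smul_top] at hx
        obtain ⟨y, rfl⟩ := hx
        rw [Submodule.mem_comap, mem_pow_smul_top]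
        exact ⟨z ^ n • y, by rw [LinearMap.id_apply, smul_smul, pow_succ']⟩)
    have hf : Injective f := by
      rw [injective_iff_map_eq_zero]
      intro x hx
      obtain ⟨x, rfl⟩ := Submodule.mkQ_surjective _ x
      change (z ^ (n + 1) • (⊤ : Submodule B X)).mkQ (z • x) = 0 at hx
      rw [Submodule.mkQ_apply, Submodule.Quotient.mk_eq_zero, mem_pow_smul_top] at hx ⊢
      obtain ⟨y, hy⟩ := hx
      refine ⟨y, hreg ?_⟩
      change z • (z ^ n • y) = z • x
      rw [← hy, smul_smul, pow_succ']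
    have hg : Surjective g := by
      intro x
      obtain ⟨x, rfl⟩ := Submodule.mkQ_surjective _ x
      exact ⟨Submodule.mkQ _ x, rfl⟩
    have hex : Exact f g := by
      intro x
      obtain ⟨x, rfl⟩ := Submodule.mkQ_surjective _ x
      constructor
      · intro hx
        change (z • (⊤ : Submodule B X)).mkQ x = 0 at hx
        rw [Submodule.mkQ_apply, Submodule.Quotient.mk_eq_zero, mem_pow_smul_top] at hx
        obtain ⟨y, rfl⟩ := hx
        exact ⟨Submodule.mkQ _ y, rfl⟩
      · rintro ⟨y, hy⟩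
        rw [← hy]
        obtain ⟨y, rfl⟩ := Submodule.mkQ_surjective _ y
        change (z • (⊤ : Submodule B X)).mkQ (z • y) = 0
        rw [Submodule.mkQ_apply, Submodule.Quotient.mk_eq_zero, mem_pow_smul_top]
        exact ⟨y, rfl⟩
    rw [eul_add ws f g hf hg hex (hFL (n + 1)), ih]
    push_cast
    ring

/-- `eul` is multiplicative in the first parameter. -/
theorem eul_cons_pow (z : B) (ws : List B) (X : Type u) [AddCommGroup X] [Module B X]
    [Module.Finite B X] (hX : FL (z :: ws) X) (n : ℕ) :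
    eul (z ^ n :: ws) X = n * eul (z :: ws) X := by
  obtain ⟨m, Γ, hΓ, hreg⟩ := exists_torsion_pow X z
  have hX' : FL (z ^ n :: ws) X := by
    unfold FL at hX ⊢
    refine hX.trans ?_
    rw [← Ideal.radical_idem (Module.annihilator B X ⊔ Ideal.ofList (z ^ n :: ws))]
    apply Ideal.radical_mono
    rw [Ideal.ofList_cons, Ideal.ofList_cons]
    refine sup_le ?_ (sup_le ?_ ?_)
    · exact le_sup_left.trans Ideal.le_radical
    · rw [Ideal.span_singleton_le_iff_mem]
      exact ⟨n, Ideal.mem_sup_right (Ideal.mem_sup_left (Ideal.mem_span_singleton_self _))⟩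
    · exact (le_sup_right.trans le_sup_right).trans Ideal.le_radical
  have hex : Exact Γ.subtype Γ.mkQ := by
    intro x
    simp
  have h1 := eul_add (z :: ws) Γ.subtype Γ.mkQ (Submodule.injective_subtype _)
    (Submodule.mkQ_surjective _) hex hX
  have h2 := eul_add (z ^ n :: ws) Γ.subtype Γ.mkQ (Submodule.injective_subtype _)
    (Submodule.mkQ_surjective _) hex hX'
  have hFLΓ : FL ws Γ :=
    (hX.of_injective Γ.subtype (Submodule.injective_subtype _)).of_pow m hΓ
  rw [eul_cons_eq_zero z ws Γ hFLΓ, zero_add] at h1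
  rw [eul_cons_eq_zero (z ^ n) ws Γ hFLΓ, zero_add] at h2
  have hFLQ : FL (z :: ws) (X ⧸ Γ) := hX.of_surjective Γ.mkQ (Submodule.mkQ_surjective _)
  have key : ∀ y : B, IsSMulRegular (X ⧸ Γ) y →
      eul (y :: ws) (X ⧸ Γ) = eul ws (QuotSMulTop y (X ⧸ Γ)) := by
    intro y hy
    have htors : Subsingleton (Submodule.torsionBy B (X ⧸ Γ) y) := by
      refine subsingleton_of_forall_eq 0 ?_
      rintro ⟨x, hx⟩
      apply Subtype.ext
      rw [isSMulRegular_iff_right_eq_zero_of_smul] at hy
      exact hy x hx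
    change eul ws (QuotSMulTop y (X ⧸ Γ)) - eul ws (Submodule.torsionBy B (X ⧸ Γ) y) = _
    rw [eul_subsingleton ws (Submodule.torsionBy B (X ⧸ Γ) y), sub_zero]
  rw [h2, h1, key z hreg, key (z ^ n) (hreg.pow n)]
  exact (eul_quot_pow z ws (X ⧸ Γ) hreg hFLQ n).2

omit [IsNoetherianRing B] in
theorem FL.map_pow {zs : List B} {X : Type u} [AddCommGroup X] [Module B X] {n : ℕ}
    (hX : FL zs X) : FL (zs.map (· ^ n)) X := by
  unfold FL at hX ⊢
  refine hX.trans ?_
  rw [← Ideal.radical_idem (Module.annihilator B X ⊔ Ideal.ofList (zs.map (· ^ n)))]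
  apply Ideal.radical_mono
  refine sup_le (le_sup_left.trans Ideal.le_radical) ?_
  rw [Ideal.ofList, Ideal.span_le]
  intro y hy
  exact ⟨n, Ideal.mem_sup_right (Ideal.subset_span (List.mem_map.2 ⟨y, hy, rfl⟩))⟩

theorem eul_map_pow (zs : List B) (X : Type u) [AddCommGroup X] [Module B X]
    [Module.Finite B X] (hX : FL zs X) (n : ℕ) :
    eul (zs.map (· ^ n)) X = (n : ℤ) ^ zs.length * eul zs X := by
  induction zs generalizing X with
  | nil => simp
  | cons z zs ih =>
    rw [List.map_cons, eul_cons_pow z _ X ?_ n]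
    · change (n : ℤ) * (eul (zs.map (· ^ n)) (QuotSMulTop z X) -
        eul (zs.map (· ^ n)) (Submodule.torsionBy B X z)) = (n : ℤ) ^ (z :: zs).length *
          (eul zs (QuotSMulTop z X) - eul zs (Submodule.torsionBy B X z))
      rw [ih _ hX.quot, ih _ hX.torsionBy, List.length_cons, pow_succ]
      ring
    · unfold FL at hX ⊢
      refine hX.trans ?_
      rw [← Ideal.radical_idem (Module.annihilator B X ⊔ Ideal.ofList (z :: zs.map (· ^ n)))]
      apply Ideal.radical_mono
      rw [Ideal.ofList_cons, Ideal.ofList_cons]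
      refine sup_le ?_ (sup_le ?_ ?_)
      · exact le_sup_left.trans Ideal.le_radical
      · exact (le_sup_left.trans le_sup_right).trans Ideal.le_radical
      · rw [Ideal.ofList, Ideal.span_le]
        intro y hy
        exact ⟨n, Ideal.mem_sup_right (Ideal.mem_sup_right
          (Ideal.subset_span (List.mem_map.2 ⟨y, hy, rfl⟩)))⟩

theorem eul_le_length (zs : List B) (hzs : ∀ z ∈ zs, z ∈ maximalIdeal B) (X : Type u)
    [AddCommGroup X] [Module B X] [Module.Finite B X] (hX : FL zs X) :
    ((eul zs X).toNat : ℕ∞) ≤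
      Module.length B (X ⧸ (Ideal.ofList zs • ⊤ : Submodule B X)) := by
  induction zs generalizing X with
  | nil =>
    have h1 : Module.length B (X ⧸ (Ideal.ofList ([] : List B) • ⊤ : Submodule B X)) =
        Module.length B X := by
      rw [Ideal.ofList_nil]
      exact (Submodule.quotEquivOfEqBot _ (by simp)).length_eq
    rw [h1]
    unfold eul
    rw [Int.toNat_natCast]
    exact ENat.natCast_toNat_le_self _
  | cons z zs ih =>
    have hzs' : ∀ y ∈ zs, y ∈ maximalIdeal B := fun y hy => hzs y (List.mem_cons_of_mem _ hy)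
    have h1 := ih hzs' (QuotSMulTop z X) hX.quot
    have h2 := (eul_nonneg_pos zs hzs' (Submodule.torsionBy B X z) hX.torsionBy).1
    have h3 : eul (z :: zs) X ≤ eul zs (QuotSMulTop z X) := by
      change eul zs (QuotSMulTop z X) - eul zs (Submodule.torsionBy B X z) ≤ _
      linarith
    have h4 : ((eul (z :: zs) X).toNat : ℕ∞) ≤ ((eul zs (QuotSMulTop z X)).toNat : ℕ∞) := by
      exact_mod_cast Int.toNat_le_toNat h3
    refine (h4.trans h1).trans ?_
    -- `X / (z, zs) X → (X / z X) / zs (X / z X)` is surjective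
    let φ : (X ⧸ (Ideal.ofList (z :: zs) • ⊤ : Submodule B X)) →ₗ[B]
        (QuotSMulTop z X ⧸ (Ideal.ofList zs • ⊤ : Submodule B (QuotSMulTop z X))) :=
      Submodule.mapQ _ _ (Submodule.mkQ _) (by
        rw [Ideal.ofList_cons, Submodule.sup_smul]
        refine sup_le ?_ ?_
        · rw [Submodule.smul_le]
          intro r hr x _
          rw [Ideal.mem_span_singleton'] at hr
          obtain ⟨a, rfl⟩ := hr
          rw [Submodule.mem_comap, mul_smul, map_smul]
          refine Submodule.smul_mem _ _ ?_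
          have : (z • (⊤ : Submodule B X)).mkQ (z • x) = 0 := by
            rw [Submodule.mkQ_apply, Submodule.Quotient.mk_eq_zero, mem_pow_smul_top]
            exact ⟨x, rfl⟩
          rw [this]
          exact zero_mem _
        · rw [Submodule.smul_le]
          intro r hr x _
          rw [Submodule.mem_comap, map_smul]
          exact Submodule.smul_mem_smul hr Submodule.mem_top)
    refine Module.length_le_of_surjective φ ?_
    intro x
    obtain ⟨x, rfl⟩ := Submodule.mkQ_surjective _ x
    obtain ⟨x, rfl⟩ := Submodule.mkQ_surjective _ x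
    exact ⟨Submodule.mkQ _ x, rfl⟩

/-- `u ^ n ≤ length (N / (z ^ u) N)`, `n = dim N`. -/
theorem pow_le_length (N : Type u) [AddCommGroup N] [Module B N] [Module.Finite B N]
    (zs : List B) (hz : ∀ z ∈ zs, z ∈ maximalIdeal B)
    (hdim : Module.supportDim B N = zs.length) (n : ℕ) (hn : 1 ≤ n) :
    ((n ^ zs.length : ℕ) : ℕ∞) ≤
      Module.length B (N ⧸ (Ideal.ofList (zs.map (· ^ n)) • ⊤ : Submodule B N)) := by
  by_cases htop : Module.length B (N ⧸ (Ideal.ofList (zs.map (· ^ n)) • ⊤ : Submodule B N)) = ⊤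
  · rw [htop]; exact le_top
  have hFL' : FL (zs.map (· ^ n)) N := by
    set I := Ideal.ofList (zs.map (· ^ n)) with hI
    have e := TensorProduct.tensorQuotEquivQuotSMul N I
    have h1 : Module.length B (N ⊗[B] (B ⧸ I)) ≠ ⊤ := by
      rw [e.length_eq]
      exact htop
    obtain ⟨k, hk⟩ := exists_pow_le_sup_annihilator N (B ⧸ I) h1
    rw [Ideal.annihilator_quotient] at hk
    intro x hx
    exact ⟨k, hk (Ideal.pow_mem_pow hx k)⟩
  have hFL : FL zs N := by
    refine hFL'.mono (sup_le_sup_left ?_ _)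
    rw [Ideal.ofList, Ideal.span_le]
    rintro _ hy
    obtain ⟨y, hy2, rfl⟩ := List.mem_map.1 hy
    have h0 : y ∈ Ideal.ofList zs := Ideal.subset_span (show y ∈ {r | r ∈ zs} from hy2)
    exact Ideal.pow_mem_of_mem _ h0 n hn
  have h1 := (eul_nonneg_pos zs hz N hFL).2 hdim.ge
  have h2 := eul_map_pow zs N hFL n
  have h3 := eul_le_length (zs.map (· ^ n)) (by
    intro y hy
    obtain ⟨y, hy2, rfl⟩ := List.mem_map.1 hy
    exact Ideal.pow_mem_of_mem _ (hz y hy2) n hn) N hFL'
  refine le_trans ?_ h3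
  rw [h2]
  have h4 : ((n ^ zs.length : ℕ) : ℤ) ≤ (n : ℤ) ^ zs.length * eul zs N := by
    push_cast
    have h5 : (0 : ℤ) ≤ (n : ℤ) ^ zs.length := by positivity
    nlinarith
  have h5 := Int.toNat_le_toNat h4
  rw [Int.toNat_natCast] at h5
  exact_mod_cast h5

end

end Vale.Agent.P177
end

section

/-!
P177, block RHO, part A: if a nonzero element `γ` of the base acts by null maps on the modules
`Tor_j(E ⊗ N, Y)`, `N` of finite length, then the Euler characteristic of `E ⊗ k` and `Y` is zero.
-/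

namespace Vale.Agent.P177.SL

open Vale.Agent.P202.Mix Function TensorProduct IsLocalRing
open scoped ENNReal Pointwise

universe u

section lenL

variable (Λ : Type u) [CommRing Λ]

end lenL

section A

variable {Λ E : Type u} [CommRing Λ] [CommRing E] [Algebra Λ E] [Module.Flat Λ E] (L : AddLen E)
  (Y : Type u) [AddCommGroup Y] [Module E Y]

end A

section growth

variable {Λ : Type u} [CommRing Λ]

end growth

section main

variable {Λ E : Type u} [CommRing Λ] [CommRing E] [Algebra Λ E] [Module.Flat Λ E] (L : AddLen E)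
  (Y : Type u) [AddCommGroup Y] [Module E Y]

end main

end Vale.Agent.P177.SL
end

section

/-!
P177, block LIM: the stabilised additive length `L.stab h`, `len M = inf_c L.len (h ^ c M)`.
-/

namespace Vale.Agent.P177.Lim

open Vale.Agent.P202.Mix
open scoped ENNReal

universe u

section Basic

variable {R : Type u} [CommRing R] (L : AddLen R)
variable {M N K : Type u} [AddCommGroup M] [Module R M]
  [AddCommGroup N] [Module R N] [AddCommGroup K] [Module R K]

theorem len_le_of_inj (f : M →ₗ[R] N) (hf : Function.Injective f) : L.len M ≤ L.len N := by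
  rw [len_sub_quot L (LinearMap.range f), len_congr L (LinearEquiv.ofInjective f hf)]
  exact le_self_add

theorem len_le_of_surj (f : M →ₗ[R] N) (hf : Function.Surjective f) : L.len N ≤ L.len M := by
  rw [len_sub_quot L (LinearMap.ker f), ← len_congr L (f.quotKerEquivOfSurjective hf)]
  exact le_add_self

theorem len_sub_mono {X Y : Submodule R M} (h : X ≤ Y) : L.len X ≤ L.len Y :=
  len_le_of_inj L (Submodule.inclusion h) (Submodule.inclusion_injective h)

theorem len_range_le (f : M →ₗ[R] N) : L.len (LinearMap.range f) ≤ L.len M :=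
  len_le_of_surj L f.rangeRestrict f.surjective_rangeRestrict

theorem len_sub_le (X : Submodule R M) : L.len X ≤ L.len M :=
  len_le_of_inj L X.subtype X.injective_subtype

/-- length and maps: `len M = len (ker f) + len (range f)`. -/
theorem len_ker_range (f : M →ₗ[R] N) :
    L.len M = L.len (LinearMap.ker f) + L.len (LinearMap.range f) := by
  rw [len_sub_quot L (LinearMap.ker f), len_congr L f.quotKerEquivRange]

/-- exact in the middle: `len N ≤ len M + len K`. -/
theorem len_le_of_exact (f : M →ₗ[R] N) (g : N →ₗ[R] K) (h : Function.Exact f g) :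
    L.len N ≤ L.len M + L.len K := by
  rw [len_ker_range L g]
  refine add_le_add ?_ (len_sub_le L _)
  have : LinearMap.ker g = LinearMap.range f := by
    rw [LinearMap.exact_iff] at h
    exact h
  rw [this]
  exact len_range_le L f

/-- the submodule `h ^ c M`. -/
def pw (h : R) (c : ℕ) (M : Type u) [AddCommGroup M] [Module R M] : Submodule R M :=
  LinearMap.range (LinearMap.lsmul R M (h ^ c))

theorem mem_pw {h : R} {c : ℕ} {x : M} : x ∈ pw h c M ↔ ∃ y : M, h ^ c • y = x := by
  simp [pw]

theorem pw_anti (h : R) {c c' : ℕ} (hc : c ≤ c') : pw h c' M ≤ pw h c M := by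
  intro x hx
  obtain ⟨y, rfl⟩ := mem_pw.1 hx
  obtain ⟨d, rfl⟩ := Nat.exists_eq_add_of_le hc
  exact mem_pw.2 ⟨h ^ d • y, by rw [smul_smul, ← pow_add]⟩

theorem len_pw_anti (h : R) : Antitone fun c => L.len (pw h c M) :=
  fun _ _ hc => len_sub_mono L (pw_anti h hc)

theorem iInf_add_of_antitone {a b : ℕ → ℝ≥0∞} (ha : Antitone a) (hb : Antitone b) :
    (⨅ c, a c) + (⨅ c, b c) = ⨅ c, (a c + b c) := by
  refine ENNReal.iInf_add_iInf fun i j => ⟨max i j, ?_⟩
  exact add_le_add (ha (le_max_left _ _)) (hb (le_max_right _ _))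

/-- the lower bound. -/
theorem len_pw_ge (h : R) (c : ℕ) (f : M →ₗ[R] N) (g : N →ₗ[R] K)
    (hf : Function.Injective f) (hg : Function.Surjective g) (hfg : Function.Exact f g) :
    L.len (pw h c M) + L.len (pw h c K) ≤ L.len (pw h c N) := by
  have h1 : ∀ x ∈ pw h c M, f x ∈ pw h c N := by
    intro x hx
    obtain ⟨y, rfl⟩ := mem_pw.1 hx
    exact mem_pw.2 ⟨f y, by rw [map_smul]⟩
  have h2 : ∀ x ∈ pw h c N, g x ∈ pw h c K := by
    intro x hx
    obtain ⟨y, rfl⟩ := mem_pw.1 hx
    exact mem_pw.2 ⟨g y, by rw [map_smul]⟩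
  let f' : pw h c M →ₗ[R] pw h c N := f.restrict h1
  let g' : pw h c N →ₗ[R] pw h c K := g.restrict h2
  have hg' : Function.Surjective g' := by
    rintro ⟨x, hx⟩
    obtain ⟨y, rfl⟩ := mem_pw.1 hx
    obtain ⟨z, rfl⟩ := hg y
    exact ⟨⟨h ^ c • z, mem_pw.2 ⟨z, rfl⟩⟩, Subtype.ext (map_smul g _ _)⟩
  rw [len_ker_range L g', LinearMap.range_eq_top.2 hg',
    len_congr L (Submodule.topEquiv (R := R) (M := pw h c K))]
  refine add_le_add ?_ le_rfl
  have h3 : ∀ x, f' x ∈ LinearMap.ker g' := by
    intro x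
    refine Subtype.ext ?_
    show g (f x.1) = 0
    exact (hfg _).2 ⟨_, rfl⟩
  refine len_le_of_inj L (f'.codRestrict _ h3) ?_
  intro x y hxy
  have h4 := congrArg (fun z => ((z : LinearMap.ker g').1 : pw h c N).1) hxy
  exact Subtype.ext (hf h4)

/-- the upper bound. -/
theorem len_pw_le (h : R) (a b : ℕ) (f : M →ₗ[R] N) (g : N →ₗ[R] K)
    (hfg : Function.Exact f g) :
    L.len (pw h (a + b) N) ≤ L.len (pw h a M) + L.len (pw h b K) := by
  let P : Submodule R N := (pw h b K).comap g
  let φ : P →ₗ[R] N := (LinearMap.lsmul R N (h ^ a)) ∘ₗ P.subtype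
  have h0 : pw h (a + b) N ≤ LinearMap.range φ := by
    intro x hx
    obtain ⟨y, rfl⟩ := mem_pw.1 hx
    refine ⟨⟨h ^ b • y, ?_⟩, ?_⟩
    · show g (h ^ b • y) ∈ pw h b K
      exact mem_pw.2 ⟨g y, by rw [map_smul]⟩
    · show h ^ a • h ^ b • y = _
      rw [smul_smul, ← pow_add]
  refine (len_sub_mono L h0).trans ?_
  let N0 : Submodule R N := (pw h a M).map f
  -- `range φ ≤ N0 + ...`
  have h1 : L.len (LinearMap.range φ) ≤ L.len N0 + L.len (LinearMap.range (N0.mkQ ∘ₗ φ)) := by
    let q : LinearMap.range φ →ₗ[R] (N ⧸ N0) := N0.mkQ ∘ₗ (LinearMap.range φ).subtype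
    rw [len_ker_range L q]
    refine add_le_add ?_ ?_
    · refine len_le_of_inj L (LinearMap.codRestrict N0
        ((LinearMap.range φ).subtype ∘ₗ (LinearMap.ker q).subtype) ?_) ?_
      · intro x
        have hx : N0.mkQ (x.1.1) = 0 := x.2
        rwa [Submodule.mkQ_apply, Submodule.Quotient.mk_eq_zero] at hx
      · intro x y hxy
        have h5 : x.1.1 = y.1.1 := congrArg (fun z : N0 => (z : N)) hxy
        exact Subtype.ext (Subtype.ext h5)
    · refine len_sub_mono L ?_
      rintro _ ⟨⟨_, ⟨x, rfl⟩⟩, rfl⟩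
      exact ⟨x, rfl⟩
  refine h1.trans (add_le_add ?_ ?_)
  · have : L.len (LinearMap.range (f ∘ₗ (pw h a M).subtype)) ≤ L.len (pw h a M) :=
      len_range_le L _
    rwa [LinearMap.range_comp, Submodule.range_subtype] at this
  · -- `P → N / N0` factors through `g : P → h ^ b K`
    let g' : P →ₗ[R] pw h b K := g.restrict (fun x hx => hx)
    have hker : LinearMap.ker g' ≤ LinearMap.ker (N0.mkQ ∘ₗ φ) := by
      intro x hx
      have hx1 : g x.1 = 0 := congrArg Subtype.val hx
      obtain ⟨y, hy⟩ := (hfg _).1 hx1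
      show N0.mkQ (h ^ a • x.1) = 0
      rw [Submodule.mkQ_apply, Submodule.Quotient.mk_eq_zero, ← hy, ← map_smul]
      exact Submodule.mem_map_of_mem (mem_pw.2 ⟨y, rfl⟩)
    rw [← len_congr L (N0.mkQ ∘ₗ φ).quotKerEquivRange]
    calc L.len (P ⧸ LinearMap.ker (N0.mkQ ∘ₗ φ)) ≤ L.len (P ⧸ LinearMap.ker g') :=
          len_le_of_surj L (Submodule.factor hker) (Submodule.factor_surjective hker)
      _ = L.len (LinearMap.range g') := len_congr L g'.quotKerEquivRange
      _ ≤ _ := len_sub_le L _

end Basic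

section Stab

variable {R : Type u} [CommRing R]

/-- the stabilised additive length. -/
noncomputable def stab (L : AddLen R) (h : R) : AddLen R where
  len M _ _ := ⨅ c : ℕ, L.len (pw h c M)
  zero := by
    refine le_antisymm (iInf_le_of_le 0 ?_) bot_le
    refine (len_sub_le L _).trans ?_
    rw [L.zero]
  add {M N K} _ _ _ _ _ _ f g hf hg hfg := by
    rw [iInf_add_of_antitone (len_pw_anti L h) (len_pw_anti L h)]
    refine le_antisymm ?_ ?_
    · refine le_iInf fun c => ?_
      exact iInf_le_of_le (c + c) (len_pw_le L h c c f g hfg)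
    · exact iInf_mono fun c => len_pw_ge L h c f g hf hg hfg

variable (L : AddLen R) (h : R) {M N : Type u} [AddCommGroup M] [Module R M]
  [AddCommGroup N] [Module R N]

end Stab

end Vale.Agent.P177.Lim
end

section

/-!
P177, block POSTR: for all choices `π` of roots, with `[δ_π] = E(c_π)`, `[δ'_π] = (g - E)(c_π)`:
`δ_π δ'_π` and `∏_π δ'_π` are divisible by `t^(I+1)`; hence the length of a module killed by `t` is
at most the sum over `π` of the lengths of `δ_π^(c/q) M` and `M/(δ_π + δ'_π)^(c/q) M`; the choice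
of one `π`.
-/

namespace Vale.Agent.P177.Lev

open Polynomial Vale.Agent.P202.Mix Vale.Agent.P177.Lim
open scoped ENNReal

universe u

section len

variable {R : Type u} [CommRing R] (L : AddLen R) {M : Type u} [AddCommGroup M] [Module R M]

/-- the submodule `x M`. -/
abbrev sm (x : R) (M : Type u) [AddCommGroup M] [Module R M] : Submodule R M :=
  LinearMap.range (LinearMap.lsmul R M x)

theorem mem_sm {x : R} {m : M} : m ∈ sm x M ↔ ∃ y : M, x • y = m := by
  simp [sm]

theorem len_quot_mul_le (x y : R) :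
    L.len (M ⧸ sm (x * y) M) ≤ L.len (M ⧸ sm x M) + L.len (M ⧸ sm y M) := by
  have h1 : sm (x * y) M ≤ sm x M := by
    intro m hm
    obtain ⟨z, rfl⟩ := mem_sm.1 hm
    exact mem_sm.2 ⟨y • z, by rw [smul_smul]⟩
  -- `M/y → M/xy`, multiplication by `x`
  have h2 : sm y M ≤ (sm (x * y) M).comap (LinearMap.lsmul R M x) := by
    intro m hm
    obtain ⟨z, rfl⟩ := mem_sm.1 hm
    exact mem_sm.2 ⟨z, by rw [LinearMap.lsmul_apply, smul_smul]⟩
  let f : (M ⧸ sm y M) →ₗ[R] (M ⧸ sm (x * y) M) := Submodule.mapQ _ _ (LinearMap.lsmul R M x) h2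
  let g : (M ⧸ sm (x * y) M) →ₗ[R] (M ⧸ sm x M) := Submodule.factor h1
  rw [add_comm]
  refine len_le_of_exact L f g fun b => ⟨fun hb => ?_, ?_⟩
  · obtain ⟨m, rfl⟩ := Submodule.Quotient.mk_surjective _ b
    have h3 : m ∈ sm x M := by
      rw [← Submodule.Quotient.mk_eq_zero]
      exact hb
    obtain ⟨z, rfl⟩ := mem_sm.1 h3
    exact ⟨Submodule.Quotient.mk z, rfl⟩
  · rintro ⟨a, rfl⟩
    obtain ⟨m, rfl⟩ := Submodule.Quotient.mk_surjective _ a
    show (Submodule.Quotient.mk (x • m) : M ⧸ sm x M) = 0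
    rw [Submodule.Quotient.mk_eq_zero]
    exact mem_sm.2 ⟨m, rfl⟩

theorem len_quot_prod_le {P : Type*} (s : Finset P) (x : P → R) :
    L.len (M ⧸ sm (∏ π ∈ s, x π) M) ≤ ∑ π ∈ s, L.len (M ⧸ sm (x π) M) := by
  classical
  induction s using Finset.induction_on with
  | empty =>
    rw [Finset.prod_empty, Finset.sum_empty]
    have h : sm (1 : R) M = ⊤ := by
      rw [eq_top_iff]
      intro m _
      exact mem_sm.2 ⟨m, one_smul R m⟩
    have hs : Subsingleton (M ⧸ sm (1 : R) M) := by
      refine ⟨fun a b => ?_⟩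
      obtain ⟨a, rfl⟩ := Submodule.Quotient.mk_surjective _ a
      obtain ⟨b, rfl⟩ := Submodule.Quotient.mk_surjective _ b
      rw [Submodule.Quotient.eq, h]
      trivial
    rw [len_subsingleton_aux L]
  | insert a s ha ih =>
    rw [Finset.prod_insert ha, Finset.sum_insert ha]
    exact (len_quot_mul_le L _ _).trans (add_le_add le_rfl ih)

/-- `len M ≤ ∑ len (M / x_π M)` if `∏ x_π` kills `M`. -/
theorem len_le_sum_quot {P : Type*} [Fintype P] (x : P → R) (h : ∀ m : M, (∏ π, x π) • m = 0) :
    L.len M ≤ ∑ π, L.len (M ⧸ sm (x π) M) := by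
  have h1 : sm (∏ π, x π) M = ⊥ := by
    rw [eq_bot_iff]
    intro m hm
    obtain ⟨z, rfl⟩ := mem_sm.1 hm
    rw [h z]
    exact zero_mem _
  have h2 := len_quot_prod_le L (M := M) Finset.univ x
  rw [h1, len_congr L (Submodule.quotEquivOfEqBot (⊥ : Submodule R M) rfl)] at h2
  exact h2

theorem add_pow_smul (d d' : R) (h : ∀ m : M, (d * d') • m = 0) (c : ℕ) (m : M) :
    (d + d') ^ (c + 1) • m = (d ^ (c + 1) + d' ^ (c + 1)) • m := by
  induction c generalizing m with
  | zero => rw [zero_add, pow_one, pow_one, pow_one]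
  | succ c ih =>
    rw [pow_succ, mul_smul, ih, smul_smul]
    have h1 : (d ^ (c + 1) + d' ^ (c + 1)) * (d + d') =
        (d ^ (c + 1 + 1) + d' ^ (c + 1 + 1)) + (d ^ c + d' ^ c) * (d * d') := by ring
    rw [h1, add_smul, mul_smul, h, smul_zero, add_zero]

/-- `len (M/d'^c M) ≤ len (d^c M) + len (M/(d + d')^c M)` if `d d'` kills `M`. -/
theorem len_quot_le_pw (d d' : R) (h : ∀ m : M, (d * d') • m = 0) (c : ℕ) :
    L.len (M ⧸ sm (d' ^ (c + 1)) M) ≤
      L.len (sm (d ^ (c + 1)) M) + L.len (M ⧸ sm ((d + d') ^ (c + 1)) M) := by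
  -- `d^c M → M/d'^c → M/(d'^c, (d+d')^c)`
  let X := sm (d' ^ (c + 1)) M
  let Y := sm ((d + d') ^ (c + 1)) M
  let f : sm (d ^ (c + 1)) M →ₗ[R] (M ⧸ X) := X.mkQ ∘ₗ (sm (d ^ (c + 1)) M).subtype
  let g : (M ⧸ X) →ₗ[R] (M ⧸ (X ⊔ Y)) := Submodule.factor le_sup_left
  have h1 : Function.Exact f g := by
    intro b
    constructor
    · intro hb
      obtain ⟨m, rfl⟩ := Submodule.Quotient.mk_surjective _ b
      have h3 : m ∈ X ⊔ Y := by
        rw [← Submodule.Quotient.mk_eq_zero]
        exact hb
      obtain ⟨a, ha, b, hb', rfl⟩ := Submodule.mem_sup.1 h3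
      obtain ⟨z, rfl⟩ := mem_sm.1 hb'
      refine ⟨⟨d ^ (c + 1) • z, mem_sm.2 ⟨z, rfl⟩⟩, ?_⟩
      show (Submodule.Quotient.mk (d ^ (c + 1) • z) : M ⧸ X) = Submodule.Quotient.mk _
      rw [Submodule.Quotient.eq, add_pow_smul d d' h, add_smul]
      have h4 : d ^ (c + 1) • z - (a + (d ^ (c + 1) • z + d' ^ (c + 1) • z)) =
          -(a + d' ^ (c + 1) • z) := by abel
      rw [h4]
      exact neg_mem (add_mem ha (mem_sm.2 ⟨z, rfl⟩))
    · rintro ⟨⟨a, ha⟩, rfl⟩
      obtain ⟨z, rfl⟩ := mem_sm.1 ha
      show (Submodule.Quotient.mk (d ^ (c + 1) • z) : M ⧸ (X ⊔ Y)) = 0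
      rw [Submodule.Quotient.mk_eq_zero]
      have h4 : d ^ (c + 1) • z = -(d' ^ (c + 1) • z) + (d + d') ^ (c + 1) • z := by
        rw [add_pow_smul d d' h, add_smul]
        abel
      rw [h4]
      exact Submodule.add_mem_sup (neg_mem (mem_sm.2 ⟨z, rfl⟩)) (mem_sm.2 ⟨z, rfl⟩)
  refine (len_le_of_exact L f g h1).trans (add_le_add le_rfl ?_)
  exact len_le_of_surj L (Submodule.factor (le_sup_right : Y ≤ X ⊔ Y)) (Submodule.factor_surjective _)

/-- the main estimate. -/
theorem len_le_sum {P : Type*} [Fintype P] (d d' : P → R) (h : ∀ π, ∀ m : M, (d π * d' π) • m = 0)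
    (h' : ∀ m : M, (∏ π, d' π) • m = 0) (c : ℕ) :
    L.len M ≤ ∑ π, (L.len (sm (d π ^ (c + 1)) M) + L.len (M ⧸ sm ((d π + d' π) ^ (c + 1)) M)) := by
  refine (len_le_sum_quot L (fun π => d' π ^ (c + 1)) fun m => ?_).trans
    (Finset.sum_le_sum fun π _ => len_quot_le_pw L (d π) (d' π) (h π) c)
  rw [Finset.prod_pow, pow_succ, mul_smul, h', smul_zero]

/-- `len (x M) ≤ len (x y M) + len (M/y M)`. -/
theorem len_sm_le (x y : R) :
    L.len (sm x M) ≤ L.len (sm (x * y) M) + L.len (M ⧸ sm y M) := by
  have h1 : sm (x * y) M ≤ sm x M := by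
    intro m hm
    obtain ⟨z, rfl⟩ := mem_sm.1 hm
    exact mem_sm.2 ⟨y • z, by rw [smul_smul]⟩
  -- `M → xM / xyM` kills `yM`
  let N : Submodule R (sm x M) := (sm (x * y) M).submoduleOf (sm x M)
  let φ : M →ₗ[R] sm x M := (LinearMap.lsmul R M x).rangeRestrict
  have h2 : sm y M ≤ N.comap φ := by
    intro m hm
    obtain ⟨z, rfl⟩ := mem_sm.1 hm
    show x • y • z ∈ sm (x * y) M
    exact mem_sm.2 ⟨z, by rw [smul_smul]⟩
  rw [len_sub_quot L N, len_congr L (Submodule.submoduleOfEquivOfLe h1)]
  refine add_le_add le_rfl ?_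
  refine len_le_of_surj L (Submodule.mapQ _ _ φ h2) ?_
  intro b
  obtain ⟨m, rfl⟩ := Submodule.Quotient.mk_surjective _ b
  obtain ⟨z, rfl⟩ := (LinearMap.lsmul R M x).surjective_rangeRestrict m
  exact ⟨Submodule.Quotient.mk z, rfl⟩

end len

section arith

variable (p : ℕ) [Fact p.Prime] {C : Type u} [CommRing C] [CharP C p] [PerfectRing C p] (t : C)

theorem rt_mem_span {e I m : ℕ} (h : m * p ^ e ≤ I) {y : C} (hy : y ∈ Ideal.span {t ^ I}) :
    rt p e y ∈ Ideal.span {t ^ m} := by
  obtain ⟨x, rfl⟩ := Ideal.mem_span_singleton'.1 hy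
  obtain ⟨k, rfl⟩ := Nat.exists_eq_add_of_le h
  have h1 : rt p e (t ^ (m * p ^ e)) = t ^ m := by
    unfold rt
    rw [pow_mul, RingEquiv.symm_apply_eq]
    rfl
  have h2 : rt p e (x * t ^ (m * p ^ e + k)) = rt p e x * (t ^ m * rt p e (t ^ k)) := by
    rw [← h1]
    unfold rt
    rw [pow_add, map_mul, map_mul]
  rw [h2]
  exact Ideal.mul_mem_left _ _ (Ideal.mul_mem_right _ _ (Ideal.mem_span_singleton_self _))

theorem rt_mul' (e : ℕ) (a b : C) : rt p e (a * b) = rt p e a * rt p e b := map_mul _ _ _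

theorem rt_add' (e : ℕ) (a b : C) : rt p e (a + b) = rt p e a + rt p e b := map_add _ _ _

theorem rt_prod' {P : Type*} (s : Finset P) (e : ℕ) (a : P → C) :
    rt p e (∏ i ∈ s, a i) = ∏ i ∈ s, rt p e (a i) := map_prod _ _ _

variable (ht : t ∈ nonZeroDivisors C) {Λ A : Type u} [CommRing Λ] [CommRing A] [IsDomain A]
  [Algebra Λ A] (hinj : Function.Injective (algebraMap Λ A)) (φ : Λ →+* Bt p C t) {s D I : ℕ}
  (F : Fin s → Λ[X]) (hFm : ∀ j, (F j).Monic) (hFD : ∀ j, (F j).natDegree = D)
  (a : Fin s → A) (ha : ∀ j, aeval (a j) (F j) = 0) (E : MvPolynomial (Fin s) Λ) (g : Λ)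
  (hEg : MvPolynomial.aeval a E = algebraMap Λ A g)
  (hE : ∀ f : MvPolynomial (Fin s) Λ, MvPolynomial.aeval a f = 0 →
    E * f ∈ Ideal.span (Set.range fun j => Polynomial.toMvPolynomial j (F j)))
  (c : Fin s → Fin D → C) (δ δ' : (Fin s → Fin D) → C)
  (split : ∀ j n, ((F j).map φ - ∏ i, (X - Polynomial.C (te p C t (c j i)))).coeff n ∈
    Ideal.span {(p : Bt p C t) ^ (I + 1)})
  (hδ : ∀ π, te p C t (δ π) - MvPolynomial.eval₂ φ (fun j => te p C t (c j (π j))) E ∈
    Ideal.span {(p : Bt p C t) ^ (I + 1)})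
  (hδ' : ∀ π, te p C t (δ' π) - (φ g - MvPolynomial.eval₂ φ (fun j => te p C t (c j (π j))) E) ∈
    Ideal.span {(p : Bt p C t) ^ (I + 1)})

include split in
omit [CharP C p] [PerfectRing C p] in
theorem split_mk (j : Fin s) :
    (F j).map ((Ideal.Quotient.mk (Ideal.span {(p : Bt p C t) ^ (I + 1)})).comp φ) =
      ∏ i, (X - Polynomial.C (Ideal.Quotient.mk (Ideal.span {(p : Bt p C t) ^ (I + 1)})
        (te p C t (c j i)))) := by
  have h1 : ((F j).map φ).map (Ideal.Quotient.mk (Ideal.span {(p : Bt p C t) ^ (I + 1)})) =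
      (∏ i, (X - Polynomial.C (te p C t (c j i)))).map
        (Ideal.Quotient.mk (Ideal.span {(p : Bt p C t) ^ (I + 1)})) := by
    ext n
    have h2 := split j n
    rw [coeff_sub] at h2
    exact (coeff_map _ _).trans ((Ideal.Quotient.eq.2 h2).trans (coeff_map _ _).symm)
  rw [← Polynomial.map_map, h1, Polynomial.map_prod]
  refine Finset.prod_congr rfl fun i _ => ?_
  rw [Polynomial.map_sub, Polynomial.map_X, Polynomial.map_C]

include ht hEg hE split hδ hδ' in
omit [IsDomain A] in
theorem delta_mul_mem (π : Fin s → Fin D) : δ π * δ' π ∈ Ideal.span {t ^ (I + 1)} := by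
  let mk := Ideal.Quotient.mk (Ideal.span {(p : Bt p C t) ^ (I + 1)})
  let θ : MvPolynomial (Fin s) Λ →+* Bt p C t ⧸ Ideal.span {(p : Bt p C t) ^ (I + 1)} :=
    MvPolynomial.eval₂Hom (mk.comp φ) fun j => mk (te p C t (c j (π j)))
  have hθ : ∀ f, θ f = mk (MvPolynomial.eval₂ φ (fun j => te p C t (c j (π j))) f) := by
    intro f
    rw [MvPolynomial.hom_eval₂]
    rfl
  have h1 : θ (E * (E - MvPolynomial.C g)) = 0 := by
    have h2 := hE (E - MvPolynomial.C g) (by
      rw [map_sub, hEg, MvPolynomial.aeval_C, sub_self])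
    have h3 : Ideal.span (Set.range fun j => Polynomial.toMvPolynomial j (F j)) ≤
        RingHom.ker θ := by
      rw [Ideal.span_le]
      rintro _ ⟨j, rfl⟩
      rw [SetLike.mem_coe, RingHom.mem_ker]
      have h4 : θ (Polynomial.toMvPolynomial j (F j)) =
          ((F j).map (mk.comp φ)).eval (mk (te p C t (c j (π j)))) := by
        rw [Polynomial.eval_map]
        show θ (Polynomial.aeval (MvPolynomial.X j) (F j)) = _
        rw [Polynomial.aeval_def, Polynomial.hom_eval₂]
        congr 1
        · ext z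
          simp [θ]
        · simp [θ]
      rw [h4, split_mk p t φ F c split j, eval_prod]
      exact Finset.prod_eq_zero (Finset.mem_univ (π j)) (by simp [mk])
    exact h3 h2
  refine mem_of_te_mem p C t ht _ _ ?_
  rw [te_mul, ← Ideal.Quotient.eq_zero_iff_mem, map_mul]
  have h5 := Ideal.Quotient.eq.2 (hδ π)
  have h6 := Ideal.Quotient.eq.2 (hδ' π)
  rw [h5, h6]
  rw [map_mul, hθ, map_sub, hθ, hθ, MvPolynomial.eval₂_C] at h1
  rw [map_sub]
  linear_combination -h1

include ht hinj hFm hFD ha hEg split hδ' in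
theorem prod_delta_mem : ∏ π, δ' π ∈ Ideal.span {t ^ (I + 1)} := by
  let mk := Ideal.Quotient.mk (Ideal.span {(p : Bt p C t) ^ (I + 1)})
  have h1 := norm_eq_zero hinj F hFm hFD a ha (MvPolynomial.C g - E)
    (by rw [map_sub, hEg, MvPolynomial.aeval_C, sub_self])
    _ (mk.comp φ) (fun j i => mk (te p C t (c j i))) fun j => split_mk p t φ F c split j
  refine mem_of_te_mem p C t ht _ _ ?_
  rw [← Ideal.Quotient.eq_zero_iff_mem]
  have h2 : te p C t (∏ π, δ' π) = ∏ π, te p C t (δ' π) := by
    rw [te, map_prod, map_prod]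
    rfl
  rw [h2, map_prod, ← h1]
  refine Finset.prod_congr rfl fun π _ => ?_
  have h6 := Ideal.Quotient.eq.2 (hδ' π)
  rw [h6, MvPolynomial.eval₂_sub, MvPolynomial.eval₂_C, map_sub, MvPolynomial.hom_eval₂]
  rfl

end arith

section choice

open Filter Topology

end choice

end Vale.Agent.P177.Lev
end

section

/-!
P177, block LEV: the base `W(k)[[u]]`; the homomorphism `A1 = Λ[T]/(G_l(T_l)) → B/p^N`.
-/

namespace Vale.Agent.P177.Lev

open Vale.Agent.P202.Mix WittVector IsLocalRing Vale.Agent.P177.AR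
open Vale.Agent.P177.PI hiding rt
open scoped ENNReal Polynomial

universe u

section Base

variable (p : ℕ) [Fact p.Prime] (k : Type u) [Field k] [CharP k p] [PerfectRing k p]

theorem maximalIdeal_witt : maximalIdeal (WittVector p k) = Ideal.span {(p : WittVector p k)} :=
  (IsDiscreteValuationRing.irreducible_iff_uniformizer _).1 (WittVector.irreducible p)

end Base

section A1

variable {p : ℕ} [Fact p.Prime] {k : Type u} [Field k] [CharP k p] {r : ℕ}
variable {Λ : Type u} [CommRing Λ] {s : ℕ}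

variable [IsLocalRing Λ] {ψ : Λ →+* WittVector p (Rp p k r)}
  {Ω : Type u} [Field Ω] [Algebra Λ Ω] {b : Fin s → Ω} {F G : Fin s → Λ[X]} {D : ℕ} {ε : ℝ≥0∞}
  {Φ : ℕ → ℕ} {e : ℕ} (ℓ : Level ψ b F G D ε Φ e)

end A1

end Vale.Agent.P177.Lev
end
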