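import Mathlib
import Vale.Agent.P177.Bd4.B14
import Vale.Agent.P177.Bd4.B10
import Vale.Agent.P177.Bd4.B17
import Vale.Agent.P177.Bd4.B9
import Vale.Agent.P177.Bd4.B7
import Vale.Agent.P177.Bd4.B15
import Vale.Agent.P177.Bd4.B1
import Vale.Agent.P177.Bd4.B18
import Vale.Agent.P177.Bd4.B11
attribute [-instance] DenselyNormedField.toNontriviallyNormedField RCLike.toDenselyNormedField DenselyNormedField.toNormedField NontriviallyNormedField.toNormedField NormedField.toNormedDivisionRing littleWedderburn NormedDivisionRing.toDivisionRing NormedField.toField KleeneAlgebra.toIdemSemiring SemiRingCat.instSemiringObjForgetRingHomCarrier CommCStarAlgebra.toNormedCommRing NormedField.toNormedCommRing CommCStarAlgebra.toCStarAlgebra CStarAlgebra.toNormedRing NormedCommRing.toNormedRing NormedDivisionRing.toNormedRing BooleanRing.toRing NormedCommRing.toSeminormedCommRing NormedRing.toSeminormedRing SeminormedCommRing.toSeminormedRing Field.toEuclideanDomain BooleanRing.toCommRing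 EuclideanDomain.toCommRing NormedCommRing.toCommRing SeminormedCommRing.toCommRing NormedRing.toRing SeminormedRing.toRing CommCStarAlgebra.toNonUnitalCommCStarAlgebra NonUnitalCommCStarAlgebra.toNonUnitalNormedCommRing NormedCommRing.toNonUnitalNormedCommRing CStarAlgebra.toNonUnitalCStarAlgebra NonUnitalCommCStarAlgebra.toNonUnitalCStarAlgebra NonUnitalCStarAlgebra.toNonUnitalNormedRing NonUnitalNormedCommRing.toNonUnitalNormedRing NormedRing.toNonUnitalNormedRing CommRing.toAddCommGroupWithOne CommSemiring.toNonAssocCommSemiring NonAssocCommRing.toNonAssocCommSemiring NonAssocCommSemiring.toNonAssocSemiring LeftPreLieRing.instLieAdmissibleRing RightPreLieRing.instLieAdmissibleRing AddCommGroupWithOne.toAddCommMonoidWithOne NonUnitalNormedCommRing.toNonUnitalSeminormedCommRing SeminormedCommRing.toNonUnitalSeminormedCommRing NonUnitalNormedRing.toNonUnitalSeminormedRing NonUnitalSeminormedCommRing.toNonUnitalSeminormedRing SeminormedRing.toNonUnitalSeminormedRing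 LeftPreLieRing.toNonUnitalNonAssocRing LieAdmissibleRing.toNonUnitalNonAssocRing RightPreLieRing.toNonUnitalNonAssocRing NonUnitalNormedCommRing.toNonUnitalCommRing NonUnitalSeminormedCommRing.toNonUnitalCommRing NonUnitalNormedRing.toNonUnitalRing NonUnitalSeminormedRing.toNonUnitalRing Ring.toNonUnitalRing NonAssocCommRing.toNonUnitalNonAssocCommRing LinearOrderedAddCommGroupWithTop.instLinearOrderedAddCommMonoidWithTop NonUnitalRing.toNonUnitalNonAssocRing LinearOrderedAddCommGroupWithTop.toAddCommMonoid NonAssocCommSemiring.toNonUnitalNonAssocCommSemiring NonUnitalNonAssocCommSemiring.toNonUnitalNonAssocSemiring NonUnitalSemiring.toNonUnitalNonAssocSemiring CommSemiRingCat.FilteredColimits.colimitCommSemiring AddCommMonCat.FilteredColimits.colimitAddCommMonoid TopologicalSpace.Compacts.instSetLike CategoryTheory.CommGrpObj.toGrpObj CategoryTheory.Preadditive.instGrpObj CategoryTheory.CommGrpObj.mk AddCommGroupWithOne.toAddGroupWithOne NonUnitalNormedRing.toNormedAddCommGroup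 LinearOrderedAddCommGroupWithTop.toSubNegMonoid CategoryTheory.BimonObj.toMonObj CategoryTheory.CommRingObj.toRingObj CategoryTheory.GrpObj.toMonObj CategoryTheory.HopfObj.toBimonObj CategoryTheory.RingObj.toMonObj MonTypeEquivalenceMon.monMonoid NormedCommGroup.toNormedGroup NormedCommGroup.toSeminormedCommGroup NormedGroup.toSeminormedGroup SeminormedCommGroup.toSeminormedGroup MulSemiringAction.toDistribMulAction instCommGroupOfIsSimpleGroupOfIsNilpotent CommGroup.toGroup CommGrpTypeEquivalenceCommGrp.commGrpCommGroup GrpTypeEquivalenceGrp.grpGroup NormedCommGroup.toCommGroup NormedGroup.toGroup SeminormedCommGroup.toCommGroup SeminormedGroup.toGroup LieAdmissibleRing.instLieRing BoxIntegral.Box.instMembershipForallReal LieRing.toAddCommGroup Bialgebra.toAlgebra NormedAlgebra.toAlgebra NormedAddCommGroup.toNormedAddGroup CommSemiring.toBialgebra CommSemiring.toHopfAlgebra HopfAlgebra.toHopfAlgebraStruct HopfAlgebraStruct.toBialgebra ContDiffMapSupportedInClass.toDFunLike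 RKHS.instFunLike TestFunctionClass.toDFunLike Complex.instRCLike NonUnitalSeminormedRing.toSeminormedAddCommGroup NormedAddCommGroup.toSeminormedAddCommGroup SemiNormedGrp.str instDistribSMul LinearOrderedCommGroupWithZero.toLinearOrderedCommMonoidWithZero LinearOrderedCommGroupWithZero.toCommGroupWithZero CommGroupWithZero.toGroupWithZero instSMulZeroClass SSet.stdSimplex.instFunLikeObjOppositeSimplexCategoryMkOpFinHAddNatOfNat NormedAddGroup.toSeminormedAddGroup SeminormedAddCommGroup.toSeminormedAddGroup MonCat.monoidObj instNonUnitalCStarAlgebraForall AddCommGroupWithOne.toAddCommGroup NormedAddCommGroup.toAddCommGroup SeminormedAddCommGroup.toAddCommGroup CompleteAtomicBooleanAlgebra.toCompletelyDistribLattice LinearOrderedCommMonoidWithZero.toCommMonoidWithZero MonoidWithZero.toSemigroupWithZero SemigroupWithZero.toMulZeroClass NonUnitalNormedRing.toMetricSpace NormedAddCommGroup.toMetricSpace NormedAddGroup.toMetricSpace NormedCommGroup.toMetricSpace NormedDivisionRing.toMetricSpace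 NormedField.toMetricSpace NormedGroup.toMetricSpace NormedRing.toMetricSpace TopologicalSpace.UpgradedIsCompletelyMetrizableSpace.toMetricSpace CompleteBooleanAlgebra.toCompleteDistribLattice CompletelyDistribLattice.toCompleteDistribLattice NormedAddGroup.toAddGroup SeminormedAddGroup.toAddGroup Action.instMulAction Torsor.toMulAction Action.FintypeCat.instMulActionObjFiniteOf GradedMonoid.GradeZero.mulAction EMetricSpace.toPseudoEMetricSpace IsValuativeTopology.instValuedValueGroupWithZeroOfIsUniformAddGroup MetricSpace.toEMetricSpace MetricSpace.toPseudoMetricSpace NonUnitalSeminormedRing.toPseudoMetricSpace PseudoEMetricSpace.toUniformSpace PseudoMetricSpace.toPseudoEMetricSpace PseudoMetricSpace.toUniformSpace SeminormedAddCommGroup.toPseudoMetricSpace SeminormedAddGroup.toPseudoMetricSpace SeminormedCommGroup.toPseudoMetricSpace SeminormedGroup.toPseudoMetricSpace SeminormedRing.toPseudoMetricSpace UniformSpace.toTopologicalSpace UpgradedStandardBorel.toTopologicalSpace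 Valued.toUniformSpace WithIdeal.instTopologicalSpace WithIdeal.instUniformSpace TopologicalSpace.UpgradedIsCompletelyPseudoMetrizableSpace.toPseudoMetricSpace RingCat.FilteredColimits.colimitRing CompleteBooleanAlgebra.toBooleanAlgebra CompleteDistribLattice.toCoframe CompleteDistribLattice.toFrame CategoryTheory.Limits.Concrete.instUniqueToTypeTerminal LeftPreLieAlgebra.toModule LieAdmissibleAlgebra.toModule LieAlgebra.toModule NormedSpace.toModule RightPreLieAlgebra.toModule BooleanAlgebra.toBiheytingAlgebra CompleteDistribLattice.toBiheytingAlgebra CompleteLinearOrder.toBiheytingAlgebra CompletelyDistribLattice.toBiheytingAlgebra Order.Coframe.toCompleteLattice Order.Frame.toCompleteLattice BooleanAlgebra.toGeneralizedBooleanAlgebra BiheytingAlgebra.toCoheytingAlgebra BiheytingAlgebra.toHeytingAlgebra Order.Coframe.toCoheytingAlgebra Order.Frame.toHeytingAlgebra Pi.instTopForall AddOpposite.instAddZero CoheytingAlgebra.toGeneralizedCoheytingAlgebra GeneralizedBooleanAlgebra.toGeneralizedCoheytingAlgebra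 HeytingAlgebra.toGeneralizedHeytingAlgebra SubfieldClass.toNormedField instConditionallyCompletePartialOrderSup ChainCompletePartialOrder.instOfCompleteLattice ChainCompletePartialOrder.instOmegaCompletePartialOrder ChainCompletePartialOrder.toPartialOrder CompletePartialOrder.toOmegaCompletePartialOrder OmegaCompletePartialOrder.toPartialOrder CommMonTypeEquivalenceCommMon.commMonCommMonoid instNonUnitalAlgHomClassOfNonUnitalAlgEquivClass instSubsingleton Group.IsPerfect.subsingleton_of_isMulCommutative BooleanAlgebra.toDistribLattice ConditionallyCompletePartialOrderInf.toPartialOrder GeneralizedBooleanAlgebra.toDistribLattice GeneralizedCoheytingAlgebra.toDistribLattice GeneralizedCoheytingAlgebra.toLattice GeneralizedHeytingAlgebra.toDistribLattice GeneralizedHeytingAlgebra.toLattice Order.Coframe.toDistribLattice Order.Frame.toDistribLattice IsEmpty.instSubsingleton ProfiniteAddGrp.addGroup TopRep.hV1 CompleteLinearOrder.toLinearOrder ConditionallyCompleteLinearOrder.toLinearOrder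 LinearOrderedAddCommGroupWithTop.toLinearOrder LinearOrderedCommMonoidWithZero.toLinearOrder CentroidHomClass.toAddMonoidHomClass MulSemiringActionSemiHomClass.toDistribMulActionSemiHomClass OrderAddMonoidHom.instAddMonoidHomClass BialgEquivClass.toBialgHomClass CategoryTheory.instFinCategoryOfFintypeOfIsThin FinEnum.instFintype SetLike.instFintype Unique.fintype CategoryTheory.FinCategory.fintypeObj Pi.normedAddCommGroup OrderDual.instDivisionSemiring Quaternion.instDivisionRing AbsoluteValue.zeroHomClass ValuationClass.toMonoidWithZeroHomClass Pi.normedRing Pi.mulZeroOneClass AddHom.addHomClass MulEquivClass.toMonoidWithZeroHomClass MulRingSeminormClass.toMonoidWithZeroHomClass Pi.mulOneClass AlgHom.instContinuousLinearMapClassOfAlgHomClass BialgHomClass.toCoalgHomClass CoalgEquivClass.toCoalgHomClass CoalgHomClass.toSemilinearMapClass ContinuousSemilinearEquivClass.continuousSemilinearMapClass ContinuousSemilinearMapClass.toSemilinearMapClass PositiveLinearMap.instContinuousLinearMapClassComplexOfLinearMapClassOfOrderHomClass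 RingHomClass.toLinearMapClassNNRat RingHomClass.toLinearMapClassRat SemilinearIsometryClass.toContinuousSemilinearMapClass SemilinearIsometryClass.toSemilinearMapClass AlgHomClass.linearMapClass NonUnitalAlgHomClass.instSemilinearMapClassOfNonUnitalAlgSemiHomClassToMonoidHomRingHom CompleteLattice.toPartialOrder' PadicComplex.normedField BialgEquivClass.toCoalgEquivClass NumberField.to_charZero StarSubalgebra.commCStarAlgebra StarSubalgebra.cstarAlgebra SubalgebraClass.normedRing SubringClass.toNormedCommRing SubringClass.toNormedRing SemilinearIsometryEquivClass.toSemilinearIsometryClass NonUnitalRing.toNonUnitalSemiring CategoryTheory.Abelian.toPreadditive Pi.nonUnitalNonAssocSemiring AlgebraicGeometry.Scheme.instPreorderCarrierCarrierCommRingCat AddMonCat.addMonoidObj PartOrdEmb.str Invertible.toNeZero Nat.AtLeastTwo.toNeZero LinearOrderedAddCommGroupWithTop.toSubtractionMonoid boolToProp CompleteLinearOrder.toCompleteLattice RightPreLieAlgebra.instLieAdmissibleAlgebra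 Nat.instNontrivial MonoidWithZero.toMulActionWithZero Fin.completeLinearOrder CommRing.toGrindCommRing Field.toGrindField CategoryTheory.Mat_.fintype Pi.nonUnitalSemiring Turing.FinTM2.decidableEqK Fin.instBiheytingAlgebra MulSemiringAction.toMulDistribMulAction MulActionWithZero.toMulAction MulDistribMulAction.toMulAction ENormedCommMonoid.toESeminormedCommMonoid NormedCommGroup.toENormedCommMonoid BialgHomClass.toAlgHomClass OrderDual.instPow_1 instNonemptyOfMonad instInhabitedOfMonad Pi.distribSMul' Pi.mulZeroClass instIsDedekindDomainOfIsDomainOfIsDedekindRing DivisionRing.isDomain EuclideanDomain.instIsDomain Field.isDomain IsDedekindDomain.toIsDomain IsDedekindDomainDvr.isDedekindDomain IsStrictOrderedRing.isDomain Std.DTreeMap.Raw.instSingletonSigma FirstOrder.Language.instDecidableEqFunctions FirstOrder.Language.instDecidableEqRelations FinEnum.decEq FunLike.toDecidableEq RCLike.toDecidableEq decidableEq_of_subsingleton LeftPreLieAlgebra.toIsScalarTower LieAdmissibleAlgebra.toIsScalarTower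 LieRinehartAlgebra.toIsScalarTower RightPreLieAlgebra.toIsScalarTower OrderRingHom.instRingHomClass MulOpposite.instMulOne LeftPreLieAlgebra.toSMulCommClass LieAdmissibleAlgebra.toSMulCommClass RightPreLieAlgebra.toSMulCommClass Ideal.Quotient.normedCommRing TensorProduct.instModuleFstSnd AddCommMonoidWithOne.toAddCommMonoid CategoryTheory.instBraidedCategoryType CommGroupWithZero.toCommMonoidWithZero NeZero.of_gt' AddCancelCommMonoid.toAddCommMonoid ESeminormedAddCommMonoid.toAddCommMonoid ENormedAddCommMonoid.toESeminormedAddCommMonoid NormedAddCommGroup.toENormedAddCommMonoid AddCancelCommMonoid.toAddCancelMonoid AddCancelMonoid.toAddLeftCancelMonoid AddLeftCancelMonoid.toAddMonoid AddRightCancelMonoid.toAddMonoid ENormedAddCommMonoid.toENormedAddMonoid ENormedAddMonoid.toESeminormedAddMonoid ESeminormedAddCommMonoid.toESeminormedAddMonoid ESeminormedAddMonoid.toAddMonoid NormedAddGroup.toENormedAddMonoid Nat.Prime.one_lt' instRingHomSurjectiveForallEvalRingHom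 Ring.toGrindRing SubfieldClass.toDivisionRing SubfieldClass.toField CompleteLattice.toLattice CommSemiring.toGrindCommSemiring Semiring.toGrindSemiring LeftPreLieAlgebra.instLieAdmissibleAlgebra LieAdmissibleAlgebra.instLieAlgebra LieAlgebra.ofAssociativeAlgebra AddQuantale.instAddLeftMono AlgEquivClass.toAlgHomClass instMulActionSemiHomClassMulActionHom Fin.instCoheytingAlgebra Fin.instHeytingAlgebra Torsor.nonempty CategoryTheory.IsConnected.is_nonempty CommMonCat.str Field.instIsLocalRing IsOrderedRing.toIsStrictOrderedRing ValuationRing.isLocalRing LinearOrder.toLattice instInfiniteOfUncountable instNontrivialOfCharZero CategoryTheory.isConnected_of_nonempty_and_subsingleton CharZero.infinite Denumerable.instInfinite DivisionRing.toNontrivial EuclideanDomain.toNontrivial Group.instTorsor GroupWithZero.toNontrivial Infinite.instNontrivial IsAlgClosed.instInfinite IsSimpleAddGroup.toNontrivial IsSimpleGroup.toNontrivial IsSimpleOrder.toNontrivial IsSimpleRing.instNontrivial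 IsStrictOrderedRing.toNontrivial LinearOrderedAddCommGroupWithTop.toNontrivial NoMaxOrder.infinite NoMinOrder.infinite NontriviallyNormedField.infinite NormedAddTorsor.toAddTorsor SeminormedAddCommGroup.toNormedAddTorsor CategoryTheory.Groupoid.toCategory CategoryTheory.IsSifted.instIsConnected CategoryTheory.StrictBicategory.category FirstOrder.Language.instInfiniteOfModelDloOrderOfNonempty SemilatSupCat.isSemilatticeSup Pi.commMagma RCLike.toInnerProductSpaceReal Pi.instBotForall NonUnitalAlgHomClass.toNonUnitalRingHomClass SubalgebraClass.seminormedRing SubringClass.toSeminormedCommRing SubringClass.toSeminormedRing Monoid.End.instMonoidHomClass instCharZeroOfIsSemireal IsStrictOrderedRing.toCharZero RCLike.charZero_rclike instIsSemirealOfIsStrictOrderedRingOfExistsAddOfLE IsRealClosed.toIsSemireal DivisionRing.toDivisionSemiring Real.instRCLike SubfieldClass.toSubringClass instFiniteProp NonAssocRing.toAddCommGroupWithOne SetLike.GradeZero.instCommSemiring AddCommGroup.toGrindIntModule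 CompleteSemilatticeInf.toPartialOrder MulZeroClass.toSMulWithZero SetLike.GradeZero.instSemiring AddCommMonoid.toGrindNatModule CancelCommMonoid.toCancelMonoid CommGroup.toCancelCommMonoid Group.toCancelMonoid Pi.subtractionMonoid CancelCommMonoid.toLeftCancelMonoid CancelMonoid.toLeftCancelMonoid CommGroup.toDivisionCommMonoid DivisionRing.toDivInvMonoid Group.toDivisionMonoid GroupWithZero.toDivisionMonoid Pi.smulZeroClass' Semigrp.str Nontrivial.to_nonempty Unique.instInhabited bot_nonempty infSet_to_nonempty supSet_to_nonempty top_nonempty ConnectedSpace.toNonempty IrreducibleSpace.toNonempty One.instNonempty Zero.instNonempty IsDomain.toNontrivial Preorder.smallCategory CategoryTheory.IsSifted.isSifted_of_hasBinaryCoproducts_and_nonempty SaturatedAddSubmonoid.instAddSubmonoidClass PositiveLinearMap.instInnerProductSpaceComplexPreGNS AlgebraicGeometry.instOrderTopCarrierCarrierCommRingCatOfIsIntegral BialgHomClass.toMonoidHomClass MulCharClass.toMonoidHomClass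 MulDistribMulActionSemiHomClass.toMonoidHomClass NonAssocRing.toNonAssocSemiring Semifield.toCommGroupWithZero Pi.addZeroClass SetLike.GradeZero.instCommRing SubringClass.toRing SetLike.GradeZero.instRing FloorSemiring.instCharZero AbsoluteValue.mulHomClass Ideal.Quotient.semiNormedCommRing CompleteAtomicBooleanAlgebra.toCompleteBooleanAlgebra CompleteLinearOrder.toConditionallyCompleteLinearOrderBot ConditionallyCompleteLinearOrderBot.toConditionallyCompleteLinearOrder CompleteBooleanAlgebra.toCompleteLattice ConditionallyCompletePartialOrder.toConditionallyCompletePartialOrderInf Pi.instOne OneHom.oneHomClass NonUnitalCommRing.toNonUnitalRing RingConeClass.toSubsemiringClass LinearOrderedAddCommMonoidWithTop.toLinearOrder RootedTree.orderBot CancelCommMonoid.toCommMonoid CancelMonoid.toRightCancelMonoid CommGroup.toCommMonoid DivInvOneMonoid.toDivInvMonoid DivisionCommMonoid.toCommMonoid DivisionMonoid.toDivInvMonoid ENormedCommMonoid.toENormedMonoid ENormedMonoid.toESeminormedMonoid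 ESeminormedCommMonoid.toCommMonoid ESeminormedCommMonoid.toESeminormedMonoid ESeminormedMonoid.toMonoid LeftCancelMonoid.toMonoid NormedGroup.toENormedMonoid RightCancelMonoid.toMonoid GradedMonoid.GradeZero.commMonoid GradedMonoid.GradeZero.monoid MulZeroClass.negZeroClass MulSemiringActionSemiHomClass.toRingHomClass Pi.instMaxForall_mathlib SimpleGraph.TripartiteFromTriangles.graph.instDecidableRelAdj RingEquivClass.toNonUnitalRingHomClass ConvexCone.instAddMemClass IdemCommSemiring.toCommSemiring Semiring.toNonUnitalSemiring DivisionSemiring.toGroupWithZero GroupWithZero.toMonoidWithZero NonUnitalNonAssocSemiring.toMulZeroClass Nat.instAtLeastTwoHAddOfNat Pi.distribMulAction' Algebra.TensorProduct.right_isScalarTower TensorProduct.isScalarTower_right SubsemiringClass.toSemiring SubringClass.toNegMemClass Pi.addCommMagma CompleteSemilatticeSup.toPartialOrder IdemCommSemiring.toIdemSemiring GradedMonoid.GradeZero.smul CommMonoidWithZero.toCommMonoid DivInvMonoid.toMonoid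 Group.toDivInvMonoid LinOrd.str AddQuantale.instAddRightMono Quantale.instMulRightMono InvOneClass.toOne One.ofOfNat1 UnitalShelf.toOne Fin.addCommGroup BooleanAlgebra.toBot GeneralizedBooleanAlgebra.toBot Fin.addCommMonoid BooleanAlgebra.toBoundedOrder BooleanAlgebra.toTop CoheytingAlgebra.toBoundedOrder CoheytingAlgebra.toOrderTop CompletePartialOrder.toSupSet CompleteSemilatticeSup.toSupSet ConditionallyCompleteLattice.toInfSet ConditionallyCompleteLattice.toSupSet ConditionallyCompleteLinearOrderBot.toOrderBot ConditionallyCompletePartialOrderSup.toSupSet GeneralizedBooleanAlgebra.toOrderBot GeneralizedCoheytingAlgebra.toOrderBot GeneralizedHeytingAlgebra.toOrderTop HeytingAlgebra.toBoundedOrder HeytingAlgebra.toOrderBot IdemSemiring.toOrderBot IrreducibleSpace.connectedSpace LinearOrderedAddCommGroupWithTop.toOrderTop LinearOrderedAddCommMonoidWithTop.toOrderTop LinearOrderedCommMonoidWithZero.toOrderBot NormedAddTorsor.toAddTorsor' PathConnectedSpace.connectedSpace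 RCLike.innerProductSpace ContractibleSpace.instOfNonemptyOfIndiscreteTopology ContractibleSpace.instOfNonemptyOfSubsingleton ContractibleSpace.instPathConnectedSpace Convex.instPathConnectedSpace Fin.instBoundedOrder Fin.instCommMonoid Fin.instNontrivial NormedSpace.instPathConnectedSpace RealTopologicalVectorSpace.contractibleSpace SimplyConnectedSpace.instPathConnectedSpace SimplyConnectedSpace.ofContractible DivisionRing.toNNRatCast DivisionRing.toRatCast DivisionSemiring.toNNRatCast AlgHom.instRingHomCompTripleComp NonUnitalCommSemiring.toNonUnitalNonAssocCommSemiring NonUnitalNonAssocSemiring.toDistribSMul Algebra.TensorProduct.instNonAssocRing Algebra.TensorProduct.instNonUnitalRing NonUnitalAlgHomClass.instLinearMapClass TensorProduct.instNormedAddCommGroup Algebra.TensorProduct.instNonUnitalNonAssocRing instIsSemisimpleModuleOfIsSimpleModule instIsSemisimpleRingOfSubsingleton IsSemisimpleRing.isSemisimpleModule IsSimpleRing.instIsSemisimpleRing instIsSimpleModule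 SubringClass.toCommRing Module.FaithfullyFlat.of_isIntegral_of_isDomain Module.FaithfullyFlat.self Module.FaithfullyFlat.toFlat of_isDiscreteValuationRing ValuationRing.of_field AddGroup.toAddCancelMonoid TensorProduct.CompatibleSMul.int Pi.subNegMonoid Pi.subNegZeroMonoid ConditionallyCompleteLinearOrder.toConditionallyCompleteLattice CompleteLattice.toCompleteSemilatticeSup ConditionallyCompletePartialOrderSup.toPartialOrder instOfNatAtLeastTwo AddCommGroup.toAddCancelCommMonoid CompleteLattice.toCompleteSemilatticeInf LinearOrder.toDecidableEq LinearOrderedCommMonoidWithZero.toIsBotZeroClass Nat.instOne Ring.toNonAssocRing NonAssocRing.toNonUnitalNonAssocRing NormedAlgebra.id instMonadLiftT instMonadLiftTOfMonadLift Std.Time.WallTime.instHAddOffset_1 Vector.instHMul SMulMemClass.toModule SubmoduleClass.module' Quantale.instMulLeftMono Submodule.instIdemCommSemiring Pi.instMinForall_mathlib Set.instAddLeftMono BoundedOrder.toOrderBot BoundedOrder.toOrderTop RootedTree.semilatticeInf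 Pi.instCanonicallyOrderedAddForall instTopologicalSpaceFin Fin.instInhabited Std.LinearOrderPackage.toLinearPreorderPackage Std.LinearPreorderPackage.toPreorderPackage Pi.nonAssocRing CategoryTheory.instCategoryObj Algebra.TensorProduct.instNonUnitalSemiring Algebra.TensorProduct.instNonUnitalNonAssocSemiring Module.Flat.instOfIsDedekindDomainOfIsTorsionFree NumberField.instFiniteDimensional FiniteDimensional.finiteDimensional_quotient SubsemiringClass.toCommSemiring smoothSheafCommRing.instLocalRing_stalk ValuationRing.instOfIsLocalRingOfIsBezout AlgebraicGeometry.Scheme.component_nontrivial IsDedekindDomain.isDedekindDomainDvr IsDedekindDomain.toIsDedekindRing SetLike.instFinite Algebra.TensorProduct.instAddCommGroupWithOne CommRing.Pic.instFreeOfSubsingleton SubgroupClass.normedCommGroup SubgroupClass.normedGroup Subsingleton.to_isCancelMulZero instIsCancelMulZero instIsCancelMulZero_1 GCDMonoid.toIsCancelMulZero NoZeroDivisors.to_isCancelMulZero UniqueFactorizationMonoid.toIsCancelMulZero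 WithTop.linearOrderedAddCommMonoidWithTop Submodule.Quotient.normedAddCommGroup ConditionallyCompleteLattice.toConditionallyCompletePartialOrder ConditionallyCompletePartialOrder.toConditionallyCompletePartialOrderSup instDistribLatticeOfLinearOrder DistribLattice.toLattice SemilatticeInf.toPartialOrder SubringClass.toNonAssocCommRing SubringClass.toNonAssocRing Fin.instNonUnitalCommRing AddTorsor.nonempty Pi.nonUnitalNonAssocRing Zero.ofOfNat0 AddGroup.instAddTorsor CompleteSemilatticeInf.toInfSet CommBialgCat.instCommRingObjForgetBialgHomCarrier instFiniteCarrierToTopAndTotallyDisconnectedSpaceSecondCountableTopologyOfObj Pi.instIsRightCancelAdd forall_prop_decidable Array.instDecidableForallForallMemOfDecidablePred Finset.decidableDforallFinset Fintype.decidableForallFintype Multiset.decidableDforallMultiset Option.decidableForallMem Vector.instDecidableForallForallMemOfDecidablePred Module.toMulActionWithZero CommGroupWithZero.toDivisionCommMonoid DivisionCommMonoid.toDivisionMonoid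 GroupWithZero.toDivInvMonoid CompletePartialOrder.toPartialOrder -- iprune

set_option linter.all false

section

/-!
P177, inner assembly, part B: `chi_flag` over `D = R ⊗ W(C)`, `R` a regular local ring.
-/

namespace Vale.Agent.P177.Full

open TensorProduct Vale.Agent.P202.Mix Vale.Agent.P177.Flag Vale.Agent.P177.PI
  Vale.Agent.P177.Ap Vale.Agent.P177.TH
open scoped ENNReal

universe u v w

theorem isHypersurface_quot {D : Type u} [CommRing D] (α : D) (h : IsSMulRegular D α) :
    IsHypersurface D (D ⧸ Ideal.span {α}) α :=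
  ⟨h, Ideal.Quotient.mk_surjective, Ideal.mk_ker⟩

theorem regular_of_flat' {R D : Type u} [CommRing R] [CommRing D] [Algebra R D]
    [Module.Flat R D] {a : R} (h : IsSMulRegular R a) : IsSMulRegular D (algebraMap R D a) := by
  have h1 : IsSMulRegular D a := by
    have h2 := h.of_flat_of_isBaseChange (S := D) (M := R) (N := D)
      (f := Algebra.linearMap R D) (IsBaseChange.linearMap R D)
    intro x y hxy
    apply h2
    simpa [Algebra.smul_def] using hxy
  intro x y hxy
  apply h1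
  simpa [Algebra.smul_def] using hxy

variable {R : Type u} [CommRing R] [IsRegularLocalRing R] {Λ L Y : Type u} [CommRing Λ]
  [Algebra Λ R] [AddCommGroup L]
  [Module R L] [Module Λ L] [IsScalarTower Λ R L] [AddCommGroup Y] [Module Λ Y] {n : ℕ}
  (b : Module.Basis (Fin n) Λ L)
  {W : Type u} [CommRing W] [Module.Flat ℤ W] {G : Type v} [AddCommGroup G]
  {F : RFam W G} {τ : ∀ j : ℕ, (Fin j → Fin n) → W} {dg : ℕ → G} {good : G → Prop} {η : W}
  {LD : AddLen (R ⊗[ℤ] W)}

/-- `W → R ⊗ W` -/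
noncomputable abbrev iWt (R W : Type u) [CommRing R] [CommRing W] : W →+* R ⊗[ℤ] W :=
  (Algebra.TensorProduct.includeRight : W →ₐ[ℤ] R ⊗[ℤ] W).toRingHom

theorem chi_flag_R (d : ℕ) (hd : ringKrullDim R = d) (hd1 : 1 ≤ d) (nn : ℕ) (hnn : d ≤ nn)
    (P : Ideal R) {α : R} (hαP : α ∈ P)
    (hα : IsSMulRegular R α) (k : ℕ) (ψ : Λ →+* W)
    (hgen : ∀ y : R ⊗[ℤ] W, y ∈ AddSubgroup.closure
      {z : R ⊗[ℤ] W | ∃ (r : R) (a : W), z = iWt R W a * algebraMap R _ r})
    (hη : EtaNull LD (iWt R W η)) {m : ℕ} (hm : 1 ≤ m)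
    -- flag data
    (h : FDataE F τ dg good η) (hn : 0 < n) {s : G}
    (hs : good s) (hs1 : ∀ j < n, good (s + dg j - dg (j + 1)))
    (hs2 : ∀ j < n, good (s - dg (j + 1)))
    (hcol : ∀ j < n, ColN F τ dg (j + 1) (s + dg j))
    (hsko : ∀ j < n, SkoN F τ dg j (s + dg j - dg (j + 1)))
    (eY : Y ≃+ Gr F s) (hY : ∀ (a : Λ) (y : Y), eY (a • y) = ψ a • eY y)
    -- the modules `X` and `VL`
    {X : Type u} [AddCommGroup X] [Module (R ⊗[ℤ] W) X]
    (hq : ∀ x : X, algebraMap R (R ⊗[ℤ] W) α ^ (m + 1) • x = 0)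
    (eX : Y ⊗[Λ] L ≃+ X)
    (heXR : ∀ (r : R) (y : Y) (l : L), eX (y ⊗ₜ (r • l)) =
      algebraMap R (R ⊗[ℤ] W) r • eX (y ⊗ₜ l))
    (heXW : ∀ (a : W) (y : Y) (l : L), eX (eY.symm (a • eY y) ⊗ₜ l) = iWt R W a • eX (y ⊗ₜ l))
    {VL : Type u} [AddCommGroup VL] [Module (R ⊗[ℤ] W) VL]
    (hVL : ∃ k : ℕ, ∀ v : VL, algebraMap R (R ⊗[ℤ] W) α • v = 0 → iWt R W η ^ k • v = 0)
    (hVLfin : ∀ i, LD.len (TorM (R ⊗[ℤ] W) i VL ((R ⊗[ℤ] W) ⊗[R] (R ⧸ P))) < ⊤)
    (fL : VL →ₗ[R ⊗[ℤ] W] X) (hfL : Function.Surjective fL)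
    (hkerL : ∀ v, fL v = 0 ↔ ∃ w, v = algebraMap R (R ⊗[ℤ] W) α ^ (m + 1) • w)
    -- the eigencharacters
    (c : R → ℕ → W) (hEig : ∀ r, EigNA F τ dg η ((actMat b r).map ψ) (c r))
    (N : ℕ → Type u) [∀ j, AddCommGroup (N j)] [∀ j, Module (R ⊗[ℤ] W) (N j)]
    (π : ∀ j, Gr F (s + dg j - dg (j + 1)) →+ N j)
    (hπ : ∀ j < n, ∀ m : N j, ∃ g, π j g = iWt R W η ^ k • m)
    (hπ0 : ∀ j < n, ∀ x, π j x = 0 → η ^ k • x = 0)
    (hπW : ∀ j < n, ∀ (a : W) (x), π j (a • x) = iWt R W a • π j x)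
    (hπR : ∀ j < n, ∀ (r : R) (x), π j (c r j • x) = algebraMap R (R ⊗[ℤ] W) r • π j x)
    (H : ℕ → Type u) [∀ j, AddCommGroup (H j)] [∀ j, Module (R ⊗[ℤ] W) (H j)]
    (hH : ∀ j < n, ∃ k : ℕ, ∀ v : H j, algebraMap R (R ⊗[ℤ] W) α • v = 0 →
      iWt R W η ^ k • v = 0)
    (hHfin : ∀ j < n, ∀ i, LD.len (TorM (R ⊗[ℤ] W) i (H j) ((R ⊗[ℤ] W) ⊗[R] (R ⧸ P))) < ⊤)
    (f : ∀ j, H j →ₗ[R ⊗[ℤ] W] N j)
    (hf : ∀ j < n, Function.Surjective (f j))
    (hker : ∀ j < n, ∀ v, f j v = 0 ↔ ∃ w, v = algebraMap R (R ⊗[ℤ] W) α ^ (m + 1) • w) :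
    TH.chi LD nn VL ((R ⊗[ℤ] W) ⊗[R] (R ⧸ P)) =
      ∑ j ∈ Finset.range n, TH.chi LD nn (H j) ((R ⊗[ℤ] W) ⊗[R] (R ⧸ P)) := by
  have hK : ∀ x : R ⧸ P, α • x = 0 := by
    intro x
    obtain ⟨y, rfl⟩ := Ideal.Quotient.mk_surjective x
    rw [← Ideal.Quotient.mk_eq_mk, ← Submodule.Quotient.mk_smul, Submodule.Quotient.mk_eq_zero]
    exact P.mul_mem_right _ hαP
  let B := (R ⊗[ℤ] W) ⧸ Ideal.span {algebraMap R (R ⊗[ℤ] W) α}
  have HB : IsHypersurface (R ⊗[ℤ] W) B (algebraMap R (R ⊗[ℤ] W) α) :=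
    isHypersurface_quot _ (regular_of_flat' hα)
  obtain ⟨e⟩ := exists_toB_equiv (B := B) HB (R ⧸ P) hK
  have e1 : ∀ (i : ℕ) (M : Type u) [AddCommGroup M] [Module (R ⊗[ℤ] W) M],
      LD.len (TorM (R ⊗[ℤ] W) i M ((R ⊗[ℤ] W) ⊗[R] (R ⧸ P))) =
        LD.len (TorM (R ⊗[ℤ] W) i M (B ⊗[R] (R ⧸ P))) := fun i M _ _ =>
    TH.len_congr _ (torCongrRight i M e)
  have e2 : ∀ (M : Type u) [AddCommGroup M] [Module (R ⊗[ℤ] W) M],
      TH.chi LD nn M ((R ⊗[ℤ] W) ⊗[R] (R ⧸ P)) =
        TH.chi LD nn M (B ⊗[R] (R ⧸ P)) := fun M _ _ =>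
    Finset.sum_congr rfl fun i _ => by rw [e1]
  rw [e2]
  simp only [e2]
  simp only [e1] at hVLfin hHfin
  exact chi_flag b k (algebraMap R _) (iWt R W) ψ hgen HB hη hm (B ⊗[R] (R ⧸ P))
    (fun i => supply_fpn HB i (R ⧸ P) hK) nn (d - 1) (by omega)
    (supply_vn_regular HB hα d (d - 1) hd (by omega) (R ⧸ P) hK) h hn hs hs1 hs2 hcol hsko eY hY
    hq eX heXR heXW hVL hVLfin fL hfL hkerL c hEig N π hπ hπ0 hπW hπR H hH hHfin f hf hker

end Vale.Agent.P177.Full
end

section

/-!
P177, inner assembly, part C: `chi_flag_R` for the modules `(M s / ξ) ⊗ L`.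
-/

namespace Vale.Agent.P177.Full

open TensorProduct Vale.Agent.P202.Mix Vale.Agent.P177.Flag Vale.Agent.P177.PI
  Vale.Agent.P177.Ap Vale.Agent.P177.TH
open scoped ENNReal

universe u v w

variable {R : Type u} [CommRing R] [IsRegularLocalRing R] {Λ L : Type u} [CommRing Λ]
  [Algebra Λ R] [AddCommGroup L]
  [Module R L] [Module Λ L] [IsScalarTower Λ R L] {n : ℕ}
  (b : Module.Basis (Fin n) Λ L)
  {W : Type u} [CommRing W] [Module.Flat ℤ W] {G : Type v} [AddCommGroup G]
  {F : RFam W G} {τ : ∀ j : ℕ, (Fin j → Fin n) → W} {dg : ℕ → G} {good : G → Prop} {η : W}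
  {LD : AddLen (R ⊗[ℤ] W)}

include b in
theorem chi_flag_X (d : ℕ) (hd : ringKrullDim R = d) (hd1 : 1 ≤ d) (nn : ℕ) (hnn : d ≤ nn)
    (P : Ideal R) {α β : R} (hαP : α ∈ P) (hα : IsSMulRegular R α) {p c m : ℕ} (hαβ : (p : R) ^ c = α + β)
    (hβ : ∀ l : L, β • l = 0) (k : ℕ) (ψ : Λ →+* W)
    (hη : EtaNull LD (iWt R W η)) (hm : 1 ≤ m)
    -- flag data
    (h : FDataE F τ dg good η) (hn : 0 < n) {s : G}
    (hs : good s) (hs1 : ∀ j < n, good (s + dg j - dg (j + 1)))
    (hs2 : ∀ j < n, good (s - dg (j + 1)))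
    (hcol : ∀ j < n, ColN F τ dg (j + 1) (s + dg j))
    (hsko : ∀ j < n, SkoN F τ dg j (s + dg j - dg (j + 1)))
    {ξ : W} (hN : F.N s = (Ideal.span {ξ} ⊔ Ideal.span {(p : W) ^ (c * (m + 1))}) * F.M s)
    (hreg : ∀ y : JSh ξ (F.M s), (p : W) • y = 0 → y = 0)
    (hfin : ∀ i, LD.len (TorM (R ⊗[ℤ] W) i (TenM ψ (JSh ξ (F.M s)) L)
      ((R ⊗[ℤ] W) ⊗[R] (R ⧸ P))) < ⊤)
    -- the eigencharacters
    (cc : R → ℕ → W) (hEig : ∀ r, EigNA F τ dg η ((actMat b r).map ψ) (cc r))
    (N : ℕ → Type u) [∀ j, AddCommGroup (N j)] [∀ j, Module (R ⊗[ℤ] W) (N j)]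
    (π : ∀ j, Gr F (s + dg j - dg (j + 1)) →+ N j)
    (hπ : ∀ j < n, ∀ m : N j, ∃ g, π j g = iWt R W η ^ k • m)
    (hπ0 : ∀ j < n, ∀ x, π j x = 0 → η ^ k • x = 0)
    (hπW : ∀ j < n, ∀ (a : W) (x), π j (a • x) = iWt R W a • π j x)
    (hπR : ∀ j < n, ∀ (r : R) (x), π j (cc r j • x) = algebraMap R (R ⊗[ℤ] W) r • π j x)
    (H : ℕ → Type u) [∀ j, AddCommGroup (H j)] [∀ j, Module (R ⊗[ℤ] W) (H j)]
    (hH : ∀ j < n, ∃ k : ℕ, ∀ v : H j, algebraMap R (R ⊗[ℤ] W) α • v = 0 →
      iWt R W η ^ k • v = 0)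
    (hHfin : ∀ j < n, ∀ i, LD.len (TorM (R ⊗[ℤ] W) i (H j) ((R ⊗[ℤ] W) ⊗[R] (R ⧸ P))) < ⊤)
    (f : ∀ j, H j →ₗ[R ⊗[ℤ] W] N j)
    (hf : ∀ j < n, Function.Surjective (f j))
    (hker : ∀ j < n, ∀ v, f j v = 0 ↔ ∃ w, v = algebraMap R (R ⊗[ℤ] W) α ^ (m + 1) • w) :
    TH.chi LD nn (TenM ψ (JSh ξ (F.M s)) L) ((R ⊗[ℤ] W) ⊗[R] (R ⧸ P)) =
      ∑ j ∈ Finset.range n, TH.chi LD nn (H j) ((R ⊗[ℤ] W) ⊗[R] (R ⧸ P)) := by
  have hfree : Module.Free Λ L := Module.Free.of_basis b
  have hle : Ideal.span {ξ} * F.M s ≤ F.N s := by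
    rw [hN]
    exact Ideal.mul_mono_left le_sup_left
  obtain ⟨h1, h2, h3, h4⟩ := TenM.trunc (φ := ψ) (L := L) hαβ hβ hreg (jshGr F ξ s hle)
    (jshGr_surjective F ξ s hle) m (jshGr_eq_zero_iff F ξ s hle hN)
  exact chi_flag_R b (Y := LM ψ (Gr F s)) d hd hd1 nn hnn P hαP hα k ψ ten_gen hη hm h hn hs hs1 hs2
    hcol hsko (AddEquiv.refl _) (fun _ _ => rfl) h4 (AddEquiv.refl _)
    (fun r y l => (inR_smul_tmul (φ := ψ) r y l).symm)
    (fun a y l => (inW_smul_tmul (φ := ψ) a y l).symm)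
    ⟨0, fun v hv => by rw [h1 v hv, smul_zero]⟩ hfin _ h2 h3 cc hEig N π hπ hπ0 hπW hπR H hH hHfin
    f hf hker

include b in
/-- `chi_flag_X` with `M s` renamed. -/
theorem chi_flag_XM {M0 : Ideal W} (d : ℕ) (hd : ringKrullDim R = d) (hd1 : 1 ≤ d) (nn : ℕ) (hnn : d ≤ nn)
    (P : Ideal R) {α β : R} (hαP : α ∈ P) (hα : IsSMulRegular R α) {p c m : ℕ} (hαβ : (p : R) ^ c = α + β)
    (hβ : ∀ l : L, β • l = 0) (k : ℕ) (ψ : Λ →+* W)
    (hη : EtaNull LD (iWt R W η)) (hm : 1 ≤ m)
    -- flag data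
    (h : FDataE F τ dg good η) (hn : 0 < n) {s : G}
    (hs : good s) (hs1 : ∀ j < n, good (s + dg j - dg (j + 1)))
    (hs2 : ∀ j < n, good (s - dg (j + 1)))
    (hcol : ∀ j < n, ColN F τ dg (j + 1) (s + dg j))
    (hsko : ∀ j < n, SkoN F τ dg j (s + dg j - dg (j + 1)))
    {ξ : W} (hM0 : F.M s = M0)
    (hN : F.N s = (Ideal.span {ξ} ⊔ Ideal.span {(p : W) ^ (c * (m + 1))}) * M0)
    (hreg : ∀ y : JSh ξ M0, (p : W) • y = 0 → y = 0)
    (hfin : ∀ i, LD.len (TorM (R ⊗[ℤ] W) i (TenM ψ (JSh ξ M0) L)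
      ((R ⊗[ℤ] W) ⊗[R] (R ⧸ P))) < ⊤)
    -- the eigencharacters
    (cc : R → ℕ → W) (hEig : ∀ r, EigNA F τ dg η ((actMat b r).map ψ) (cc r))
    (N : ℕ → Type u) [∀ j, AddCommGroup (N j)] [∀ j, Module (R ⊗[ℤ] W) (N j)]
    (π : ∀ j, Gr F (s + dg j - dg (j + 1)) →+ N j)
    (hπ : ∀ j < n, ∀ m : N j, ∃ g, π j g = iWt R W η ^ k • m)
    (hπ0 : ∀ j < n, ∀ x, π j x = 0 → η ^ k • x = 0)
    (hπW : ∀ j < n, ∀ (a : W) (x), π j (a • x) = iWt R W a • π j x)
    (hπR : ∀ j < n, ∀ (r : R) (x), π j (cc r j • x) = algebraMap R (R ⊗[ℤ] W) r • π j x)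
    (H : ℕ → Type u) [∀ j, AddCommGroup (H j)] [∀ j, Module (R ⊗[ℤ] W) (H j)]
    (hH : ∀ j < n, ∃ k : ℕ, ∀ v : H j, algebraMap R (R ⊗[ℤ] W) α • v = 0 →
      iWt R W η ^ k • v = 0)
    (hHfin : ∀ j < n, ∀ i, LD.len (TorM (R ⊗[ℤ] W) i (H j) ((R ⊗[ℤ] W) ⊗[R] (R ⧸ P))) < ⊤)
    (f : ∀ j, H j →ₗ[R ⊗[ℤ] W] N j)
    (hf : ∀ j < n, Function.Surjective (f j))
    (hker : ∀ j < n, ∀ v, f j v = 0 ↔ ∃ w, v = algebraMap R (R ⊗[ℤ] W) α ^ (m + 1) • w) :
    TH.chi LD nn (TenM ψ (JSh ξ M0) L) ((R ⊗[ℤ] W) ⊗[R] (R ⧸ P)) =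
      ∑ j ∈ Finset.range n, TH.chi LD nn (H j) ((R ⊗[ℤ] W) ⊗[R] (R ⧸ P)) := by
  subst hM0
  exact chi_flag_X b d hd hd1 nn hnn P hαP hα hαβ hβ k ψ hη hm h hn hs hs1 hs2 hcol hsko hN hreg
    hfin cc hEig N π hπ hπ0 hπW hπR H hH hHfin f hf hker

end Vale.Agent.P177.Full
end

section

/-!
P177, inner assembly: the flag formula for the package `X : Core`.
-/

namespace Vale.Agent.P177.Full

open TensorProduct IsLocalRing RingTheory.Sequence Function Vale.Agent.P202.Mix
  Vale.Agent.P177.Flag Vale.Agent.P177.PI Vale.Agent.P177.Lev Vale.Agent.P177.Ap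
  Vale.Agent.P177.TH WittVector
open scoped ENNReal

universe u

namespace Core

variable {p : ℕ} [Fact p.Prime] {R : Type u} [CommRing R] [IsRegularLocalRing R]
    [CharP (ResidueField R) p] [PerfectRing (ResidueField R) p] {d : ℕ} {P : Ideal R}
    {hs : List R} {r : ℕ} [IsRegularLocalRing (Lam p (ResidueField R) r)]
    [Algebra (Lam p (ResidueField R) r) R] {Ω : Type u} [Field Ω]
    [Algebra (Lam p (ResidueField R) r) Ω] {F : Fin 2 → FlagMod (Lam p (ResidueField R) r) Ω hs}
    (X : Core p d P hs r Ω F)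

/-- the family of the flag `i`, modulo `p ^ (2 c0)`. -/
noncomputable abbrev fm (i : Fin 2) : RFam (WittVector p X.K.C) (Fin (F i).n → ℤ) :=
  X.K.fam (F i).n (X.pl i) (X.c0 * (1 + 1))

theorem etaNull_of_kil {w : WittVector p X.K.C} (hw : KM.Kil X.K.mass w) :
    EtaNull X.LD (inW R (WittVector p X.K.C) w) := by
  intro M _ _ k hk
  show X.LD.len M = 0
  let _ : Module (WittVector p X.K.C) M := Module.compHom M (inW R (WittVector p X.K.C))
  have h1 : X.LD.len M = X.K.mass.len M :=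
    B8.pullL_len (inW R (WittVector p X.K.C)) X.K.mass M fun _ _ => rfl
  rw [h1]
  refine hw.pow k M fun x => ?_
  have h2 := hk x
  rw [← map_pow] at h2
  exact h2

theorem mem_kill {i : Fin 2} {β : R} (hβ : β ∈ Ideal.ofList hs) (l : (F i).L) : β • l = 0 := by
  have h1 : Ideal.ofList hs ≤ LinearMap.ker (LinearMap.toSpanSingleton R (F i).L l) := by
    rw [Ideal.ofList, Ideal.span_le]
    intro s hs'
    exact (F i).kill s hs' l
  exact h1 hβ

theorem hN_le (e : ULift.{u} ℕ) : X.c0 * (1 + 1) * p ^ X.K.j e * p ^ X.K.j e ≤ X.K.I e + 1 := by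
  have h1 := X.gr_le (X.K.j e)
  have h2 := X.K.le_I e
  calc X.c0 * (1 + 1) * p ^ X.K.j e * p ^ X.K.j e
      = (2 * X.c0) * (p ^ X.K.j e * p ^ X.K.j e) := by ring
    _ ≤ (X.K.j e + 2 * X.c0) * (p ^ X.K.j e * p ^ X.K.j e) :=
        Nat.mul_le_mul_right _ (Nat.le_add_left _ _)
    _ ≤ X.K.I e + 1 := (h1.trans h2).trans (Nat.le_succ _)

theorem α_regular : IsSMulRegular R X.α := by
  have := regular_isDomain R
  intro x y h
  exact mul_left_cancel₀ X.α_ne h

/-- **The flag formula for `X : Core`**, with the error element `[e0] ^ k`, `e0` a multiple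
of `η` with `mass`-null torsion. -/
theorem chi_flag (i : Fin 2) (hn : 0 < (F i).n) (hd : ringKrullDim R = d) (hd1 : 1 ≤ d)
    (nn : ℕ) (hnn : d ≤ nn)
    (hfin : ∀ l, X.LD.len (TorM (R ⊗[ℤ] WittVector p X.K.C) l
      (TenM X.la (X.YJ (X.Jb i)) (F i).L) ((R ⊗[ℤ] WittVector p X.K.C) ⊗[R] (R ⧸ P))) < ⊤)
    -- the error element
    (e0 y0 : X.K.C) (he0 : e0 = X.K.η * y0) (hkil : KM.Kil X.K.mass (teichmuller p e0))
    -- the scalars
    (cc : R → ℕ → WittVector p X.K.C)
    (ff : R → ℕ → MvPolynomial (Fin X.m) (Lam p (ResidueField R) r))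
    (hff : ∀ x j (hj : j < (F i).n), MvPolynomial.aeval X.b (ff x j) = (F i).σ ⟨j, hj⟩ x)
    (m' : ℕ)
    (hcc : ∀ x, ∀ j < (F i).n, teichmuller p X.K.η ^ m' *
      (cc x j - tev p (laW X.ψ X.K.C) X.K.c (ff x j)) ∈
        XI p (tC p (ResidueField R) r X.K.C) (X.c0 * (1 + 1)))
    -- the pieces
    (k : ℕ) (N : ℕ → Type u) [∀ j, AddCommGroup (N j)]
    [∀ j, Module (R ⊗[ℤ] WittVector p X.K.C) (N j)]
    (π : ∀ j, Gr (X.fm i) (sb (F i).n + dg (F i).n j - dg (F i).n (j + 1)) →+ N j)
    (hπ : ∀ j < (F i).n, ∀ m : N j, ∃ g,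
      π j g = inW R (WittVector p X.K.C) (teichmuller p e0) ^ k • m)
    (hπ0 : ∀ j < (F i).n, ∀ x, π j x = 0 → teichmuller p e0 ^ k • x = 0)
    (hπW : ∀ j < (F i).n, ∀ (a : WittVector p X.K.C) (x),
      π j (a • x) = inW R (WittVector p X.K.C) a • π j x)
    (hπR : ∀ j < (F i).n, ∀ (x : R) (y),
      π j (cc x j • y) = inR R (WittVector p X.K.C) x • π j y)
    (H : ℕ → Type u) [∀ j, AddCommGroup (H j)] [∀ j, Module (R ⊗[ℤ] WittVector p X.K.C) (H j)]
    (hH : ∀ j < (F i).n, ∀ v : H j, inR R (WittVector p X.K.C) X.α • v = 0 → v = 0)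
    (hHfin : ∀ j < (F i).n, ∀ l, X.LD.len (TorM (R ⊗[ℤ] WittVector p X.K.C) l (H j)
      ((R ⊗[ℤ] WittVector p X.K.C) ⊗[R] (R ⧸ P))) < ⊤)
    (f : ∀ j, H j →ₗ[R ⊗[ℤ] WittVector p X.K.C] N j)
    (hf : ∀ j < (F i).n, Function.Surjective (f j))
    (hker : ∀ j < (F i).n, ∀ v, f j v = 0 ↔
      ∃ w, v = inR R (WittVector p X.K.C) X.α ^ (1 + 1) • w) :
    TH.chi X.LD nn (TenM X.la (X.YJ (X.Jb i)) (F i).L)
        ((R ⊗[ℤ] WittVector p X.K.C) ⊗[R] (R ⧸ P)) =
      ∑ j ∈ Finset.range (F i).n, TH.chi X.LD nn (H j)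
        ((R ⊗[ℤ] WittVector p X.K.C) ⊗[R] (R ⧸ P)) := by
  have hc2 : 0 < X.c0 * (1 + 1) := Nat.mul_pos X.c0_pos (by norm_num)
  have hix : ∀ j, 1 ≤ j → j ≤ (F i).n → ∀ t : Fin j → Fin (F i).n,
      X.b (X.pl i j t) = detT (F i).v j t := fun j _ hj t => X.pl_spec i j hj t
  have hflat : Module.Flat ℤ (WittVector p X.K.C) := flat_int_witt p X.K.C
  obtain ⟨M', hM'⟩ : ∃ M', M' = m' + (2 * (F i).n + 1) := ⟨_, rfl⟩
  have hpow : teichmuller p e0 ^ M' = teichmuller p y0 ^ M' * teichmuller p X.K.η ^ M' := by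
    rw [he0, map_mul, mul_pow, mul_comm]
  have hdata : FDataE (X.fm i) (tauW p (F i).n (X.pl i) X.K.c) (dg (F i).n) (gd (F i).n)
      (teichmuller p e0 ^ M') := by
    rw [hpow, hM']
    exact (X.K.fDataE' (F i).flag hc2 X.hN_le hix m').mul_left _
  have hEig : ∀ x, EigNA (X.fm i) (tauW p (F i).n (X.pl i) X.K.c) (dg (F i).n)
      (teichmuller p e0 ^ M') ((actMat (F i).b x).map X.la) (cc x) := fun x => by
    rw [hpow, hM']
    exact (X.K.eigNA' (F i).flag hc2 X.hN_le hix x (ff x) (hff x) (cc x) m' (hcc x)).mul_left _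
  have hEk : (teichmuller p e0 ^ M') ^ k =
      teichmuller p e0 ^ ((m' + 2 * (F i).n) * k) * teichmuller p e0 ^ k := by
    rw [← pow_mul, ← pow_add, hM']
    congr 1
    ring
  have hM : (X.fm i).M (sb (F i).n) = WI p (X.Jb i) := X.K.fam_M _ _ _
  have hN : (X.fm i).N (sb (F i).n) = (Ideal.span {xiW p (tC p (ResidueField R) r X.K.C)} ⊔
      Ideal.span {(p : WittVector p X.K.C) ^ (X.c0 * (1 + 1))}) * WI p (X.Jb i) := by
    rw [← hM]
    exact famP_N_eq p _ _ _ _
  have hreg : ∀ y : X.YJ (X.Jb i), (p : WittVector p X.K.C) • y = 0 → y = 0 := by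
    refine jsh_regular p (X.K.isPerf_J _ _ _) ?_
    rw [mem_nonZeroDivisors_iff_right]
    intro x hx
    funext e
    exact (mem_nonZeroDivisors_iff_right.1 (X.K.te_reg e)) _ (congrFun hx e)
  have hπ' : ∀ j < (F i).n, ∀ m : N j, ∃ g,
      π j g = iWt R (WittVector p X.K.C) (teichmuller p e0 ^ M') ^ k • m := by
    intro j hj m
    obtain ⟨g, hg⟩ := hπ j hj m
    refine ⟨teichmuller p e0 ^ ((m' + 2 * (F i).n) * k) • g, ?_⟩
    rw [hπW j hj, hg, smul_smul, ← map_pow (iWt R (WittVector p X.K.C)), hEk,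
      map_mul (iWt R (WittVector p X.K.C)), map_pow (iWt R (WittVector p X.K.C)) _ k]
    rfl
  have hπ0' : ∀ j < (F i).n, ∀ x, π j x = 0 → (teichmuller p e0 ^ M') ^ k • x = 0 := by
    intro j hj x hx
    rw [hEk, mul_smul, hπ0 j hj x hx, smul_zero]
  exact chi_flag_XM (F := X.fm i) (F i).b d hd hd1 nn hnn P X.α_mem X.α_regular (p := p)
    (c := X.c0) (m := 1) X.α_add (fun l => mem_kill X.β_mem l) k X.la
    (X.etaNull_of_kil (hkil.pow M')) le_rfl hdata hn (s := sb (F i).n) (gd_sb _)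
    (fun j _ => gd_sb_sub _ j) (fun j _ => gd_sb_sub' _ (j + 1))
    (fun j hj => X.K.colN j hj) (fun j hj => X.K.skoN j hj)
    (ξ := xiW p (tC p (ResidueField R) r X.K.C)) hM hN hreg hfin cc hEig N π hπ' hπ0'
    hπW hπR H (fun j hj => ⟨0, fun v hv => by rw [hH j hj v hv, smul_zero]⟩) hHfin f hf hker

end Core

end Vale.Agent.P177.Full
end

section

/-!
P177, block RELS: the homomorphisms `φ_σ : Λ[[x]] → W(C)` are compatible with the evaluation of
polynomials at the Teichmueller representatives, up to `[η]`.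
-/

namespace Vale.Agent.P177.Full

open TensorProduct IsLocalRing RingTheory.Sequence Function Vale.Agent.P202.Mix
  Vale.Agent.P177.Flag Vale.Agent.P177.PI Vale.Agent.P177.Lev WittVector
open scoped ENNReal

universe u

section

variable {p : ℕ} [Fact p.Prime] {R : Type u} [CommRing R] [IsRegularLocalRing R]
    [CharP (ResidueField R) p] [PerfectRing (ResidueField R) p] {d : ℕ} {P : Ideal R}
    {hs : List R} {r : ℕ} [IsRegularLocalRing (Lam p (ResidueField R) r)]
    [Algebra (Lam p (ResidueField R) r) R] {Ω : Type u} [Field Ω]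
    [Algebra (Lam p (ResidueField R) r) Ω] {F : Fin 2 → FlagMod (Lam p (ResidueField R) r) Ω hs}
    (X : Core p d P hs r Ω F)

omit [CharP (ResidueField R) p] [PerfectRing (ResidueField R) p]
  [IsRegularLocalRing (Lam p (ResidueField R) r)] in
/-- the characters of a flag kill `hs`. -/
theorem FlagMod.σ_eq_zero (F : FlagMod (Lam p (ResidueField R) r) Ω hs) (j : Fin F.n) {x : R}
    (hx : x ∈ Ideal.ofList hs) : F.σ j x = 0 := by
  have h1 : Ideal.ofList hs ≤ RingHom.ker (F.σ j) := by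
    rw [Ideal.ofList, Ideal.span_le]
    intro s hs'
    exact F.flag.eq_zero_of_smul j (F.kill s hs')
  exact h1 hx

/-- polynomial relations between the values of a character. -/
theorem Core.rel_poly (i : Fin 2) (j : Fin (F i).n) {n : ULift.{u} ℕ → ℕ}
    (hn : ∀ e, p ^ X.K.j e * n e ≤ X.K.I e + 1)
    (f : MvPolynomial (Fin d) (Lam p (ResidueField R) r)) (g : MvPolynomial (Fin X.m) (Lam p (ResidueField R) r))
    (h : MvPolynomial.aeval X.b g =
      (F i).σ j (MvPolynomial.aeval (fun l => X.Φ (MvPowerSeries.X l)) f)) :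
    teichmuller p X.K.η * (X.φ ((F i).σ j) f - tev p (laW X.ψ X.K.C) X.K.c g) ∈ X.K.xiP n := by
  have h1 : X.φ ((F i).σ j) f = tev p (laW X.ψ X.K.C) X.K.c
      (MvPolynomial.rename (X.ix ((F i).σ j)) f) := by
    rw [X.φ_spec, tev, MvPolynomial.coe_eval₂Hom, MvPolynomial.eval₂_rename]
    rfl
  have h2 : MvPolynomial.aeval X.b (MvPolynomial.rename (X.ix ((F i).σ j)) f - g) = 0 := by
    rw [map_sub, h, MvPolynomial.aeval_rename, sub_eq_zero,
      MvPolynomial.comp_aeval_apply]
    congr 2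
    funext l
    exact X.ix_spec i j l
  have h3 := X.K.η_rel hn _ h2
  rw [h1, ← map_sub]
  exact h3

variable [IsAdicComplete (maximalIdeal R) R]

/-- **RELS** -/
theorem Core.rels (hN : Norm p R r hs) (i : Fin 2) (j : Fin (F i).n) {n : ULift.{u} ℕ → ℕ}
    (hn : ∀ e, p ^ X.K.j e * n e ≤ X.K.I e + 1) (s : Sx p (ResidueField R) d)
    (f : MvPolynomial (Fin X.m) (Lam p (ResidueField R) r))
    (hf : MvPolynomial.aeval X.b f = (F i).σ j (X.Φ s)) :
    teichmuller p X.K.η * (X.φ ((F i).σ j) (MvPowerSeries.map MvPowerSeries.C s) -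
      tev p (laW X.ψ X.K.C) X.K.c f) ∈ X.K.xiP n := by
  have c1 : IsAdicComplete (maximalIdeal (Lam p (ResidueField R) r)) (Lam p (ResidueField R) r) :=
    isAdicComplete_lam p (ResidueField R) r
  have c2 : Module.Finite (Lam p (ResidueField R) r) (R ⧸ Ideal.ofList hs) := hN.finite
  obtain ⟨g, hg⟩ := Lf.exists_poly_of_surjective (maximalIdeal (Lam p (ResidueField R) r))
    (maximalIdeal R) (MvPowerSeries.C : WittVector p (ResidueField R) →+* Lam p (ResidueField R) r)
    X.Φ (Ideal.ofList hs) X.Φ_C X.Φ_X hN.pow_le s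
  have h1 : teichmuller p X.K.η * (X.φ ((F i).σ j) (MvPowerSeries.map MvPowerSeries.C s) -
      X.φ ((F i).σ j) g) ∈ X.K.xiP n := by
    refine Lf.compat_S (maximalIdeal (Lam p (ResidueField R) r))
      (maximalIdeal R) (MvPowerSeries.C : WittVector p (ResidueField R) →+* Lam p (ResidueField R) r)
      X.Φ (Ideal.ofList hs) X.Φ_C X.Φ_X hN.pow_le (X.φ ((F i).σ j)) (X.K.xiP n)
      (teichmuller p X.K.η) (fun q hq => ?_) s g hg
    have h2 := X.rel_poly i j hn q 0 (by rw [map_zero, (F i).σ_eq_zero j hq])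
    rwa [map_zero, sub_zero] at h2
  have h2 : teichmuller p X.K.η * (X.φ ((F i).σ j) g - tev p (laW X.ψ X.K.C) X.K.c f) ∈
      X.K.xiP n := by
    refine X.rel_poly i j hn g f ?_
    rw [hf, ← sub_eq_zero, ← map_sub]
    exact (F i).σ_eq_zero j hg
  have h3 := add_mem h1 h2
  rwa [← mul_add, sub_add_sub_cancel] at h3

/-- the case of power series with `σ (Φ s) = 0`. -/
theorem Core.rels_zero (hN : Norm p R r hs) (i : Fin 2) (j : Fin (F i).n) {n : ULift.{u} ℕ → ℕ}
    (hn : ∀ e, p ^ X.K.j e * n e ≤ X.K.I e + 1) (s : Sx p (ResidueField R) d)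
    (h : (F i).σ j (X.Φ s) = 0) :
    teichmuller p X.K.η * X.φ ((F i).σ j) (MvPowerSeries.map MvPowerSeries.C s) ∈ X.K.xiP n := by
  have h1 := X.rels hN i j hn s 0 (by rw [map_zero, h])
  rwa [map_zero, sub_zero] at h1

/-- the case of power series with `σ (Φ s) = a`, `a ∈ Λ`. -/
theorem Core.rels_const (hN : Norm p R r hs) (i : Fin 2) (j : Fin (F i).n) {n : ULift.{u} ℕ → ℕ}
    (hn : ∀ e, p ^ X.K.j e * n e ≤ X.K.I e + 1) (s : Sx p (ResidueField R) d)
    (a : Lam p (ResidueField R) r)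
    (h : (F i).σ j (X.Φ s) = algebraMap (Lam p (ResidueField R) r) Ω a) :
    teichmuller p X.K.η * (X.φ ((F i).σ j) (MvPowerSeries.map MvPowerSeries.C s) -
      laW X.ψ X.K.C a) ∈ X.K.xiP n := by
  have h1 := X.rels hN i j hn s (MvPolynomial.C a) (by rw [MvPolynomial.aeval_C, h])
  rwa [tev, MvPolynomial.coe_eval₂Hom, MvPolynomial.eval₂_C] at h1

omit [IsAdicComplete (maximalIdeal R) R] in
/-- the condition on `n` holds for `n e = j e + 2 c0`. -/
theorem Core.n_le {n : ULift.{u} ℕ → ℕ} (h : ∀ e, n e ≤ (X.K.j e + 2 * X.c0) * p ^ X.K.j e) :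
    ∀ e, p ^ X.K.j e * n e ≤ X.K.I e + 1 := by
  intro e
  have h1 := X.K.le_I e
  have h2 := X.gr_le (X.K.j e)
  have h3 : p ^ X.K.j e * n e ≤ p ^ X.K.j e * ((X.K.j e + 2 * X.c0) * p ^ X.K.j e) :=
    Nat.mul_le_mul_left _ (h e)
  have h4 : p ^ X.K.j e * ((X.K.j e + 2 * X.c0) * p ^ X.K.j e) =
      (X.K.j e + 2 * X.c0) * (p ^ X.K.j e * p ^ X.K.j e) := by ring
  omega

end

end Vale.Agent.P177.Full
end

section

/-!
P177, inner assembly: the flag formula with the honest modules `HJ` as pieces.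
-/

namespace Vale.Agent.P177.Full

open TensorProduct IsLocalRing RingTheory.Sequence Function Vale.Agent.P202.Mix
  Vale.Agent.P177.Flag Vale.Agent.P177.PI Vale.Agent.P177.Lev Vale.Agent.P177.Ap
  Vale.Agent.P177.TH WittVector
open scoped ENNReal

universe u

namespace Core

variable {p : ℕ} [Fact p.Prime] {R : Type u} [CommRing R] [IsRegularLocalRing R]
    [CharP (ResidueField R) p] [PerfectRing (ResidueField R) p] {d : ℕ} {P : Ideal R}
    {hs : List R} {r : ℕ} [IsRegularLocalRing (Lam p (ResidueField R) r)]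
    [Algebra (Lam p (ResidueField R) r) R] {Ω : Type u} [Field Ω]
    [Algebra (Lam p (ResidueField R) r) Ω] {F : Fin 2 → FlagMod (Lam p (ResidueField R) r) Ω hs}
    (X : Core p d P hs r Ω F)

/-- the degree of the `j`-th piece. -/
abbrev sd (n j : ℕ) : Fin n → ℤ := sb n + dg n j - dg n (j + 1)

/-- the ideal of the `j`-th piece. -/
noncomputable abbrev Jd (i : Fin 2) (j : ℕ) : Ideal X.K.C := X.K.J (F i).n (X.pl i) (sd (F i).n j)

variable {C' : Type u} [CommRing C'] [CharP C' p] [PerfectRing C' p] (f : X.K.C →+* C')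

/-- The `j`-th piece of the flag `i` is the truncation of the honest module of `σ`, up to
`[e0] ^ k`. -/
def PieceStmt (i : Fin 2) (j : ℕ) (σ : R →ₐ[Lam p (ResidueField R) r] Ω) (e0 : X.K.C) (k : ℕ) :
    Prop :=
  (∀ h : X.HJ f σ (X.Jd i j), (X.α ⊗ₜ[ℤ] (1 : WittVector p X.K.C)) • h = 0 → h = 0) ∧
  ∃ π : Gr (X.fm i) (sd (F i).n j) →+ (X.HJ f σ (X.Jd i j) ⧸ X.KJ f σ (X.Jd i j) 1),
    (∀ y, ∃ x, π x = ((1 : R) ⊗ₜ[ℤ] teichmuller p e0) ^ k • y) ∧
    (∀ x, π x = 0 → teichmuller p e0 ^ k • x = 0) ∧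
    (∀ (a : WittVector p X.K.C) x, π (a • x) = ((1 : R) ⊗ₜ[ℤ] a) • π x) ∧
    (∀ (s : Sx p (ResidueField R) d) x,
      π (X.psi σ s • x) = ((X.Φ s) ⊗ₜ[ℤ] (1 : WittVector p X.K.C)) • π x)

/-- the Euler characteristic of the `j`-th piece of the character `σ`. -/
noncomputable abbrev chiHJ (i : Fin 2) (nn : ℕ) (σ : R →ₐ[Lam p (ResidueField R) r] Ω) (j : ℕ) : ℝ :=
  TH.chi X.LD nn (X.HJ f σ (X.Jd i j)) ((R ⊗[ℤ] WittVector p X.K.C) ⊗[R] (R ⧸ P))

omit [CharP C' p] [PerfectRing C' p] in
theorem sum_chiHJ (i : Fin 2) (nn : ℕ) (sg : ℕ → (R →ₐ[Lam p (ResidueField R) r] Ω))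
    (hsg : ∀ j (hj : j < (F i).n), sg j = (F i).σ ⟨j, hj⟩) :
    ∑ j ∈ Finset.range (F i).n, X.chiHJ f i nn (sg j) j =
      ∑ j : Fin (F i).n, X.chiHJ f i nn ((F i).σ j) j := by
  have h1 : ∀ G : (R →ₐ[Lam p (ResidueField R) r] Ω) → ℕ → ℝ,
      ∑ j ∈ Finset.range (F i).n, G (sg j) j = ∑ j : Fin (F i).n, G ((F i).σ j) j := by
    intro G
    rw [Finset.sum_range]
    refine Finset.sum_congr rfl fun j _ => ?_
    rw [hsg j j.2]
  exact h1 (X.chiHJ f i nn)

omit [CharP C' p] [PerfectRing C' p] in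
/-- **The flag formula with honest pieces.** -/
theorem chi_flag_H [IsAdicComplete (maximalIdeal R) R] (hNorm : Norm p R r hs) (i : Fin 2)
    (hn : 0 < (F i).n) (hd : ringKrullDim R = d) (hd1 : 1 ≤ d) (nn : ℕ) (hnn : d ≤ nn)
    (hfin : ∀ l, X.LD.len (TorM (R ⊗[ℤ] WittVector p X.K.C) l
      (TenM X.la (X.YJ (X.Jb i)) (F i).L) ((R ⊗[ℤ] WittVector p X.K.C) ⊗[R] (R ⧸ P))) < ⊤)
    (e0 y0 : X.K.C) (he0 : e0 = X.K.η * y0) (hkil : KM.Kil X.K.mass (teichmuller p e0)) (k : ℕ)
    (hpiece : ∀ j : Fin (F i).n, X.PieceStmt f i j ((F i).σ j) e0 k)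
    (hHfin : ∀ j : Fin (F i).n, ∀ l, X.LD.len (TorM (R ⊗[ℤ] WittVector p X.K.C) l
      (X.HJ f ((F i).σ j) (X.Jd i j)) ((R ⊗[ℤ] WittVector p X.K.C) ⊗[R] (R ⧸ P))) < ⊤) :
    TH.chi X.LD nn (TenM X.la (X.YJ (X.Jb i)) (F i).L)
        ((R ⊗[ℤ] WittVector p X.K.C) ⊗[R] (R ⧸ P)) =
      ∑ j : Fin (F i).n, TH.chi X.LD nn (X.HJ f ((F i).σ j) (X.Jd i j))
        ((R ⊗[ℤ] WittVector p X.K.C) ⊗[R] (R ⧸ P)) := by
  classical
  -- the characters
  obtain ⟨sg, hsg⟩ : ∃ sg : ℕ → (R →ₐ[Lam p (ResidueField R) r] Ω),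
      ∀ j (hj : j < (F i).n), sg j = (F i).σ ⟨j, hj⟩ :=
    ⟨fun j => if hj : j < (F i).n then (F i).σ ⟨j, hj⟩ else (F i).σ ⟨0, hn⟩,
      fun j hj => dif_pos hj⟩
  have hp1 : ∀ j < (F i).n, X.PieceStmt f i j (sg j) e0 k := by
    intro j hj
    rw [hsg j hj]
    exact hpiece ⟨j, hj⟩
  have hp2 : ∀ j, ∃ π : Gr (X.fm i) (sd (F i).n j) →+
      (X.HJ f (sg j) (X.Jd i j) ⧸ X.KJ f (sg j) (X.Jd i j) 1), j < (F i).n →
      (∀ y, ∃ x, π x = ((1 : R) ⊗ₜ[ℤ] teichmuller p e0) ^ k • y) ∧
      (∀ x, π x = 0 → teichmuller p e0 ^ k • x = 0) ∧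
      (∀ (a : WittVector p X.K.C) x, π (a • x) = ((1 : R) ⊗ₜ[ℤ] a) • π x) ∧
      (∀ (s : Sx p (ResidueField R) d) x,
        π (X.psi (sg j) s • x) = ((X.Φ s) ⊗ₜ[ℤ] (1 : WittVector p X.K.C)) • π x) := by
    intro j
    by_cases hj : j < (F i).n
    · obtain ⟨π, hπ⟩ := (hp1 j hj).2
      exact ⟨π, fun _ => hπ⟩
    · exact ⟨0, fun h => absurd h hj⟩
  choose π hπ using hp2
  -- the scalars
  choose sx hsx using X.Φ_surj
  -- the polynomials
  have hpoly : ∀ (x : R) (j : ℕ), ∃ g : MvPolynomial (Fin X.m) (Lam p (ResidueField R) r),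
      j < (F i).n → MvPolynomial.aeval X.b g = sg j x := by
    intro x j
    by_cases hj : j < (F i).n
    · have c1 : IsAdicComplete (maximalIdeal (Lam p (ResidueField R) r))
          (Lam p (ResidueField R) r) := isAdicComplete_lam p (ResidueField R) r
      have c2 : Module.Finite (Lam p (ResidueField R) r) (R ⧸ Ideal.ofList hs) := hNorm.finite
      obtain ⟨g, hg⟩ := Lf.exists_poly_of_surjective (maximalIdeal (Lam p (ResidueField R) r))
        (maximalIdeal R)
        (MvPowerSeries.C : WittVector p (ResidueField R) →+* Lam p (ResidueField R) r)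
        X.Φ (Ideal.ofList hs) X.Φ_C X.Φ_X hNorm.pow_le (sx x)
      refine ⟨MvPolynomial.rename (X.ix ((F i).σ ⟨j, hj⟩)) g, fun _ => ?_⟩
      have h1 := (F i).σ_eq_zero ⟨j, hj⟩ hg
      rw [map_sub, sub_eq_zero, hsx] at h1
      rw [hsg j hj, h1, MvPolynomial.aeval_rename, MvPolynomial.comp_aeval_apply]
      congr 2
      funext l
      exact X.ix_spec i ⟨j, hj⟩ l
    · exact ⟨0, fun h => absurd h hj⟩
  choose ff hff using hpoly
  have key := X.chi_flag i hn hd hd1 nn hnn hfin e0 y0 he0 hkil (fun x j => X.psi (sg j) (sx x)) ff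
    (fun x j hj => by rw [hff x j hj, hsg j hj]) 1 ?_ k
    (fun j => X.HJ f (sg j) (X.Jd i j) ⧸ X.KJ f (sg j) (X.Jd i j) 1) π
    (fun j hj m => (hπ j hj).1 m) (fun j hj x hx => (hπ j hj).2.1 x hx)
    (fun j hj a x => (hπ j hj).2.2.1 a x) (fun j hj x y => ?_)
    (fun j => X.HJ f (sg j) (X.Jd i j)) (fun j hj v hv => (hp1 j hj).1 v hv)
    (fun j hj l => by rw [hsg j hj]; exact hHfin ⟨j, hj⟩ l)
    (fun j => (X.KJ f (sg j) (X.Jd i j) 1).mkQ) (fun j _ => Submodule.mkQ_surjective _)
    (fun j hj v => ?_)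
  · exact key.trans (X.sum_chiHJ f i nn sg hsg)
  · -- relations
    intro x j hj
    have h1 : ∀ e, p ^ X.K.j e * (X.c0 * (1 + 1)) ≤ X.K.I e + 1 := by
      refine X.n_le (n := fun _ => X.c0 * (1 + 1)) fun e => ?_
      have hpos : 0 < p ^ X.K.j e := pow_pos (Fact.out : p.Prime).pos _
      calc X.c0 * (1 + 1) = (2 * X.c0) * 1 := by ring
        _ ≤ (X.K.j e + 2 * X.c0) * p ^ X.K.j e :=
          Nat.mul_le_mul (Nat.le_add_left _ _) hpos
    have h2 := X.rels hNorm i ⟨j, hj⟩ (n := fun _ => X.c0 * (1 + 1)) h1 (sx x) (ff x j) (by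
      rw [hff x j hj, hsg j hj, hsx])
    have h3 := X.K.xiP_le_xiM (n := fun _ => X.c0 * (1 + 1)) (fun _ => le_rfl) h2
    rw [pow_one, Pkg.XI_eq_xiM, hsg j hj]
    exact h3
  · have h := (hπ j hj).2.2.2 (sx x) y
    rw [hsx] at h
    exact h
  · rw [Submodule.mkQ_apply, Submodule.Quotient.mk_eq_zero]
    constructor
    · rintro ⟨w, hw⟩
      exact ⟨w, hw.symm⟩
    · rintro ⟨w, hw⟩
      exact ⟨w, hw.symm⟩

end Core

end Vale.Agent.P177.Full
end

section

/-!
P177, inner assembly: notation for the final theorems (Euler characteristics of the honest modules).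
-/

namespace Vale.Agent.P177.Full

open TensorProduct IsLocalRing Function Vale.Agent.P202.Mix Vale.Agent.P177.Flag
  Vale.Agent.P177.PI Vale.Agent.P177.Lev WittVector
open scoped ENNReal

universe u

namespace Core

variable {p : ℕ} [Fact p.Prime] {R : Type u} [CommRing R] [IsRegularLocalRing R]
    [CharP (ResidueField R) p] [PerfectRing (ResidueField R) p] {d : ℕ} {P : Ideal R}
    {hs : List R} {r : ℕ} [IsRegularLocalRing (Lam p (ResidueField R) r)]
    [Algebra (Lam p (ResidueField R) r) R] {Ω : Type u} [Field Ω]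
    [Algebra (Lam p (ResidueField R) r) Ω] {F : Fin 2 → FlagMod (Lam p (ResidueField R) r) Ω hs}
    (X : Core p d P hs r Ω F)

/-- the ideals of the pieces. -/
noncomputable abbrev Jp (i : Fin 2) (j : ℕ) : Ideal X.K.C :=
  X.K.J (F i).n (X.pl i) (PI.sb (F i).n + PI.dg (F i).n j - PI.dg (F i).n (j + 1))

/-- the Euler characteristic of the honest module of `J` and `σ`. -/
noncomputable abbrev chiH {C' : Type u} [CommRing C'] [CharP C' p] [PerfectRing C' p]
    (f : X.K.C →+* C') (nn : ℕ) (σ : R →ₐ[Lam p (ResidueField R) r] Ω) (J : Ideal X.K.C) : ℝ :=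
  TH.chi X.LD nn (X.HJ f σ J) ((R ⊗[ℤ] WittVector p X.K.C) ⊗[R] (R ⧸ P))

end Core

end Vale.Agent.P177.Full
end

section

/-!
P177, inner assembly: the error element `etM M = η * tl (M + 2)`; relations hold with this error
modulo every prescribed power of `p`, the mass does not see it.
-/

namespace Vale.Agent.P177.Full

open Vale.Agent.P202.Mix Vale.Agent.P177.Lev Vale.Agent.P177.SL Vale.Agent.P177.KM
  Vale.Agent.P177.NatC WittVector Polynomial Filter
open scoped ENNReal

universe u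

namespace Pkg

variable {p : ℕ} [hp : Fact p.Prime] {k : Type u} [Field k] [CharP k p] {r : ℕ}
variable {Λ : Type u} [CommRing Λ] [IsLocalRing Λ] {ψ : Λ →+* WittVector p (Rp p k r)}
variable {Ω : Type u} [Field Ω] [Algebra Λ Ω] {s : ℕ} {b : Fin s → Ω} {F G : Fin s → Λ[X]}
    {D : ℕ} {ε : ℝ≥0∞} {Φ : ℕ → ℕ} (K : Pkg ψ b F G D ε Φ)

/-- the error element which is invisible below the level `M + 2` -/
noncomputable def etM (M : ℕ) : K.C := K.η * K.tl (M + 2)

theorem etM_def (M : ℕ) : K.etM M = K.η * K.tl (M + 2) := rfl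

theorem te_etM (M : ℕ) : teichmuller p (K.etM M) =
    teichmuller p K.η * teichmuller p (K.tl (M + 2)) := map_mul _ _ _

/-- `[η · tl]` is invisible. -/
theorem kil_etM (M : ℕ) : Kil K.mass (teichmuller p (K.etM M)) := by
  rw [te_etM]
  exact K.kil_η.mul (K.kil_tl _)

/-- modules killed by a power of `[η · tl]` are invisible. -/
theorem mass_etM_eq_zero (M c : ℕ) (N : Type u) [AddCommGroup N] [Module (WittVector p K.C) N]
    (h : ∀ x : N, teichmuller p (K.etM M) ^ c • x = 0) : K.mass.len N = 0 :=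
  (K.kil_etM M).pow c N h

/-- `(etM M) ^ 3` is not a multiple of `t`. -/
theorem etM_pow_notMem (hε : ε ≠ 0) (M c : ℕ) :
    K.etM M ^ c ∉ Ideal.span {tC p k r K.C} := by
  intro h
  obtain ⟨y, hy⟩ := Ideal.mem_span_singleton'.1 h
  have h1 : K.mass.len (WittVector p K.C ⧸ vW p k r K.C) = 0 := by
    refine K.mass_etM_eq_zero M c _ fun x => ?_
    obtain ⟨x, rfl⟩ := Ideal.Quotient.mk_surjective x
    have h2 : teichmuller p (K.etM M) ^ c * x ∈ vW p k r K.C := by
      refine Ideal.mul_mem_right _ _ ?_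
      rw [← map_pow, ← hy, map_mul]
      refine Ideal.mul_mem_left _ _ (Ideal.subset_span ?_)
      exact Set.mem_insert_of_mem _ ⟨0, rfl⟩
    exact Ideal.Quotient.eq_zero_iff_mem.2 h2
  have h3 := K.le_mass_vW
  rw [h1] at h3
  exact hε (le_antisymm h3 zero_le)

/-- the NAT ring for the error element `etM M`. -/
theorem exists_natZ (hε : ε ≠ 0) (M : ℕ) :
    Nonempty (CN.NatZ p K.C (tC p k r K.C) (K.etM M)) :=
  CN.exists_natZ p K.t_reg (K.etM_pow_notMem hε M 3)

end Pkg

end Vale.Agent.P177.Full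
end

section

/-! P177, block LIFT: the homomorphism `Λ[[x_1, .., x_n]] → W(C)`, `x_l ↦ [c_l]`. -/

namespace Vale.Agent.P177.Lf

open Vale.Agent.P202.Mix Vale.Agent.P177.Lev MvPowerSeries

universe u

section

variable (p : ℕ) [hp : Fact p.Prime] (k : Type u) [Field k] [CharP k p] (r : ℕ)

/-- `k[[t, u]] → C`. -/
noncomputable def r0C (C : Type u) [CommRing C] [Algebra (Rp p k r) C] : R0 k r →+* C :=
  (algebraMap (Rp p k r) C).comp (PerfectClosure.of (R0 k r) p)

theorem integral_Rp (x : Rp p k r) : (PerfectClosure.of (R0 k r) p).IsIntegralElem x := by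
  obtain ⟨n, y, hy⟩ := IsPRadical.pow_mem (PerfectClosure.of (R0 k r) p) p x
  have h : (PerfectClosure.of (R0 k r) p).IsIntegralElem (x ^ p ^ n) := by
    rw [← hy]
    exact RingHom.isIntegralElem_map _
  let _ : Algebra (R0 k r) (Rp p k r) := (PerfectClosure.of (R0 k r) p).toAlgebra
  exact IsIntegral.of_pow (R := R0 k r) (pow_pos hp.out.pos n) h

variable {p k r}

theorem integral_r0C {r0 : ℕ} (d : PExt.{u} p k r r0) : (r0C p k r d.C).IsIntegral := by
  have h1 : (PerfectClosure.of (R0 k r) p).IsIntegral := fun x => integral_Rp p k r x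
  have h2 : (algebraMap (Rp p k r) d.C).IsIntegral := fun x => d.integral.isIntegral x
  exact RingHom.IsIntegral.trans _ _ h1 h2

/-- (L2) the evaluation homomorphism `Λ[[x_1, .., x_n]] → W(C)`, `x_l ↦ [c_l]`. -/
theorem exists_phi {Λ : Type u} [CommRing Λ] (ψ0 : Λ →+* WittVector p (R0 k r)) {r0 : ℕ}
    (d : PExt.{u} p k r r0) {n : ℕ} (c : Fin n → d.C)
    (hc : ∀ l, ∃ D : ℕ, c l ^ D ∈ Ideal.span (Set.range (xC p k r d.C))) :
    ∃ φ : MvPowerSeries (Fin n) Λ →+* WittVector p d.C, ∀ f : MvPolynomial (Fin n) Λ,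
      φ (f : MvPowerSeries (Fin n) Λ) = MvPolynomial.eval₂Hom
        (laW ((WittVector.map (PerfectClosure.of (R0 k r) p)).comp ψ0) d.C)
        (fun l => WittVector.teichmuller p (c l)) f := by
  classical
  let _ : Algebra (R0 k r) d.C := (r0C p k r d.C).toAlgebra
  have halg : algebraMap (R0 k r) d.C = r0C p k r d.C := rfl
  choose D hD using hc
  have h1 : ∀ l, ∃ a : Fin (r + 1) → d.C, ∑ i, a i * xC p k r d.C i = c l ^ D l := fun l =>
    Ideal.mem_span_range_iff_exists_fun.1 (hD l)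
  choose a ha using h1
  let S : Set d.C := Set.range c ∪ Set.range (fun q : Fin n × Fin (r + 1) => a q.1 q.2)
  have hSfin : S.Finite := (Set.finite_range _).union (Set.finite_range _)
  let A : Subalgebra (R0 k r) d.C := Algebra.adjoin (R0 k r) S
  have hAfg : A.toSubmodule.FG := fg_adjoin_of_finite hSfin fun x _ => integral_r0C d x
  have hAfin : Module.Finite (R0 k r) A := Module.Finite.iff_fg.2 hAfg
  have hNoeth : IsNoetherianRing (R0 k r) :=
    inferInstanceAs (IsNoetherianRing (MvPowerSeries (Fin (r + 1)) k))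
  let m : Ideal (R0 k r) := Ideal.span (Set.range X)
  have hcm : IsAdicComplete m (R0 k r) :=
    inferInstanceAs (IsAdicComplete (Ideal.span (Set.range X)) (MvPowerSeries (Fin (r + 1)) k))
  have hm : m ≠ ⊤ := by
    intro h
    have h2 : (1 : R0 k r) ∈ m := by rw [h]; trivial
    have h3 : m ≤ RingHom.ker (constantCoeff (σ := Fin (r + 1)) (R := k)) := by
      rw [Ideal.span_le]
      rintro _ ⟨i, rfl⟩
      rw [SetLike.mem_coe, RingHom.mem_ker]
      exact constantCoeff_X i
    have h4 := h3 h2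
    rw [RingHom.mem_ker, map_one] at h4
    exact one_ne_zero h4
  let cA : Fin n → A := fun l => ⟨c l, Algebra.subset_adjoin (Or.inl ⟨l, rfl⟩)⟩
  let aA : Fin n → Fin (r + 1) → A := fun l i =>
    ⟨a l i, Algebra.subset_adjoin (Or.inr ⟨(l, i), rfl⟩)⟩
  let J : Ideal A := m.map (algebraMap (R0 k r) A) ⊔ Ideal.span (Set.range cA)
  have hcD : ∀ l, cA l ^ D l ∈ m.map (algebraMap (R0 k r) A) := by
    intro l
    have h2 : cA l ^ D l = ∑ i, aA l i * algebraMap (R0 k r) A (X i) := by
      apply Subtype.ext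
      rw [AddSubmonoidClass.coe_finsetSum]
      change c l ^ D l = _
      rw [← ha l]
      rfl
    rw [h2]
    exact Ideal.sum_mem _ fun i _ => Ideal.mul_mem_left _ _
      (Ideal.mem_map_of_mem _ (Ideal.subset_span ⟨i, rfl⟩))
  have hJrad : J ≤ (m.map (algebraMap (R0 k r) A)).radical := by
    refine sup_le Ideal.le_radical ?_
    rw [Ideal.span_le]
    rintro _ ⟨l, rfl⟩
    exact ⟨D l, hcD l⟩
  have hJ : IsAdicComplete J A := isAdicComplete_finite m hm le_sup_left hJrad
  obtain ⟨φ, hφ⟩ := exists_evalW p J ((WittVector.map (algebraMap (R0 k r) A)).comp ψ0) cA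
    (fun l => (le_sup_right : _ ≤ J) (Ideal.subset_span ⟨l, rfl⟩))
  refine ⟨(WittVector.map A.val.toRingHom).comp φ, fun f => ?_⟩
  rw [RingHom.comp_apply, hφ, ← RingHom.comp_apply]
  congr 1
  apply MvPolynomial.ringHom_ext
  · intro b
    rw [RingHom.comp_apply, MvPolynomial.eval₂Hom_C, MvPolynomial.eval₂Hom_C]
    ext j
    simp only [laW, RingHom.comp_apply, WittVector.map_coeff]
    rfl
  · intro l
    rw [RingHom.comp_apply, MvPolynomial.eval₂Hom_X', MvPolynomial.eval₂Hom_X',
      WittVector.map_teichmuller]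
    rfl

end

end Vale.Agent.P177.Lf
end

section

/-!
P177, block L6: the Teichmueller representatives `c_l` of the values of the characters generate a
perfect ideal inside the Jacobson radical of `C`; values of power series without constant term.
-/

namespace Vale.Agent.P177.Full

open TensorProduct IsLocalRing RingTheory.Sequence Function Vale.Agent.P202.Mix
  Vale.Agent.P177.Flag Vale.Agent.P177.PI Vale.Agent.P177.Lev WittVector
open scoped ENNReal

universe u

theorem mem_jacobson_pi {ι : Type*} {A : ι → Type*} [∀ e, CommRing (A e)] {x : ∀ e, A e}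
    (h : ∀ e, x e ∈ (⊥ : Ideal (A e)).jacobson) : x ∈ (⊥ : Ideal (∀ e, A e)).jacobson := by
  rw [Ideal.mem_jacobson_bot]
  intro y
  rw [Pi.isUnit_iff]
  intro e
  exact (Ideal.mem_jacobson_bot.1 (h e)) (y e)

section

variable {p : ℕ} [Fact p.Prime] {R : Type u} [CommRing R] [IsRegularLocalRing R]
    [CharP (ResidueField R) p] [PerfectRing (ResidueField R) p] {d : ℕ} {P : Ideal R}
    {hs : List R} {r : ℕ} [IsRegularLocalRing (Lam p (ResidueField R) r)]
    [Algebra (Lam p (ResidueField R) r) R] {Ω : Type u} [Field Ω]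
    [Algebra (Lam p (ResidueField R) r) Ω] {F : Fin 2 → FlagMod (Lam p (ResidueField R) r) Ω hs}
    (X : Core p d P hs r Ω F)

/-- `t, u_i` are in the Jacobson radical of the product `C`. -/
theorem Core.xC_mem_jacobson (l : Fin (r + 1)) :
    xC p (ResidueField R) r X.K.C l ∈ (⊥ : Ideal X.K.C).jacobson :=
  mem_jacobson_pi fun e => Lf.xC_mem_jacobson (X.K.lv e).ext l

/-- `c_l ^ D ∈ (t, u)` for the values of the characters. -/
theorem Core.c_pow_mem (i : Fin 2) (j : Fin (F i).n) (l : Fin d) :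
    X.K.c (X.ix ((F i).σ j) l) ^ X.D ∈
      Ideal.span (Set.range (xC p (ResidueField R) r X.K.C)) :=
  X.K.nil _ (X.ix_nil i j l)

/-- the perfect ideal generated by the `c_l` -/
noncomputable def Core.Jc (i : Fin 2) (j : Fin (F i).n) : Ideal X.K.C :=
  Perf.perfHull p (Ideal.span (Set.range fun l => X.K.c (X.ix ((F i).σ j) l)))

theorem Core.isPerf_Jc (i : Fin 2) (j : Fin (F i).n) : IsPerf p (X.Jc i j) :=
  isPerf_perfHull p _

theorem Core.Jc_le_radical (i : Fin 2) (j : Fin (F i).n) :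
    X.Jc i j ≤ (Ideal.span (Set.range (xC p (ResidueField R) r X.K.C))).radical := by
  refine (Lf.perfHull_le_radical _).trans ?_
  rw [← Ideal.radical_idem (Ideal.span (Set.range (xC p (ResidueField R) r X.K.C)))]
  apply Ideal.radical_mono
  rw [Ideal.span_le]
  rintro _ ⟨l, rfl⟩
  exact ⟨X.D, X.c_pow_mem i j l⟩

theorem Core.Jc_le_jacobson (i : Fin 2) (j : Fin (F i).n) :
    X.Jc i j ≤ (⊥ : Ideal X.K.C).jacobson := by
  refine (X.Jc_le_radical i j).trans ?_
  have h2 : (⊥ : Ideal X.K.C).jacobson.radical = (⊥ : Ideal X.K.C).jacobson :=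
    Ideal.isRadical_jacobson _ |>.radical
  rw [← h2]
  apply Ideal.radical_mono
  rw [Ideal.span_le]
  rintro _ ⟨l, rfl⟩
  exact X.xC_mem_jacobson l

theorem Core.psi_X (i : Fin 2) (j : Fin (F i).n) (l : Fin d) :
    (X.φ ((F i).σ j)).comp (MvPowerSeries.map MvPowerSeries.C) (MvPowerSeries.X l) =
      teichmuller p (X.K.c (X.ix ((F i).σ j) l)) := by
  rw [RingHom.comp_apply, MvPowerSeries.map_X, ← MvPolynomial.coe_X, X.φ_spec,
    MvPolynomial.eval₂_X]

/-- values of power series without constant term -/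
theorem Core.psi_mem_WI (i : Fin 2) (j : Fin (F i).n) {s : Sx p (ResidueField R) d}
    (hs' : s ∈ Ideal.span (Set.range (MvPowerSeries.X : Fin d → Sx p (ResidueField R) d))) :
    (X.φ ((F i).σ j)).comp (MvPowerSeries.map MvPowerSeries.C) s ∈ WI p (X.Jc i j) :=
  Lf.phi_mem_WI (fun l => X.K.c (X.ix ((F i).σ j) l)) _ (fun l => X.psi_X i j l) hs'

end

end Vale.Agent.P177.Full
end

section

/-!
P177: the EXACT relations over `W(C')` for `X : Core` and `f : X.K.C → C'` as in `NatZ`, and the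
hypotheses (H2), (H3) of block B7.
-/

namespace Vale.Agent.P177.Full

open TensorProduct IsLocalRing RingTheory.Sequence Function Vale.Agent.P202.Mix
  Vale.Agent.P177.Flag Vale.Agent.P177.PI Vale.Agent.P177.Lev WittVector Vale.Agent.P177.NatC
open scoped ENNReal

universe u

section

/-- an element of `(p - [t], p ^ M)`, `M ≥ 1`, modulo `p`. -/
theorem coeff_zero_of_mem_XM {p : ℕ} [Fact p.Prime] {C : Type*} [CommRing C] [CharP C p]
    {t : C} {M : ℕ} (hM : 1 ≤ M) {x : WittVector p C} (hx : x ∈ XM p t M) :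
    x.coeff 0 ∈ Ideal.span {t} := by
  obtain ⟨a, b, rfl⟩ := (mem_XM p).1 hx
  have h1 : WittVector.constantCoeff (((p : WittVector p C) - teichmuller p t) * a +
      (p : WittVector p C) ^ M * b) = t * (-(a.coeff 0)) := by
    have h2 : WittVector.constantCoeff (teichmuller p t) = t := teichmuller_coeff_zero p t
    rw [map_add, map_mul, map_mul, map_sub, map_pow, map_natCast, CharP.cast_eq_zero, h2,
      zero_pow (by omega)]
    change (0 - t) * a.coeff 0 + 0 * b.coeff 0 = _
    ring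
  have h3 : (((p : WittVector p C) - teichmuller p t) * a + (p : WittVector p C) ^ M * b).coeff 0 =
      t * (-(a.coeff 0)) := h1
  rw [h3]
  exact Ideal.mul_mem_right _ _ (Ideal.mem_span_singleton_self t)

/-- the maximal ideal of `W(k)[[x]]`. -/
theorem max_sx_le (p : ℕ) [Fact p.Prime] (k : Type u) [Field k] [CharP k p] [PerfectRing k p]
    (d : ℕ) {s : Sx p k d} (hs : ¬ IsUnit s) :
    s ∈ (Ideal.span {(p : WittVector p k)}).map
      (MvPowerSeries.C : WittVector p k →+* Sx p k d) ⊔ Ideal.span (Set.range MvPowerSeries.X) := by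
  have h1 : maximalIdeal (WittVector p k) = Ideal.span {(p : WittVector p k)} :=
    (WittVector.irreducible p).maximalIdeal_eq
  have h2 : MvPowerSeries.constantCoeff s ∈ Ideal.span {(p : WittVector p k)} := by
    rw [← h1, mem_maximalIdeal, mem_nonunits_iff]
    intro hu
    exact hs (MvPowerSeries.isUnit_iff_constantCoeff.2 hu)
  have h3 : s ∈ mG (Ideal.span {(p : WittVector p k)}) 1 := by
    rw [mem_mG]
    intro α
    rcases eq_or_ne α 0 with rfl | hα
    · rw [map_zero, Nat.sub_zero, pow_one]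
      exact h2
    · have h4 : 1 - α.degree = 0 := by
        have : α.degree ≠ 0 := by
          rw [Ne, Finsupp.degree_eq_zero_iff]
          exact hα
        omega
      rw [h4, pow_zero, Ideal.one_eq_top]
      exact Submodule.mem_top (R := WittVector p k) (M := WittVector p k)
  have h4 := mG_le_pow (Ideal.span {(p : WittVector p k)}) 1 h3
  rwa [pow_one] at h4

end

section

variable {p : ℕ} [Fact p.Prime] {R : Type u} [CommRing R] [IsRegularLocalRing R]
    [CharP (ResidueField R) p] [PerfectRing (ResidueField R) p] {d : ℕ} {P : Ideal R}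
    {hs : List R} {r : ℕ} [IsRegularLocalRing (Lam p (ResidueField R) r)]
    [Algebra (Lam p (ResidueField R) r) R] {Ω : Type u} [Field Ω]
    [Algebra (Lam p (ResidueField R) r) Ω] {F : Fin 2 → FlagMod (Lam p (ResidueField R) r) Ω hs}
    (X : Core p d P hs r Ω F)

/-- the precision `M + 1` at the levels `e ≥ M + 2`. -/
def nM (M : ℕ) : ULift.{u} ℕ → ℕ := fun e => if M + 2 ≤ e.down then M + 1 else 0

theorem Core.nM_le (M : ℕ) : ∀ e, p ^ X.K.j e * nM M e ≤ X.K.I e + 1 := by
  refine X.n_le fun e => ?_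
  rw [nM]
  split_ifs with h
  · have h1 := X.K.le_j e
    have h2 : 1 ≤ p ^ X.K.j e := Nat.one_le_pow _ _ (Fact.out : p.Prime).pos
    calc M + 1 ≤ (X.K.j e + 2 * X.c0) * 1 := by omega
      _ ≤ _ := Nat.mul_le_mul_left _ h2
  · exact Nat.zero_le _

/-- `et` is an error element for the precision `M`. -/
def Core.ErrOK (et : X.K.C) (M : ℕ) : Prop :=
  ∀ x : WittVector p X.K.C, teichmuller p X.K.η * x ∈ X.K.xiP (nM M) →
    teichmuller p et * x ∈ xiM p (ResidueField R) r X.K.C (M + 1)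

theorem Core.errOK_tl (M : ℕ) : X.ErrOK (X.K.η * X.K.tl (M + 2)) M := by
  intro x hx
  have h1 : teichmuller p (X.K.η * X.K.tl (M + 2)) * x ∈ X.K.xiP (fun _ => M + 1) := by
    rw [Pkg.mem_xiP] at hx ⊢
    intro e
    have h2 : teichmuller p (X.K.η * X.K.tl (M + 2)) * x =
        teichmuller p (X.K.tl (M + 2)) * (teichmuller p X.K.η * x) := by
      rw [map_mul]; ring
    rw [h2, map_mul, Pkg.pr_te]
    by_cases h : M + 2 ≤ e.down
    · have h3 := hx e
      rw [nM, if_pos h] at h3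
      exact Ideal.mul_mem_left _ _ h3
    · have h3 : X.K.tl (M + 2) e = 0 := by
        rw [Pkg.tl, if_neg h]
      rw [h3, WittVector.teichmuller_zero, zero_mul]
      exact zero_mem _
  exact X.K.xiP_le_xiM (fun _ => le_rfl) h1

/-- `etM` is an error element. -/
theorem Core.errOK_etM (M : ℕ) : X.ErrOK (X.K.etM M) M := X.errOK_tl M

variable {C' : Type u} [CommRing C'] [CharP C' p] [PerfectRing C' p] (f : X.K.C →+* C')

/-- relations up to `[η]` over `W(C)` are exact over `W(C')`. -/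
theorem Core.ex_of_err (ht : f (tC p (ResidueField R) r X.K.C) ∈ nonZeroDivisors C')
    {et : X.K.C} {M : ℕ} (het : X.ErrOK et M)
    (hdvd : f et ∣ f (tC p (ResidueField R) r X.K.C)) {x : WittVector p X.K.C}
    (hx : teichmuller p X.K.η * x ∈ X.K.xiP (nM M)) :
    WittVector.map f x ∈ XM p (f (tC p (ResidueField R) r X.K.C)) M := by
  obtain ⟨w, hw⟩ := hdvd
  obtain ⟨a, b, hab⟩ := Pkg.mem_xiM_iff.1 (het x hx)
  obtain ⟨a', b', h⟩ := exact_rel_map p f (κ := 1) (M := M + 1) ht (w := w)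
    (by rw [pow_one]; exact hw.symm) ⟨a, b, by rw [hab]; ring⟩ (by omega)
  rw [mem_XM]
  exact ⟨a', b', h⟩

section rel

variable [IsAdicComplete (maximalIdeal R) R] (hN : Norm p R r hs)
  (ht : f (tC p (ResidueField R) r X.K.C) ∈ nonZeroDivisors C')
  {et : X.K.C} {M : ℕ} (het : X.ErrOK et M)
  (hdvd : f et ∣ f (tC p (ResidueField R) r X.K.C)) (i : Fin 2) (j : Fin (F i).n)

include hN ht het hdvd

theorem Core.ex_zero (s : Sx p (ResidueField R) d) (h : (F i).σ j (X.Φ s) = 0) :
    WittVector.map f (X.psi ((F i).σ j) s) ∈ XM p (f (tC p (ResidueField R) r X.K.C)) M :=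
  X.ex_of_err f ht het hdvd (X.rels_zero hN i j (X.nM_le M) s h)

/-- **(R3)** -/
theorem Core.ex_hs (s : Sx p (ResidueField R) d) (h : X.Φ s ∈ Ideal.ofList hs) :
    WittVector.map f (X.psi ((F i).σ j) s) ∈ XM p (f (tC p (ResidueField R) r X.K.C)) M :=
  X.ex_zero f hN ht het hdvd i j s ((F i).σ_eq_zero j h)

theorem Core.ex_const (s : Sx p (ResidueField R) d) (a : Lam p (ResidueField R) r)
    (h : X.Φ s = algebraMap (Lam p (ResidueField R) r) R a) :
    WittVector.map f (X.psi ((F i).σ j) s) - WittVector.map f (laW X.ψ X.K.C a) ∈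
      XM p (f (tC p (ResidueField R) r X.K.C)) M := by
  rw [← map_sub]
  refine X.ex_of_err f ht het hdvd (X.rels_const hN i j (X.nM_le M) s a ?_)
  rw [h, AlgHom.commutes]

/-- **(R5)** -/
theorem Core.ex_X (s : Sx p (ResidueField R) d) (l : Fin r)
    (h : X.Φ s = algebraMap (Lam p (ResidueField R) r) R (MvPowerSeries.X l)) :
    WittVector.map f (X.psi ((F i).σ j) s) - teichmuller p (f (xC p (ResidueField R) r X.K.C l.succ)) ∈
      XM p (f (tC p (ResidueField R) r X.K.C)) M := by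
  have h1 := X.ex_const f hN ht het hdvd i j s _ h
  have h2 : laW X.ψ X.K.C (MvPowerSeries.X l) =
      teichmuller p (xC p (ResidueField R) r X.K.C l.succ) := by
    rw [laW, RingHom.comp_apply, X.base.psi_u l, map_teichmuller]
  rwa [h2, map_teichmuller] at h1

/-- **(R1)** -/
theorem Core.ex_E : ∃ z w, WittVector.map f (X.psi ((F i).σ j) X.E) =
    ((p : WittVector p C') - teichmuller p (f (tC p (ResidueField R) r X.K.C))) * z +
      (p : WittVector p C') ^ M * w := by
  have h1 : X.Φ X.E = 0 := by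
    rw [← RingHom.mem_ker, X.Φ_ker]
    exact Ideal.mem_span_singleton_self _
  exact (mem_XM p).1 (X.ex_zero f hN ht het hdvd i j X.E (by rw [h1, map_zero]))

end rel

/-- the reduction of `ψ_σ (s)` for `s` in the maximal ideal. -/
theorem Core.psi_coeff_zero (i : Fin 2) (j : Fin (F i).n) {s : Sx p (ResidueField R) d}
    (hs : ¬ IsUnit s) : (X.psi ((F i).σ j) s).coeff 0 ∈
      Ideal.span (Set.range fun l => X.K.c (X.ix ((F i).σ j) l)) := by
  set 𝔞 : Ideal (Sx p (ResidueField R) d) :=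
    (Ideal.span (Set.range fun l => X.K.c (X.ix ((F i).σ j) l))).comap
      ((WittVector.constantCoeff : WittVector p X.K.C →+* X.K.C).comp (X.psi ((F i).σ j))) with h𝔞
  have h1 := max_sx_le p (ResidueField R) d hs
  have h2 : (Ideal.span {(p : WittVector p (ResidueField R))}).map
      (MvPowerSeries.C : WittVector p (ResidueField R) →+* Sx p (ResidueField R) d) ⊔
        Ideal.span (Set.range MvPowerSeries.X) ≤ 𝔞 := by
    rw [sup_le_iff, Ideal.map_span, Ideal.span_le, Ideal.span_le]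
    constructor
    · rintro _ ⟨_, rfl, rfl⟩
      rw [map_natCast, h𝔞, SetLike.mem_coe, Ideal.mem_comap, map_natCast, CharP.cast_eq_zero]
      exact zero_mem _
    · rintro _ ⟨l, rfl⟩
      rw [h𝔞, SetLike.mem_coe, Ideal.mem_comap, RingHom.comp_apply, X.psi_X]
      have h3 : WittVector.constantCoeff (teichmuller p (X.K.c (X.ix ((F i).σ j) l))) =
          X.K.c (X.ix ((F i).σ j) l) := teichmuller_coeff_zero p _
      rw [h3]
      exact Ideal.subset_span ⟨l, rfl⟩
  exact h2 h1

/-- **(H3)**, first half -/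
theorem Core.nil_c (i : Fin 2) (j : Fin (F i).n) (l : Fin d) :
    X.K.c (X.ix ((F i).σ j) l) ^ X.D ∈
      Ideal.span (Set.range (xC p (ResidueField R) r X.K.C)) :=
  X.K.nil _ (X.ix_nil i j l)

omit [CharP C' p] [PerfectRing C' p] in
theorem Core.nil_fc (i : Fin 2) (j : Fin (F i).n) (l : Fin d) :
    f (X.K.c (X.ix ((F i).σ j) l)) ^ X.D ∈
      Ideal.span (Set.range fun q => f (xC p (ResidueField R) r X.K.C q)) := by
  have h1 := Ideal.mem_map_of_mem f (X.nil_c i j l)
  rw [map_pow, Ideal.map_span, ← Set.range_comp] at h1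
  exact h1

section unit

variable [IsAdicComplete (maximalIdeal R) R] (hN : Norm p R r hs)
  (ht : f (tC p (ResidueField R) r X.K.C) ∈ nonZeroDivisors C')
  {et : X.K.C} {M : ℕ} (het : X.ErrOK et M)
  (hdvd : f et ∣ f (tC p (ResidueField R) r X.K.C))
  (hjac : f (tC p (ResidueField R) r X.K.C) ∈ Ideal.jacobson (⊥ : Ideal C')) (hM : 2 ≤ M)
  (i : Fin 2) (j : Fin (F i).n)
  {Jc : Ideal X.K.C} (hJc : IsPerf p Jc) (hrad : Jc ≤ Ideal.jacobson ⊥)
  (hg : X.psi ((F i).σ j) X.g ∈ WI p Jc)

include hN ht het hdvd hjac hM hJc hrad hg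

/-- **(R1)** with a unit -/
theorem Core.ex_E_unit : ∃ z w, IsUnit z ∧ WittVector.map f (X.psi ((F i).σ j) X.E) =
    ((p : WittVector p C') - teichmuller p (f (tC p (ResidueField R) r X.K.C))) * z +
      (p : WittVector p C') ^ M * w := by
  obtain ⟨z, w, h⟩ := X.ex_E f hN ht het hdvd i j
  refine ⟨z, w, ?_, h⟩
  refine isUnit_z p f hJc hrad hg hjac hM (w := w) ?_
  rw [← h, Core.E, map_sub, map_sub, map_natCast, map_natCast]

/-- **(H3)** for `t`: `t'` is in the ideal generated by the `c_l`. -/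
theorem Core.ft_mem : f (tC p (ResidueField R) r X.K.C) ∈
    Ideal.span (Set.range fun l => f (X.K.c (X.ix ((F i).σ j) l))) := by
  obtain ⟨z, w, hz, h⟩ := X.ex_E_unit f hN ht het hdvd hjac hM i j hJc hrad hg
  have h0 : (p : WittVector p C') - WittVector.map f (X.psi ((F i).σ j) X.g) =
      ((p : WittVector p C') - teichmuller p (f (tC p (ResidueField R) r X.K.C))) * z +
      (p : WittVector p C') ^ M * w := by
    rw [← h, Core.E, map_sub, map_sub, map_natCast, map_natCast]
  obtain ⟨h1, -⟩ := exists_coeff_z p f hJc hg hM h0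
  have h2 : ¬ IsUnit X.g := by
    intro hu
    have h3 : X.g ∈ Ideal.span (Set.range
        (MvPowerSeries.X : Fin d → Sx p (ResidueField R) d)) := Ideal.pow_le_self two_ne_zero X.g_mem
    have h4 := Ideal.eq_top_of_isUnit_mem _ h3 hu
    have h5 : (1 : Sx p (ResidueField R) d) ∈ RingHom.ker
        (MvPowerSeries.constantCoeff (σ := Fin d) (R := WittVector p (ResidueField R))) := by
      have h6 : Ideal.span (Set.range
          (MvPowerSeries.X : Fin d → Sx p (ResidueField R) d)) ≤ RingHom.ker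
          (MvPowerSeries.constantCoeff (σ := Fin d) (R := WittVector p (ResidueField R))) := by
        rw [Ideal.span_le]
        rintro _ ⟨l, rfl⟩
        exact MvPowerSeries.constantCoeff_X l
      apply h6
      rw [h4]
      exact Submodule.mem_top
    rw [RingHom.mem_ker, map_one] at h5
    exact one_ne_zero h5
  have h3 := Ideal.mem_map_of_mem f (X.psi_coeff_zero i j h2)
  rw [Ideal.map_span, ← Set.range_comp, h1] at h3
  have h4 : IsUnit (z.coeff 0) := hz.map (WittVector.constantCoeff : WittVector p C' →+* C')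
  have h5 := Ideal.mul_mem_right (↑h4.unit⁻¹ : C') _ h3
  rw [mul_assoc, IsUnit.mul_val_inv, mul_one] at h5
  exact h5

/-- **(H3)** for `u_l`. -/
theorem Core.fu_mem (l : Fin r) : f (xC p (ResidueField R) r X.K.C l.succ) ∈
    Ideal.span (Set.range fun l => f (X.K.c (X.ix ((F i).σ j) l))) := by
  obtain ⟨s, hs⟩ := X.Φ_surj (algebraMap (Lam p (ResidueField R) r) R (MvPowerSeries.X l))
  have h1 := X.ex_X f hN ht het hdvd i j s l hs
  have h2 := coeff_zero_of_mem_XM (by omega : 1 ≤ M) h1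
  have h3 : (WittVector.map f (X.psi ((F i).σ j) s) -
      teichmuller p (f (xC p (ResidueField R) r X.K.C l.succ))).coeff 0 =
      f ((X.psi ((F i).σ j) s).coeff 0) - f (xC p (ResidueField R) r X.K.C l.succ) := by
    have h4 : WittVector.constantCoeff (WittVector.map f (X.psi ((F i).σ j) s) -
      teichmuller p (f (xC p (ResidueField R) r X.K.C l.succ))) =
      f ((X.psi ((F i).σ j) s).coeff 0) - f (xC p (ResidueField R) r X.K.C l.succ) := by
      rw [map_sub]
      change (WittVector.map f (X.psi ((F i).σ j) s)).coeff 0 -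
        (teichmuller p (f (xC p (ResidueField R) r X.K.C l.succ))).coeff 0 = _
      rw [WittVector.map_coeff, teichmuller_coeff_zero]
    exact h4
  rw [h3] at h2
  have h5 : ¬ IsUnit s := by
    intro hu
    have h6 := hu.map X.Φ
    rw [hs] at h6
    exact (mem_maximalIdeal _).1 (hN.X_mem l) h6
  have h6 := Ideal.mem_map_of_mem f (X.psi_coeff_zero i j h5)
  rw [Ideal.map_span, ← Set.range_comp] at h6
  have h7 : Ideal.span {f (tC p (ResidueField R) r X.K.C)} ≤
      Ideal.span (Set.range fun l => f (X.K.c (X.ix ((F i).σ j) l))) := by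
    rw [Ideal.span_singleton_le_iff_mem]
    exact X.ft_mem f hN ht het hdvd hjac hM i j hJc hrad hg
  have h8 := sub_mem h6 (h7 h2)
  rwa [sub_sub_cancel] at h8

/-- **(H2)** -/
theorem Core.ex_H2 {I : Ideal (Sx p (ResidueField R) d)} (hEI : X.E ∈ I) {K K0 : ℕ} (hKM : K < M)
    (hpK : (p : Sx p (ResidueField R) d) ^ K ∈ I ⊔ (Ideal.ofList hs).comap X.Φ)
    (hm : maximalIdeal (Sx p (ResidueField R) d) ^ K0 ≤ I ⊔ (Ideal.ofList hs).comap X.Φ) :
    XM p (f (tC p (ResidueField R) r X.K.C)) M ≤ I.map ((WittVector.map f).comp (X.psi ((F i).σ j))) ∧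
      (p : WittVector p C') ^ K ∈ I.map ((WittVector.map f).comp (X.psi ((F i).σ j))) ∧
      teichmuller p (f (tC p (ResidueField R) r X.K.C)) ^ K ∈
        I.map ((WittVector.map f).comp (X.psi ((F i).σ j))) ∧
      (∀ s ∈ maximalIdeal (Sx p (ResidueField R) d),
        (WittVector.map f (X.psi ((F i).σ j) s)) ^ K0 ∈ I.map ((WittVector.map f).comp (X.psi ((F i).σ j)))) ∧
      ∀ l : Fin r, teichmuller p (f (xC p (ResidueField R) r X.K.C l.succ)) ^ K0 ∈
        I.map ((WittVector.map f).comp (X.psi ((F i).σ j))) := by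
  obtain ⟨z, w, hz, h⟩ := X.ex_E_unit f hN ht het hdvd hjac hM i j hJc hrad hg
  obtain ⟨h1, h2, h3, h4, h5⟩ := H2_gen (φ := (WittVector.map f).comp (X.psi ((F i).σ j))) hz h
    (𝔥 := (Ideal.ofList hs).comap X.Φ)
    (fun s hs' => X.ex_hs f hN ht het hdvd i j s (Ideal.mem_comap.1 hs')) hEI hKM hpK hm
  refine ⟨h1, h2, h3, h4, fun l => ?_⟩
  obtain ⟨s, hs'⟩ := X.Φ_surj (algebraMap (Lam p (ResidueField R) r) R (MvPowerSeries.X l))
  refine h5 s ?_ _ (X.ex_X f hN ht het hdvd i j s l hs')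
  rw [mem_maximalIdeal, mem_nonunits_iff]
  intro hu
  have h6 := hu.map X.Φ
  rw [hs'] at h6
  exact (mem_maximalIdeal _).1 (hN.X_mem l) h6

/-- **(H2)** with the maximal ideal of `R` -/
theorem Core.ex_H2' {I : Ideal (Sx p (ResidueField R) d)} (hEI : X.E ∈ I) {K : ℕ} (hKM : K < M)
    (hI : maximalIdeal R ^ K ≤ I.map X.Φ ⊔ Ideal.ofList hs) :
    XM p (f (tC p (ResidueField R) r X.K.C)) M ≤ I.map ((WittVector.map f).comp (X.psi ((F i).σ j))) ∧
      (p : WittVector p C') ^ K ∈ I.map ((WittVector.map f).comp (X.psi ((F i).σ j))) ∧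
      teichmuller p (f (tC p (ResidueField R) r X.K.C)) ^ K ∈
        I.map ((WittVector.map f).comp (X.psi ((F i).σ j))) ∧
      (∀ s ∈ maximalIdeal (Sx p (ResidueField R) d),
        (WittVector.map f (X.psi ((F i).σ j) s)) ^ K ∈ I.map ((WittVector.map f).comp (X.psi ((F i).σ j)))) ∧
      ∀ l : Fin r, teichmuller p (f (xC p (ResidueField R) r X.K.C l.succ)) ^ K ∈
        I.map ((WittVector.map f).comp (X.psi ((F i).σ j))) := by
  have hk : RingHom.ker X.Φ ≤ I := by
    rw [X.Φ_ker, Ideal.span_singleton_le_iff_mem]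
    exact hEI
  have hm := maxpow_le X.Φ_surj hk hI
  have hp : (p : Sx p (ResidueField R) d) ∈ maximalIdeal (Sx p (ResidueField R) d) := by
    rw [mem_maximalIdeal, mem_nonunits_iff]
    intro hu
    have h1 := (hu.map (MvPowerSeries.constantCoeff (σ := Fin d)
      (R := WittVector p (ResidueField R)))).map
        (WittVector.constantCoeff : WittVector p (ResidueField R) →+* ResidueField R)
    rw [map_natCast, map_natCast, CharP.cast_eq_zero] at h1
    exact not_isUnit_zero h1
  exact X.ex_H2 f hN ht het hdvd hjac hM i j hJc hrad hg hEI hKM (hm (Ideal.pow_mem_pow hp K)) hm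

end unit

section final

variable [IsAdicComplete (maximalIdeal R) R] (hN : Norm p R r hs) {M : ℕ} (hM : 2 ≤ M)
  (Z : CN.NatZ p X.K.C (tC p (ResidueField R) r X.K.C) (X.K.etM M))
  (i : Fin 2) (j : Fin (F i).n)

include hN

/-- the relations for `Z`: (R3) -/
theorem Core.z_hs (s : Sx p (ResidueField R) d) (h : X.Φ s ∈ Ideal.ofList hs) :
    WittVector.map Z.f (X.psi ((F i).σ j) s) ∈
      XM p (Z.f (tC p (ResidueField R) r X.K.C)) M :=
  X.ex_hs Z.f hN Z.reg (X.errOK_etM M) Z.dvd i j s h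

include hM

/-- (R1) -/
theorem Core.z_E : ∃ z w, IsUnit z ∧ WittVector.map Z.f (X.psi ((F i).σ j) X.E) =
    ((p : WittVector p Z.C') - teichmuller p (Z.f (tC p (ResidueField R) r X.K.C))) * z +
      (p : WittVector p Z.C') ^ M * w :=
  X.ex_E_unit Z.f hN Z.reg (X.errOK_etM M) Z.dvd Z.jac hM i j (X.isPerf_Jc i j)
    (X.Jc_le_jacobson i j) (X.psi_mem_WI i j (Ideal.pow_le_self two_ne_zero X.g_mem))

/-- (H3) for `t` and `u_l` -/
theorem Core.z_mem (l : Fin (r + 1)) : Z.f (xC p (ResidueField R) r X.K.C l) ∈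
    Ideal.span (Set.range fun l => Z.f (X.K.c (X.ix ((F i).σ j) l))) := by
  refine Fin.cases ?_ (fun l => ?_) l
  · exact X.ft_mem Z.f hN Z.reg (X.errOK_etM M) Z.dvd Z.jac hM i j (X.isPerf_Jc i j)
      (X.Jc_le_jacobson i j) (X.psi_mem_WI i j (Ideal.pow_le_self two_ne_zero X.g_mem))
  · exact X.fu_mem Z.f hN Z.reg (X.errOK_etM M) Z.dvd Z.jac hM i j (X.isPerf_Jc i j)
      (X.Jc_le_jacobson i j) (X.psi_mem_WI i j (Ideal.pow_le_self two_ne_zero X.g_mem)) l

/-- (H2) -/
theorem Core.z_H2 {I : Ideal (Sx p (ResidueField R) d)} (hEI : X.E ∈ I) {K : ℕ} (hKM : K < M)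
    (hI : maximalIdeal R ^ K ≤ I.map X.Φ ⊔ Ideal.ofList hs) :
    XM p (Z.f (tC p (ResidueField R) r X.K.C)) M ≤
      I.map ((WittVector.map Z.f).comp (X.psi ((F i).σ j))) ∧
      (p : WittVector p Z.C') ^ K ∈ I.map ((WittVector.map Z.f).comp (X.psi ((F i).σ j))) ∧
      (∀ s ∈ maximalIdeal (Sx p (ResidueField R) d),
        (WittVector.map Z.f (X.psi ((F i).σ j) s)) ^ K ∈
          I.map ((WittVector.map Z.f).comp (X.psi ((F i).σ j)))) ∧
      ∀ l : Fin (r + 1), teichmuller p (Z.f (xC p (ResidueField R) r X.K.C l)) ^ K ∈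
        I.map ((WittVector.map Z.f).comp (X.psi ((F i).σ j))) := by
  obtain ⟨h1, h2, h3, h4, h5⟩ := X.ex_H2' Z.f hN Z.reg (X.errOK_etM M) Z.dvd Z.jac hM i j
    (X.isPerf_Jc i j) (X.Jc_le_jacobson i j)
    (X.psi_mem_WI i j (Ideal.pow_le_self two_ne_zero X.g_mem)) hEI hKM hI
  refine ⟨h1, h2, h4, fun l => ?_⟩
  refine Fin.cases ?_ (fun l => ?_) l
  · exact h3
  · exact h5 l

end final

end

end Vale.Agent.P177.Full
end
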