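import Mathlib
import Vale.Agent.P177.Bd4.B11
import Vale.Agent.P177.Bd4.B3
import Vale.Agent.P177.Bd4.B9
import Vale.Agent.P177.Bd4.B15
import Vale.Agent.P177.Bd4.B16
import Vale.Agent.P177.Bd4.B13
import Vale.Agent.P177.Bd4.B18
import Vale.Agent.P177.Bd4.B7
import Vale.Agent.P177.Bd4.B14
import Vale.Agent.P177.Bd4.B17
import Vale.Agent.P177.Bd4.B8
import Vale.Agent.P177.Bd4.B2
attribute [-instance] NonAssocCommRing.toNonAssocCommSemiring NormedGroup.toGroup LeftPreLieRing.instLieAdmissibleRing NormedCommRing.toCommRing NormedGroup.toSeminormedGroup AlgHomClass.linearMapClass NormedSpace.toModule RightPreLieAlgebra.toModule MulSemiringActionSemiHomClass.toDistribMulActionSemiHomClass NonAssocCommSemiring.toNonAssocSemiring NonAssocCommRing.toNonUnitalNonAssocCommRing LinearOrderedCommMonoidWithZero.toCommMonoidWithZero CoalgEquivClass.toCoalgHomClass Pi.normedRing SeminormedRing.toRing LeftPreLieAlgebra.toModule SemilinearIsometryClass.toContinuousSemilinearMapClass BooleanRing.toCommRing LinearOrderedCommMonoidWithZero.toLinearOrder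 NormedRing.toMetricSpace NonUnitalNormedRing.toNonUnitalSeminormedRing instNonUnitalCStarAlgebraForall AlgHom.instContinuousLinearMapClassOfAlgHomClass Action.instMulAction AbsoluteValue.zeroHomClass NormedAddCommGroup.toSeminormedAddCommGroup ConditionallyCompleteLinearOrder.toLinearOrder BialgEquivClass.toBialgHomClass NonUnitalSeminormedCommRing.toNonUnitalSeminormedRing NormedAddGroup.toSeminormedAddGroup RingHomClass.toLinearMapClassNNRat Ring.toNonUnitalRing NormedAddGroup.toMetricSpace NonUnitalSeminormedRing.toSeminormedAddCommGroup NormedRing.toRing LinearOrderedAddCommGroupWithTop.toAddCommMonoid SeminormedAddCommGroup.toAddCommGroup TopRep.hV1 LieRing.toAddCommGroup BialgHomClass.toCoalgHomClass Complex.instRCLike DenselyNormedField.toNontriviallyNormedField CommSemiring.toHopfAlgebra NonUnitalSeminormedCommRing.toNonUnitalCommRing HopfAlgebraStruct.toBialgebra NonUnitalCommCStarAlgebra.toNonUnitalNormedCommRing NonUnitalNormedCommRing.toNonUnitalNormedRing SeminormedCommGroup.toCommGroup SemilinearIsometryClass.toSemilinearMapClass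 NormedAddCommGroup.toMetricSpace MulSemiringAction.toDistribMulAction Pi.mulZeroOneClass KleeneAlgebra.toIdemSemiring CategoryTheory.Preadditive.instGrpObj NormedAlgebra.toAlgebra LieAdmissibleRing.instLieRing instCommGroupOfIsSimpleGroupOfIsNilpotent NormedField.toNormedCommRing NonUnitalNormedRing.toNonUnitalRing NormedCommRing.toNonUnitalNormedCommRing CompleteLinearOrder.toLinearOrder NontriviallyNormedField.toNormedField CommCStarAlgebra.toNormedCommRing CentroidHomClass.toAddMonoidHomClass LinearOrderedCommGroupWithZero.toLinearOrderedCommMonoidWithZero EuclideanDomain.toCommRing Field.toEuclideanDomain CStarAlgebra.toNonUnitalCStarAlgebra SeminormedCommGroup.toSeminormedGroup NonUnitalCommCStarAlgebra.toNonUnitalCStarAlgebra CommGroupWithZero.toGroupWithZero NormedDivisionRing.toNormedRing RingCat.FilteredColimits.colimitRing CommCStarAlgebra.toNonUnitalCommCStarAlgebra CommSemiring.toNonAssocCommSemiring SeminormedCommRing.toSeminormedRing RingHomClass.toLinearMapClassRat instNonUnitalAlgHomClassOfNonUnitalAlgEquivClass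 CStarAlgebra.toNormedRing LinearOrderedAddCommGroupWithTop.instLinearOrderedAddCommMonoidWithTop ContinuousSemilinearMapClass.toSemilinearMapClass Bialgebra.toAlgebra SemigroupWithZero.toMulZeroClass SemiRingCat.instSemiringObjForgetRingHomCarrier NormedField.toNormedDivisionRing MonTypeEquivalenceMon.monMonoid RightPreLieRing.toNonUnitalNonAssocRing HopfAlgebra.toHopfAlgebraStruct AddCommGroupWithOne.toAddCommMonoidWithOne AddCommMonCat.FilteredColimits.colimitAddCommMonoid NonUnitalAlgHomClass.instSemilinearMapClassOfNonUnitalAlgSemiHomClassToMonoidHomRingHom Action.FintypeCat.instMulActionObjFiniteOf LieAdmissibleAlgebra.toModule NormedCommRing.toNormedRing LinearOrderedAddCommGroupWithTop.toLinearOrder TopologicalSpace.UpgradedIsCompletelyMetrizableSpace.toMetricSpace NormedDivisionRing.toMetricSpace NormedField.toField CategoryTheory.HopfObj.toBimonObj NormedGroup.toMetricSpace CommGrpTypeEquivalenceCommGrp.commGrpCommGroup GrpTypeEquivalenceGrp.grpGroup NormedCommGroup.toMetricSpace CoalgHomClass.toSemilinearMapClass NonUnitalRing.toNonUnitalNonAssocRing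 AddCommGroupWithOne.toAddCommGroup LieAlgebra.toModule CommGroup.toGroup OrderAddMonoidHom.instAddMonoidHomClass NonUnitalNonAssocCommSemiring.toNonUnitalNonAssocSemiring NormedField.toMetricSpace CommRing.toAddCommGroupWithOne CommMonTypeEquivalenceCommMon.commMonCommMonoid instSMulZeroClass ContinuousSemilinearEquivClass.continuousSemilinearMapClass SeminormedCommRing.toCommRing CategoryTheory.CommRingObj.toRingObj RightPreLieRing.instLieAdmissibleRing NonUnitalNormedCommRing.toNonUnitalCommRing CommSemiRingCat.FilteredColimits.colimitCommSemiring MonCat.monoidObj littleWedderburn SeminormedCommRing.toNonUnitalSeminormedCommRing NormedAddCommGroup.toAddCommGroup CommCStarAlgebra.toCStarAlgebra CategoryTheory.RingObj.toMonObj NormedCommGroup.toCommGroup NormedCommGroup.toSeminormedCommGroup RCLike.toDenselyNormedField NonAssocCommSemiring.toNonUnitalNonAssocCommSemiring NonUnitalNormedCommRing.toNonUnitalSeminormedCommRing CategoryTheory.GrpObj.toMonObj SemiNormedGrp.str NormedAddCommGroup.toNormedAddGroup SeminormedGroup.toGroup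 AddOpposite.instAddZero NormedCommGroup.toNormedGroup NonUnitalNormedRing.toNormedAddCommGroup Pi.instTopForall ProfiniteAddGrp.addGroup LieAdmissibleRing.toNonUnitalNonAssocRing DenselyNormedField.toNormedField LeftPreLieRing.toNonUnitalNonAssocRing NormedRing.toSeminormedRing BooleanRing.toRing NonUnitalNormedRing.toMetricSpace CategoryTheory.CommGrpObj.toGrpObj LinearOrderedCommGroupWithZero.toCommGroupWithZero NormedDivisionRing.toDivisionRing SeminormedAddCommGroup.toSeminormedAddGroup SeminormedRing.toNonUnitalSeminormedRing PositiveLinearMap.instContinuousLinearMapClassComplexOfLinearMapClassOfOrderHomClass NormedCommRing.toSeminormedCommRing NonUnitalSeminormedRing.toNonUnitalRing ValuationClass.toMonoidWithZeroHomClass Torsor.toMulAction AddCommGroupWithOne.toAddGroupWithOne CategoryTheory.BimonObj.toMonObj LinearOrderedAddCommGroupWithTop.toSubNegMonoid NonUnitalCStarAlgebra.toNonUnitalNormedRing BoxIntegral.Box.instMembershipForallReal CommSemiring.toBialgebra NormedRing.toNonUnitalNormedRing GradedMonoid.GradeZero.mulAction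 GeneralizedBooleanAlgebra.toDistribLattice PseudoMetricSpace.toPseudoEMetricSpace ChainCompletePartialOrder.toPartialOrder UpgradedStandardBorel.toTopologicalSpace BiheytingAlgebra.toHeytingAlgebra Std.DTreeMap.Raw.instSingletonSigma WithIdeal.instUniformSpace Unique.fintype CoheytingAlgebra.toGeneralizedCoheytingAlgebra Order.Coframe.toDistribLattice ChainCompletePartialOrder.instOfCompleteLattice CompletelyDistribLattice.toBiheytingAlgebra NonUnitalRing.toNonUnitalSemiring UniformSpace.toTopologicalSpace GeneralizedHeytingAlgebra.toLattice NumberField.to_charZero Order.Coframe.toCompleteLattice BooleanAlgebra.toBiheytingAlgebra BialgHomClass.toAlgHomClass GeneralizedHeytingAlgebra.toDistribLattice IsEmpty.instSubsingleton SetLike.instFintype Quaternion.instDivisionRing SeminormedGroup.toPseudoMetricSpace CompleteBooleanAlgebra.toBooleanAlgebra Pi.mulOneClass SeminormedCommGroup.toPseudoMetricSpace Order.Frame.toHeytingAlgebra SeminormedAddCommGroup.toPseudoMetricSpace MonoidWithZero.toSemigroupWithZero NonUnitalSeminormedRing.toPseudoMetricSpace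 CategoryTheory.Limits.Concrete.instUniqueToTypeTerminal ConditionallyCompletePartialOrderInf.toPartialOrder TopologicalSpace.UpgradedIsCompletelyPseudoMetrizableSpace.toPseudoMetricSpace BooleanAlgebra.toDistribLattice MetricSpace.toPseudoMetricSpace BiheytingAlgebra.toCoheytingAlgebra CompletelyDistribLattice.toCompleteDistribLattice MetricSpace.toEMetricSpace Pi.nonUnitalNonAssocSemiring CompleteDistribLattice.toCoframe CompletePartialOrder.toOmegaCompletePartialOrder HeytingAlgebra.toGeneralizedHeytingAlgebra instSubsingleton NonUnitalSemiring.toNonUnitalNonAssocSemiring CategoryTheory.Abelian.toPreadditive Order.Frame.toDistribLattice OrderDual.instDivisionSemiring ChainCompletePartialOrder.instOmegaCompletePartialOrder IsValuativeTopology.instValuedValueGroupWithZeroOfIsUniformAddGroup Group.IsPerfect.subsingleton_of_isMulCommutative GeneralizedBooleanAlgebra.toGeneralizedCoheytingAlgebra PadicComplex.normedField instConditionallyCompletePartialOrderSup CompleteAtomicBooleanAlgebra.toCompletelyDistribLattice instDistribSMul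 Valued.toUniformSpace CategoryTheory.FinCategory.fintypeObj GeneralizedCoheytingAlgebra.toLattice Pi.normedAddCommGroup BooleanAlgebra.toGeneralizedBooleanAlgebra CompleteLattice.toPartialOrder' PseudoMetricSpace.toUniformSpace CompleteLinearOrder.toBiheytingAlgebra CompleteBooleanAlgebra.toCompleteDistribLattice CompleteDistribLattice.toBiheytingAlgebra FinEnum.instFintype PseudoEMetricSpace.toUniformSpace OmegaCompletePartialOrder.toPartialOrder TopologicalSpace.Compacts.instSetLike WithIdeal.instTopologicalSpace OrderRingHom.instRingHomClass CategoryTheory.instFinCategoryOfFintypeOfIsThin SeminormedRing.toPseudoMetricSpace CategoryTheory.Mat_.fintype GeneralizedCoheytingAlgebra.toDistribLattice Order.Frame.toCompleteLattice Order.Coframe.toCoheytingAlgebra CompleteDistribLattice.toFrame SeminormedAddGroup.toPseudoMetricSpace EMetricSpace.toPseudoEMetricSpace NormedAddGroup.toAddGroup SeminormedAddGroup.toAddGroup LieAdmissibleAlgebra.toIsScalarTower IsStrictOrderedRing.isDomain Fin.completeLinearOrder TensorProduct.instModuleFstSnd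 Field.isDomain RightPreLieAlgebra.instLieAdmissibleAlgebra LieRinehartAlgebra.toIsScalarTower CategoryTheory.CommGrpObj.mk MulEquivClass.toMonoidWithZeroHomClass boolToProp ENormedAddCommMonoid.toESeminormedAddCommMonoid Nat.AtLeastTwo.toNeZero EuclideanDomain.instIsDomain NormedCommGroup.toENormedCommMonoid Pi.nonUnitalSemiring MulRingSeminormClass.toMonoidWithZeroHomClass CategoryTheory.instBraidedCategoryType LeftPreLieAlgebra.toIsScalarTower AlgebraicGeometry.Scheme.instPreorderCarrierCarrierCommRingCat RightPreLieAlgebra.toIsScalarTower BialgEquivClass.toCoalgEquivClass Pi.mulZeroClass ENormedCommMonoid.toESeminormedCommMonoid NormedAddCommGroup.toENormedAddCommMonoid DivisionRing.isDomain IsDedekindDomainDvr.isDedekindDomain Invertible.toNeZero CommGroupWithZero.toCommMonoidWithZero AddHom.addHomClass Fin.instBiheytingAlgebra AddMonCat.addMonoidObj AlgEquivClass.toAlgHomClass CompleteLinearOrder.toCompleteLattice IsDedekindDomain.toIsDomain instIsDedekindDomainOfIsDomainOfIsDedekindRing LinearOrderedAddCommGroupWithTop.toSubtractionMonoid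 SemilatSupCat.isSemilatticeSup PartOrdEmb.str Nat.instNontrivial Fin.instCoheytingAlgebra AddQuantale.instAddLeftMono SubringClass.toNormedCommRing NeZero.of_gt' RightPreLieAlgebra.toSMulCommClass Field.instIsLocalRing MonoidWithZero.toMulActionWithZero ValuationRing.isLocalRing FirstOrder.Language.instDecidableEqRelations StarSubalgebra.cstarAlgebra AbsoluteValue.mulHomClass Fin.instHeytingAlgebra Pi.addMonoidWithOne LinearOrder.toLattice LeftPreLieAlgebra.toSMulCommClass SubfieldClass.toNormedField SubringClass.toNormedRing SemilinearIsometryEquivClass.toSemilinearIsometryClass StarSubalgebra.commCStarAlgebra FirstOrder.Language.instDecidableEqFunctions Nat.Prime.one_lt' LieAdmissibleAlgebra.toSMulCommClass SubalgebraClass.normedRing MulOpposite.instMulOne instMulActionSemiHomClassMulActionHom CommRing.toGrindCommRing ENormedAddMonoid.toESeminormedAddMonoid AddCommMonoidWithOne.toAddCommMonoid AddRightCancelMonoid.toAddMonoid ESeminormedAddCommMonoid.toAddCommMonoid Field.toGrindField ENormedAddCommMonoid.toENormedAddMonoid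 AddCancelMonoid.toAddLeftCancelMonoid AddCancelCommMonoid.toAddCommMonoid AddLeftCancelMonoid.toAddMonoid ESeminormedAddCommMonoid.toESeminormedAddMonoid NormedAddGroup.toENormedAddMonoid ESeminormedAddMonoid.toAddMonoid AddCancelCommMonoid.toAddCancelMonoid Pi.instBotForall IsStrictOrderedRing.toCharZero RCLike.toDecidableEq instCharZeroOfIsSemireal ConditionallyCompleteLinearOrderBot.toConditionallyCompleteLinearOrder MulCharClass.toMonoidHomClass BialgHomClass.toMonoidHomClass instRingHomSurjectiveForallEvalRingHom NonUnitalAlgHomClass.toNonUnitalRingHomClass CommMonCat.str FinEnum.decEq Semifield.toCommGroupWithZero instIsSemirealOfIsStrictOrderedRingOfExistsAddOfLE DivisionRing.toDivisionSemiring RCLike.charZero_rclike CategoryTheory.StrictBicategory.category IsRealClosed.toIsSemireal CategoryTheory.Groupoid.toCategory NonAssocRing.toAddCommGroupWithOne MulDistribMulActionSemiHomClass.toMonoidHomClass CompleteLinearOrder.toConditionallyCompleteLinearOrderBot decidableEq_of_subsingleton Ideal.Quotient.normedCommRing RCLike.toInnerProductSpaceReal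 Ring.toGrindRing Pi.subtractionMonoid Pi.addZeroClass IsOrderedRing.toIsStrictOrderedRing instInfiniteOfUncountable Infinite.instNontrivial IsSimpleAddGroup.toNontrivial NoMaxOrder.infinite instNonemptyOfMonad CharZero.infinite Denumerable.instInfinite EuclideanDomain.toNontrivial LinearOrderedAddCommGroupWithTop.toNontrivial Turing.FinTM2.decidableEqK IsStrictOrderedRing.toNontrivial IsSimpleOrder.toNontrivial DivisionRing.toNontrivial IsSimpleGroup.toNontrivial NontriviallyNormedField.infinite IsSimpleRing.instNontrivial FirstOrder.Language.instInfiniteOfModelDloOrderOfNonempty NoMinOrder.infinite instInhabitedOfMonad IsAlgClosed.instInfinite instNontrivialOfCharZero GroupWithZero.toNontrivial ConditionallyCompletePartialOrder.toConditionallyCompletePartialOrderInf SubalgebraClass.seminormedRing CompleteLattice.toLattice CompleteSemilatticeSup.toPartialOrder LinearOrderedAddCommMonoidWithTop.toLinearOrder CompleteAtomicBooleanAlgebra.toCompleteBooleanAlgebra SubfieldClass.toDivisionRing OrderDual.instPow_1 Monoid.End.instMonoidHomClass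 CompleteBooleanAlgebra.toCompleteLattice SubringClass.toSeminormedRing SubringClass.toSeminormedCommRing SubfieldClass.toField Preorder.smallCategory Semiring.toNonUnitalSemiring Real.instRCLike Semiring.toGrindSemiring CommSemiring.toGrindCommSemiring CategoryTheory.IsConnected.is_nonempty SeminormedAddCommGroup.toNormedAddTorsor NormedAddTorsor.toAddTorsor CategoryTheory.IsSifted.instIsConnected NonUnitalCommRing.toNonUnitalRing Group.instTorsor CategoryTheory.isConnected_of_nonempty_and_subsingleton Torsor.nonempty Semigrp.str Pi.commMagma SetLike.GradeZero.instCommRing Pi.distribSMul' Pi.instMaxForall_mathlib Ideal.Quotient.semiNormedCommRing SubfieldClass.toSubringClass Pi.distribMulAction' MulZeroClass.toSMulWithZero CompleteSemilatticeInf.toPartialOrder instFiniteProp AddCommGroup.toGrindIntModule CategoryTheory.IsSifted.isSifted_of_hasBinaryCoproducts_and_nonempty bot_nonempty Unique.instInhabited One.instNonempty IrreducibleSpace.toNonempty Zero.instNonempty infSet_to_nonempty Group.toCancelMonoid CancelCommMonoid.toCancelMonoid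 instSMulCommClassOfIsScalarTower AddCommGroup.toAddCancelCommMonoid CancelCommMonoid.toLeftCancelMonoid top_nonempty ConnectedSpace.toNonempty CommGroup.toCancelCommMonoid supSet_to_nonempty CancelMonoid.toLeftCancelMonoid GradedMonoid.GradeZero.smul OneHom.oneHomClass FloorSemiring.instCharZero NonAssocRing.toNonAssocSemiring SimpleGraph.TripartiteFromTriangles.graph.instDecidableRelAdj Pi.instOne Pi.smulZeroClass' RCLike.innerProductSpace GroupWithZero.toMonoidWithZero LinearOrderedCommMonoidWithZero.toIsBotZeroClass Nat.instOne IdemCommSemiring.toCommSemiring RootedTree.orderBot IdemCommSemiring.toIdemSemiring MulSemiringAction.toMulDistribMulAction AddCommMonoid.toGrindNatModule MulDistribMulAction.toMulAction NonUnitalNonAssocSemiring.toDistribSMul NonUnitalCommSemiring.toNonUnitalNonAssocCommSemiring PositiveLinearMap.instInnerProductSpaceComplexPreGNS MulActionWithZero.toMulAction Nontrivial.to_nonempty CommGroup.toDivisionCommMonoid Group.toDivisionMonoid GroupWithZero.toDivisionMonoid DivisionRing.toDivInvMonoid SetLike.GradeZero.instRing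 AlgebraicGeometry.instOrderTopCarrierCarrierCommRingCatOfIsIntegral MulSemiringActionSemiHomClass.toRingHomClass SubringClass.toCommRing FiniteDimensional.finiteDimensional_quotient SubringClass.toRing RingEquivClass.toNonUnitalRingHomClass LinOrd.str DivisionSemiring.toGroupWithZero CompleteLattice.toCompleteSemilatticeSup RingConeClass.toSubsemiringClass NormedAlgebra.id LeftPreLieAlgebra.instLieAdmissibleAlgebra CompleteLattice.toCompleteSemilatticeInf LieAlgebra.ofAssociativeAlgebra LieAdmissibleAlgebra.instLieAlgebra CommGroup.toCommMonoid ENormedMonoid.toESeminormedMonoid CancelCommMonoid.toCommMonoid ESeminormedCommMonoid.toCommMonoid IsDomain.toNontrivial GradedMonoid.GradeZero.commMonoid DivisionCommMonoid.toCommMonoid ESeminormedCommMonoid.toESeminormedMonoid ESeminormedMonoid.toMonoid MulZeroClass.negZeroClass SaturatedAddSubmonoid.instAddSubmonoidClass RightCancelMonoid.toMonoid LeftCancelMonoid.toMonoid ENormedCommMonoid.toENormedMonoid CancelMonoid.toRightCancelMonoid DivInvOneMonoid.toDivInvMonoid DivisionMonoid.toDivInvMonoid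 NormedGroup.toENormedMonoid NonUnitalAlgHomClass.instLinearMapClass Algebra.TensorProduct.instNonAssocRing Algebra.TensorProduct.right_isScalarTower Algebra.TensorProduct.instNonUnitalNonAssocRing TensorProduct.instNormedAddCommGroup Algebra.TensorProduct.instNonUnitalRing TensorProduct.isScalarTower_right NonUnitalNonAssocSemiring.toMulZeroClass NumberField.instFiniteDimensional SubringClass.toNegMemClass NonUnitalAlgSemiHomClass.toDistribMulActionSemiHomClass SetLike.GradeZero.instCommSemiring AddQuantale.instAddRightMono Quantale.instMulRightMono SetLike.GradeZero.instSemiring Group.toDivInvMonoid InvOneClass.toOne ContractibleSpace.instOfNonemptyOfSubsingleton Convex.instPathConnectedSpace GradedMonoid.GradeZero.monoid NormedSpace.instPathConnectedSpace PathConnectedSpace.connectedSpace Fin.instCommMonoid IrreducibleSpace.connectedSpace Fin.instBoundedOrder GeneralizedBooleanAlgebra.toBot LinearOrderedAddCommMonoidWithTop.toOrderTop Fin.addCommMonoid NormedAddTorsor.toAddTorsor' CoheytingAlgebra.toBoundedOrder HeytingAlgebra.toOrderBot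 ConditionallyCompleteLattice.toInfSet GeneralizedBooleanAlgebra.toOrderBot SimplyConnectedSpace.ofContractible GeneralizedCoheytingAlgebra.toOrderBot SimplyConnectedSpace.instPathConnectedSpace GeneralizedHeytingAlgebra.toOrderTop RealTopologicalVectorSpace.contractibleSpace BooleanAlgebra.toBoundedOrder LinearOrderedAddCommGroupWithTop.toOrderTop CompleteSemilatticeSup.toSupSet HeytingAlgebra.toBoundedOrder CoheytingAlgebra.toOrderTop Fin.instNontrivial LinearOrderedCommMonoidWithZero.toOrderBot ContractibleSpace.instOfNonemptyOfIndiscreteTopology ContractibleSpace.instPathConnectedSpace DivInvMonoid.toMonoid UnitalShelf.toOne BooleanAlgebra.toTop BooleanAlgebra.toBot ConditionallyCompleteLattice.toSupSet Fin.addCommGroup ConditionallyCompleteLinearOrderBot.toOrderBot IdemSemiring.toOrderBot Std.LinearOrderPackage.toLinearPreorderPackage ConvexCone.instAddMemClass DistribLattice.toLattice instDistribLatticeOfLinearOrder Std.LinearPreorderPackage.toPreorderPackage SemilatticeInf.toPartialOrder SubsemiringClass.toSemiring CommMonoidWithZero.toMonoidWithZero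 Quantale.instMulLeftMono CommMonoidWithZero.toCommMonoid BoundedOrder.toOrderTop CompleteSemilatticeInf.toInfSet Pi.nonAssocRing DivisionCommMonoid.toDivisionMonoid CommGroupWithZero.toDivisionCommMonoid instTopologicalSpaceFin of_isDiscreteValuationRing smoothSheafCommRing.instLocalRing_stalk ValuationRing.of_field instIsSimpleModule IsSimpleRing.instIsSemisimpleRing IsSemisimpleRing.isSemisimpleModule instIsSemisimpleModuleOfIsSimpleModule instIsSemisimpleRingOfSubsingleton ConditionallyCompletePartialOrderSup.toSupSet AlgHom.instRingHomCompTripleComp CompletePartialOrder.toSupSet Finset.decidableDforallFinset CategoryTheory.instCategoryObj Vector.instDecidableForallForallMemOfDecidablePred Multiset.decidableDforallMultiset Pi.subNegZeroMonoid Option.decidableForallMem Fintype.decidableForallFintype forall_prop_decidable Array.instDecidableForallForallMemOfDecidablePred Pi.subNegMonoid Algebra.TensorProduct.instCommSemiring TensorProduct.CompatibleSMul.int LinearOrder.toDecidableEq Set.instAddLeftMono Fin.instNonUnitalCommRing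 Submodule.instIdemCommSemiring Fin.instInhabited AddCancelCommMonoid.toAddLeftCancelMonoid ValuationRing.instOfIsLocalRingOfIsBezout IsDedekindDomain.toIsDedekindRing Module.FaithfullyFlat.of_isIntegral_of_isDomain SetLike.instFinite Pi.addCommMagma instFiniteCarrierToTopAndTotallyDisconnectedSpaceSecondCountableTopologyOfObj LinearOrderedAddCommGroupWithTop.toIsOrderedAddMonoid Algebra.TensorProduct.instNonUnitalNonAssocSemiring SubringClass.toNonAssocCommRing Submodule.Quotient.normedAddCommGroup SubringClass.toNonAssocRing Pi.instIsRightCancelAdd Algebra.TensorProduct.instNonUnitalSemiring CommSemiring.toCommMonoidWithZero GroupWithZero.toDivInvMonoid IsDedekindDomain.isDedekindDomainDvr CommRing.Pic.instFreeOfSubsingleton Module.FaithfullyFlat.self AddTorsor.nonempty Subsingleton.to_isCancelMulZero AddGroup.instAddTorsor Pi.nonUnitalNonAssocRing Module.FaithfullyFlat.toFlat AlgebraicGeometry.Scheme.component_nontrivial BoundedOrder.toOrderBot PerfectClosure.instDivisionRing PerfectClosure.instField NormMulClass.toNoZeroDivisors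 SubsemiringClass.toCommSemiring WithTop.linearOrderedAddCommMonoidWithTop DivInvOneMonoid.toInvOneClass DivisionMonoid.toDivInvOneMonoid Ring.toNonAssocRing NonAssocRing.toNonUnitalNonAssocRing instMonadLiftT SubgroupClass.normedCommGroup instIsCancelMulZero_1 UniqueFactorizationMonoid.toIsCancelMulZero CommBialgCat.instCommRingObjForgetBialgHomCarrier instIsCancelMulZero SubgroupClass.normedGroup Algebra.TensorProduct.instAddCommGroupWithOne Module.Flat.instOfIsDedekindDomainOfIsTorsionFree RootedTree.semilatticeInf SMulMemClass.toModule NoZeroDivisors.to_isCancelMulZero GCDMonoid.toIsCancelMulZero Pi.instMinForall_mathlib instMonadLiftTOfMonadLift Pi.instCanonicallyOrderedAddForall SubmoduleClass.module' -- iprune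

set_option linter.all false

section

/-!
Hilbert functions of filtered modules over regular local rings.
-/

namespace Vale.Agent.P177

open Function IsLocalRing PowerSeries

universe u

section basic

variable {A : Type*} [CommRing A] {C : Type*} [AddCommGroup C] [Module A C]

end basic

section fin

variable {A : Type u} [CommRing A] [IsLocalRing A] [IsNoetherianRing A]
  {M : Type u} [AddCommGroup M] [Module A M] [Module.Finite A M]

end fin

section regular

end regular

end Vale.Agent.P177
end

section

/-!
The Hilbert function of a filtered module through a strict resolution.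
-/

namespace Vale.Agent.P177

open Function IsLocalRing PowerSeries

universe u

section aug

variable {A : Type u} [CommRing A] {M : Type u} [AddCommGroup M] [Module A M] (X : FR A M)

end aug

section fres

variable {A : Type u} [CommRing A] {I : Ideal A} {M : Type u} [AddCommGroup M] [Module A M]
  {F : ℕ → Submodule A M} {r : ℕ} (X : FRes I F r)

end fres

end Vale.Agent.P177
end

section

/-!
Serre's statements for modules over a regular quotient of a regular local ring.
-/

namespace Vale.Agent.P177

open CategoryTheory TensorProduct Function IsLocalRing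
open scoped Pointwise

universe u

/-- Serre's statements for a pair of modules over a ring of dimension `d`. -/
def SP (R : Type u) [CommRing R] (d : ℕ) (M N : Type u) [AddCommGroup M] [Module R M]
    [AddCommGroup N] [Module R N] : Prop :=
  0 ≤ eulerTor R (d + 1) M N ∧ ∀ m n : ℕ, (m : WithBot ℕ∞) ≤ Module.supportDim R M →
      (n : WithBot ℕ∞) ≤ Module.supportDim R N →
      (m + n ≤ d) ∧ (d ≤ m + n → 0 < eulerTor R (d + 1) M N)

section basic

variable {R : Type u} [CommRing R] {d : ℕ}

theorem SP.symm {M N : Type u} [AddCommGroup M] [Module R M] [AddCommGroup N] [Module R N]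
    (h : SP R d M N) : SP R d N M := by
  unfold SP at h ⊢
  rw [eulerTor_symm]
  refine ⟨h.1, fun m n hm hn => ?_⟩
  obtain ⟨h1, h2⟩ := h.2 n m hn hm
  exact ⟨by omega, fun hd => h2 (by omega)⟩

theorem SP.congr {M N M' N' : Type u} [AddCommGroup M] [Module R M] [AddCommGroup N]
    [Module R N] [AddCommGroup M'] [Module R M'] [AddCommGroup N'] [Module R N']
    (e : M ≃ₗ[R] M') (e' : N ≃ₗ[R] N') (h : SP R d M N) : SP R d M' N' := by
  unfold SP at h ⊢
  rw [← eulerTor_congr e e', ← Module.supportDim_eq_of_equiv e,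
    ← Module.supportDim_eq_of_equiv e']
  exact h

theorem SP.of_subsingleton {M N : Type u} [AddCommGroup M] [Module R M] [AddCommGroup N]
    [Module R N] (hM : Subsingleton M) : SP R d M N := by
  refine ⟨(eulerTor_left_zero _ _ _ hM).ge, fun m n hm _ => ?_⟩
  rw [Module.supportDim_eq_bot_of_subsingleton] at hm
  exact absurd (le_bot_iff.1 hm) (WithBot.coe_ne_bot)

theorem SP.of_exact [IsRegularLocalRing R] (hd : ringKrullDim R = d)
    {M' M M'' N : Type u} [AddCommGroup M'] [Module R M']
    [AddCommGroup M] [Module R M] [AddCommGroup M''] [Module R M''] [Module.Finite R M']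
    [Module.Finite R M] [Module.Finite R M'']
    [AddCommGroup N] [Module R N] [Module.Finite R N]
    (f : M' →ₗ[R] M) (g : M →ₗ[R] M'') (hf : Injective f) (hg : Surjective g) (h : Exact f g)
    (hlen : Module.length R (M ⊗[R] N) ≠ ⊤) (h1 : SP R d M' N) (h3 : SP R d M'' N) :
    SP R d M N := by
  have hlen' : Module.length R (M' ⊗[R] N) ≠ ⊤ :=
    length_tensor_ne_top_of_annihilator_le M M' N hlen (LinearMap.annihilator_le_of_injective f hf)
  have hv : Module.length R (TorM R (d + 1) M'' N) = 0 := by
    have := regular_tor_vanish R d hd M'' N (d + 1) le_rfl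
    exact Module.length_eq_zero
  have hadd := eulerTor_add_aux f g hf hg h N (fun i => tor_length_ne_top i M' N hlen')
    (fun i => tor_length_ne_top i M N hlen) (d + 1) hv
  unfold SP
  rw [hadd]
  refine ⟨add_nonneg h1.1 h3.1, fun m n hm hn => ?_⟩
  rcases le_supportDim_of_exact f g hf hg h m hm with hm' | hm'
  · obtain ⟨k1, k2⟩ := h1.2 m n hm' hn
    exact ⟨k1, fun hh => add_pos_of_pos_of_nonneg (k2 hh) h3.1⟩
  · obtain ⟨k1, k2⟩ := h3.2 m n hm' hn
    exact ⟨k1, fun hh => add_pos_of_nonneg_of_pos h1.1 (k2 hh)⟩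

end basic

section step

variable {B A : Type u} [CommRing B] [IsRegularLocalRing B] [CommRing A] [IsRegularLocalRing A]
  [Algebra B A] {f : B}

variable {d : ℕ} (H : IsHypersurface B A f)
  (hdB : ringKrullDim B = ((d + 1 : ℕ) : WithBot ℕ∞)) (hdA : ringKrullDim A = d)
  (M : Type u) [AddCommGroup M] [Module B M] [Module A M] [IsScalarTower B A M]
  [Module.Finite A M] [Module.Finite B M]
  (hA : ∀ (N' : Type u) [AddCommGroup N'] [Module A N'] [Module.Finite A N'],
    Module.length A (N' ⊗[A] M) ≠ ⊤ → SP A d N' M)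

end step

end Vale.Agent.P177
end

section

/-!
Serre's statements for modules over a regular quotient of a regular local ring: induction on the
codimension.
-/

namespace Vale.Agent.P177

open CategoryTheory TensorProduct Function IsLocalRing
open scoped Pointwise

universe u

section ker

variable {R R' : Type u} [CommRing R] [IsRegularLocalRing R] [CommRing R'] [IsRegularLocalRing R']

omit [IsRegularLocalRing R'] in
theorem ker_eq_bot_of_dim_eq (φ : R →+* R') (hφ : Surjective φ)
    (h : ringKrullDim R' = ringKrullDim R) : RingHom.ker φ = ⊥ := by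
  have hdom : IsDomain R := regular_isDomain R
  by_contra hne
  obtain ⟨f, hf, hf0⟩ := Submodule.exists_mem_ne_zero_of_ne_bot hne
  have h1 : ringKrullDim (R ⧸ Ideal.span {f}) + 1 ≤ ringKrullDim R :=
    ringKrullDim_quotient_succ_le_of_nonZeroDivisor (mem_nonZeroDivisors_of_ne_zero hf0)
  have h2 : ringKrullDim R' ≤ ringKrullDim (R ⧸ Ideal.span {f}) := by
    refine ringKrullDim_le_of_surjective (Ideal.Quotient.lift (Ideal.span {f}) φ ?_) ?_
    · intro a ha
      have : Ideal.span {f} ≤ RingHom.ker φ := by
        rw [Ideal.span_singleton_le_iff_mem]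
        exact hf
      exact this ha
    · intro y
      obtain ⟨x, rfl⟩ := hφ y
      exact ⟨Ideal.Quotient.mk _ x, rfl⟩
  rw [h] at h2
  obtain ⟨n, hn⟩ := exists_nat_eq_ringKrullDim R
  have h3 := (add_le_add_left h2 1).trans h1
  rw [hn] at h3
  have h4 : n + 1 ≤ n := by exact_mod_cast h3
  omega

end ker

section main

end main

end Vale.Agent.P177
end

section

namespace Vale.Agent.P177

open CategoryTheory TensorProduct Function IsLocalRing RingTheory.Sequence Pointwise

universe u

end Vale.Agent.P177
end

section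

/-!
Height inequality and minimal primes for the ring `T` attached to a quadratic hypersurface.
-/

namespace Vale.Agent.P177

open TensorProduct IsLocalRing MvPolynomial RingTheory.Sequence

universe u

namespace QData

variable {d : ℕ} {B Γ : Type u} [CommRing B] [IsRegularLocalRing B] [CommRing Γ]
  [IsRegularLocalRing Γ] {D : QData d B Γ}

section TD

variable {T : Type u} [CommRing T] [IsRegularLocalRing T] (t : D.TD T)

end TD

end QData

end Vale.Agent.P177
end

section

/-!
The prime `mT` and the linear relation between the two maps.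
-/

namespace Vale.Agent.P177

open TensorProduct IsLocalRing MvPolynomial RingTheory.Sequence

universe u

namespace QData

variable {d : ℕ} {B Γ : Type u} [CommRing B] [IsRegularLocalRing B] [CommRing Γ]
  [IsRegularLocalRing Γ] {D : QData d B Γ}

section TD

variable {T : Type u} [CommRing T] [IsRegularLocalRing T] (t : D.TD T)

end TD

end QData

end Vale.Agent.P177
end

section

/-!
The height inequality over the residue field of the prime `mT`.
-/

namespace Vale.Agent.P177

open TensorProduct IsLocalRing MvPolynomial RingTheory.Sequence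

universe u

namespace QData

variable {d : ℕ} {B Γ : Type u} [CommRing B] [IsRegularLocalRing B] [CommRing Γ]
  [IsRegularLocalRing Γ] {D : QData d B Γ}

section TD

variable {T : Type u} [CommRing T] [IsRegularLocalRing T] (t : D.TD T)

end TD

end QData

end Vale.Agent.P177
end

section

/-!
The prime `mT`: height, contractions, and the primes containing the polar forms.
-/

namespace Vale.Agent.P177

open TensorProduct IsLocalRing MvPolynomial RingTheory.Sequence

universe u

namespace QData

variable {d : ℕ} {B Γ : Type u} [CommRing B] [IsRegularLocalRing B] [CommRing Γ]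
  [IsRegularLocalRing Γ] {D : QData d B Γ}

section TD

variable {T : Type u} [CommRing T] [IsRegularLocalRing T] (t : D.TD T)

end TD

end QData

end Vale.Agent.P177
end

section

/-!
The height inequality at the prime `mT`, in the form needed for the local theorem.
-/

namespace Vale.Agent.P177

open TensorProduct IsLocalRing MvPolynomial RingTheory.Sequence

universe u

namespace QData

variable {d : ℕ} {B Γ : Type u} [CommRing B] [IsRegularLocalRing B] [CommRing Γ]
  [IsRegularLocalRing Γ] {D : QData d B Γ}

section TD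

variable {T : Type u} [CommRing T] [IsRegularLocalRing T] (t : D.TD T)

end TD

end QData

end Vale.Agent.P177
end

section

/-!
Serre's statements for a pair of modules over a quadratic hypersurface.
-/

namespace Vale.Agent.P177

open TensorProduct IsLocalRing MvPolynomial RingTheory.Sequence

universe u

/-- Serre's statements for a pair of modules over a ring of dimension `d`. -/
def SerrePair (R : Type u) [CommRing R] (d : ℕ) (M N : Type u) [AddCommGroup M] [Module R M]
    [AddCommGroup N] [Module R N] : Prop :=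
  0 ≤ eulerTor R (d + 1) M N ∧ ∀ m n : ℕ, (m : WithBot ℕ∞) ≤ Module.supportDim R M →
      (n : WithBot ℕ∞) ≤ Module.supportDim R N →
      (m + n ≤ d) ∧ (d ≤ m + n → 0 < eulerTor R (d + 1) M N)

namespace QData

variable {d : ℕ} {B Γ : Type u} [CommRing B] [IsRegularLocalRing B] [CommRing Γ]
  [IsRegularLocalRing Γ]

end QData

end Vale.Agent.P177
end

section

/-!
Serre's statements over a hypersurface in a power series ring over a discrete valuation ring.
-/

namespace Vale.Agent.P177

open TensorProduct IsLocalRing RingTheory.Sequence Function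

universe u

/-- The quotient ring. -/
abbrev QuadRing (V : Type u) [CommRing V] (ϖ : V) (d : ℕ)
    (c : Fin d → Fin d → MvPowerSeries (Fin d) V) : Type u :=
  MvPowerSeries (Fin d) V ⧸ Ideal.span {quadEq V ϖ d c}

theorem quadRing_regular (V : Type u) [CommRing V] [IsRegularLocalRing V] (ϖ : V)
    (hϖ : maximalIdeal V = Ideal.span {ϖ}) (hV : ringKrullDim V = (1 : ℕ)) (d : ℕ)
    (c : Fin d → Fin d → MvPowerSeries (Fin d) V) :
    ∃ (_ : IsRegularLocalRing (QuadRing V ϖ d c)),
    Ideal.span (Set.range (fun i => (Ideal.Quotient.mk _ (MvPowerSeries.X i) :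
      QuadRing V ϖ d c))) = maximalIdeal (QuadRing V ϖ d c) ∧
    ringKrullDim (QuadRing V ϖ d c) = (d : WithBot ℕ∞) := by
  obtain ⟨h1, h2, D, hG, hx, -⟩ := exists_QData V ϖ hϖ hV d c
  have key : ∀ (g : MvPowerSeries (Fin d) V) (x : Fin d → MvPowerSeries (Fin d) V), D.G = g →
      D.x = x → ∃ (_ : IsRegularLocalRing (MvPowerSeries (Fin d) V ⧸ Ideal.span {g})),
      Ideal.span (Set.range (fun i => (Ideal.Quotient.mk (Ideal.span {g}) (x i)))) =
        maximalIdeal (MvPowerSeries (Fin d) V ⧸ Ideal.span {g}) ∧
      ringKrullDim (MvPowerSeries (Fin d) V ⧸ Ideal.span {g}) = (d : WithBot ℕ∞) := by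
    rintro g x rfl rfl
    obtain ⟨k1, k2, k3⟩ := D.quot_regular
    refine ⟨k1, ?_, k3⟩
    rw [← k2, Ideal.ofList]
    congr 1
    ext y
    simp only [QData.xs, List.mem_ofFn, Set.mem_range]
    exact Iff.rfl
  exact key _ _ hG hx

section descend

variable {R C : Type u} [CommRing R] [CommRing C] [IsLocalRing R] [IsNoetherianRing R]
  [IsLocalRing C] [IsNoetherianRing C] [Algebra R C] [Module.Flat R C]

theorem SerrePair.descend (hloc : (maximalIdeal R).map (algebraMap R C) = maximalIdeal C) {d : ℕ}
    (M N : Type u) [AddCommGroup M] [Module R M] [Module.Finite R M]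
    [AddCommGroup N] [Module R N] [Module.Finite R N]
    (h : SerrePair C d (C ⊗[R] M) (C ⊗[R] N)) : SerrePair R d M N := by
  obtain ⟨h1, h2⟩ := h
  have heq : eulerTor C (d + 1) (C ⊗[R] M) (C ⊗[R] N) = eulerTor R (d + 1) M N := by
    unfold eulerTor
    refine Finset.sum_congr rfl fun j _ => ?_
    rw [length_tor_bc₂ (A := R) (C := C) hloc j (TensorProduct.isBaseChange R M C)
      (TensorProduct.isBaseChange R N C)]
  rw [heq] at h1 h2
  exact ⟨h1, fun m n hm hn => h2 m n (hm.trans (supportDim_le_baseChange R C hloc M))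
    (hn.trans (supportDim_le_baseChange R C hloc N))⟩

end descend

end Vale.Agent.P177
end

section

/-!
Presentation of a complete regular local ring with perfect residue field as a quotient of a power
series ring over the Witt vectors.
-/

namespace Vale.Agent.P177

open TensorProduct IsLocalRing RingTheory.Sequence Function

universe u

theorem exists_evalHom_surjective {ι A R : Type*} [Finite ι] [CommRing A] [IsLocalRing A]
    [IsAdicComplete (maximalIdeal A) A] [CommRing R] (σ : R →+* A)
    (hσ : Function.Surjective (fun x => residue A (σ x))) (x : ι → A)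
    (hx : Ideal.span (Set.range x) = maximalIdeal A) :
    ∃ φ : MvPowerSeries ι R →+* A, Function.Surjective φ ∧ (∀ r, φ (MvPowerSeries.C r) = σ r) ∧
      ∀ i, φ (MvPowerSeries.X i) = x i := by
  obtain ⟨φ, hφ⟩ := exists_evalHom (maximalIdeal A) σ x
    (fun i => hx ▸ Ideal.subset_span ⟨i, rfl⟩)
  have hC : ∀ r, φ (MvPowerSeries.C r) = σ r := by
    intro r
    rw [← MvPolynomial.coe_C, hφ]
    simp
  have hX : ∀ i, φ (MvPowerSeries.X i) = x i := by
    intro i
    rw [← MvPolynomial.coe_X, hφ]
    simp
  refine ⟨φ, ?_, hC, hX⟩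
  have hmap : (Ideal.span (Set.range MvPowerSeries.X) : Ideal (MvPowerSeries ι R)).map φ =
      maximalIdeal A := by
    rw [Ideal.map_span, ← Set.range_comp, ← hx]
    congr 2
    ext i
    exact hX i
  have hH : IsHausdorff ((Ideal.span (Set.range MvPowerSeries.X) :
      Ideal (MvPowerSeries ι R)).map φ) A := by
    rw [hmap]
    infer_instance
  apply surjective_of_mk_map_comp_surjective (I := Ideal.span (Set.range MvPowerSeries.X)) φ
  intro y
  obtain ⟨a, rfl⟩ := Ideal.Quotient.mk_surjective y
  obtain ⟨c, hc⟩ := hσ (residue A a)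
  refine ⟨MvPowerSeries.C c, ?_⟩
  rw [RingHom.comp_apply, hC]
  rw [Ideal.Quotient.mk_eq_mk_iff_sub_mem, hmap]
  rw [← Ideal.Quotient.mk_eq_mk_iff_sub_mem]
  exact hc

theorem exists_completion_residue (R : Type u) [CommRing R] [IsRegularLocalRing R] {r : ℕ}
    (hr : ringKrullDim R = r) :
    ∃ (S : Type u) (_ : CommRing S) (_ : IsRegularLocalRing S) (_ : Algebra R S),
      Module.Flat R S ∧ (maximalIdeal R).map (algebraMap R S) = maximalIdeal S ∧
      ringKrullDim S = r ∧ IsAdicComplete (maximalIdeal S) S ∧
      Surjective (fun z => residue S (algebraMap R S z)) := by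
  have hN := isNoetherianRing_adicCompletion R
  have hdim := ringKrullDim_adicCompletion R hr
  refine ⟨AdicCompletion (maximalIdeal R) R, inferInstance, ?_, inferInstance, inferInstance,
    AdicCompletion.maximalIdeal_eq_map.symm, hdim, inferInstance, ?_⟩
  · apply IsRegularLocalRing.of_spanFinrank_maximalIdeal_le
    rw [AdicCompletion.spanFinrank_maximalIdeal_eq, IsRegularLocalRing.spanFinrank_maximalIdeal,
      hr, hdim]
  · intro y
    obtain ⟨z, hz⟩ := (AdicCompletion.residueField_map_bijective R).2 y
    obtain ⟨z, rfl⟩ := residue_surjective z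
    exact ⟨z, hz⟩

theorem witt_dim_one (k : Type u) [Field k] (p : ℕ) [Fact p.Prime] [CharP k p]
    [PerfectRing k p] : ∃ _ : IsRegularLocalRing (WittVector p k),
      maximalIdeal (WittVector p k) = Ideal.span {(p : WittVector p k)} ∧
      ringKrullDim (WittVector p k) = (1 : ℕ) := by
  refine ⟨inferInstance, (WittVector.irreducible p).maximalIdeal_eq, ?_⟩
  rw [IsDiscreteValuationRing.ringKrullDim_eq_one]
  rfl

end Vale.Agent.P177
end

section

/-!
Devissage to pairs of prime cyclic modules.
-/

namespace Vale.Agent.P177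

open CategoryTheory TensorProduct Function IsLocalRing RingTheory.Sequence

universe u

/-- Devissage to prime cyclic modules in the first variable. -/
theorem sp_dev {R : Type u} [CommRing R] [IsRegularLocalRing R] {d : ℕ}
    (hd : ringKrullDim R = d) (M N : Type u) [AddCommGroup M] [Module R M] [Module.Finite R M]
    [AddCommGroup N] [Module R N] [Module.Finite R N]
    (hlen : Module.length R (M ⊗[R] N) ≠ ⊤)
    (h : ∀ P : Ideal R, P.IsPrime → Module.annihilator R M ≤ P → SP R d (R ⧸ P) N) :
    SP R d M N := by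
  refine IsNoetherianRing.induction_on_isQuotientEquivQuotientPrime R (M := M) inferInstance
    (motive := fun X => Module.annihilator R M ≤ Module.annihilator R X → SP R d X N)
    ?_ ?_ ?_ le_rfl
  · intro X _ _ _ hX _
    exact SP.of_subsingleton hX
  · intro X _ _ _ q e hle
    refine SP.congr e.symm (LinearEquiv.refl R N) (h q.1 q.2 ?_)
    rw [e.annihilator_eq, Ideal.annihilator_quotient] at hle
    exact hle
  · intro X₁ _ _ _ X₂ _ _ _ X₃ _ _ _ i g hi hg hex h1 h3 hle
    refine SP.of_exact hd i g hi hg hex ?_ (h1 ?_) (h3 ?_)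
    · exact length_tensor_ne_top_of_annihilator_le M X₂ N hlen hle
    · exact hle.trans (LinearMap.annihilator_le_of_injective i hi)
    · exact hle.trans (LinearMap.annihilator_le_of_surjective g hg)

/-- Devissage to prime cyclic modules in both variables. -/
theorem sp_dev₂ {R : Type u} [CommRing R] [IsRegularLocalRing R] {d : ℕ}
    (hd : ringKrullDim R = d) (M N : Type u) [AddCommGroup M] [Module R M] [Module.Finite R M]
    [AddCommGroup N] [Module R N] [Module.Finite R N]
    (hlen : Module.length R (M ⊗[R] N) ≠ ⊤)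
    (h : ∀ P Q : Ideal R, P.IsPrime → Q.IsPrime → Module.annihilator R M ≤ P →
      Module.annihilator R N ≤ Q → Module.length R ((R ⧸ P) ⊗[R] (R ⧸ Q)) ≠ ⊤ →
      SP R d (R ⧸ P) (R ⧸ Q)) :
    SP R d M N := by
  refine sp_dev hd M N hlen fun P hP hle => ?_
  have h1 : Module.length R ((R ⧸ P) ⊗[R] N) ≠ ⊤ :=
    length_tensor_ne_top_of_annihilator_le M (R ⧸ P) N hlen (by
      rw [Ideal.annihilator_quotient]
      exact hle)
  have h2 : Module.length R (N ⊗[R] (R ⧸ P)) ≠ ⊤ := by
    rw [(TensorProduct.comm R N (R ⧸ P)).length_eq]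
    exact h1
  refine (sp_dev hd N (R ⧸ P) h2 fun Q hQ hleQ => ?_).symm
  have h3 : Module.length R ((R ⧸ Q) ⊗[R] (R ⧸ P)) ≠ ⊤ :=
    length_tensor_ne_top_of_annihilator_le N (R ⧸ Q) (R ⧸ P) h2 (by
      rw [Ideal.annihilator_quotient]
      exact hleQ)
  refine (h P Q hP hQ hle hleQ ?_).symm
  rw [(TensorProduct.comm R (R ⧸ P) (R ⧸ Q)).length_eq]
  exact h3

end Vale.Agent.P177
end

section

/-!
P177, inner assembly: the pieces of the flags are the truncations of the honest modules.
-/

namespace Vale.Agent.P177.NatG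

open Vale.Agent.P177.PI Vale.Agent.P177.NatC WittVector TensorProduct Function
  Vale.Agent.P202.Mix Vale.Agent.P177.Ap

universe u

section

variable (p : ℕ) [hp : Fact p.Prime] {S R C C' : Type u} [CommRing S] [CommRing R]
  [CommRing C] [CharP C p] [PerfectRing C p] [CommRing C'] [CharP C' p] [PerfectRing C' p]
  (f : C →+* C') (Φ : S →+* R) (hΦ : Surjective Φ) (E : S) (hE : RingHom.ker Φ = Ideal.span {E})
  (ψ : S →+* WittVector p C)

end

end Vale.Agent.P177.NatG

namespace Vale.Agent.P177.Full

open TensorProduct IsLocalRing RingTheory.Sequence Function Vale.Agent.P202.Mix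
  Vale.Agent.P177.Flag Vale.Agent.P177.PI Vale.Agent.P177.Lev Vale.Agent.P177.Ap WittVector
open scoped ENNReal

universe u

namespace Pkg

variable {p : ℕ} [Fact p.Prime] {k : Type u} [Field k] [CharP k p] {r : ℕ}
variable {Λ : Type u} [CommRing Λ] [IsLocalRing Λ] {ψ : Λ →+* WittVector p (Rp p k r)}
variable {Ω : Type u} [Field Ω] [Algebra Λ Ω] {s : ℕ} {b : Fin s → Ω}
    {F G : Fin s → Polynomial Λ} {D : ℕ} {ε : ℝ≥0∞} {Φ : ℕ → ℕ} (K : Pkg ψ b F G D ε Φ)

theorem sp_J (n : ℕ) (ix : ∀ j, (Fin j → Fin n) → Fin s) (z : Fin n → ℤ) :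
    CN.SP p (K.J n ix z) :=
  CN.SP_pi fun _ => CN.SP_perfHull _

end Pkg

namespace Core

variable {p : ℕ} [hp : Fact p.Prime] {R : Type u} [CommRing R] [IsRegularLocalRing R]
    [CharP (ResidueField R) p] [PerfectRing (ResidueField R) p] {d : ℕ} {P : Ideal R}
    {hs : List R} {r : ℕ} [IsRegularLocalRing (Lam p (ResidueField R) r)]
    [Algebra (Lam p (ResidueField R) r) R] {Ω : Type u} [Field Ω]
    [Algebra (Lam p (ResidueField R) r) Ω] {F : Fin 2 → FlagMod (Lam p (ResidueField R) r) Ω hs}
    (X : Core p d P hs r Ω F)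

section rho

variable {C' : Type u} [CommRing C'] (f : X.K.C →+* C')
  (σ : R →ₐ[Lam p (ResidueField R) r] Ω)

/-- the action of `R` on the honest modules. -/
noncomputable abbrev rh : R →+* WittVector p C' ⧸
    Ideal.span {((WittVector.map f).comp (X.psi σ)) X.E} :=
  NatG.rhoR X.Φ X.Φ_surj X.E X.ker_Φ ((WittVector.map f).comp (X.psi σ))

variable {f σ}

/-- an element of `XM` is a multiple of `p ^ M` modulo `E`. -/
theorem mk_of_mem_XM {M : ℕ} {t' : C'}
    (hE : ∃ z w : WittVector p C', IsUnit z ∧ WittVector.map f (X.psi σ X.E) =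
      ((p : WittVector p C') - teichmuller p t') * z + (p : WittVector p C') ^ M * w)
    {x : WittVector p C'} (hx : x ∈ NatC.XM p t' M) :
    ∃ y, Ideal.Quotient.mk (Ideal.span {((WittVector.map f).comp (X.psi σ)) X.E}) x =
      Ideal.Quotient.mk _ ((p : WittVector p C') ^ M * y) := by
  obtain ⟨z, w, hz, hE⟩ := hE
  obtain ⟨a, b, rfl⟩ := (NatC.mem_XM (p := p)).1 hx
  obtain ⟨zi, hzi⟩ := hz.exists_right_inv
  refine ⟨b - w * zi * a, ?_⟩
  rw [Ideal.Quotient.eq, Ideal.mem_span_singleton']
  refine ⟨zi * a, ?_⟩
  have hE' : ((WittVector.map f).comp (X.psi σ)) X.E =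
      ((p : WittVector p C') - teichmuller p t') * z + (p : WittVector p C') ^ M * w := hE
  rw [hE']
  linear_combination ((p : WittVector p C') - teichmuller p t') * a * hzi

/-- elements of `(hs)` act as multiples of `p ^ M`. -/
theorem rh_of_mem {M : ℕ} {t' : C'}
    (hE : ∃ z w : WittVector p C', IsUnit z ∧ WittVector.map f (X.psi σ X.E) =
      ((p : WittVector p C') - teichmuller p t') * z + (p : WittVector p C') ^ M * w)
    (hβ : ∀ s, X.Φ s ∈ Ideal.ofList hs → WittVector.map f (X.psi σ s) ∈ NatC.XM p t' M)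
    {x : R} (hx : x ∈ Ideal.ofList hs) :
    ∃ y, X.rh f σ x = Ideal.Quotient.mk _ ((p : WittVector p C') ^ M * y) := by
  obtain ⟨s, rfl⟩ := X.Φ_surj x
  obtain ⟨y, hy⟩ := X.mk_of_mem_XM hE (hβ s hx)
  refine ⟨y, ?_⟩
  rw [← hy]
  exact NatG.rhoR_apply _ _ _ _ _ _

/-- `α` acts as `p ^ c0` times a unit. -/
theorem rh_alpha {M : ℕ} (hM : X.c0 + 1 ≤ M) {t' : C'}
    (hE : ∃ z w : WittVector p C', IsUnit z ∧ WittVector.map f (X.psi σ X.E) =
      ((p : WittVector p C') - teichmuller p t') * z + (p : WittVector p C') ^ M * w)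
    (hβ : ∀ s, X.Φ s ∈ Ideal.ofList hs → WittVector.map f (X.psi σ s) ∈ NatC.XM p t' M) :
    ∃ y, X.rh f σ X.α = Ideal.Quotient.mk _
      ((p : WittVector p C') ^ X.c0 + (p : WittVector p C') ^ (X.c0 + 1) * y) := by
  obtain ⟨y, hy⟩ := X.rh_of_mem hE hβ X.β_mem
  refine ⟨-((p : WittVector p C') ^ (M - (X.c0 + 1)) * y), ?_⟩
  have h1 : X.rh f σ X.α = X.rh f σ ((p : R) ^ X.c0) - X.rh f σ X.β := by
    rw [← map_sub, X.α_add, add_sub_cancel_right]
  rw [h1, hy, map_pow, map_natCast]
  have h2 : (p : WittVector p C') ^ M = (p : WittVector p C') ^ (X.c0 + 1) *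
      (p : WittVector p C') ^ (M - (X.c0 + 1)) := by
    rw [← pow_add, Nat.add_sub_cancel' hM]
  have h3 : (p : WittVector p C') ^ X.c0 + (p : WittVector p C') ^ (X.c0 + 1) *
      -((p : WittVector p C') ^ (M - (X.c0 + 1)) * y) = (p : WittVector p C') ^ X.c0 -
      (p : WittVector p C') ^ M * y := by
    rw [h2]
    ring
  rw [h3, map_sub, map_pow, map_natCast]

end rho


variable {η : X.K.C}
    (Z : CN.NatZ p X.K.C (tC p (ResidueField R) r X.K.C) η)
    (σ : R →ₐ[Lam p (ResidueField R) r] Ω)

/-- **The pieces of the flags**: the truncations of the honest modules are the graded pieces of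
the families, up to `η ^ (3 N)`. -/
theorem exists_piece {M : ℕ} (hM : X.c0 * (1 + 1) ≤ M)
    (hE : ∃ z w : WittVector p Z.C', IsUnit z ∧ WittVector.map Z.f (X.psi σ X.E) =
      ((p : WittVector p Z.C') - teichmuller p (Z.f (tC p (ResidueField R) r X.K.C))) * z +
        (p : WittVector p Z.C') ^ M * w)
    (hβ : ∀ s, X.Φ s ∈ Ideal.ofList hs → WittVector.map Z.f (X.psi σ s) ∈
      NatC.XM p (Z.f (tC p (ResidueField R) r X.K.C)) M)
    (n : ℕ) (ix : ∀ j, (Fin j → Fin n) → Fin X.m) (z : Fin n → ℤ) :
    (∀ h : X.HJ Z.f σ (X.K.J n ix z),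
      inR R (WittVector p X.K.C) X.α • h = 0 → h = 0) ∧
    ∃ π : Gr (X.K.fam n ix (X.c0 * (1 + 1))) z →+
        (X.HJ Z.f σ (X.K.J n ix z) ⧸ X.KJ Z.f σ (X.K.J n ix z) 1),
      (∀ y, ∃ x, π x = inW R (WittVector p X.K.C) (teichmuller p η) ^
        (3 * (X.c0 * (1 + 1))) • y) ∧
      (∀ x, π x = 0 → teichmuller p η ^ (3 * (X.c0 * (1 + 1))) • x = 0) ∧
      (∀ (a : WittVector p X.K.C) (x), π (a • x) = inW R (WittVector p X.K.C) a • π x) ∧
      (∀ (s : Sx p (ResidueField R) d) (x), π (X.psi σ s • x) =
        inR R (WittVector p X.K.C) (X.Φ s) • π x) := by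
  have hc0 := X.c0_pos
  obtain ⟨zz, w, hz, hE1⟩ := hE
  have hα := X.rh_alpha (f := Z.f) (σ := σ) (by omega : X.c0 + 1 ≤ M)
    (t' := Z.f (tC p (ResidueField R) r X.K.C)) ⟨zz, w, hz, hE1⟩ hβ
  have hJ := X.K.isPerf_J n ix z
  have hJ' : IsPerf p ((X.K.J n ix z).map Z.f) :=
    (CN.SP.map Z.f (X.K.sp_J n ix z)).isPerf
  have hM1 : ∀ x, x ∈ (X.K.fam n ix (X.c0 * (1 + 1))).M z ↔ x ∈ WI p (X.K.J n ix z) :=
    fun x => by rw [X.K.fam_M]
  have hN1 : ∀ x, x ∈ (X.K.fam n ix (X.c0 * (1 + 1))).N z ↔ ∃ u ∈ WI p (X.K.J n ix z),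
      ∃ v ∈ WI p (X.K.J n ix z), x = ((p : WittVector p X.K.C) -
        teichmuller p (tC p (ResidueField R) r X.K.C)) * u +
        (p : WittVector p X.K.C) ^ (X.c0 * (1 + 1)) * v := fun x => by
      rw [X.K.fam_N, mem_XI_mul]
  have h3 : 1 ≤ M := by omega
  have key := NatG.exists_piece Z.f X.Φ X.Φ_surj X.E X.ker_Φ (X.psi σ)
    (J := X.K.J n ix z) hJ hJ' (tC p (ResidueField R) r X.K.C) η Z.reg (Z.n1 _)
    (Z.n2 _ (X.K.sp_J n ix z))
    ((X.K.fam n ix (X.c0 * (1 + 1))).M z) ((X.K.fam n ix (X.c0 * (1 + 1))).N z)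
    (X.c0 * (1 + 1)) hM1 hN1 hz h3 hM hE1 X.α X.c0 1 rfl hα
  obtain ⟨h4, π, h5, h6, h7, h8⟩ := key
  refine ⟨h4, π, h5, h6, h7, fun s x => ?_⟩
  exact h8 s (X.psi σ s) ⟨0, 0, by rw [sub_self, mul_zero, mul_zero, add_zero]⟩ x

variable {Z σ}

end Core

end Vale.Agent.P177.Full
end

section

/-!
The Taylor homomorphism `S → S[X]/(X_i ^ t)`, `x_i ↦ x_i + X_i`, of a power series ring.
-/

namespace Vale.Agent.P177.SL

open Function TensorProduct IsLocalRing

universe u

section complete

/-- A finite algebra over a complete Noetherian ring is complete, for every ideal that is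
equivalent to the ideal of definition. -/
theorem isAdicComplete_of_finite_alg {A T : Type u} [CommRing A] [IsNoetherianRing A]
    [CommRing T] [Algebra A T] [Module.Finite A T] (I : Ideal A) [IsAdicComplete I A]
    (J : Ideal T) (hIJ : I.map (algebraMap A T) ≤ J) (c : ℕ)
    (hJ : J ^ c ≤ I.map (algebraMap A T)) : IsAdicComplete J T := by
  have hjac : I ≤ Ideal.jacobson ⊥ := IsAdicComplete.le_jacobson_bot I
  have hprec : IsPrecomplete I T := isPrecomplete_of_finite _ _
  have hhaus : IsHausdorff I T := IsHausdorff.of_le_jacobson _ _ hjac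
  have hcomp : IsAdicComplete I T := { hprec, hhaus with }
  have h : IsAdicComplete (I.map (algebraMap A T)) T := (IsAdicComplete.map_algebraMap_iff _ _).2 hcomp
  set K := I.map (algebraMap A T) with hK
  have h1 : ∀ n, (J ^ (c * n) • (⊤ : Submodule T T)) ≤ K ^ n • (⊤ : Submodule T T) := by
    intro n
    rw [pow_mul]
    exact Submodule.smul_mono_left (Ideal.pow_right_mono hJ n)
  have h2 : ∀ n, (K ^ n • (⊤ : Submodule T T)) ≤ J ^ n • (⊤ : Submodule T T) := fun n =>
    Submodule.smul_mono_left (Ideal.pow_right_mono hIJ n)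
  refine { haus' := ?_, prec' := ?_ }
  · intro x hx
    apply h.haus'
    intro n
    exact (hx (c * n)).mono (h1 n)
  · intro f hf
    obtain ⟨L, hL⟩ := h.prec' (fun n => f ((c + 1) * n)) (by
      intro m n hmn
      refine SModEq.mono ?_ (hf (Nat.mul_le_mul_left (c + 1) hmn))
      refine le_trans ?_ (h1 m)
      apply Submodule.smul_mono_left
      exact Ideal.pow_le_pow_right (by linarith))
    refine ⟨L, fun n => ?_⟩
    have h3 : f n ≡ f ((c + 1) * n) [SMOD (J ^ n • (⊤ : Submodule T T))] :=
      hf (by nlinarith only [])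
    exact h3.trans ((hL n).mono (h2 n))

end complete

section taylor

variable {d : ℕ} {W : Type u} [CommRing W]

/-- Polynomials are dense. -/
theorem exists_poly_sub_mem (n : ℕ) (s : MvPowerSeries (Fin d) W) :
    ∃ q : MvPolynomial (Fin d) W, s - (q : MvPowerSeries (Fin d) W) ∈
      Ideal.span (Set.range (MvPowerSeries.X : Fin d → MvPowerSeries (Fin d) W)) ^ n := by
  induction n generalizing s with
  | zero => exact ⟨0, by simp⟩
  | succ n ih =>
    have h1 := mem_span_X_of_constantCoeff_eq_zero
      (s - MvPowerSeries.C (MvPowerSeries.constantCoeff s)) (by simp)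
    obtain ⟨a, ha⟩ := Ideal.mem_span_range_iff_exists_fun.1 h1
    choose q hq using fun i => ih (a i)
    refine ⟨MvPolynomial.C (MvPowerSeries.constantCoeff s) + ∑ i, q i * MvPolynomial.X i, ?_⟩
    have h2 : s - ((MvPolynomial.C (MvPowerSeries.constantCoeff s) +
        ∑ i, q i * MvPolynomial.X i : MvPolynomial (Fin d) W) : MvPowerSeries (Fin d) W) =
        ∑ i, (a i - (q i : MvPowerSeries (Fin d) W)) * MvPowerSeries.X i := by
      have h3 : (((∑ i, q i * MvPolynomial.X i : MvPolynomial (Fin d) W)) :
          MvPowerSeries (Fin d) W) = ∑ i, (q i : MvPowerSeries (Fin d) W) * MvPowerSeries.X i := by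
        rw [← MvPolynomial.coeToMvPowerSeries.ringHom_apply, map_sum]
        refine Finset.sum_congr rfl fun i _ => ?_
        rw [map_mul]
        simp
      rw [MvPolynomial.coe_add, MvPolynomial.coe_C, h3, ← sub_sub, ← ha,
        ← Finset.sum_sub_distrib]
      refine Finset.sum_congr rfl fun i _ => ?_
      rw [sub_mul]
    rw [h2, pow_succ]
    exact Ideal.sum_mem _ fun i _ => Ideal.mul_mem_mul (hq i) (Ideal.subset_span ⟨i, rfl⟩)

/-- Ring homomorphisms which agree on constants and variables agree on polynomials. -/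
theorem poly_agree {B : Type*} [CommRing B] (φ ψ : MvPowerSeries (Fin d) W →+* B)
    (hC : ∀ w, φ (MvPowerSeries.C w) = ψ (MvPowerSeries.C w))
    (hX : ∀ i, φ (MvPowerSeries.X i) = ψ (MvPowerSeries.X i)) (q : MvPolynomial (Fin d) W) :
    φ (q : MvPowerSeries (Fin d) W) = ψ (q : MvPowerSeries (Fin d) W) := by
  have h3 : φ.comp (MvPolynomial.coeToMvPowerSeries.ringHom (σ := Fin d) (R := W)) =
      ψ.comp (MvPolynomial.coeToMvPowerSeries.ringHom (σ := Fin d) (R := W)) := by
    apply MvPolynomial.ringHom_ext
    · intro w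
      change φ ((MvPolynomial.C w : MvPolynomial (Fin d) W) : MvPowerSeries (Fin d) W) =
        ψ ((MvPolynomial.C w : MvPolynomial (Fin d) W) : MvPowerSeries (Fin d) W)
      rw [MvPolynomial.coe_C, hC]
    · intro i
      change φ ((MvPolynomial.X i : MvPolynomial (Fin d) W) : MvPowerSeries (Fin d) W) =
        ψ ((MvPolynomial.X i : MvPolynomial (Fin d) W) : MvPowerSeries (Fin d) W)
      rw [MvPolynomial.coe_X, hX]
  exact RingHom.congr_fun h3 q

/-- Two ring homomorphisms which agree on polynomials are equal modulo powers. -/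
theorem sub_mem_of_poly {B : Type*} [CommRing B] (φ ψ : MvPowerSeries (Fin d) W →+* B)
    (h : ∀ q : MvPolynomial (Fin d) W, φ (q : MvPowerSeries (Fin d) W) =
      ψ (q : MvPowerSeries (Fin d) W)) (J : Ideal B)
    (hJ : ∀ i, φ (MvPowerSeries.X i) ∈ J) (s : MvPowerSeries (Fin d) W) (n : ℕ) :
    φ s - ψ s ∈ J ^ n := by
  obtain ⟨q, hq⟩ := exists_poly_sub_mem n s
  have h1 : ∀ f : MvPowerSeries (Fin d) W →+* B, (∀ i, f (MvPowerSeries.X i) ∈ J) →
      f (s - q) ∈ J ^ n := by
    intro f hf
    have h2 : (Ideal.span (Set.range (MvPowerSeries.X : Fin d → MvPowerSeries (Fin d) W)) ^ n).map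
        f ≤ J ^ n := by
      rw [Ideal.map_pow, Ideal.map_span]
      apply Ideal.pow_right_mono
      rw [Ideal.span_le]
      rintro _ ⟨_, ⟨i, rfl⟩, rfl⟩
      exact hf i
    exact h2 (Ideal.mem_map_of_mem f hq)
  have h3 : ∀ i, ψ (MvPowerSeries.X i) ∈ J := by
    intro i
    rw [← MvPolynomial.coe_X, ← h, MvPolynomial.coe_X]
    exact hJ i
  have h4 := Ideal.sub_mem _ (h1 φ hJ) (h1 ψ h3)
  rw [map_sub, map_sub, h q] at h4
  simpa using h4

end taylor

section box

variable {d : ℕ} {W : Type u} [CommRing W] (t : ℕ)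

/-- The augmentation `T → S`, `X_i ↦ 0`. -/
theorem exists_aug (S : Type u) [CommRing S] (d : ℕ) (ht : 1 ≤ t) :
    ∃ g : (MvPolynomial (Fin d) S ⧸ boxI S (fun _ : Fin d => t)) →+* S,
      (∀ q : MvPolynomial (Fin d) S, g (Ideal.Quotient.mk _ q) = MvPolynomial.constantCoeff q) ∧
      ∀ x, g x = 0 → x ∈ Ideal.span (Set.range fun i : Fin d =>
        (Ideal.Quotient.mk (boxI S (fun _ : Fin d => t)) (MvPolynomial.X i))) := by
  have h1 : ∀ q ∈ boxI S (fun _ : Fin d => t), MvPolynomial.constantCoeff q = 0 := by
    intro q hq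
    rw [mem_boxI'] at hq
    exact hq 0 fun i => by
      simp only [Finsupp.coe_zero, Pi.zero_apply]
      omega
  refine ⟨Ideal.Quotient.lift _ MvPolynomial.constantCoeff h1, fun q => rfl, ?_⟩
  intro x hx
  obtain ⟨q, rfl⟩ := Ideal.Quotient.mk_surjective x
  have h2 : MvPolynomial.constantCoeff q = 0 := hx
  have h3 : q ∈ Ideal.span (Set.range (MvPolynomial.X : Fin d → MvPolynomial (Fin d) S)) := by
    rw [← boxI_one, boxI_one_eq_ker, RingHom.mem_ker]
    exact h2
  have h4 := Ideal.mem_map_of_mem (Ideal.Quotient.mk (boxI S (fun _ : Fin d => t))) h3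
  rw [Ideal.map_span, ← Set.range_comp] at h4
  exact h4

/-- The Taylor homomorphism. -/
theorem exists_taylor_gen [IsNoetherianRing W] (ht : 1 ≤ t) :
    ∃ Θ : MvPowerSeries (Fin d) W →+* (MvPolynomial (Fin d) (MvPowerSeries (Fin d) W) ⧸
        boxI (MvPowerSeries (Fin d) W) (fun _ : Fin d => t)),
      (∀ i, Θ (MvPowerSeries.X i) = Ideal.Quotient.mk _ (MvPolynomial.C (MvPowerSeries.X i)) +
        Ideal.Quotient.mk _ (MvPolynomial.X i)) ∧
      (∀ w, Θ (MvPowerSeries.C w) =
        Ideal.Quotient.mk _ (MvPolynomial.C (MvPowerSeries.C w))) ∧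
      ∀ s, Θ s - algebraMap _ _ s ∈ Ideal.span (Set.range fun i : Fin d =>
        (Ideal.Quotient.mk (boxI (MvPowerSeries (Fin d) W) (fun _ : Fin d => t))
          (MvPolynomial.X i))) := by
  let S := MvPowerSeries (Fin d) W
  let T := MvPolynomial (Fin d) S ⧸ boxI S (fun _ : Fin d => t)
  have hS : IsNoetherianRing S := inferInstanceAs (IsNoetherianRing (MvPowerSeries (Fin d) W))
  have hT : IsNoetherianRing T := inferInstance
  let I : Ideal S := Ideal.span (Set.range MvPowerSeries.X)
  have hI : IsAdicComplete I S := inferInstance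
  let xi : Fin d → T := fun i => Ideal.Quotient.mk _ (MvPolynomial.X i)
  let J : Ideal T := I.map (algebraMap S T) ⊔ Ideal.span (Set.range xi)
  have hJ1 : J ≤ (I.map (algebraMap S T)).radical := by
    refine sup_le Ideal.le_radical ?_
    rw [Ideal.span_le]
    rintro _ ⟨i, rfl⟩
    refine ⟨t, ?_⟩
    have h := box_X_pow (S := S) (fun _ : Fin d => t) i
    change xi i ^ t = 0 at h
    rw [h]
    exact zero_mem _
  obtain ⟨c, hc⟩ := Ideal.exists_pow_le_of_le_radical_of_fg hJ1
    ((isNoetherianRing_iff_ideal_fg T).1 hT J)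
  have hcomp : IsAdicComplete J T := isAdicComplete_of_finite_alg I J le_sup_left c hc
  let σ : W →+* T := (algebraMap S T).comp (MvPowerSeries.C (σ := Fin d))
  obtain ⟨Θ, hΘ⟩ := exists_evalHom J σ (fun i => algebraMap S T (MvPowerSeries.X i) + xi i)
    (fun i => Ideal.add_mem _ (Ideal.mem_sup_left (Ideal.mem_map_of_mem _
      (Ideal.subset_span ⟨i, rfl⟩))) (Ideal.mem_sup_right (Ideal.subset_span ⟨i, rfl⟩)))
  have h1 : ∀ i, Θ (MvPowerSeries.X i) = algebraMap S T (MvPowerSeries.X i) + xi i := by
    intro i
    rw [← MvPolynomial.coe_X, hΘ]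
    simp
  have h2 : ∀ w, Θ (MvPowerSeries.C w) = algebraMap S T (MvPowerSeries.C w) := by
    intro w
    rw [← MvPolynomial.coe_C, hΘ]
    simp [σ]
  refine ⟨Θ, h1, h2, fun s => ?_⟩
  obtain ⟨g, hg1, hg2⟩ := exists_aug t S d ht
  apply hg2
  have hga : ∀ a : S, g (algebraMap S T a) = a := by
    intro a
    have h := hg1 (MvPolynomial.C a)
    rw [MvPolynomial.constantCoeff_C] at h
    exact h
  have hgx : ∀ i, g (xi i) = 0 := by
    intro i
    have h := hg1 (MvPolynomial.X i)
    rw [MvPolynomial.constantCoeff_X] at h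
    exact h
  have hpoly : ∀ q : MvPolynomial (Fin d) W, (g.comp Θ) (q : MvPowerSeries (Fin d) W) =
      (RingHom.id S) (q : MvPowerSeries (Fin d) W) := by
    refine poly_agree _ _ (fun w => ?_) (fun i => ?_)
    · rw [RingHom.comp_apply, h2, hga, RingHom.id_apply]
    · rw [RingHom.comp_apply, h1, RingHom.map_add, hga, hgx, add_zero, RingHom.id_apply]
  rw [map_sub, hga]
  apply IsHausdorff.haus (I := I) (M := S) inferInstance
  intro n
  rw [SModEq.zero, smul_eq_mul, Ideal.mul_top]
  exact sub_mem_of_poly (g.comp Θ) (RingHom.id S) hpoly I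
    (fun i => by
      have h := hpoly (MvPolynomial.X i)
      rw [MvPolynomial.coe_X, RingHom.id_apply] at h
      rw [h]
      exact Ideal.subset_span ⟨i, rfl⟩) s n

variable [IsLocalRing W]

/-- The residue field thickened by the Taylor homomorphism. -/
theorem th_residue_gen (ϖ : W) (hϖ : maximalIdeal W = Ideal.span {ϖ})
    (Θ : MvPowerSeries (Fin d) W →+* (MvPolynomial (Fin d) (MvPowerSeries (Fin d) W) ⧸
        boxI (MvPowerSeries (Fin d) W) (fun _ : Fin d => t)))
    (h1 : ∀ i, Θ (MvPowerSeries.X i) =
      Ideal.Quotient.mk _ (MvPolynomial.C (MvPowerSeries.X i)) +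
        Ideal.Quotient.mk _ (MvPolynomial.X i))
    (h2 : ∀ w, Θ (MvPowerSeries.C w) =
      Ideal.Quotient.mk _ (MvPolynomial.C (MvPowerSeries.C w))) :
    Nonempty (Th Θ (MvPolynomial (Fin d) (MvPowerSeries (Fin d) W) ⧸
        boxI (MvPowerSeries (Fin d) W) (fun _ : Fin d => t))
        (MvPowerSeries (Fin d) W ⧸ maximalIdeal (MvPowerSeries (Fin d) W))
      ≃ₗ[MvPowerSeries (Fin d) W] MvPowerSeries (Fin d) W ⧸
        Ideal.ofList (MvPowerSeries.C ϖ :: List.ofFn fun i : Fin d =>
          (MvPowerSeries.X i : MvPowerSeries (Fin d) W) ^ t)) := by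
  let S := MvPowerSeries (Fin d) W
  let T := MvPolynomial (Fin d) S ⧸ boxI S (fun _ : Fin d => t)
  let m : Ideal S := maximalIdeal S
  let I : Ideal S := Ideal.ofList (MvPowerSeries.C ϖ :: List.ofFn fun i : Fin d =>
    (MvPowerSeries.X i : MvPowerSeries (Fin d) W) ^ t)
  let M : Ideal T := m.map (algebraMap S T)
  let xi : Fin d → T := fun i => Ideal.Quotient.mk _ (MvPolynomial.X i)
  have hxi : ∀ i, xi i ^ t = 0 := fun i => box_X_pow (S := S) (fun _ : Fin d => t) i
  have h1' : ∀ i, Θ (MvPowerSeries.X i) = algebraMap S T (MvPowerSeries.X i) + xi i := h1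
  have h2' : ∀ w, Θ (MvPowerSeries.C w) = algebraMap S T (MvPowerSeries.C w) := h2
  have hm : m = (maximalIdeal W).map (MvPowerSeries.C (σ := Fin d)) ⊔
      Ideal.span (Set.range MvPowerSeries.X) := mvPowerSeries_maximalIdeal_gen
  have hIC : MvPowerSeries.C ϖ ∈ I := Ideal.subset_span (by simp)
  have hIX : ∀ i : Fin d, (MvPowerSeries.X i : S) ^ t ∈ I := fun i =>
    Ideal.subset_span (by simp)
  have hmX : ∀ i : Fin d, (MvPowerSeries.X i : S) ∈ m := by
    intro i
    rw [hm]
    exact Ideal.mem_sup_right (Ideal.subset_span ⟨i, rfl⟩)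
  have hmC : (MvPowerSeries.C ϖ : S) ∈ m := by
    rw [hm, hϖ]
    exact Ideal.mem_sup_left (Ideal.mem_map_of_mem _ (Ideal.mem_span_singleton_self ϖ))
  have hcc : ∀ s ∈ m, MvPowerSeries.constantCoeff s ∈ maximalIdeal W := by
    intro s hs
    by_contra hne
    rw [mem_maximalIdeal, mem_nonunits_iff, not_not] at hne
    exact (mem_maximalIdeal s).mp hs (MvPowerSeries.isUnit_iff_constantCoeff.mpr hne)
  -- the tensor product
  have hten : ∀ a : T, (a ⊗ₜ[S] (1 : S ⧸ m) : T ⊗[S] (S ⧸ m)) = 0 ↔ a ∈ M := by
    intro a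
    rw [← (TensorProduct.tensorQuotEquivQuotSMul T m).map_eq_zero_iff]
    have h3 : TensorProduct.tensorQuotEquivQuotSMul T m (a ⊗ₜ[S] (1 : S ⧸ m)) =
        Submodule.Quotient.mk ((1 : S) • a) :=
      TensorProduct.tensorQuotEquivQuotSMul_tmul_mk m a 1
    rw [h3, one_smul, Submodule.Quotient.mk_eq_zero, Ideal.smul_top_eq_map]
    rfl
  have hten2 : ∀ x : T ⊗[S] (S ⧸ m), ∃ a : T, x = a ⊗ₜ[S] (1 : S ⧸ m) := by
    intro x
    obtain ⟨a, ha⟩ := Submodule.Quotient.mk_surjective _
      (TensorProduct.tensorQuotEquivQuotSMul T m x)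
    refine ⟨a, ?_⟩
    rw [← TensorProduct.tensorQuotEquivQuotSMul_symm_mk, ha, LinearEquiv.symm_apply_apply]
  -- the map
  let F : S →ₗ[S] Th Θ T (S ⧸ m) :=
    LinearMap.toSpanSingleton S (Th Θ T (S ⧸ m)) (show T ⊗[S] (S ⧸ m) from 1 ⊗ₜ[S] 1)
  have hF : ∀ s, F s = (show T ⊗[S] (S ⧸ m) from Θ s ⊗ₜ[S] 1) := by
    intro s
    change Θ s • (1 ⊗ₜ[S] 1 : T ⊗[S] (S ⧸ m)) = _
    rw [TensorProduct.smul_tmul', smul_eq_mul, mul_one]
  have hsur : ∀ q : MvPolynomial (Fin d) S, ∃ s : S, Θ s - Ideal.Quotient.mk _ q ∈ M := by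
    intro q
    induction q using MvPolynomial.induction_on with
    | C s =>
      refine ⟨MvPowerSeries.C (MvPowerSeries.constantCoeff s), ?_⟩
      rw [h2']
      change algebraMap S T _ - algebraMap S T s ∈ M
      rw [← map_sub]
      apply Ideal.mem_map_of_mem
      rw [hm]
      exact Ideal.mem_sup_right (mem_span_X_of_constantCoeff_eq_zero _ (by simp))
    | add p q hp hq =>
      obtain ⟨a, ha⟩ := hp
      obtain ⟨b, hb⟩ := hq
      refine ⟨a + b, ?_⟩
      have h3 := Ideal.add_mem _ ha hb
      rw [RingHom.map_add, RingHom.map_add]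
      convert h3 using 1
      ring
    | mul_X q i hq =>
      obtain ⟨a, ha⟩ := hq
      refine ⟨a * MvPowerSeries.X i, ?_⟩
      rw [map_mul, map_mul, h1']
      have h3 := Ideal.add_mem M (M.mul_mem_right (xi i) ha) (M.mul_mem_left (Θ a)
        (Ideal.mem_map_of_mem (algebraMap S T) (hmX i)))
      convert h3 using 1
      ring
  have hFsur : Surjective F := by
    intro x
    obtain ⟨a, rfl⟩ := hten2 x
    obtain ⟨q, rfl⟩ := Ideal.Quotient.mk_surjective a
    obtain ⟨s, hs⟩ := hsur q
    refine ⟨s, ?_⟩
    rw [hF]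
    have h3 := (hten _).2 hs
    rw [TensorProduct.sub_tmul, sub_eq_zero] at h3
    exact h3
  have hker : LinearMap.ker F = I := by
    ext s
    have h6 : F s = 0 ↔ Θ s ∈ M :=
      ⟨fun h => (hten (Θ s)).1 ((hF s).symm.trans h),
        fun h => (hF s).trans ((hten (Θ s)).2 h)⟩
    rw [LinearMap.mem_ker, h6]
    constructor
    · intro hs
      let g0 : MvPolynomial (Fin d) S →+* S ⧸ I :=
        MvPolynomial.eval₂Hom ((Ideal.Quotient.mk I).comp
          ((MvPowerSeries.C (σ := Fin d)).comp MvPowerSeries.constantCoeff))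
          (fun i => Ideal.Quotient.mk I (MvPowerSeries.X i))
      have hg0 : ∀ q ∈ boxI S (fun _ : Fin d => t), g0 q = 0 := by
        have h3 : boxI S (fun _ : Fin d => t) ≤ RingHom.ker g0 := by
          rw [boxI, Ideal.span_le]
          rintro _ ⟨i, rfl⟩
          change g0 (MvPolynomial.X i ^ t) = 0
          rw [map_pow]
          change (MvPolynomial.eval₂ _ _ (MvPolynomial.X i)) ^ t = 0
          rw [MvPolynomial.eval₂_X, ← map_pow, Ideal.Quotient.eq_zero_iff_mem]
          exact hIX i
        exact fun q hq => h3 hq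
      let g : T →+* S ⧸ I := Ideal.Quotient.lift _ g0 hg0
      have hg1 : ∀ a : S, g (algebraMap S T a) =
          Ideal.Quotient.mk I (MvPowerSeries.C (MvPowerSeries.constantCoeff a)) := by
        intro a
        change MvPolynomial.eval₂ _ _ (MvPolynomial.C a) = _
        rw [MvPolynomial.eval₂_C]
        rfl
      have hg2 : ∀ i, g (xi i) = Ideal.Quotient.mk I (MvPowerSeries.X i) := by
        intro i
        change MvPolynomial.eval₂ _ _ (MvPolynomial.X i) = _
        rw [MvPolynomial.eval₂_X]
      have hgM : ∀ x ∈ M, g x = 0 := by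
        have h3 : M ≤ RingHom.ker g := by
          rw [Ideal.map_le_iff_le_comap]
          intro a ha
          rw [Ideal.mem_comap, RingHom.mem_ker, hg1, Ideal.Quotient.eq_zero_iff_mem]
          have h4 := hcc a ha
          rw [hϖ, Ideal.mem_span_singleton] at h4
          obtain ⟨w, hw⟩ := h4
          rw [hw, map_mul]
          exact I.mul_mem_right _ hIC
        exact fun x hx => h3 hx
      have hpoly := poly_agree (g.comp Θ) (Ideal.Quotient.mk I)
        (fun w => by
          rw [RingHom.comp_apply, h2', hg1, MvPowerSeries.constantCoeff_C])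
        (fun i => by
          rw [RingHom.comp_apply, h1', RingHom.map_add, hg1, hg2, MvPowerSeries.constantCoeff_X,
            RingHom.map_zero,
            map_zero, zero_add])
      let J : Ideal (S ⧸ I) := Ideal.span (Set.range fun i : Fin d =>
        Ideal.Quotient.mk I (MvPowerSeries.X i))
      have hJ1 : J ≤ (⊥ : Ideal (S ⧸ I)).radical := by
        rw [Ideal.span_le]
        rintro _ ⟨i, rfl⟩
        refine ⟨t, ?_⟩
        rw [← map_pow, Ideal.Quotient.eq_zero_iff_mem.2 (hIX i)]
        exact zero_mem _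
      have hJfg : J.FG := Submodule.fg_span (Set.finite_range _)
      obtain ⟨n, hn⟩ := Ideal.exists_pow_le_of_le_radical_of_fg hJ1 hJfg
      have h5 := hn (sub_mem_of_poly (g.comp Θ) (Ideal.Quotient.mk I) hpoly J
        (fun i => by
          have h := hpoly (MvPolynomial.X i)
          rw [MvPolynomial.coe_X] at h
          rw [h]
          exact Ideal.subset_span ⟨i, rfl⟩) s n)
      rw [Ideal.mem_bot, RingHom.comp_apply, hgM _ hs, zero_sub, neg_eq_zero,
        Ideal.Quotient.eq_zero_iff_mem] at h5
      exact h5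
    · have h3 : I ≤ M.comap Θ := by
        refine Ideal.span_le.2 ?_
        intro x hx
        rcases List.mem_cons.1 hx with rfl | hx
        · rw [SetLike.mem_coe, Ideal.mem_comap, h2']
          exact Ideal.mem_map_of_mem _ hmC
        · obtain ⟨i, rfl⟩ := List.mem_ofFn.1 hx
          rw [SetLike.mem_coe, Ideal.mem_comap, RingHom.map_pow, h1',
            ← Ideal.Quotient.eq_zero_iff_mem, RingHom.map_pow, RingHom.map_add,
            Ideal.Quotient.eq_zero_iff_mem.2
              (Ideal.mem_map_of_mem (algebraMap S T) (hmX i)), zero_add, ← RingHom.map_pow, hxi,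
            RingHom.map_zero]
      exact fun hs => h3 hs
  exact ⟨((Submodule.quotEquivOfEq _ _ hker).symm.trans
    (F.quotKerEquivOfSurjective hFsur)).symm⟩

end box

section witt

variable (p : ℕ) [Fact p.Prime] (k : Type u) [Field k] [CharP k p] [PerfectRing k p] (d t : ℕ)

/-- The Taylor homomorphism for power series over the Witt vectors. -/
theorem exists_taylor (ht : 1 ≤ t) :
    ∃ Θ : MvPowerSeries (Fin d) (WittVector p k) →+*
        (MvPolynomial (Fin d) (MvPowerSeries (Fin d) (WittVector p k)) ⧸
          boxI (MvPowerSeries (Fin d) (WittVector p k)) (fun _ : Fin d => t)),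
      (∀ i, Θ (MvPowerSeries.X i) = Ideal.Quotient.mk _ (MvPolynomial.C (MvPowerSeries.X i)) +
        Ideal.Quotient.mk _ (MvPolynomial.X i)) ∧
      (∀ w, Θ (MvPowerSeries.C w) =
        Ideal.Quotient.mk _ (MvPolynomial.C (MvPowerSeries.C w))) ∧
      ∀ s, Θ s - algebraMap _ _ s ∈ Ideal.span (Set.range fun i : Fin d =>
        (Ideal.Quotient.mk (boxI (MvPowerSeries (Fin d) (WittVector p k)) (fun _ : Fin d => t))
          (MvPolynomial.X i))) :=
  exists_taylor_gen t ht

/-- The residue field thickened by the Taylor homomorphism. -/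
theorem th_residue
    (Θ : MvPowerSeries (Fin d) (WittVector p k) →+*
        (MvPolynomial (Fin d) (MvPowerSeries (Fin d) (WittVector p k)) ⧸
          boxI (MvPowerSeries (Fin d) (WittVector p k)) (fun _ : Fin d => t)))
    (h1 : ∀ i, Θ (MvPowerSeries.X i) =
      Ideal.Quotient.mk _ (MvPolynomial.C (MvPowerSeries.X i)) +
        Ideal.Quotient.mk _ (MvPolynomial.X i))
    (h2 : ∀ w, Θ (MvPowerSeries.C w) =
      Ideal.Quotient.mk _ (MvPolynomial.C (MvPowerSeries.C w))) :
    Nonempty (Th Θ (MvPolynomial (Fin d) (MvPowerSeries (Fin d) (WittVector p k)) ⧸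
        boxI (MvPowerSeries (Fin d) (WittVector p k)) (fun _ : Fin d => t))
        (MvPowerSeries (Fin d) (WittVector p k) ⧸
          maximalIdeal (MvPowerSeries (Fin d) (WittVector p k)))
      ≃ₗ[MvPowerSeries (Fin d) (WittVector p k)] MvPowerSeries (Fin d) (WittVector p k) ⧸
        Ideal.ofList (MvPowerSeries.C (p : WittVector p k) :: List.ofFn fun i : Fin d =>
          (MvPowerSeries.X i : MvPowerSeries (Fin d) (WittVector p k)) ^ t)) := by
  obtain ⟨_, h, _⟩ := witt_dim_one k p
  exact th_residue_gen t (p : WittVector p k) h Θ h1 h2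

end witt

end Vale.Agent.P177.SL
end

section

/-!
P177, block PRES: presentation `W(k)[[x_1, .., x_d]] → R` with prescribed constants.
-/

namespace Vale.Agent.P177.Full

open IsLocalRing Function

universe u

/-- The presentation of a ramified complete regular local ring with perfect residue field, with
prescribed homomorphism `ι : W(k) → R`. -/
theorem exists_pres (p : ℕ) [Fact p.Prime] {R : Type u} [CommRing R]
    [IsRegularLocalRing R] [IsAdicComplete (maximalIdeal R) R] [CharP (ResidueField R) p]
    [PerfectRing (ResidueField R) p] {d : ℕ} (hd : ringKrullDim R = d)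
    (hp2 : (p : R) ∈ maximalIdeal R ^ 2) (ι : WittVector p (ResidueField R) →+* R)
    (hι : ∀ w, residue R (ι w) = w.coeff 0) :
    ∃ (Φ : MvPowerSeries (Fin d) (WittVector p (ResidueField R)) →+* R)
      (g : MvPowerSeries (Fin d) (WittVector p (ResidueField R))),
      Surjective Φ ∧ (∀ w, Φ (MvPowerSeries.C w) = ι w) ∧
      (∀ i, Φ (MvPowerSeries.X i) ∈ maximalIdeal R) ∧
      Ideal.span (Set.range fun i => Φ (MvPowerSeries.X i)) = maximalIdeal R ∧
      g ∈ Ideal.span (Set.range
        (MvPowerSeries.X : Fin d → MvPowerSeries (Fin d) (WittVector p (ResidueField R)))) ^ 2 ∧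
      RingHom.ker Φ = Ideal.span {(p : MvPowerSeries (Fin d) (WittVector p (ResidueField R))) - g} := by
  obtain ⟨rs, hrs, hlen⟩ := exists_list_maximalIdeal R
  have hl : rs.length = d := by
    rw [hd] at hlen
    exact_mod_cast hlen
  subst hl
  let x : Fin rs.length → R := fun i => rs.get i
  have hx : Ideal.span (Set.range x) = maximalIdeal R := by
    rw [← hrs, Ideal.ofList]
    congr 1
    ext y
    simp only [x, Set.mem_range, Set.mem_ofPred_eq, List.mem_iff_get]
  -- the quadratic form
  obtain ⟨c, hc⟩ : ∃ c : Fin rs.length → Fin rs.length → R,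
      (p : R) = ∑ i, ∑ j, x i * c i j * x j := by
    rw [← hx, pow_two] at hp2
    have h1 : ∀ y ∈ Ideal.span (Set.range x) * Ideal.span (Set.range x),
        ∃ c : Fin rs.length → Fin rs.length → R, y = ∑ i, ∑ j, x i * c i j * x j := by
      intro y hy
      refine Submodule.mul_induction_on hy ?_ ?_
      · intro a ha b hb
        obtain ⟨α, rfl⟩ := (Ideal.mem_span_range_iff_exists_fun).1 ha
        obtain ⟨β, rfl⟩ := (Ideal.mem_span_range_iff_exists_fun).1 hb
        refine ⟨fun i j => α i * β j, ?_⟩
        rw [Finset.sum_mul_sum]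
        refine Finset.sum_congr rfl fun i _ => Finset.sum_congr rfl fun j _ => ?_
        ring
      · rintro a b ⟨α, rfl⟩ ⟨β, rfl⟩
        refine ⟨fun i j => α i j + β i j, ?_⟩
        simp only [← Finset.sum_add_distrib]
        refine Finset.sum_congr rfl fun i _ => Finset.sum_congr rfl fun j _ => ?_
        ring
    exact h1 _ hp2
  obtain ⟨hreg, hmax, hdim⟩ := witt_dim_one (ResidueField R) p
  obtain ⟨φ, hφ, hC, hX⟩ := exists_evalHom_surjective ι (fun y =>
    ⟨WittVector.teichmuller p y, by
      change residue R (ι (WittVector.teichmuller p y)) = y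
      rw [hι, WittVector.teichmuller_coeff_zero]⟩) x hx
  choose g hg using hφ
  let c' : Fin rs.length → Fin rs.length →
    MvPowerSeries (Fin rs.length) (WittVector p (ResidueField R)) := fun i j => g (c i j)
  have hle : Ideal.span {quadEq (WittVector p (ResidueField R)) (p : WittVector p _) rs.length c'} ≤
      RingHom.ker φ := by
    rw [Ideal.span_singleton_le_iff_mem, RingHom.mem_ker, quadEq, map_sub, hC, map_natCast, hc,
      map_sum, sub_eq_zero]
    refine Finset.sum_congr rfl fun i _ => ?_
    rw [map_sum]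
    refine Finset.sum_congr rfl fun j _ => ?_
    rw [map_mul, map_mul, hX, hX, hg]
  obtain ⟨hR, -, hdR⟩ := quadRing_regular (WittVector p (ResidueField R)) (p : WittVector p _)
    hmax hdim rs.length c'
  have hq : quadEq (WittVector p (ResidueField R)) (p : WittVector p _) rs.length c' =
      (p : MvPowerSeries (Fin rs.length) (WittVector p (ResidueField R))) -
        ∑ i, ∑ j, MvPowerSeries.X i * c' i j * MvPowerSeries.X j := by
    rw [quadEq, map_natCast]
  refine ⟨φ, ∑ i, ∑ j, MvPowerSeries.X i * c' i j * MvPowerSeries.X j,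
    fun y => ⟨g y, hg y⟩, hC, fun i => ?_, ?_, ?_, ?_⟩
  · rw [hX, ← hx]
    exact Ideal.subset_span ⟨i, rfl⟩
  · rw [← hx]
    congr 1
    ext y
    simp only [Set.mem_range, hX]
  · refine Ideal.sum_mem _ fun i _ => Ideal.sum_mem _ fun j _ => ?_
    rw [pow_two, mul_assoc, mul_comm (c' i j)]
    rw [← mul_assoc]
    exact Ideal.mul_mem_right _ _ (Ideal.mul_mem_mul (Ideal.subset_span ⟨i, rfl⟩)
      (Ideal.subset_span ⟨j, rfl⟩))
  · rw [← hq]
    refine le_antisymm ?_ hle
    let ψ : QuadRing (WittVector p (ResidueField R)) (p : WittVector p _) rs.length c' →+* R :=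
      Ideal.Quotient.lift _ φ fun a ha => hle ha
    have hψ : Surjective ψ := fun s => ⟨Ideal.Quotient.mk _ (g s), hg s⟩
    have hinj : RingHom.ker ψ = ⊥ := ker_eq_bot_of_dim_eq ψ hψ (by rw [hd, hdR])
    intro a ha
    rw [← Ideal.Quotient.eq_zero_iff_mem]
    have h1 : Ideal.Quotient.mk _ a ∈ RingHom.ker ψ := by
      rw [RingHom.mem_ker]
      exact ha
    rwa [hinj, Ideal.mem_bot] at h1

end Vale.Agent.P177.Full
end
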