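import Mathlib
import Vale.Agent.P177.Bd4.B18
import Vale.Agent.P177.Bd4.B12
import Vale.Agent.P177.Bd4.B11
import Vale.Agent.P177.Bd4.B1
import Vale.Agent.P177.Bd4.B10
import Vale.Agent.P177.Bd4.B14
import Vale.Agent.P177.Bd4.B17
import Vale.Agent.P177.Bd4.B13
import Vale.Agent.P177.Bd4.B4
import Vale.Agent.P177.Bd4.B16
import Vale.Agent.P177.Bd4.B7
import Vale.Agent.P177.Bd4.B9
attribute [-instance] NonAssocCommRing.toNonAssocCommSemiring NormedGroup.toGroup LeftPreLieRing.instLieAdmissibleRing NormedCommRing.toCommRing NormedGroup.toSeminormedGroup AlgHomClass.linearMapClass NormedSpace.toModule RightPreLieAlgebra.toModule MulSemiringActionSemiHomClass.toDistribMulActionSemiHomClass NonAssocCommSemiring.toNonAssocSemiring NonAssocCommRing.toNonUnitalNonAssocCommRing LinearOrderedCommMonoidWithZero.toCommMonoidWithZero CoalgEquivClass.toCoalgHomClass Pi.normedRing SeminormedRing.toRing LeftPreLieAlgebra.toModule SemilinearIsometryClass.toContinuousSemilinearMapClass BooleanRing.toCommRing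 LinearOrderedCommMonoidWithZero.toLinearOrder NormedRing.toMetricSpace NonUnitalNormedRing.toNonUnitalSeminormedRing instNonUnitalCStarAlgebraForall AlgHom.instContinuousLinearMapClassOfAlgHomClass Action.instMulAction AbsoluteValue.zeroHomClass NormedAddCommGroup.toSeminormedAddCommGroup ConditionallyCompleteLinearOrder.toLinearOrder BialgEquivClass.toBialgHomClass NonUnitalSeminormedCommRing.toNonUnitalSeminormedRing NormedAddGroup.toSeminormedAddGroup RingHomClass.toLinearMapClassNNRat Ring.toNonUnitalRing NormedAddGroup.toMetricSpace NonUnitalSeminormedRing.toSeminormedAddCommGroup NormedRing.toRing LinearOrderedAddCommGroupWithTop.toAddCommMonoid SeminormedAddCommGroup.toAddCommGroup TopRep.hV1 LieRing.toAddCommGroup BialgHomClass.toCoalgHomClass Complex.instRCLike DenselyNormedField.toNontriviallyNormedField CommSemiring.toHopfAlgebra NonUnitalSeminormedCommRing.toNonUnitalCommRing HopfAlgebraStruct.toBialgebra NonUnitalCommCStarAlgebra.toNonUnitalNormedCommRing NonUnitalNormedCommRing.toNonUnitalNormedRing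 SeminormedCommGroup.toCommGroup SemilinearIsometryClass.toSemilinearMapClass NormedAddCommGroup.toMetricSpace MulSemiringAction.toDistribMulAction Pi.mulZeroOneClass KleeneAlgebra.toIdemSemiring CategoryTheory.Preadditive.instGrpObj NormedAlgebra.toAlgebra LieAdmissibleRing.instLieRing instCommGroupOfIsSimpleGroupOfIsNilpotent NormedField.toNormedCommRing NonUnitalNormedRing.toNonUnitalRing NormedCommRing.toNonUnitalNormedCommRing CompleteLinearOrder.toLinearOrder NontriviallyNormedField.toNormedField CommCStarAlgebra.toNormedCommRing CentroidHomClass.toAddMonoidHomClass LinearOrderedCommGroupWithZero.toLinearOrderedCommMonoidWithZero EuclideanDomain.toCommRing Field.toEuclideanDomain CStarAlgebra.toNonUnitalCStarAlgebra SeminormedCommGroup.toSeminormedGroup NonUnitalCommCStarAlgebra.toNonUnitalCStarAlgebra CommGroupWithZero.toGroupWithZero NormedDivisionRing.toNormedRing RingCat.FilteredColimits.colimitRing CommCStarAlgebra.toNonUnitalCommCStarAlgebra CommSemiring.toNonAssocCommSemiring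 SeminormedCommRing.toSeminormedRing RingHomClass.toLinearMapClassRat instNonUnitalAlgHomClassOfNonUnitalAlgEquivClass CStarAlgebra.toNormedRing LinearOrderedAddCommGroupWithTop.instLinearOrderedAddCommMonoidWithTop ContinuousSemilinearMapClass.toSemilinearMapClass Bialgebra.toAlgebra SemigroupWithZero.toMulZeroClass SemiRingCat.instSemiringObjForgetRingHomCarrier NormedField.toNormedDivisionRing MonTypeEquivalenceMon.monMonoid RightPreLieRing.toNonUnitalNonAssocRing HopfAlgebra.toHopfAlgebraStruct AddCommGroupWithOne.toAddCommMonoidWithOne AddCommMonCat.FilteredColimits.colimitAddCommMonoid NonUnitalAlgHomClass.instSemilinearMapClassOfNonUnitalAlgSemiHomClassToMonoidHomRingHom Action.FintypeCat.instMulActionObjFiniteOf LieAdmissibleAlgebra.toModule NormedCommRing.toNormedRing LinearOrderedAddCommGroupWithTop.toLinearOrder TopologicalSpace.UpgradedIsCompletelyMetrizableSpace.toMetricSpace NormedDivisionRing.toMetricSpace NormedField.toField CategoryTheory.HopfObj.toBimonObj NormedGroup.toMetricSpace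 CommGrpTypeEquivalenceCommGrp.commGrpCommGroup GrpTypeEquivalenceGrp.grpGroup NormedCommGroup.toMetricSpace CoalgHomClass.toSemilinearMapClass NonUnitalRing.toNonUnitalNonAssocRing AddCommGroupWithOne.toAddCommGroup LieAlgebra.toModule CommGroup.toGroup OrderAddMonoidHom.instAddMonoidHomClass NonUnitalNonAssocCommSemiring.toNonUnitalNonAssocSemiring NormedField.toMetricSpace CommRing.toAddCommGroupWithOne CommMonTypeEquivalenceCommMon.commMonCommMonoid instSMulZeroClass ContinuousSemilinearEquivClass.continuousSemilinearMapClass SeminormedCommRing.toCommRing CategoryTheory.CommRingObj.toRingObj RightPreLieRing.instLieAdmissibleRing NonUnitalNormedCommRing.toNonUnitalCommRing CommSemiRingCat.FilteredColimits.colimitCommSemiring MonCat.monoidObj littleWedderburn SeminormedCommRing.toNonUnitalSeminormedCommRing NormedAddCommGroup.toAddCommGroup CommCStarAlgebra.toCStarAlgebra CategoryTheory.RingObj.toMonObj NormedCommGroup.toCommGroup NormedCommGroup.toSeminormedCommGroup RCLike.toDenselyNormedField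 NonAssocCommSemiring.toNonUnitalNonAssocCommSemiring NonUnitalNormedCommRing.toNonUnitalSeminormedCommRing CategoryTheory.GrpObj.toMonObj SemiNormedGrp.str NormedAddCommGroup.toNormedAddGroup SeminormedGroup.toGroup AddOpposite.instAddZero NormedCommGroup.toNormedGroup NonUnitalNormedRing.toNormedAddCommGroup Pi.instTopForall ProfiniteAddGrp.addGroup LieAdmissibleRing.toNonUnitalNonAssocRing DenselyNormedField.toNormedField LeftPreLieRing.toNonUnitalNonAssocRing NormedRing.toSeminormedRing BooleanRing.toRing NonUnitalNormedRing.toMetricSpace CategoryTheory.CommGrpObj.toGrpObj LinearOrderedCommGroupWithZero.toCommGroupWithZero NormedDivisionRing.toDivisionRing SeminormedAddCommGroup.toSeminormedAddGroup SeminormedRing.toNonUnitalSeminormedRing PositiveLinearMap.instContinuousLinearMapClassComplexOfLinearMapClassOfOrderHomClass NormedCommRing.toSeminormedCommRing NonUnitalSeminormedRing.toNonUnitalRing ValuationClass.toMonoidWithZeroHomClass Torsor.toMulAction AddCommGroupWithOne.toAddGroupWithOne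 CategoryTheory.BimonObj.toMonObj LinearOrderedAddCommGroupWithTop.toSubNegMonoid NonUnitalCStarAlgebra.toNonUnitalNormedRing BoxIntegral.Box.instMembershipForallReal CommSemiring.toBialgebra NormedRing.toNonUnitalNormedRing GradedMonoid.GradeZero.mulAction GeneralizedBooleanAlgebra.toDistribLattice PseudoMetricSpace.toPseudoEMetricSpace ChainCompletePartialOrder.toPartialOrder UpgradedStandardBorel.toTopologicalSpace BiheytingAlgebra.toHeytingAlgebra Std.DTreeMap.Raw.instSingletonSigma WithIdeal.instUniformSpace Unique.fintype CoheytingAlgebra.toGeneralizedCoheytingAlgebra Order.Coframe.toDistribLattice ChainCompletePartialOrder.instOfCompleteLattice CompletelyDistribLattice.toBiheytingAlgebra NonUnitalRing.toNonUnitalSemiring UniformSpace.toTopologicalSpace GeneralizedHeytingAlgebra.toLattice NumberField.to_charZero Order.Coframe.toCompleteLattice BooleanAlgebra.toBiheytingAlgebra BialgHomClass.toAlgHomClass GeneralizedHeytingAlgebra.toDistribLattice IsEmpty.instSubsingleton SetLike.instFintype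 Quaternion.instDivisionRing SeminormedGroup.toPseudoMetricSpace CompleteBooleanAlgebra.toBooleanAlgebra Pi.mulOneClass SeminormedCommGroup.toPseudoMetricSpace Order.Frame.toHeytingAlgebra SeminormedAddCommGroup.toPseudoMetricSpace MonoidWithZero.toSemigroupWithZero NonUnitalSeminormedRing.toPseudoMetricSpace CategoryTheory.Limits.Concrete.instUniqueToTypeTerminal ConditionallyCompletePartialOrderInf.toPartialOrder TopologicalSpace.UpgradedIsCompletelyPseudoMetrizableSpace.toPseudoMetricSpace BooleanAlgebra.toDistribLattice MetricSpace.toPseudoMetricSpace BiheytingAlgebra.toCoheytingAlgebra CompletelyDistribLattice.toCompleteDistribLattice MetricSpace.toEMetricSpace Pi.nonUnitalNonAssocSemiring CompleteDistribLattice.toCoframe CompletePartialOrder.toOmegaCompletePartialOrder HeytingAlgebra.toGeneralizedHeytingAlgebra instSubsingleton CategoryTheory.Abelian.toPreadditive Order.Frame.toDistribLattice OrderDual.instDivisionSemiring ChainCompletePartialOrder.instOmegaCompletePartialOrder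 IsValuativeTopology.instValuedValueGroupWithZeroOfIsUniformAddGroup Group.IsPerfect.subsingleton_of_isMulCommutative GeneralizedBooleanAlgebra.toGeneralizedCoheytingAlgebra PadicComplex.normedField instConditionallyCompletePartialOrderSup CompleteAtomicBooleanAlgebra.toCompletelyDistribLattice instDistribSMul Valued.toUniformSpace CategoryTheory.FinCategory.fintypeObj GeneralizedCoheytingAlgebra.toLattice Pi.normedAddCommGroup BooleanAlgebra.toGeneralizedBooleanAlgebra CompleteLattice.toPartialOrder' PseudoMetricSpace.toUniformSpace CompleteLinearOrder.toBiheytingAlgebra CompleteBooleanAlgebra.toCompleteDistribLattice CompleteDistribLattice.toBiheytingAlgebra FinEnum.instFintype PseudoEMetricSpace.toUniformSpace OmegaCompletePartialOrder.toPartialOrder TopologicalSpace.Compacts.instSetLike WithIdeal.instTopologicalSpace OrderRingHom.instRingHomClass CategoryTheory.instFinCategoryOfFintypeOfIsThin SeminormedRing.toPseudoMetricSpace CategoryTheory.Mat_.fintype GeneralizedCoheytingAlgebra.toDistribLattice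 Order.Frame.toCompleteLattice Order.Coframe.toCoheytingAlgebra CompleteDistribLattice.toFrame SeminormedAddGroup.toPseudoMetricSpace EMetricSpace.toPseudoEMetricSpace NormedAddGroup.toAddGroup SeminormedAddGroup.toAddGroup LieAdmissibleAlgebra.toIsScalarTower IsStrictOrderedRing.isDomain Fin.completeLinearOrder TensorProduct.instModuleFstSnd Field.isDomain RightPreLieAlgebra.instLieAdmissibleAlgebra LieRinehartAlgebra.toIsScalarTower CategoryTheory.CommGrpObj.mk MulEquivClass.toMonoidWithZeroHomClass boolToProp ENormedAddCommMonoid.toESeminormedAddCommMonoid Nat.AtLeastTwo.toNeZero EuclideanDomain.instIsDomain NormedCommGroup.toENormedCommMonoid Pi.nonUnitalSemiring MulRingSeminormClass.toMonoidWithZeroHomClass CategoryTheory.instBraidedCategoryType LeftPreLieAlgebra.toIsScalarTower AlgebraicGeometry.Scheme.instPreorderCarrierCarrierCommRingCat RightPreLieAlgebra.toIsScalarTower BialgEquivClass.toCoalgEquivClass Pi.mulZeroClass ENormedCommMonoid.toESeminormedCommMonoid NormedAddCommGroup.toENormedAddCommMonoid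 DivisionRing.isDomain IsDedekindDomainDvr.isDedekindDomain Invertible.toNeZero CommGroupWithZero.toCommMonoidWithZero AddHom.addHomClass Fin.instBiheytingAlgebra AddMonCat.addMonoidObj AlgEquivClass.toAlgHomClass CompleteLinearOrder.toCompleteLattice IsDedekindDomain.toIsDomain instIsDedekindDomainOfIsDomainOfIsDedekindRing LinearOrderedAddCommGroupWithTop.toSubtractionMonoid SemilatSupCat.isSemilatticeSup PartOrdEmb.str Fin.instCoheytingAlgebra AddQuantale.instAddLeftMono SubringClass.toNormedCommRing NeZero.of_gt' RightPreLieAlgebra.toSMulCommClass Field.instIsLocalRing MonoidWithZero.toMulActionWithZero ValuationRing.isLocalRing FirstOrder.Language.instDecidableEqRelations StarSubalgebra.cstarAlgebra AbsoluteValue.mulHomClass Fin.instHeytingAlgebra Pi.addMonoidWithOne LinearOrder.toLattice LeftPreLieAlgebra.toSMulCommClass SubfieldClass.toNormedField SubringClass.toNormedRing SemilinearIsometryEquivClass.toSemilinearIsometryClass StarSubalgebra.commCStarAlgebra FirstOrder.Language.instDecidableEqFunctions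 Nat.Prime.one_lt' LieAdmissibleAlgebra.toSMulCommClass SubalgebraClass.normedRing MulOpposite.instMulOne instMulActionSemiHomClassMulActionHom CommRing.toGrindCommRing ENormedAddMonoid.toESeminormedAddMonoid AddCommMonoidWithOne.toAddCommMonoid AddRightCancelMonoid.toAddMonoid ESeminormedAddCommMonoid.toAddCommMonoid Field.toGrindField ENormedAddCommMonoid.toENormedAddMonoid AddCancelMonoid.toAddLeftCancelMonoid AddCancelCommMonoid.toAddCommMonoid AddLeftCancelMonoid.toAddMonoid ESeminormedAddCommMonoid.toESeminormedAddMonoid NormedAddGroup.toENormedAddMonoid ESeminormedAddMonoid.toAddMonoid AddCancelCommMonoid.toAddCancelMonoid Pi.instBotForall IsStrictOrderedRing.toCharZero RCLike.toDecidableEq instCharZeroOfIsSemireal ConditionallyCompleteLinearOrderBot.toConditionallyCompleteLinearOrder MulCharClass.toMonoidHomClass BialgHomClass.toMonoidHomClass instRingHomSurjectiveForallEvalRingHom NonUnitalAlgHomClass.toNonUnitalRingHomClass CommMonCat.str FinEnum.decEq Semifield.toCommGroupWithZero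 instIsSemirealOfIsStrictOrderedRingOfExistsAddOfLE DivisionRing.toDivisionSemiring RCLike.charZero_rclike CategoryTheory.StrictBicategory.category IsRealClosed.toIsSemireal CategoryTheory.Groupoid.toCategory NonAssocRing.toAddCommGroupWithOne MulDistribMulActionSemiHomClass.toMonoidHomClass CompleteLinearOrder.toConditionallyCompleteLinearOrderBot decidableEq_of_subsingleton Ideal.Quotient.normedCommRing RCLike.toInnerProductSpaceReal Ring.toGrindRing Pi.subtractionMonoid Pi.addZeroClass IsOrderedRing.toIsStrictOrderedRing instInfiniteOfUncountable Infinite.instNontrivial IsSimpleAddGroup.toNontrivial NoMaxOrder.infinite instNonemptyOfMonad CharZero.infinite Denumerable.instInfinite EuclideanDomain.toNontrivial LinearOrderedAddCommGroupWithTop.toNontrivial Turing.FinTM2.decidableEqK IsStrictOrderedRing.toNontrivial IsSimpleOrder.toNontrivial DivisionRing.toNontrivial IsSimpleGroup.toNontrivial NontriviallyNormedField.infinite IsSimpleRing.instNontrivial FirstOrder.Language.instInfiniteOfModelDloOrderOfNonempty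 NoMinOrder.infinite instInhabitedOfMonad IsAlgClosed.instInfinite GroupWithZero.toNontrivial ConditionallyCompletePartialOrder.toConditionallyCompletePartialOrderInf SubalgebraClass.seminormedRing Pi.nonAssocSemiring CompleteSemilatticeSup.toPartialOrder LinearOrderedAddCommMonoidWithTop.toLinearOrder CompleteAtomicBooleanAlgebra.toCompleteBooleanAlgebra SubfieldClass.toDivisionRing OrderDual.instPow_1 Monoid.End.instMonoidHomClass CompleteBooleanAlgebra.toCompleteLattice SubringClass.toSeminormedRing SubringClass.toSeminormedCommRing SubfieldClass.toField Preorder.smallCategory Real.instRCLike Semiring.toGrindSemiring CommSemiring.toGrindCommSemiring CategoryTheory.IsConnected.is_nonempty SeminormedAddCommGroup.toNormedAddTorsor NormedAddTorsor.toAddTorsor CategoryTheory.IsSifted.instIsConnected NonUnitalCommRing.toNonUnitalRing Group.instTorsor CategoryTheory.isConnected_of_nonempty_and_subsingleton Torsor.nonempty Semigrp.str Pi.commMagma SetLike.GradeZero.instCommRing Pi.distribSMul'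 Pi.instMaxForall_mathlib Ideal.Quotient.semiNormedCommRing SubfieldClass.toSubringClass Pi.distribMulAction' MulZeroClass.toSMulWithZero instFiniteProp AddCommGroup.toGrindIntModule CategoryTheory.IsSifted.isSifted_of_hasBinaryCoproducts_and_nonempty bot_nonempty Unique.instInhabited One.instNonempty IrreducibleSpace.toNonempty Zero.instNonempty infSet_to_nonempty Group.toCancelMonoid CancelCommMonoid.toCancelMonoid AddCommGroup.toAddCancelCommMonoid CancelCommMonoid.toLeftCancelMonoid top_nonempty ConnectedSpace.toNonempty CommGroup.toCancelCommMonoid supSet_to_nonempty CancelMonoid.toLeftCancelMonoid GradedMonoid.GradeZero.smul OneHom.oneHomClass NonAssocRing.toNonAssocSemiring SimpleGraph.TripartiteFromTriangles.graph.instDecidableRelAdj Pi.instOne Pi.smulZeroClass' RCLike.innerProductSpace LinearOrderedCommMonoidWithZero.toIsBotZeroClass Nat.instOne IdemCommSemiring.toCommSemiring RootedTree.orderBot IdemCommSemiring.toIdemSemiring MulSemiringAction.toMulDistribMulAction AddCommMonoid.toGrindNatModule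 MulDistribMulAction.toMulAction PositiveLinearMap.instInnerProductSpaceComplexPreGNS MulActionWithZero.toMulAction Nontrivial.to_nonempty CommGroup.toDivisionCommMonoid Group.toDivisionMonoid GroupWithZero.toDivisionMonoid DivisionRing.toDivInvMonoid SetLike.GradeZero.instRing AlgebraicGeometry.instOrderTopCarrierCarrierCommRingCatOfIsIntegral MulSemiringActionSemiHomClass.toRingHomClass SubringClass.toCommRing FiniteDimensional.finiteDimensional_quotient SubringClass.toRing RingEquivClass.toNonUnitalRingHomClass LinOrd.str CompleteLattice.toCompleteSemilatticeSup RingConeClass.toSubsemiringClass NormedAlgebra.id LeftPreLieAlgebra.instLieAdmissibleAlgebra LieAlgebra.ofAssociativeAlgebra LieAdmissibleAlgebra.instLieAlgebra CommGroup.toCommMonoid ENormedMonoid.toESeminormedMonoid CancelCommMonoid.toCommMonoid ESeminormedCommMonoid.toCommMonoid GradedMonoid.GradeZero.commMonoid DivisionCommMonoid.toCommMonoid ESeminormedCommMonoid.toESeminormedMonoid ESeminormedMonoid.toMonoid MulZeroClass.negZeroClass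 SaturatedAddSubmonoid.instAddSubmonoidClass RightCancelMonoid.toMonoid LeftCancelMonoid.toMonoid ENormedCommMonoid.toENormedMonoid CancelMonoid.toRightCancelMonoid DivInvOneMonoid.toDivInvMonoid DivisionMonoid.toDivInvMonoid NormedGroup.toENormedMonoid Algebra.TensorProduct.instNonAssocRing Algebra.TensorProduct.right_isScalarTower Algebra.TensorProduct.instNonUnitalNonAssocRing TensorProduct.instNormedAddCommGroup Algebra.TensorProduct.instNonUnitalRing TensorProduct.isScalarTower_right NonUnitalNonAssocSemiring.toMulZeroClass NumberField.instFiniteDimensional SubringClass.toNegMemClass SetLike.GradeZero.instCommSemiring AddQuantale.instAddRightMono Quantale.instMulRightMono SetLike.GradeZero.instSemiring Group.toDivInvMonoid InvOneClass.toOne ContractibleSpace.instOfNonemptyOfSubsingleton Convex.instPathConnectedSpace GradedMonoid.GradeZero.monoid NormedSpace.instPathConnectedSpace PathConnectedSpace.connectedSpace Fin.instCommMonoid IrreducibleSpace.connectedSpace Fin.instBoundedOrder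 GeneralizedBooleanAlgebra.toBot LinearOrderedAddCommMonoidWithTop.toOrderTop Fin.addCommMonoid NormedAddTorsor.toAddTorsor' CoheytingAlgebra.toBoundedOrder HeytingAlgebra.toOrderBot ConditionallyCompleteLattice.toInfSet GeneralizedBooleanAlgebra.toOrderBot SimplyConnectedSpace.ofContractible GeneralizedCoheytingAlgebra.toOrderBot SimplyConnectedSpace.instPathConnectedSpace GeneralizedHeytingAlgebra.toOrderTop RealTopologicalVectorSpace.contractibleSpace BooleanAlgebra.toBoundedOrder LinearOrderedAddCommGroupWithTop.toOrderTop CompleteSemilatticeSup.toSupSet HeytingAlgebra.toBoundedOrder CoheytingAlgebra.toOrderTop Fin.instNontrivial LinearOrderedCommMonoidWithZero.toOrderBot ContractibleSpace.instOfNonemptyOfIndiscreteTopology ContractibleSpace.instPathConnectedSpace DivInvMonoid.toMonoid UnitalShelf.toOne BooleanAlgebra.toTop BooleanAlgebra.toBot ConditionallyCompleteLattice.toSupSet Fin.addCommGroup ConditionallyCompleteLinearOrderBot.toOrderBot IdemSemiring.toOrderBot Std.LinearOrderPackage.toLinearPreorderPackage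 ConvexCone.instAddMemClass DistribLattice.toLattice instDistribLatticeOfLinearOrder Std.LinearPreorderPackage.toPreorderPackage SemilatticeInf.toPartialOrder SubsemiringClass.toSemiring Quantale.instMulLeftMono CompleteSemilatticeInf.toInfSet Pi.nonAssocRing DivisionCommMonoid.toDivisionMonoid CommGroupWithZero.toDivisionCommMonoid instTopologicalSpaceFin of_isDiscreteValuationRing smoothSheafCommRing.instLocalRing_stalk ValuationRing.of_field instIsSimpleModule IsSimpleRing.instIsSemisimpleRing IsSemisimpleRing.isSemisimpleModule instIsSemisimpleModuleOfIsSimpleModule instIsSemisimpleRingOfSubsingleton ConditionallyCompletePartialOrderSup.toSupSet AlgHom.instRingHomCompTripleComp CompletePartialOrder.toSupSet Finset.decidableDforallFinset CategoryTheory.instCategoryObj ConditionallyCompletePartialOrderSup.toPartialOrder Vector.instDecidableForallForallMemOfDecidablePred Multiset.decidableDforallMultiset Pi.subNegZeroMonoid Option.decidableForallMem Fintype.decidableForallFintype forall_prop_decidable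 ConditionallyCompleteLinearOrder.toConditionallyCompleteLattice Array.instDecidableForallForallMemOfDecidablePred Pi.subNegMonoid TensorProduct.CompatibleSMul.int LinearOrder.toDecidableEq Set.instAddLeftMono Fin.instNonUnitalCommRing Submodule.instIdemCommSemiring instNonemptyOfInhabited Fin.instInhabited AddCancelCommMonoid.toAddLeftCancelMonoid ValuationRing.instOfIsLocalRingOfIsBezout IsDedekindDomain.toIsDedekindRing Module.FaithfullyFlat.of_isIntegral_of_isDomain SetLike.instFinite Pi.addCommMagma instFiniteCarrierToTopAndTotallyDisconnectedSpaceSecondCountableTopologyOfObj LinearOrderedAddCommGroupWithTop.toIsOrderedAddMonoid Algebra.TensorProduct.instNonUnitalNonAssocSemiring ConditionallyCompletePartialOrder.toConditionallyCompletePartialOrderSup SubringClass.toNonAssocCommRing ConditionallyCompleteLattice.toConditionallyCompletePartialOrder Submodule.Quotient.normedAddCommGroup SubringClass.toNonAssocRing Pi.instIsRightCancelAdd IsDedekindDomain.isDedekindDomainDvr CommRing.Pic.instFreeOfSubsingleton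 Module.FaithfullyFlat.self AddTorsor.nonempty Subsingleton.to_isCancelMulZero AddGroup.instAddTorsor Pi.nonUnitalNonAssocRing Module.FaithfullyFlat.toFlat AlgebraicGeometry.Scheme.component_nontrivial BoundedOrder.toOrderBot PerfectClosure.instDivisionRing PerfectClosure.instField NormMulClass.toNoZeroDivisors SubsemiringClass.toCommSemiring WithTop.linearOrderedAddCommMonoidWithTop DivInvOneMonoid.toInvOneClass DivisionMonoid.toDivInvOneMonoid SubtractionCommMonoid.toAddCommMonoid instMonadLiftT SubgroupClass.normedCommGroup instIsCancelMulZero_1 UniqueFactorizationMonoid.toIsCancelMulZero CommBialgCat.instCommRingObjForgetBialgHomCarrier instIsCancelMulZero SubgroupClass.normedGroup Algebra.TensorProduct.instAddCommGroupWithOne Module.Flat.instOfIsDedekindDomainOfIsTorsionFree RootedTree.semilatticeInf SMulMemClass.toModule NoZeroDivisors.to_isCancelMulZero GCDMonoid.toIsCancelMulZero Pi.instMinForall_mathlib instMonadLiftTOfMonadLift Pi.instCanonicallyOrderedAddForall SubmoduleClass.module'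 -- iprune

set_option linter.all false

section

/-!
Flatness of the directed unions of finite local subalgebras.
-/

namespace Vale.Agent.P177

open IsLocalRing Function RingTheory.Sequence

universe u

theorem isLocalRing_of_integral_map {R A : Type u} [CommRing R] [IsLocalRing R] [CommRing A]
    [Algebra R A] [Algebra.IsIntegral R A]
    (h : ((maximalIdeal R).map (algebraMap R A)).IsMaximal) :
    ∃ _ : IsLocalRing A, (maximalIdeal R).map (algebraMap R A) = maximalIdeal A := by
  have h1 : IsLocalRing A := IsLocalRing.of_unique_max_ideal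
    ⟨(maximalIdeal R).map (algebraMap R A), h, fun M hM => by
      have h2 : (M.comap (algebraMap R A)).IsMaximal :=
        Ideal.isMaximal_comap_of_isIntegral_of_isMaximal M
      have h3 : M.comap (algebraMap R A) = maximalIdeal R := IsLocalRing.eq_maximalIdeal h2
      have h4 : (maximalIdeal R).map (algebraMap R A) ≤ M := by
        rw [Ideal.map_le_iff_le_comap, h3]
      exact (h.eq_of_le hM.ne_top h4).symm⟩
  exact ⟨h1, IsLocalRing.eq_maximalIdeal h⟩

theorem ringKrullDim_le_of_integral {R A : Type u} [CommRing R] [CommRing A]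
    [Algebra R A] [Algebra.IsIntegral R A] (hinj : Injective (algebraMap R A)) :
    ringKrullDim R ≤ ringKrullDim A := by
  refine iSup_le fun l => ?_
  obtain ⟨P, hP⟩ := (algebraMap_isIntegral_iff.2 ‹Algebra.IsIntegral R A›).comap_surjective hinj
    l.head
  have hlo : P.asIdeal.LiesOver l.head.asIdeal := ⟨by rw [← hP]; rfl⟩
  obtain ⟨L, hL, -⟩ := Ideal.exists_ltSeries_of_hasGoingUp l P.asIdeal
  rw [← hL]
  exact Order.LTSeries.length_le_krullDim L

section flat

variable {R : Type u} [CommRing R] [IsRegularLocalRing R] {Ω : Type u} [Field Ω] [Algebra R Ω]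
  {d : ℕ} {x : Fin d → R} (hx : Ideal.span (Set.range x) = maximalIdeal R)
  (hd : ringKrullDim R = d) (hinj : Injective (algebraMap R Ω))

include hx hd hinj in
theorem FinMax.flat {A : Subalgebra R Ω} (hA : FinMax x A) : Module.Flat R A := by
  have hfin : Module.Finite R A := hA.finite
  obtain ⟨hloc, hm⟩ := isLocalRing_of_integral_map (hA.isMaximal hx)
  have hN : IsNoetherianRing A := by
    have : IsNoetherian R A := isNoetherian_of_isNoetherianRing_of_finite R A
    exact isNoetherian_of_tower R this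
  have hinj' : Injective (algebraMap R A) := fun a b hab => hinj (by
    have := congrArg (Subtype.val : A → Ω) hab
    exact this)
  have hdim : ringKrullDim R ≤ ringKrullDim A := ringKrullDim_le_of_integral hinj'
  let rs : List R := List.ofFn x
  have hrs : Ideal.ofList rs = maximalIdeal R := by
    rw [← hx, Ideal.ofList]
    congr 1
    ext y
    simp [rs, List.mem_ofFn]
  have hrl : rs.length = d := by simp [rs]
  have hrsA : Ideal.ofList (rs.map (algebraMap R A)) = maximalIdeal A := by
    rw [← Ideal.map_ofList, hrs, hm]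
  obtain ⟨hreg, hdA⟩ := isRegularLocalRing_of_list (rs.map (algebraMap R A)) hrsA (by
    rw [List.length_map, hrl, ← hd]
    exact hdim)
  have hl : IsLocalHom (algebraMap R A) :=
    ((IsLocalRing.local_hom_TFAE (algebraMap R A)).out 0 2).2 hm.le
  refine flat_of_weaklyRegular rs hrs
    (isRegular_of_ofList_eq_maximalIdeal R rs hrs (by rw [hd, hrl])).toIsWeaklyRegular
    (isRegular_of_ofList_eq_maximalIdeal A (rs.map (algebraMap R A)) hrsA
      hdA.symm).toIsWeaklyRegular

include hx hd hinj in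
theorem LocUnion.flat {A : Subalgebra R Ω} (hA : LocUnion x A) : Module.Flat R A := by
  classical
  apply Module.Flat.of_forall_isTrivialRelation
  intro l f y h
  obtain ⟨A₀, h1, h2, h3⟩ := hA (Finset.univ.image fun i => (y i : Ω)) (by
    intro z hz
    obtain ⟨i, -, rfl⟩ := Finset.mem_image.1 hz
    exact (y i).2)
  have h4 : ∀ i, (y i : Ω) ∈ A₀ := fun i =>
    h2 _ (Finset.mem_image_of_mem _ (Finset.mem_univ i))
  have hfl : Module.Flat R A₀ := h3.flat hx hd hinj
  have h5 : ∑ i, f i • (⟨y i, h4 i⟩ : A₀) = 0 := by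
    apply Subtype.ext
    have h6 := congrArg (Subtype.val : A → Ω) h
    rw [AddSubmonoidClass.coe_finsetSum] at h6 ⊢
    exact h6
  obtain ⟨k, a, z, h6, h7⟩ := Module.Flat.isTrivialRelation_of_sum_smul_eq_zero h5
  refine ⟨k, a, fun j => ⟨z j, h1 (z j).2⟩, fun i => ?_, h7⟩
  apply Subtype.ext
  have h8 := congrArg (Subtype.val : A₀ → Ω) (h6 i)
  rw [AddSubmonoidClass.coe_finsetSum] at h8 ⊢
  exact h8

omit [IsRegularLocalRing R] in
theorem LocUnion.isIntegral {A : Subalgebra R Ω} (hA : LocUnion x A) : Algebra.IsIntegral R A := by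
  refine ⟨fun y => ?_⟩
  obtain ⟨A₀, h1, h2, h3⟩ := hA {(y : Ω)} (by simp)
  have hfin : Module.Finite R A₀ := h3.finite
  have h4 := Algebra.IsIntegral.isIntegral (R := R)
    (⟨y, h2 _ (Finset.mem_singleton_self _)⟩ : A₀)
  have h5 := h4.map (Subalgebra.inclusion h1)
  exact h5

end flat

end Vale.Agent.P177
end

section

/-!
P177, base case and finiteness of Tor on the `R`-side.
-/

namespace Vale.Agent.P177.MN

open Vale.Agent.P177.KG Vale.Agent.P202.Mix Vale.Agent.P177.PI WittVector IsLocalRing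
open scoped ENNReal TensorProduct

universe u

section Red

variable {V D : Type u} [CommRing V] [CommRing D] [Algebra V D]
  {X : Type u} [AddCommGroup X] [Module V X] [Module D X] [IsScalarTower V D X] {n : ℕ}

theorem KC_len_mod_aux (LV : ALen V) (p : ℕ) (hpX : ∀ x : X, (p : V) • x = 0 → x = 0)
    (ud : Fin n → D) (uv : Fin n → V) {K : Type u} [AddCommGroup K] [Module V K] [Module D K]
    [IsScalarTower V D K] (g : X →ₗ[D] K) (hg : Function.Surjective g)
    (hk : ∀ m, g m = 0 ↔ ∃ y, (p : V) • y = m)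
    (hu : ∀ l (x : X), ∃ y : X, ud l • x = uv l • x + (p : V) • y) (i : ℕ) :
    (LV.res D).len ((KC X ((p : D) :: List.ofFn ud)).H i) =
      LV.len ((KC X ((p : V) :: List.ofFn uv)).H i) := by
  have hpD : ∀ x : X, (p : D) • x = (p : V) • x := fun x => by
    rw [← algebraMap_smul D (p : V) x, map_natCast]
  have hgV : ∀ (v : V) (x : X), g (v • x) = v • g x := fun v x => by
    rw [← algebraMap_smul D v x, map_smul, algebraMap_smul]
  let gV : X →ₗ[V] K :=
    { toFun := g
      map_add' := map_add g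
      map_smul' := hgV }
  have h1 := KC_len_cons (LV.res D) (p : D)
    (fun m hm => hpX m (by rw [← hpD]; exact hm)) g hg
    (fun m => by
      rw [hk]
      constructor
      · rintro ⟨y, hy⟩
        exact ⟨y, by rw [hpD]; exact hy⟩
      · rintro ⟨y, hy⟩
        exact ⟨y, by rw [← hpD]; exact hy⟩) (List.ofFn ud) i
  have h2 := KC_len_cons LV (p : V) hpX gV hg hk (List.ofFn uv) i
  have h3 := KC_len_ops (V := K) (C := D) (C' := V) LV ud uv (by
    intro l v
    obtain ⟨x, rfl⟩ := hg v
    obtain ⟨y, hy⟩ := hu l x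
    rw [← map_smul, hy, map_add, (hk _).2 ⟨y, rfl⟩, add_zero, hgV]) i
  rw [h1, h3, h2]
  exact ALen.res_len LV _

/-- the operators of the list only matter modulo `p`. -/
theorem KC_len_mod (LV : ALen V) (p : ℕ) (hpX : ∀ x : X, (p : V) • x = 0 → x = 0)
    (ud : Fin n → D) (uv : Fin n → V)
    (hu : ∀ l (x : X), ∃ y : X, ud l • x = uv l • x + (p : V) • y) (i : ℕ) :
    (LV.res D).len ((KC X ((p : D) :: List.ofFn ud)).H i) =
      LV.len ((KC X ((p : V) :: List.ofFn uv)).H i) := by
  -- `K = X / p X`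
  let P : Submodule D X := LinearMap.range (LinearMap.lsmul D X (p : D))
  have hk : ∀ x : X, P.mkQ x = 0 ↔ ∃ y, (p : V) • y = x := by
    intro x
    rw [Submodule.mkQ_apply, Submodule.Quotient.mk_eq_zero]
    constructor
    · rintro ⟨y, hy⟩
      refine ⟨y, ?_⟩
      have hy' : (p : D) • y = x := hy
      rw [← hy', ← algebraMap_smul D (p : V) y, map_natCast (algebraMap V D)]
    · rintro ⟨y, hy⟩
      refine ⟨y, ?_⟩
      show (p : D) • y = x
      rw [← hy, ← algebraMap_smul D (p : V) y, map_natCast (algebraMap V D)]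
  exact KC_len_mod_aux LV p hpX ud uv P.mkQ (Submodule.mkQ_surjective _) hk hu i

end Red

section Fin

variable {R D : Type u} [CommRing R] [CommRing D] [Algebra R D] [Module.Flat R D]
  [IsNoetherianRing R] [IsLocalRing R]

end Fin

end Vale.Agent.P177.MN
end

section

/-!
P177: Koszul masses of the honest modules `HMod`.
-/

namespace Vale.Agent.P177.MN

open Vale.Agent.P177.KG Vale.Agent.P202.Mix Vale.Agent.P177.PI Vale.Agent.P177.NatG WittVector
  IsLocalRing
open scoped ENNReal TensorProduct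

universe u

section H

variable (p : ℕ) [hp : Fact p.Prime] {C' : Type u} [CommRing C'] [CharP C' p] [PerfectRing C' p]
  {V D : Type u} [CommRing V] [CommRing D] [Algebra V D] {n : ℕ}

/-- **Koszul masses of the honest module**: `H_i(p, u; H) = H_i(t, u; J')`. -/
theorem KC_len_HMod (LV : ALen V) (Fv : V →+* WittVector p C') {J' : Ideal C'}
    (hJ : IsPerf p J') (E' : WittVector p C') (ρ : D →+* WittVector p C' ⧸ Ideal.span {E'})
    (hρ : ∀ v, ρ (algebraMap V D v) = Ideal.Quotient.mk _ (Fv v)) (t : V)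
    (ht : (Fv t).coeff 0 ∈ nonZeroDivisors C') (v : C'ˣ)
    (hE : E'.coeff 0 = v * (Fv t).coeff 0) (ud : Fin n → D) (uv : Fin n → V)
    (hu : ∀ l, ∃ b : WittVector p C', ρ (ud l) = Ideal.Quotient.mk _ (Fv (uv l) + p * b))
    (i : ℕ) :
    let := (WittVector.constantCoeff.comp Fv).toAlgebra
    (LV.res D).len ((KC (HMod p J' E' ρ) ((p : D) :: List.ofFn ud)).H i) =
      LV.len ((KC ↥J' (t :: List.ofFn uv)).H i) := by
  intro _
  let _ : Algebra V (WittVector p C') := Fv.toAlgebra
  let _ : Module V (HMod p J' E' ρ) := Module.compHom _ (algebraMap V D)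
  have : IsScalarTower V D (HMod p J' E' ρ) := IsScalarTower.of_algebraMap_smul fun _ _ => rfl
  have hcomp : ∀ r : V, algebraMap V C' r = (algebraMap V (WittVector p C') r).coeff 0 :=
    fun r => rfl
  have hsm : ∀ (r : V) (x : HMod p J' E' ρ), r • x = Fv r • x := fun r x =>
    hmod_smul (algebraMap V D r) (Fv r) (hρ r) x
  let ρ' : ↥(WI p J') →ₗ[V] HMod p J' E' ρ :=
    { toFun := hcl ρ
      map_add' := fun x y => rfl
      map_smul' := fun r x => by
        rw [RingHom.id_apply, hsm, ← hcl_smul]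
        rfl }
  have hρ' : Function.Surjective ρ' := fun y => hcl_surj y
  have hk : ∀ x : ↥(WI p J'), ρ' x = 0 ↔ ∃ w ∈ WI p J', (x : WittVector p C') = E' * w :=
    fun x => hcl_eq_zero x
  have hEn : E'.coeff 0 ∈ nonZeroDivisors C' := by
    rw [hE]
    exact mul_mem v.isUnit.mem_nonZeroDivisors ht
  have hpX : ∀ x : HMod p J' E' ρ, (p : V) • x = 0 → x = 0 := by
    intro m h
    obtain ⟨x, rfl⟩ := hρ' m
    rw [← map_smul] at h
    obtain ⟨w, hw, he⟩ := (hk _).1 h
    have he' : (p : WittVector p C') * (x : WittVector p C') = E' * w := by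
      rw [← he]
      show _ = (p : V) • (x : WittVector p C')
      rw [Algebra.smul_def, map_natCast]
    obtain ⟨w', hw', he''⟩ := KM.wi_p_reg p hJ hEn hw he'
    exact (hk x).2 ⟨w', hw', he''⟩
  rw [KC_len_mod LV p hpX ud uv ?_ i]
  · exact KC_len_WIE LV hcomp hJ t ht E' v hE ρ' hρ' hk (List.ofFn uv) i
  · intro l x
    obtain ⟨b, hb⟩ := hu l
    refine ⟨b • x, ?_⟩
    rw [hmod_smul (ud l) _ hb, hsm, hsm, add_smul, mul_smul, map_natCast]

end H

end Vale.Agent.P177.MN
end

section

/-!
P177, assembly: finiteness of the masses of `Tor_i(H_J, R / P)` for the honest modules of the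
eigencharacters.
-/

namespace Vale.Agent.P177.Full

open TensorProduct IsLocalRing Function Vale.Agent.P202.Mix Vale.Agent.P177.PI
  Vale.Agent.P177.KM Vale.Agent.P177.KG Vale.Agent.P177.NatG WittVector
open scoped ENNReal

universe u

variable {p : ℕ} [hp : Fact p.Prime] {S R C C' : Type u} [CommRing S] [CommRing R]
  [CommRing C] [CharP C p] [PerfectRing C p] [CommRing C'] [CharP C' p] [PerfectRing C' p]
  (f : C →+* C') (Φ : S →+* R) (hΦ : Surjective Φ) (E : S) (hE : RingHom.ker Φ = Ideal.span {E})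
  (ψ : S →+* WittVector p C)

/-- `W(C) → R ⊗ W(C')`. -/
noncomputable abbrev iWC (p : ℕ) [Fact p.Prime] (R : Type u) [CommRing R] {C C' : Type u}
    [CommRing C] [CommRing C'] (f : C →+* C') : WittVector p C →+* R ⊗[ℤ] WittVector p C' :=
  ((Algebra.TensorProduct.includeRight : WittVector p C' →ₐ[ℤ]
    R ⊗[ℤ] WittVector p C').toRingHom).comp (WittVector.map f)

omit [CharP C p] [PerfectRing C p] in
/-- Koszul masses of the honest module over `R ⊗ W(C')`. -/
theorem KC_HJ' (L : AddLen (WittVector p C)) (J : Ideal C) (hJ' : IsPerf p (J.map f))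
    (t : C) (ht : f t ∈ nonZeroDivisors C') {n : ℕ} (us : Fin n → C)
    {z w : WittVector p C'} {M : ℕ} (hz : IsUnit z) (hM : 1 ≤ M)
    (hE' : WittVector.map f (ψ E) = ((p : WittVector p C') - teichmuller p (f t)) * z +
      (p : WittVector p C') ^ M * w)
    (ud : Fin n → R)
    (hu : ∀ l, ∃ b, rhoR Φ hΦ E hE ((WittVector.map f).comp ψ) (ud l) =
      Ideal.Quotient.mk _ (teichmuller p (f (us l)) + p * b)) (i : ℕ) :
    let := ((WittVector.constantCoeff (p := p) (R := C')).comp (WittVector.map f)).toAlgebra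
    (ALen.of ((L.restrict (WittVector.map f)).restrict (Algebra.TensorProduct.includeRight :
        WittVector p C' →ₐ[ℤ] R ⊗[ℤ] WittVector p C').toRingHom)).len
      ((KC (HJ' p f Φ hΦ E hE ψ J) ((p : R ⊗[ℤ] WittVector p C') ::
        List.ofFn fun l => (ud l ⊗ₜ[ℤ] (1 : WittVector p C')))).H i) =
      (ALen.of L).len ((KC (R := WittVector p C) ↥(J.map f) (teichmuller p t ::
        List.ofFn fun l => teichmuller p (us l))).H i) := by
  intro _
  let _ : Algebra (WittVector p C) (R ⊗[ℤ] WittVector p C') := (iWC p R f).toAlgebra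
  have hE0 : (((WittVector.map f).comp ψ) E).coeff 0 = (-z.coeff 0) * f t := by
    have h1 := congrArg (WittVector.constantCoeff (p := p) (R := C')) hE'
    rw [map_add, map_mul, map_sub, map_mul, map_pow, map_natCast, CharP.cast_eq_zero,
      zero_pow (by omega), zero_mul, add_zero, zero_sub] at h1
    have h2 : (WittVector.constantCoeff (p := p) (R := C')) (teichmuller p (f t)) = f t :=
      teichmuller_coeff_zero p (f t)
    rw [h2] at h1
    have h3 : (((WittVector.map f).comp ψ) E).coeff 0 =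
      (WittVector.constantCoeff (p := p) (R := C')) (WittVector.map f (ψ E)) := rfl
    rw [h3, h1]
    change -f t * z.coeff 0 = _
    ring
  have hz0 : IsUnit (-z.coeff 0) :=
    (hz.map (WittVector.constantCoeff (p := p) (R := C'))).neg
  obtain ⟨v, hv⟩ := hz0
  have key := MN.KC_len_HMod (V := WittVector p C) (D := R ⊗[ℤ] WittVector p C') p (ALen.of L)
    (WittVector.map f) hJ' (((WittVector.map f).comp ψ) E)
    (rhoD Φ hΦ E hE ((WittVector.map f).comp ψ) (RingHom.id (WittVector p C')))
    (fun v => by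
      change rhoD Φ hΦ E hE ((WittVector.map f).comp ψ) (RingHom.id (WittVector p C'))
        (1 ⊗ₜ WittVector.map f v) = _
      rw [rhoD_right]
      rfl) (teichmuller p t)
    (by
      rw [map_teichmuller, teichmuller_coeff_zero]
      exact ht) v (by
      rw [hE0, map_teichmuller, teichmuller_coeff_zero, hv])
    (fun l => (ud l ⊗ₜ[ℤ] (1 : WittVector p C'))) (fun l => teichmuller p (us l))
    (fun l => by
      obtain ⟨b, hb⟩ := hu l
      refine ⟨b, ?_⟩
      rw [rhoD_tmul, hb, map_one, map_one, mul_one, map_teichmuller]) i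
  exact key

omit [CharP C p] [PerfectRing C p] [CharP C' p] [PerfectRing C' p] in
/-- elements of `(hs)` act on the honest modules as multiples of `p ^ M`. -/
theorem exists_rhoR_of_mem (hs : List R) (c : ℕ)
    (hh : ∀ h ∈ hs, ∃ y, rhoR Φ hΦ E hE ((WittVector.map f).comp ψ) h =
      Ideal.Quotient.mk _ ((p : WittVector p C') ^ c * y)) {β : R}
    (hβ : β ∈ Ideal.ofList hs) : ∃ y, rhoR Φ hΦ E hE ((WittVector.map f).comp ψ) β =
      Ideal.Quotient.mk _ ((p : WittVector p C') ^ c * y) := by
  refine Submodule.span_induction (p := fun β _ => ∃ y, rhoR Φ hΦ E hE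
    ((WittVector.map f).comp ψ) β = Ideal.Quotient.mk _ ((p : WittVector p C') ^ c * y))
    ?_ ?_ ?_ ?_ hβ
  · intro h hmem
    exact hh h hmem
  · exact ⟨0, by rw [map_zero, mul_zero, map_zero]⟩
  · rintro a b _ _ ⟨y, hy⟩ ⟨y', hy'⟩
    exact ⟨y + y', by rw [map_add, hy, hy', ← map_add, mul_add]⟩
  · rintro a b _ ⟨y, hy⟩
    obtain ⟨a', ha'⟩ := Ideal.Quotient.mk_surjective
      (rhoR Φ hΦ E hE ((WittVector.map f).comp ψ) a)
    refine ⟨a' * y, ?_⟩
    rw [smul_eq_mul, map_mul, hy, ← ha', ← map_mul]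
    congr 1
    ring

/-- **finiteness of the masses of `Tor(H_J, R / P)`.** -/
theorem fin_HJ [IsRegularLocalRing R] (L : AddLen (WittVector p C)) (P : Ideal R)
    (hs : List R) (hm : maximalIdeal R ≤ (P ⊔ Ideal.ofList hs).radical)
    (J : Ideal C) (hJ' : IsPerf p (J.map f))
    (t : C) (ht : f t ∈ nonZeroDivisors C') {n : ℕ} (us : Fin n → C)
    (hmass : let := ((WittVector.constantCoeff (p := p) (R := C')).comp
        (WittVector.map f)).toAlgebra
      ∀ i, (ALen.of L).len ((KC (R := WittVector p C) ↥(J.map f) (teichmuller p t ::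
        List.ofFn fun l => teichmuller p (us l))).H i) < ⊤)
    {z w : WittVector p C'} {M : ℕ} (hz : IsUnit z) (hM : 1 ≤ M)
    (hE' : WittVector.map f (ψ E) = ((p : WittVector p C') - teichmuller p (f t)) * z +
      (p : WittVector p C') ^ M * w)
    (ud : Fin n → R) (hud : ∀ l, ud l ∈ maximalIdeal R)
    (hu : ∀ l, ∃ b, rhoR Φ hΦ E hE ((WittVector.map f).comp ψ) (ud l) =
      Ideal.Quotient.mk _ (teichmuller p (f (us l)) + p * b))
    (hpR : (p : R) ∈ maximalIdeal R) (c : ℕ)
    (hh : ∀ h ∈ hs, ∃ y, rhoR Φ hΦ E hE ((WittVector.map f).comp ψ) h =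
      Ideal.Quotient.mk _ ((p : WittVector p C') ^ (c + 1) * y))
    {α β : R} (hα : α ∈ P) (hβ : β ∈ Ideal.ofList hs) (hαβ : (p : R) ^ c = α + β) (i : ℕ) :
    (L.restrict (Algebra.TensorProduct.includeRight :
      WittVector p C →ₐ[ℤ] R ⊗[ℤ] WittVector p C).toRingHom).len
      (TorM (R ⊗[ℤ] WittVector p C) i (HJ p f Φ hΦ E hE ψ J)
        ((R ⊗[ℤ] WittVector p C) ⊗[R] (R ⧸ P))) < ⊤ := by
  rw [len_tor_HJ_W]
  have hflat := Vale.Agent.P177.NatG.flat_tensor_witt p C' R
  have hE'' : ((WittVector.map f).comp ψ) E = ((p : WittVector p C') - teichmuller p (f t)) * z +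
      (p : WittVector p C') ^ M * w := hE'
  obtain ⟨yβ, hyβ⟩ := exists_rhoR_of_mem f Φ hΦ E hE ψ hs (c + 1) hh hβ
  have hact : ∀ (r : R) (y : WittVector p C') (_ : rhoR Φ hΦ E hE ((WittVector.map f).comp ψ) r =
      Ideal.Quotient.mk _ y) (x : HJ' p f Φ hΦ E hE ψ J),
      algebraMap R (R ⊗[ℤ] WittVector p C') r • x = y • x := by
    intro r y hy x
    refine hmod_smul _ _ ?_ x
    change rhoD Φ hΦ E hE ((WittVector.map f).comp ψ) (RingHom.id (WittVector p C'))
      (r ⊗ₜ 1) = _
    rw [rhoD_tmul, hy, map_one, map_one, mul_one]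
  have hpact : ∀ (k : ℕ) (x : HJ' p f Φ hΦ E hE ψ J),
      ((p : R ⊗[ℤ] WittVector p C') ^ k) • x = ((p : WittVector p C') ^ k) • x := by
    intro k x
    refine hmod_smul _ _ ?_ x
    rw [map_pow, map_pow, map_natCast, map_natCast]
  have hract : ∀ (v : WittVector p C') (x : HJ' p f Φ hΦ E hE ψ J),
      ((1 : R) ⊗ₜ[ℤ] v) • x = v • x := by
    intro v x
    refine hmod_smul _ _ ?_ x
    rw [rhoD_right]
    rfl
  refine fin_honest ((L.restrict (WittVector.map f)).restrict (Algebra.TensorProduct.includeRight :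
        WittVector p C' →ₐ[ℤ] R ⊗[ℤ] WittVector p C').toRingHom) P hs hm
    (HJ' p f Φ hΦ E hE ψ J)
    (Fin.cons (p : R ⊗[ℤ] WittVector p C') fun l => (ud l ⊗ₜ[ℤ] (1 : WittVector p C')))
    (Fin.cons (p : R ⊗[ℤ] WittVector p C') fun l => (ud l ⊗ₜ[ℤ] (1 : WittVector p C')))
    (fun _ _ => rfl) ?_ ?_ ((p : R ⊗[ℤ] WittVector p C') ^ c) ?_ ?_ α β hα ?_
    ((1 : R) ⊗ₜ[ℤ] ((p : WittVector p C') * yβ)) ?_ ?_ i
  · intro l
    refine Fin.cases ?_ (fun l => ?_) l
    · rw [Fin.cons_zero]
      have h1 : (p : R ⊗[ℤ] WittVector p C') = algebraMap R _ (p : R) := (map_natCast _ _).symm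
      rw [h1]
      exact Ideal.mem_map_of_mem _ hpR
    · rw [Fin.cons_succ]
      exact Ideal.mem_map_of_mem (algebraMap R (R ⊗[ℤ] WittVector p C')) (hud l)
  · intro q
    have h1 : List.ofFn (Fin.cons (p : R ⊗[ℤ] WittVector p C') fun l =>
        (ud l ⊗ₜ[ℤ] (1 : WittVector p C')) : Fin (n + 1) → R ⊗[ℤ] WittVector p C') =
        (p : R ⊗[ℤ] WittVector p C') :: List.ofFn fun l =>
          (ud l ⊗ₜ[ℤ] (1 : WittVector p C')) := by
      rw [List.ofFn_succ]
      rfl
    rw [h1, KC_HJ' f Φ hΦ E hE ψ L J hJ' t ht us hz hM hE' ud hu q]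
    exact hmass q
  · intro x hx
    exact smul_eq_zero_H p hJ' ht hz hM hE'' _ ((p : R ⊗[ℤ] WittVector p C') ^ c) c 1 isUnit_one
      (by rw [map_pow, map_natCast, mul_one, map_pow, map_natCast]) x hx
  · intro h hmem x
    obtain ⟨y, hy⟩ := hh h hmem
    refine ⟨((p : WittVector p C') * y) • x, ?_⟩
    have e1 : (p : WittVector p C') ^ (c + 1) * y = (p : WittVector p C') ^ c *
        ((p : WittVector p C') * y) := by ring
    rw [hact h _ hy x, hpact, smul_smul, e1]
  · rw [← hαβ, map_pow, map_natCast]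
  · have h2 : IsUnit (1 - (p : WittVector p C') * yβ) := by
      have h3 := one_add_p_mul_isUnit (-yβ)
      rwa [mul_neg, ← sub_eq_add_neg] at h3
    have h4 := h2.map (Algebra.TensorProduct.includeRight :
      WittVector p C' →ₐ[ℤ] R ⊗[ℤ] WittVector p C')
    rw [map_sub, map_one] at h4
    exact h4
  · intro x
    have e1 : (p : WittVector p C') ^ (c + 1) * yβ = (p : WittVector p C') ^ c *
        ((p : WittVector p C') * yβ) := by ring
    have e2 : ((p : R ⊗[ℤ] WittVector p C') ^ c * ((1 : R) ⊗ₜ[ℤ] ((p : WittVector p C') * yβ))) •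
        x = (p : WittVector p C') ^ c • ((p : WittVector p C') * yβ) • x := by
      rw [mul_smul, hract, hpact]
    rw [hact β _ hyβ x, e2, smul_smul, e1]

end Vale.Agent.P177.Full
end

section

/-!
P177, assembly: finiteness of the masses of `Tor_i(H_J, R / P)` for the data of two flags.
-/

namespace Vale.Agent.P177.Full

open TensorProduct IsLocalRing RingTheory.Sequence Function Module Vale.Agent.P177.Flag
  Vale.Agent.P202.Mix Vale.Agent.P177.Lev WittVector Vale.Agent.P177.KG Vale.Agent.P177.PI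
  Vale.Agent.P177.KM Vale.Agent.P177.NatG Vale.Agent.P177.CN Vale.Agent.P177.NatC
  Vale.Agent.P177.Perf
open scoped ENNReal

universe u

section XM

variable {p : ℕ} [hp : Fact p.Prime] {S R C C' : Type u} [CommRing S] [CommRing R]
  [CommRing C] [CommRing C']
  (f : C →+* C') (Φ : S →+* R) (hΦ : Surjective Φ) (E : S) (hE : RingHom.ker Φ = Ideal.span {E})
  (ψ : S →+* WittVector p C)

/-- classes modulo `E = (p - [t]) z + p ^ M w`. -/
theorem rhoR_of_mem_XM {t : C'} {M : ℕ} {z w : WittVector p C'} (hz : IsUnit z)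
    (hE' : WittVector.map f (ψ E) = ((p : WittVector p C') - teichmuller p t) * z +
      (p : WittVector p C') ^ M * w) (s : S) {x : R} (hs : Φ s = x)
    (u : WittVector p C') (hx : WittVector.map f (ψ s) - u ∈ XM p t M) :
    ∃ y, rhoR Φ hΦ E hE ((WittVector.map f).comp ψ) x =
      Ideal.Quotient.mk _ (u + (p : WittVector p C') ^ M * y) := by
  subst hs
  obtain ⟨a, b, hab⟩ := (mem_XM p).1 hx
  obtain ⟨v, hv⟩ := hz.exists_right_inv
  refine ⟨b - w * v * a, ?_⟩
  rw [rhoR_apply, Ideal.Quotient.eq, Ideal.mem_span_singleton]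
  refine ⟨v * a, ?_⟩
  rw [RingHom.comp_apply, RingHom.comp_apply, hE']
  linear_combination hab - (((p : WittVector p C') - teichmuller p t) * a) * hv

theorem rhoR_of_mem_XM_one {t : C'} {M : ℕ} (hM : 1 ≤ M) {z w : WittVector p C'} (hz : IsUnit z)
    (hE' : WittVector.map f (ψ E) = ((p : WittVector p C') - teichmuller p t) * z +
      (p : WittVector p C') ^ M * w) (s : S) {x : R} (hs : Φ s = x)
    (u : WittVector p C') (hx : WittVector.map f (ψ s) - u ∈ XM p t M) :
    ∃ y, rhoR Φ hΦ E hE ((WittVector.map f).comp ψ) x =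
      Ideal.Quotient.mk _ (u + (p : WittVector p C') * y) := by
  obtain ⟨y, hy⟩ := rhoR_of_mem_XM f Φ hΦ E hE ψ hz hE' s hs u hx
  refine ⟨(p : WittVector p C') ^ (M - 1) * y, ?_⟩
  rw [hy, ← mul_assoc, ← pow_succ', Nat.sub_add_cancel hM]

theorem rhoR_of_mem_XM_zero {t : C'} {M c : ℕ} (hM : c ≤ M) {z w : WittVector p C'}
    (hz : IsUnit z)
    (hE' : WittVector.map f (ψ E) = ((p : WittVector p C') - teichmuller p t) * z +
      (p : WittVector p C') ^ M * w) (s : S) {x : R} (hs : Φ s = x)
    (hx : WittVector.map f (ψ s) ∈ XM p t M) :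
    ∃ y, rhoR Φ hΦ E hE ((WittVector.map f).comp ψ) x =
      Ideal.Quotient.mk _ ((p : WittVector p C') ^ c * y) := by
  rw [← sub_zero (WittVector.map f (ψ s))] at hx
  obtain ⟨y, hy⟩ := rhoR_of_mem_XM f Φ hΦ E hE ψ hz hE' s hs 0 hx
  refine ⟨(p : WittVector p C') ^ (M - c) * y, ?_⟩
  rw [hy, ← mul_assoc, ← pow_add, Nat.add_sub_cancel' hM, zero_add]

end XM

namespace Core

variable {p : ℕ} [Fact p.Prime] {R : Type u} [CommRing R] [IsRegularLocalRing R]
    [CharP (ResidueField R) p] [PerfectRing (ResidueField R) p] {d : ℕ} {P : Ideal R}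
    {hs : List R} {r : ℕ} [IsRegularLocalRing (Lam p (ResidueField R) r)]
    [Algebra (Lam p (ResidueField R) r) R] {Ω : Type u} [Field Ω]
    [Algebra (Lam p (ResidueField R) r) Ω] {F : Fin 2 → FlagMod (Lam p (ResidueField R) r) Ω hs}
    (X : Core p d P hs r Ω F)

/-- the Koszul masses of the ideals of the family. -/
theorem KC_J_lt_top (i : Fin 2) (z : Fin (F i).n → ℤ) (q : ℕ) :
    let := algW p X.K.C
    (ALen.of X.K.mass).len ((KC (R := WittVector p X.K.C) ↥(X.K.J (F i).n (X.pl i) z)
      (List.ofFn fun l => teichmuller p (xC p (ResidueField R) r X.K.C l))).H q) < ⊤ := by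
  refine X.K.KC_J_lt_top X.base (fun j => ?_) (F i).n (X.pl i) z (fun j => ?_) q
  · exact (Nat.mul_le_mul_right _ (Nat.le_add_right _ _)).trans (X.gr_le j)
  · obtain ⟨t, ht⟩ := (F i).flag.exists_detT_ne_zero ((j : ℕ) + 1) j.2
    exact ⟨t, by rwa [X.pl_spec i _ j.2 t]⟩

theorem LD_len (M : Type u) [AddCommGroup M] [Module (R ⊗[ℤ] WittVector p X.K.C) M] :
    X.LD.len M = (X.K.mass.restrict (Algebra.TensorProduct.includeRight :
      WittVector p X.K.C →ₐ[ℤ] R ⊗[ℤ] WittVector p X.K.C).toRingHom).len M := rfl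

/-- **finiteness of the masses of `Tor(H_J, R / P)`.** -/
theorem len_tor_HJ_lt_top (hN : Norm p R r hs)
    (hrad : maximalIdeal R ≤ (P ⊔ Ideal.ofList hs).radical) {η' : X.K.C}
    (hη' : Kil X.K.mass (teichmuller p η'))
    (Z : NatZ p X.K.C (tC p (ResidueField R) r X.K.C) η')
    (ψ : Sx p (ResidueField R) d →+* WittVector p X.K.C) {M : ℕ} (hM : X.c0 + 1 ≤ M)
    (h1 : ∃ z w, IsUnit z ∧ WittVector.map Z.f (ψ ((p : Sx p (ResidueField R) d) - X.g)) =
      ((p : WittVector p Z.C') - teichmuller p (Z.f (tC p (ResidueField R) r X.K.C))) * z +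
        (p : WittVector p Z.C') ^ M * w)
    (h3 : ∀ s, X.Φ s ∈ hs → WittVector.map Z.f (ψ s) ∈
      XM p (Z.f (tC p (ResidueField R) r X.K.C)) M)
    (h5 : ∀ (l : Fin r) (s), X.Φ s = algebraMap (Lam p (ResidueField R) r) R (MvPowerSeries.X l) →
      WittVector.map Z.f (ψ s) -
        teichmuller p (Z.f (xC p (ResidueField R) r X.K.C l.succ)) ∈
      XM p (Z.f (tC p (ResidueField R) r X.K.C)) M)
    (J : Ideal X.K.C) (hJ : CN.SP p J)
    (hmass : let := algW p X.K.C
      ∀ q, (ALen.of X.K.mass).len ((KC (R := WittVector p X.K.C) ↥J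
      (List.ofFn fun l => teichmuller p (xC p (ResidueField R) r X.K.C l))).H q) < ⊤) (i : ℕ) :
    X.LD.len (TorM (R ⊗[ℤ] WittVector p X.K.C) i
      (NatG.HJ p Z.f X.Φ X.Φ_surj ((p : Sx p (ResidueField R) d) - X.g) X.Φ_ker ψ J)
      ((R ⊗[ℤ] WittVector p X.K.C) ⊗[R] (R ⧸ P))) < ⊤ := by
  obtain ⟨z, w, hz, hE⟩ := h1
  have hM1 : 1 ≤ M := by omega
  have hpR : (p : R) ∈ maximalIdeal R := by
    rw [← residue_eq_zero_iff, map_natCast, CharP.cast_eq_zero]
  rw [LD_len]
  refine fin_HJ Z.f X.Φ X.Φ_surj _ X.Φ_ker ψ X.K.mass P hs hrad J (CN.SP.isPerf p (CN.SP.map Z.f hJ))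
    (tC p (ResidueField R) r X.K.C) Z.reg
    (fun l : Fin r => xC p (ResidueField R) r X.K.C l.succ)
    (X.K.KC_map_lt_top hη' Z J hJ hmass) hz hM1 hE
    (fun l => algebraMap (Lam p (ResidueField R) r) R (MvPowerSeries.X l)) hN.X_mem (fun l => ?_)
    hpR X.c0 (fun h hmem => ?_) X.α_mem X.β_mem X.α_add i
  · obtain ⟨s, hs⟩ := X.Φ_surj (algebraMap (Lam p (ResidueField R) r) R (MvPowerSeries.X l))
    exact rhoR_of_mem_XM_one Z.f X.Φ X.Φ_surj _ X.Φ_ker ψ hM1 hz hE s hs _ (h5 l s hs)
  · obtain ⟨s, hs'⟩ := X.Φ_surj h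
    exact rhoR_of_mem_XM_zero Z.f X.Φ X.Φ_surj _ X.Φ_ker ψ hM hz hE s hs' (h3 s (hs' ▸ hmem))

section fam

variable {η' : X.K.C} (Z : NatZ p X.K.C (tC p (ResidueField R) r X.K.C) η')
  (σ : R →ₐ[Lam p (ResidueField R) r] Ω) {M : ℕ}

/-- finiteness for the ideals of the flags. -/
theorem fin_HJ_J (hN : Norm p R r hs)
    (hrad : maximalIdeal R ≤ (P ⊔ Ideal.ofList hs).radical)
    (hη' : Kil X.K.mass (teichmuller p η')) (hM : X.c0 + 1 ≤ M)
    (h1 : ∃ z w, IsUnit z ∧ WittVector.map Z.f (X.psi σ X.E) =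
      ((p : WittVector p Z.C') - teichmuller p (Z.f (tC p (ResidueField R) r X.K.C))) * z +
        (p : WittVector p Z.C') ^ M * w)
    (h3 : ∀ s, X.Φ s ∈ hs → WittVector.map Z.f (X.psi σ s) ∈
      XM p (Z.f (tC p (ResidueField R) r X.K.C)) M)
    (h5 : ∀ (l : Fin r) (s), X.Φ s = algebraMap (Lam p (ResidueField R) r) R (MvPowerSeries.X l) →
      WittVector.map Z.f (X.psi σ s) -
        teichmuller p (Z.f (xC p (ResidueField R) r X.K.C l.succ)) ∈
      XM p (Z.f (tC p (ResidueField R) r X.K.C)) M)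
    (i : Fin 2) (z : Fin (F i).n → ℤ) (j : ℕ) :
    X.LD.len (TorM (R ⊗[ℤ] WittVector p X.K.C) j
      (X.HJ Z.f σ (X.K.J (F i).n (X.pl i) z))
      ((R ⊗[ℤ] WittVector p X.K.C) ⊗[R] (R ⧸ P))) < ⊤ :=
  X.len_tor_HJ_lt_top hN hrad hη' Z (X.psi σ) hM h1 h3 h5 _
    (X.K.SP_J (F i).n (X.pl i) z) (X.KC_J_lt_top i z) j

end fam

end Core

end Vale.Agent.P177.Full
end

section

/-!
Perfect ideals and their Witt vectors: colon ideals, sums, regular elements.
-/

namespace Vale.Agent.P177.WJ

open WittVector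

variable {p : ℕ} [hp : Fact (Nat.Prime p)] {C : Type*} [CommRing C] [CharP C p] [PerfectRing C p]

/-! ### regular elements -/

end Vale.Agent.P177.WJ
end

section

/-!
RHO, Koszul side: the Koszul homology of `WI J`, of `WI J / xi` and of `J`; the top case; the
Euler characteristic of the Koszul homology.
-/

namespace Vale.Agent.P177.SL

open WittVector Vale.Agent.P202.Mix Vale.Agent.P177.PI Vale.Agent.P177.KG Vale.Agent.P177.KM
  Vale.Agent.P177.MN Function
open scoped ENNReal Pointwise

universe u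

section chiK

variable {R : Type u} [CommRing R]

/-- the Euler characteristic of the Koszul homology. -/
noncomputable def chiK (L : ALen R) (n : ℕ) (M : Type u) [AddCommGroup M] [Module R M]
    (xs : List R) : ℝ :=
  ∑ i ∈ Finset.range n, (-1 : ℝ) ^ i * (L.len ((KC M xs).H i)).toReal

variable (L : ALen R) {M N K : Type u} [AddCommGroup M] [Module R M] [AddCommGroup N] [Module R N]
  [AddCommGroup K] [Module R K]

end chiK

section J

variable (p : ℕ) [hp : Fact p.Prime] {C : Type u} [CommRing C] [CharP C p] [PerfectRing C p]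

attribute [local instance] algW

/-- `WI J / xi`. -/
abbrev YJ (J : Ideal C) (t : C) : Type u :=
  ↥(WI p J) ⧸ (Ideal.span {(p : WittVector p C) - teichmuller p t} •
    (⊤ : Submodule (WittVector p C) ↥(WI p J)))

variable {p}

theorem coeff_zero_xi (t : C) : ((p : WittVector p C) - teichmuller p t).coeff 0 = -t := by
  have h : WittVector.constantCoeff ((p : WittVector p C) - teichmuller p t) = -t := by
    rw [map_sub, map_natCast, CharP.cast_eq_zero, zero_sub]
    exact congrArg Neg.neg (teichmuller_coeff_zero p t)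
  exact h

theorem mem_xi_smul {J : Ideal C} {t : C} {x : ↥(WI p J)} :
    x ∈ (Ideal.span {(p : WittVector p C) - teichmuller p t} •
      (⊤ : Submodule (WittVector p C) ↥(WI p J))) ↔
      ∃ w ∈ WI p J, (x : WittVector p C) = ((p : WittVector p C) - teichmuller p t) * w := by
  rw [Submodule.ideal_span_singleton_smul, Submodule.mem_smul_pointwise_iff_exists]
  constructor
  · rintro ⟨w, -, hw⟩
    exact ⟨w, w.2, (congrArg Subtype.val hw).symm⟩
  · rintro ⟨w, hw, h⟩
    exact ⟨⟨w, hw⟩, trivial, Subtype.ext h.symm⟩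

/-- **(C1)**: `H_i(p :: xs; WI J / xi) = H_i([t] :: xs; J)`. -/
theorem len_KC_YJ (L : ALen (WittVector p C)) {J : Ideal C} (hJ : IsPerf p J) {t : C}
    (ht : t ∈ nonZeroDivisors C) (xs : List (WittVector p C)) (i : ℕ) :
    L.len ((KC (YJ p J t) ((p : WittVector p C) :: xs)).H i) =
      L.len ((KC ↥J (teichmuller p t :: xs)).H i) := by
  refine KC_len_WIE L (fun r => rfl) hJ (teichmuller p t) ?_
    ((p : WittVector p C) - teichmuller p t) (-1) ?_ (Submodule.mkQ _)
    (Submodule.mkQ_surjective _) (fun x => ?_) xs i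
  · change (teichmuller p t).coeff 0 ∈ nonZeroDivisors C
    rw [teichmuller_coeff_zero]
    exact ht
  · rw [coeff_zero_xi]
    change _ = _ * (teichmuller p t).coeff 0
    rw [teichmuller_coeff_zero]
    simp
  · rw [Submodule.mkQ_apply, Submodule.Quotient.mk_eq_zero]
    exact mem_xi_smul

/-- the module `C` over `W(C)` and a weakly regular sequence. -/
theorem isWeaklyRegular_te {xs : List C} (h : RingTheory.Sequence.IsWeaklyRegular C xs) :
    RingTheory.Sequence.IsWeaklyRegular C (xs.map (teichmuller p)) := by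
  rw [← RingTheory.Sequence.isWeaklyRegular_map_algebraMap_iff C C]
  have h1 : (xs.map (teichmuller p)).map (algebraMap (WittVector p C) C) = xs := by
    rw [List.map_map]
    conv_rhs => rw [← List.map_id xs]
    refine List.map_congr_left fun x _ => ?_
    exact teichmuller_coeff_zero p x
  rw [h1]
  exact h

/-- `⊤ ≃ C` over `W(C)`. -/
def topE : ↥(⊤ : Ideal C) ≃ₗ[WittVector p C] C where
  toFun x := x
  invFun x := ⟨x, trivial⟩
  left_inv _ := rfl
  right_inv _ := rfl
  map_add' _ _ := rfl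
  map_smul' _ _ := rfl

/-- **(C3)**, degree zero. -/
theorem len_KC_top_zero (L : ALen (WittVector p C)) {t : C} (ht : t ∈ nonZeroDivisors C)
    (us : List (WittVector p C)) :
    L.len ((KC (YJ p (⊤ : Ideal C) t) ((p : WittVector p C) :: us)).H 0) =
      L.len (WittVector p C ⧸ Ideal.ofList ((p : WittVector p C) :: teichmuller p t :: us)) := by
  rw [len_KC_YJ L (fun _ _ _ _ _ _ _ _ => Submodule.mem_top) ht]
  let f : WittVector p C →ₗ[WittVector p C] (KC ↥(⊤ : Ideal C) (teichmuller p t :: us)).H 0 :=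
    LinearMap.toSpanSingleton _ _ (u0 ↥(⊤ : Ideal C) (teichmuller p t :: us) ⟨1, trivial⟩)
  have hf : Surjective f := by
    intro z
    obtain ⟨⟨c, hc⟩, rfl⟩ := u0_surjective _ _ z
    refine ⟨teichmuller p c, ?_⟩
    change teichmuller p c • u0 ↥(⊤ : Ideal C) (teichmuller p t :: us) ⟨1, trivial⟩ = _
    rw [← map_smul]
    congr 1
    apply Subtype.ext
    change (teichmuller p c).coeff 0 * 1 = c
    rw [teichmuller_coeff_zero, mul_one]
  have hk : LinearMap.ker f = Ideal.ofList ((p : WittVector p C) :: teichmuller p t :: us) := by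
    ext w
    have h1 : f w = 0 ↔ (w • (⟨1, trivial⟩ : ↥(⊤ : Ideal C))) ∈
        Ideal.ofList (teichmuller p t :: us) • (⊤ : Submodule (WittVector p C) ↥(⊤ : Ideal C)) := by
      rw [← ker_u0, LinearMap.mem_ker, map_smul]
      rfl
    have h2 : (⊤ : Submodule (WittVector p C) ↥(⊤ : Ideal C)) =
        Submodule.span (WittVector p C) {(⟨1, trivial⟩ : ↥(⊤ : Ideal C))} := by
      symm
      rw [eq_top_iff]
      rintro ⟨c, hc⟩ -
      refine Submodule.mem_span_singleton.2 ⟨teichmuller p c, Subtype.ext ?_⟩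
      change (teichmuller p c).coeff 0 * 1 = c
      rw [teichmuller_coeff_zero, mul_one]
    have h5 : Ideal.ofList ((p : WittVector p C) :: teichmuller p t :: us) =
        Ideal.span {(p : WittVector p C)} ⊔ Ideal.ofList (teichmuller p t :: us) :=
      Ideal.ofList_cons _ _
    rw [LinearMap.mem_ker, h1, h2, Submodule.mem_smul_span_singleton, h5, Submodule.mem_sup]
    constructor
    · rintro ⟨b, hb, h⟩
      refine ⟨w - b, ?_, b, hb, by ring⟩
      rw [← WittVector.ker_constantCoeff, RingHom.mem_ker, map_sub, sub_eq_zero]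
      have h3 : b.coeff 0 * 1 = w.coeff 0 * 1 := congrArg Subtype.val h
      rw [mul_one, mul_one] at h3
      exact h3.symm
    · rintro ⟨a, ha, b, hb, rfl⟩
      refine ⟨b, hb, ?_⟩
      rw [← WittVector.ker_constantCoeff, RingHom.mem_ker] at ha
      apply Subtype.ext
      change b.coeff 0 * 1 = (a + b).coeff 0 * 1
      have h3 : (a + b).coeff 0 = a.coeff 0 + b.coeff 0 :=
        map_add (WittVector.constantCoeff (p := p) (R := C)) a b
      rw [h3]
      have h4 : a.coeff 0 = 0 := ha
      rw [h4, zero_add]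
  rw [← Vale.Agent.P177.KG.len_congr L (f.quotKerEquivOfSurjective hf), hk]

end J

end Vale.Agent.P177.SL
end

section

/-!
P177, assembly: the Koszul masses of `W(C')` and of `WI (J C')` for the NAT ring `C'`: vanishing,
finiteness and positivity, in the form used by the vanishing and positivity theorems.
-/

namespace Vale.Agent.P177.Full

open TensorProduct IsLocalRing Function Vale.Agent.P202.Mix Vale.Agent.P177.PI
  Vale.Agent.P177.KM Vale.Agent.P177.KG Vale.Agent.P177.NatG Vale.Agent.P177.CN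
  Vale.Agent.P177.Perf Vale.Agent.P177.Lev WittVector
open scoped ENNReal Pointwise

universe u

section gen

theorem isWeaklyRegular_ofFn_of {A : Type u} [CommRing A] {n : ℕ} (x : Fin n → A)
    (h : ∀ (i : Fin n) (y : A), x i * y ∈ Ideal.span (x '' {l | l < i}) →
      y ∈ Ideal.span (x '' {l | l < i})) :
    RingTheory.Sequence.IsWeaklyRegular A (List.ofFn x) := by
  refine ⟨fun i hi => ?_⟩
  have hi' : i < n := by simpa using hi
  have h1 : (Ideal.ofList ((List.ofFn x).take i) • (⊤ : Submodule A A)) =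
      Ideal.span (x '' {l | l < (⟨i, hi'⟩ : Fin n)}) := by
    rw [smul_eq_mul, Ideal.mul_top, Ideal.ofList]
    congr 1
    ext y
    simp only [Set.mem_ofPred_eq, Set.mem_image, List.mem_take_iff_getElem, List.getElem_ofFn]
    constructor
    · rintro ⟨j, hj, rfl⟩
      have hj' : j < i := by omega
      exact ⟨⟨j, by omega⟩, hj', rfl⟩
    · rintro ⟨l, hl, rfl⟩
      have hl' : (l : ℕ) < i := hl
      refine ⟨l, ?_, rfl⟩
      rw [List.length_ofFn]
      omega
  rw [isSMulRegular_quotient_iff_mem_of_smul_mem, h1]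
  intro y hy
  rw [List.getElem_ofFn] at hy
  exact h ⟨i, hi'⟩ y hy

variable (p : ℕ) [hp : Fact p.Prime] {C C' : Type u} [CommRing C] [CommRing C'] [CharP C' p]
  [PerfectRing C' p]

/-- the masses of `WI J'` over `W(C')` and of `J'` over `W(C)`. -/
theorem len_KC_WI_restrict (f : C →+* C') (L : AddLen (WittVector p C)) {J' : Ideal C'}
    (hJ' : IsPerf p J') {n : ℕ} (xs : Fin n → C) (i : ℕ) :
    letI := ((WittVector.constantCoeff (p := p) (R := C')).comp (WittVector.map f)).toAlgebra
    (L.restrict (WittVector.map f)).len ((KC (R := WittVector p C') ↥(WI p J')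
      ((p : WittVector p C') :: List.ofFn fun l => teichmuller p (f (xs l)))).H i) =
      L.len ((KC (R := WittVector p C) ↥J' (List.ofFn fun l => teichmuller p (xs l))).H i) := by
  let _ : Algebra (WittVector p C) C' :=
    ((WittVector.constantCoeff (p := p) (R := C')).comp (WittVector.map f)).toAlgebra
  let _ : Algebra (WittVector p C) (WittVector p C') := (WittVector.map f).toAlgebra
  have h1 := MN.KC_len_WI (R := WittVector p C) (C := C') (ALen.of L) (fun r => rfl) hJ'
    (List.ofFn fun l => teichmuller p (xs l)) i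
  have h2 := len_KC_change (C := WittVector p C) (D := WittVector p C') (M := ↥(WI p J'))
    (ALen.of L) ((p : WittVector p C) :: List.ofFn fun l => teichmuller p (xs l)) i
  have h3 : ((p : WittVector p C) :: List.ofFn fun l => teichmuller p (xs l)).map
      (algebraMap (WittVector p C) (WittVector p C')) =
      (p : WittVector p C') :: List.ofFn fun l => teichmuller p (f (xs l)) := by
    rw [List.map_cons, map_natCast, List.map_ofFn]
    congr 2
    funext l
    exact map_teichmuller p f (xs l)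
  rw [h3] at h2
  exact h2.symm.trans h1

theorem WI_top_eq : WI p (⊤ : Ideal C') = ⊤ := by
  rw [Ideal.eq_top_iff_one, ← map_one (teichmuller p)]
  exact te_mem_WI p trivial

/-- `WI ⊤ ≃ W(C')`. -/
noncomputable def WItopE : ↥(WI p (⊤ : Ideal C')) ≃ₗ[WittVector p C'] WittVector p C' :=
  (LinearEquiv.ofEq _ _ (WI_top_eq p)).trans Submodule.topEquiv

variable [CharP C p] [PerfectRing C p]

/-- degree zero of the Koszul homology of the unit ideal. -/
theorem len_KC_top_H0 (L : ALen (WittVector p C)) {t : C} (ht : t ∈ nonZeroDivisors C)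
    (us : List (WittVector p C)) :
    letI := algW p C
    L.len ((KC ↥(⊤ : Ideal C) (teichmuller p t :: us)).H 0) =
      L.len (WittVector p C ⧸ Ideal.ofList ((p : WittVector p C) :: teichmuller p t :: us)) := by
  let _ := algW p C
  rw [← SL.len_KC_top_zero L ht us]
  exact (SL.len_KC_YJ L (fun _ _ _ _ _ _ _ _ => Submodule.mem_top) ht us 0).symm

/-- vanishing of the Koszul homology of the unit ideal. -/
theorem len_KC_top_pos (L : ALen (WittVector p C)) {xs : List C}
    (h : RingTheory.Sequence.IsWeaklyRegular C xs) (i : ℕ) :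
    letI := algW p C
    L.len ((KC ↥(⊤ : Ideal C) (xs.map (teichmuller p))).H (i + 1)) = 0 := by
  let _ := algW p C
  have h1 := SL.isWeaklyRegular_te (p := p) h
  rw [← (SL.topE (p := p) (C := C)).isWeaklyRegular_congr] at h1
  have := KC_H_succ_subsingleton _ ↥(⊤ : Ideal C) h1 i
  exact len_subsingleton L

end gen

namespace Pkg

variable {p : ℕ} [hp : Fact p.Prime] {k : Type u} [Field k] [CharP k p] {r : ℕ}
variable {Λ : Type u} [CommRing Λ] [IsLocalRing Λ] {ψ : Λ →+* WittVector p (Rp p k r)}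
variable {Ω : Type u} [Field Ω] [Algebra Λ Ω] {s : ℕ} {b : Fin s → Ω} {F G : Fin s → Polynomial Λ}
    {D : ℕ} {ε : ℝ≥0∞} {Φ : ℕ → ℕ} (K : Pkg ψ b F G D ε Φ)

/-- **the Koszul masses of `J` and of `J C'` are equal.** -/
theorem KC_map_eq {η' : K.C} (hη' : Kil K.mass (teichmuller p η'))
    (Z : NatZ p K.C (tC p k r K.C) η') (J : Ideal K.C) (hJ : Vale.Agent.P177.CN.SP p J) (q : ℕ) :
    letI := algW p K.C
    letI := ((WittVector.constantCoeff (p := p) (R := Z.C')).comp
        (WittVector.map Z.f)).toAlgebra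
    K.mass.len ((KC (R := WittVector p K.C) ↥J
      (List.ofFn fun l => teichmuller p (xC p k r K.C l))).H q) =
    K.mass.len ((KC (R := WittVector p K.C) ↥(J.map Z.f)
      (List.ofFn fun l => teichmuller p (xC p k r K.C l))).H q) := by
  let _ := algW p K.C
  let _ : Algebra (WittVector p K.C) Z.C' :=
    ((WittVector.constantCoeff (p := p) (R := Z.C')).comp (WittVector.map Z.f)).toAlgebra
  let fA : K.C →ₐ[WittVector p K.C] Z.C' :=
    { Z.f with
      commutes' := fun w => by
        change Z.f (w.coeff 0) = (WittVector.map Z.f w).coeff 0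
        rw [WittVector.map_coeff] }
  have ht : tC p k r K.C ∈ nonZeroDivisors K.C := K.t_reg
  have ht' := Z.reg
  have e1 : ∀ a : K.C, algebraMap (WittVector p K.C) K.C (teichmuller p a) = a := fun a =>
    teichmuller_coeff_zero p a
  have e2 : ∀ a : K.C, algebraMap (WittVector p K.C) Z.C' (teichmuller p a) = Z.f a := fun a =>
    te_coeff_zero_map Z.f a
  have key := MN.KC_len_J_eq (ALen.of K.mass) (η := teichmuller p η')
    (fun M _ _ hM => hη' M hM) fA (teichmuller p (tC p k r K.C)) J (J.map Z.f)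
    (fun x hx => Ideal.mem_map_of_mem Z.f hx)
    (fun x _ h => by
      rw [e1] at h
      exact (mem_nonZeroDivisors_iff_left.1 ht) x h)
    (fun x _ h => by
      rw [e2] at h
      exact (mem_nonZeroDivisors_iff_left.1 ht') x h)
    (fun y hy => by
      rw [e2, e2]
      obtain ⟨a, ha, z, hz, h⟩ := Z.n1 J y hy
      exact ⟨a, ha, z, hz, h⟩)
    (fun x hx z hz h => by
      rw [e2] at h
      rw [e1, e1]
      obtain ⟨x', hx', h'⟩ := Z.n2 J hJ x hx ⟨z, hz, h⟩
      exact ⟨x', hx', h'⟩)
    (List.ofFn fun l : Fin r => teichmuller p (xC p k r K.C l.succ)) q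
  rw [List.ofFn_succ]
  exact key

/-- the masses of `WI (J C')` over `W(C')` and of `J` over `W(C)`. -/
theorem KC_WI_map_eq {η' : K.C} (hη' : Kil K.mass (teichmuller p η'))
    (Z : NatZ p K.C (tC p k r K.C) η') (J : Ideal K.C) (hJ : Vale.Agent.P177.CN.SP p J) (q : ℕ) :
    letI := algW p K.C
    (K.mass.restrict (WittVector.map Z.f)).len ((KC (R := WittVector p Z.C')
      ↥(WI p (J.map Z.f)) ((p : WittVector p Z.C') ::
        List.ofFn fun l => teichmuller p (Z.f (xC p k r K.C l)))).H q) =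
    K.mass.len ((KC (R := WittVector p K.C) ↥J
      (List.ofFn fun l => teichmuller p (xC p k r K.C l))).H q) := by
  let _ := algW p K.C
  exact (len_KC_WI_restrict p Z.f K.mass (hJ.map Z.f).isPerf (fun l => xC p k r K.C l) q).trans
    (K.KC_map_eq hη' Z J hJ q).symm

/-- the masses of `W(C')` and of the unit ideal of `C`. -/
theorem KC_W_eq {η' : K.C} (hη' : Kil K.mass (teichmuller p η'))
    (Z : NatZ p K.C (tC p k r K.C) η') (q : ℕ) :
    letI := algW p K.C
    (K.mass.restrict (WittVector.map Z.f)).len ((KC (R := WittVector p Z.C')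
      (WittVector p Z.C') ((p : WittVector p Z.C') ::
        List.ofFn fun l => teichmuller p (Z.f (xC p k r K.C l)))).H q) =
    K.mass.len ((KC (R := WittVector p K.C) ↥(⊤ : Ideal K.C)
      (List.ofFn fun l => teichmuller p (xC p k r K.C l))).H q) := by
  let _ := algW p K.C
  have h1 := K.KC_WI_map_eq hη' Z ⊤ (SP_top p) q
  rw [← h1, Ideal.map_top]
  exact (MN.KC_len_congr (ALen.of (K.mass.restrict (WittVector.map Z.f))) (WItopE p (C' := Z.C'))
    _ q).symm

theorem isWeaklyRegular_xC : RingTheory.Sequence.IsWeaklyRegular K.C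
    (List.ofFn fun l => xC p k r K.C l) :=
  isWeaklyRegular_ofFn_of _ fun i y h => K.regular i y h

/-- **(m0)**: vanishing. -/
theorem m0 {η' : K.C} (hη' : Kil K.mass (teichmuller p η'))
    (Z : NatZ p K.C (tC p k r K.C) η') (q : ℕ) (hq : 1 ≤ q) :
    (K.mass.restrict (WittVector.map Z.f)).len ((KC (R := WittVector p Z.C')
      (WittVector p Z.C') ((p : WittVector p Z.C') ::
        List.ofFn fun l => teichmuller p (Z.f (xC p k r K.C l)))).H q) = 0 := by
  obtain ⟨q, rfl⟩ : ∃ m, q = m + 1 := ⟨q - 1, by omega⟩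
  rw [K.KC_W_eq hη' Z]
  have h1 := len_KC_top_pos p (ALen.of K.mass) K.isWeaklyRegular_xC q
  rw [List.map_ofFn] at h1
  exact h1

/-- degree zero. -/
theorem KC_W_zero {η' : K.C} (hη' : Kil K.mass (teichmuller p η'))
    (Z : NatZ p K.C (tC p k r K.C) η') :
    (K.mass.restrict (WittVector.map Z.f)).len ((KC (R := WittVector p Z.C')
      (WittVector p Z.C') ((p : WittVector p Z.C') ::
        List.ofFn fun l => teichmuller p (Z.f (xC p k r K.C l)))).H 0) =
      K.mass.len (WittVector p K.C ⧸ vW p k r K.C) := by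
  rw [K.KC_W_eq hη' Z]
  have h1 := len_KC_top_H0 p (ALen.of K.mass) K.t_reg
    (List.ofFn fun l : Fin r => teichmuller p (xC p k r K.C l.succ))
  rw [List.ofFn_succ]
  refine h1.trans ?_
  have h2 : Ideal.ofList ((p : WittVector p K.C) :: teichmuller p (tC p k r K.C) ::
      List.ofFn fun l : Fin r => teichmuller p (xC p k r K.C l.succ)) = vW p k r K.C := by
    rw [vW, Ideal.ofList]
    congr 1
    ext x
    simp only [List.mem_cons, List.mem_ofFn, Set.mem_ofPred_eq, Set.mem_insert_iff, Set.mem_range]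
    constructor
    · rintro (h | h | ⟨l, rfl⟩)
      · exact Or.inl h
      · exact Or.inr ⟨0, h.symm⟩
      · exact Or.inr ⟨l.succ, rfl⟩
    · rintro (h | ⟨l, rfl⟩)
      · exact Or.inl h
      · refine Fin.cases ?_ (fun l => ?_) l
        · exact Or.inr (Or.inl rfl)
        · exact Or.inr (Or.inr ⟨l, rfl⟩)
  rw [h2]
  rfl

/-- **(m1)**: finiteness in degree zero. -/
theorem m1 {η' : K.C} (hη' : Kil K.mass (teichmuller p η'))
    (Z : NatZ p K.C (tC p k r K.C) η') :
    (K.mass.restrict (WittVector.map Z.f)).len ((KC (R := WittVector p Z.C')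
      (WittVector p Z.C') ((p : WittVector p Z.C') ::
        List.ofFn fun l => teichmuller p (Z.f (xC p k r K.C l)))).H 0) ≠ ⊤ := by
  rw [K.KC_W_zero hη' Z]
  exact K.mass_ne_top

/-- **(m2)**: positivity in degree zero. -/
theorem m2 (hε : ε ≠ 0) {η' : K.C} (hη' : Kil K.mass (teichmuller p η'))
    (Z : NatZ p K.C (tC p k r K.C) η') :
    (K.mass.restrict (WittVector.map Z.f)).len ((KC (R := WittVector p Z.C')
      (WittVector p Z.C') ((p : WittVector p Z.C') ::
        List.ofFn fun l => teichmuller p (Z.f (xC p k r K.C l)))).H 0) ≠ 0 := by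
  rw [K.KC_W_zero hη' Z]
  exact fun h => hε (le_antisymm (h ▸ K.le_mass_vW) bot_le)

end Pkg

end Vale.Agent.P177.Full
end

section

/-!
Lower bound for the length of the tensor product of a thickening.
-/

namespace Vale.Agent.P177.SL

open Vale.Agent.P202.Mix Function TensorProduct IsLocalRing
open scoped ENNReal

universe u

/-- powers of an element of `(l) + A` lie in `(l ^ n) + A`. -/
theorem pow_mem_sup {R : Type u} [CommRing R] {A : Ideal R} {l : List R} {x : R} {c n q : ℕ}
    (hx : x ^ c ∈ Ideal.ofList l ⊔ A) (hq : l.length * n + 1 ≤ q) :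
    x ^ (c * q) ∈ Ideal.ofList (l.map (· ^ n)) ⊔ A := by
  have e1 : ∀ J : Ideal R, (J.map (Ideal.Quotient.mk A)).comap (Ideal.Quotient.mk A) = J ⊔ A := by
    intro J
    rw [Ideal.comap_map_of_surjective _ Ideal.Quotient.mk_surjective, ← RingHom.ker_eq_comap_bot,
      Ideal.mk_ker]
  rw [← e1, Ideal.mem_comap] at hx
  rw [← e1, Ideal.mem_comap, pow_mul, map_pow]
  have h1 := Ideal.pow_mem_pow hx q
  rw [← Ideal.map_pow] at h1
  exact Ideal.map_mono ((Ideal.pow_le_pow_right hq).trans (KG.ofList_pow_le l n)) h1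

/-- tensoring with a module killed by `c` only sees `Y / c Y`. -/
theorem len_ten_quot {W₀ D : Type u} [CommRing W₀] [CommRing D] [Algebra W₀ D] (L : AddLen D)
    {Y Z : Type u} [AddCommGroup Y] [Module D Y] [Module W₀ Y] [IsScalarTower W₀ D Y]
    [AddCommGroup Z] [Module D Z] [Module W₀ Z] [IsScalarTower W₀ D Z] (c : W₀)
    (q : Y →ₗ[D] Z) (hq : Surjective q) (hk : ∀ y, q y = 0 → ∃ x, c • x = y)
    (M : Type u) [AddCommGroup M] [Module W₀ M] (hc : ∀ m : M, c • m = 0) :
    L.len (Y ⊗[W₀] M) ≤ L.len (Z ⊗[W₀] M) := by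
  let q' : Y →ₗ[W₀] Z := q.restrictScalars W₀
  have hex : Exact (LinearMap.ker q').subtype q' := by
    intro y
    rw [← LinearMap.mem_ker, Submodule.coe_subtype, Subtype.range_coe]
    rfl
  have h1 := rTensor_exact M hex hq
  have h2 : ∀ x : (LinearMap.ker q') ⊗[W₀] M, (LinearMap.ker q').subtype.rTensor M x = 0 := by
    intro x
    induction x using TensorProduct.induction_on with
    | zero => rw [map_zero]
    | tmul y m =>
      obtain ⟨x, hx⟩ := hk y.1 y.2
      rw [LinearMap.rTensor_tmul, Submodule.subtype_apply, ← hx, TensorProduct.smul_tmul, hc,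
        TensorProduct.tmul_zero]
    | add a b ha hb => rw [map_add, ha, hb, add_zero]
  refine len_le_of_injective L (AlgebraTensorModule.rTensor W₀ M q) ?_
  rw [injective_iff_map_eq_zero]
  intro x hx
  obtain ⟨y, rfl⟩ := (h1 x).1 hx
  exact h2 y

/-- an element of `I ⊔ ann X` kills `X / I X`. -/
theorem smul_quot_eq_zero {R : Type u} [CommRing R] (X : Type u) [AddCommGroup X] [Module R X]
    (I : Ideal R) {c : R} (hc : c ∈ I ⊔ Module.annihilator R X) (x : X) :
    c • (Submodule.mkQ (I • ⊤ : Submodule R X) x) = 0 := by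
  obtain ⟨a, ha, b, hb, rfl⟩ := Submodule.mem_sup.1 hc
  rw [← map_smul, add_smul, (Module.mem_annihilator.1 hb) x, add_zero, Submodule.mkQ_apply,
    Submodule.Quotient.mk_eq_zero]
  exact Submodule.smul_mem_smul ha Submodule.mem_top

theorem ofList_pow_le_pow {R : Type u} [CommRing R] (l : List R) {m n : ℕ} (h : m ≤ n) :
    Ideal.ofList (l.map (· ^ n)) ≤ Ideal.ofList (l.map (· ^ m)) := by
  unfold Ideal.ofList
  rw [Ideal.span_le]
  intro x hx
  obtain ⟨y, hy, rfl⟩ := List.mem_map.1 hx
  have h1 : y ^ m ∈ Ideal.span {x | x ∈ l.map (· ^ m)} :=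
    Ideal.subset_span (List.mem_map.2 ⟨y, hy, rfl⟩)
  have h2 : y ^ n = y ^ (n - m) * y ^ m := by rw [← pow_add]; congr 1; omega
  rw [SetLike.mem_coe, h2]
  exact Ideal.mul_mem_left _ _ h1

section lower

variable {W₀ S D : Type u} [CommRing W₀] [IsDomain W₀] [IsDiscreteValuationRing W₀] [CommRing S]
  [IsLocalRing S] [IsNoetherianRing S] [CommRing D] [Algebra W₀ S] [Algebra S D] [Algebra W₀ D]
  [IsScalarTower W₀ S D] (L : AddLen D) {d : ℕ} (π : W₀) (hπ : Irreducible π) {z : Fin d → S}
  (T : Thick S d (algebraMap W₀ S π) z)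
  (hΘ : ∀ (t : ℕ) (w : W₀),
    T.Θ t (algebraMap W₀ S w) = algebraMap S (TB S d t) (algebraMap W₀ S w))
  (hgen : ∀ (s : S) (M : ℕ), ∃ q : MvPolynomial (Fin d) W₀,
    s - MvPolynomial.aeval z q ∈ Ideal.span (Set.range z) ^ M)
  (hres : Surjective ((Ideal.Quotient.mk (maximalIdeal S)).comp (algebraMap W₀ S)))
  (hzm : ∀ i, z i ∈ maximalIdeal S) (hπm : algebraMap W₀ S π ∈ maximalIdeal S)
  (X : Type u) [AddCommGroup X] [Module D X] [Module W₀ X] [IsScalarTower W₀ D X] (ys : List D)
  (h0 : ∀ i, 1 ≤ i → L.len ((KG.KC X (algebraMap W₀ D π :: ys)).H i) = 0)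
  (hz : ∃ l : ℕ, ∀ i, algebraMap S D (z i) ^ l ∈
    Ideal.ofList (algebraMap W₀ D π :: ys) ⊔ Module.annihilator D X)

include hπ hΘ hgen hres hzm hπm h0 hz in
/-- the lower bound. -/
theorem tau_zero_lower (N : Type u) [AddCommGroup N] [Module S N] [Module.Finite S N]
    [Module W₀ N] [IsScalarTower W₀ S N] (a : ℕ) (ha : Module.supportDim S N = a) :
    ∃ κ : ℕ, 1 ≤ κ ∧ ∀ u : ℕ, 1 ≤ u → ((u ^ a : ℕ) : ℝ≥0∞) * ((u : ℝ≥0∞) ^ ys.length *
      L.len ((KG.KC X (algebraMap W₀ D π :: ys)).H 0)) ≤
        tau S L 0 (Th (T.Θ (κ * u)) (TB S d (κ * u)) N) X := by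
  obtain ⟨ss, hsa, hssm, hrad⟩ := exists_sop N a ha
  obtain ⟨l, hl⟩ := hz
  -- a power of the maximal ideal lies in `(ss) + ann N`
  obtain ⟨K, hK⟩ : ∃ K : ℕ, ∀ x ∈ maximalIdeal S, x ^ K ∈
      Ideal.ofList ss ⊔ Module.annihilator S N := by
    obtain ⟨K, hK⟩ := Ideal.exists_pow_le_of_le_radical_of_fg hrad
      (IsNoetherian.noetherian (maximalIdeal S))
    exact ⟨K, fun x hx => by
      have := hK (Ideal.pow_mem_pow hx K)
      rwa [sup_comm] at this⟩
  refine ⟨(K + 1) * (a + 1) * (1 + (l + 1) * (ys.length + 2)), ?_, fun u hu => ?_⟩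
  · exact Nat.mul_pos (Nat.mul_pos (Nat.succ_pos _) (Nat.succ_pos _)) (by omega)
  -- exponents
  obtain ⟨E, hE⟩ : ∃ E : ℕ, E = (K + 1) * ((a + 1) * u) := ⟨_, rfl⟩
  have hEu : u ≤ E := by
    rw [hE]
    calc u = 1 * (1 * u) := by ring
      _ ≤ (K + 1) * ((a + 1) * u) := Nat.mul_le_mul (Nat.succ_pos _)
        (Nat.mul_le_mul_right u (Nat.succ_pos _))
  have hE1 : 1 ≤ E := hu.trans hEu
  -- the quotient of `N`
  let Nb := N ⧸ (Ideal.ofList (ss.map (· ^ u)) • ⊤ : Submodule S N)
  have hkillN : ∀ x ∈ maximalIdeal S, ∀ m : Nb, x ^ E • m = 0 := by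
    intro x hx m
    obtain ⟨m, rfl⟩ := Submodule.mkQ_surjective _ m
    apply smul_quot_eq_zero
    have h1 : x ^ (K + 1) ∈ Ideal.ofList ss ⊔ Module.annihilator S N := by
      rw [pow_succ]
      exact Ideal.mul_mem_right _ _ (hK x hx)
    rw [hE]
    apply pow_mem_sup h1
    rw [hsa, add_mul, one_mul]
    omega
  have hfl : IsFiniteLength S Nb := isFiniteLength_quot N ss hrad u
  have hflW : IsFiniteLength W₀ Nb := isFiniteLength_of hres hfl
  have hlen : ((u ^ a : ℕ) : ℕ∞) ≤ Module.length W₀ Nb := by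
    refine le_trans ?_ (length_le (W₀ := W₀) (S := S) Nb)
    have h1 := pow_le_length N ss hssm (by rw [hsa]; exact ha) u hu
    rw [hsa] at h1
    exact h1
  -- the quotients of `X`
  let Y' := X ⧸ (Ideal.ofList (ys.map (· ^ u)) • ⊤ : Submodule D X)
  let Y := Y' ⧸ (LinearMap.range (LinearMap.lsmul D Y' (algebraMap W₀ D π ^ E)))
  have hkillY : ∀ i (y : Y), algebraMap S D (z i) ^ ((l + 1) * ((ys.length + 1) * E + 1)) • y = 0 := by
    intro i y
    obtain ⟨y, rfl⟩ := Submodule.mkQ_surjective _ y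
    obtain ⟨x, rfl⟩ := Submodule.mkQ_surjective _ y
    have h1 : algebraMap S D (z i) ^ (l + 1) ∈
        Ideal.ofList (algebraMap W₀ D π :: ys) ⊔ Module.annihilator D X := by
      rw [pow_succ]
      exact Ideal.mul_mem_right _ _ (hl i)
    have h2 := pow_mem_sup (n := E) (q := (ys.length + 1) * E + 1) h1 (by
      rw [List.length_cons])
    rw [List.map_cons, Ideal.ofList_cons] at h2
    obtain ⟨b, hb, c, hc, hbc⟩ := Submodule.mem_sup.1 h2
    obtain ⟨b1, hb1, b2, hb2, rfl⟩ := Submodule.mem_sup.1 hb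
    rw [← hbc, ← map_smul, ← map_smul, Submodule.mkQ_apply, Submodule.Quotient.mk_eq_zero,
      add_smul, (Module.mem_annihilator.1 hc) x, add_zero, add_smul, map_add]
    obtain ⟨e, rfl⟩ := Ideal.mem_span_singleton'.1 hb1
    have h3 : (Submodule.mkQ (Ideal.ofList (ys.map (· ^ u)) • ⊤ : Submodule D X)) (b2 • x) = 0 := by
      rw [Submodule.mkQ_apply, Submodule.Quotient.mk_eq_zero]
      exact Submodule.smul_mem_smul (ofList_pow_le_pow ys hEu hb2) Submodule.mem_top
    rw [h3, add_zero]
    exact ⟨e • Submodule.mkQ _ x, by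
      rw [LinearMap.lsmul_apply, smul_smul, ← map_smul, mul_comm]⟩
  have s1 := le_len_ten L X π hπ ys h0 u Nb (u ^ a) hlen hflW
  have s2 : L.len (Y' ⊗[W₀] Nb) ≤ L.len (Y ⊗[W₀] Nb) := by
    refine len_ten_quot L (π ^ E) (Submodule.mkQ _ : Y' →ₗ[D] Y) (Submodule.mkQ_surjective _) ?_
      Nb ?_
    · intro y hy
      rw [Submodule.mkQ_apply, Submodule.Quotient.mk_eq_zero] at hy
      obtain ⟨x, hx⟩ := hy
      refine ⟨x, ?_⟩
      rw [← hx, LinearMap.lsmul_apply, ← map_pow, algebraMap_smul]
    · intro m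
      have := hkillN _ hπm m
      rwa [← map_pow, algebraMap_smul] at this
  have s3 : L.len (Y ⊗[W₀] Nb) ≤
      tau S L 0 (Th (T.Θ ((K + 1) * (a + 1) * (1 + (l + 1) * (ys.length + 2)) * u))
        (TB S d ((K + 1) * (a + 1) * (1 + (l + 1) * (ys.length + 2)) * u)) Nb) Y := by
    refine len_ten_le_tau L Nb Y (T.var _) (hΘ _) hgen E
      ((l + 1) * ((ys.length + 1) * E + 1)) (fun i m => hkillN _ (hzm i) m) hkillY ?_
    have h1 : (K + 1) * (a + 1) * (1 + (l + 1) * (ys.length + 2)) * u =
        E + (l + 1) * ((ys.length + 1) * E + E) := by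
      rw [hE]
      ring
    rw [h1]
    have h2 : (l + 1) * ((ys.length + 1) * E + 1) ≤ (l + 1) * ((ys.length + 1) * E + E) :=
      Nat.mul_le_mul_left _ (by omega)
    omega
  refine s1.trans (s2.trans (s3.trans ?_))
  exact tau_zero_le L _ (Submodule.mkQ _ : N →ₗ[S] Nb) (Submodule.mkQ_surjective _)
    ((Submodule.mkQ _ : Y' →ₗ[D] Y) ∘ₗ (Submodule.mkQ _ : X →ₗ[D] Y'))
    ((Submodule.mkQ_surjective _).comp (Submodule.mkQ_surjective _))

end lower

end Vale.Agent.P177.SL
end

section

/-!
Positivity of the Euler characteristic in the complementary dimension.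
-/

namespace Vale.Agent.P177.SL

open Vale.Agent.P202.Mix Function TensorProduct IsLocalRing
open scoped ENNReal

universe u

/-- **positivity**: `dim S / P + |ys| = d`. -/
theorem chi_pos {W₀ S D : Type u} [CommRing W₀] [IsDomain W₀] [IsDiscreteValuationRing W₀]
    [CommRing S] [IsLocalRing S] [IsNoetherianRing S] [CommRing D] [Algebra W₀ S] [Algebra S D]
    [Module.Flat S D] [Algebra W₀ D] [IsScalarTower W₀ S D] (L : AddLen D) {d : ℕ} (π : W₀)
    (hπ : Irreducible π) {z : Fin d → S} (T : Thick S d (algebraMap W₀ S π) z)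
    (hΘ : ∀ (t : ℕ) (w : W₀),
      T.Θ t (algebraMap W₀ S w) = algebraMap S (TB S d t) (algebraMap W₀ S w))
    (hgen : ∀ (s : S) (M : ℕ), ∃ q : MvPolynomial (Fin d) W₀,
      s - MvPolynomial.aeval z q ∈ Ideal.span (Set.range z) ^ M)
    (hres : Surjective ((Ideal.Quotient.mk (maximalIdeal S)).comp (algebraMap W₀ S)))
    (hzm : ∀ i, z i ∈ maximalIdeal S) (hπm : algebraMap W₀ S π ∈ maximalIdeal S)
    (X : Type u) [AddCommGroup X] [Module D X] [Module W₀ X] [IsScalarTower W₀ D X]
    (ys : List D)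
    (h0 : ∀ i, 1 ≤ i → L.len ((KG.KC X (algebraMap W₀ D π :: ys)).H i) = 0)
    (h1 : L.len ((KG.KC X (algebraMap W₀ D π :: ys)).H 0) ≠ ⊤)
    (h2 : L.len ((KG.KC X (algebraMap W₀ D π :: ys)).H 0) ≠ 0)
    (hz : ∃ l : ℕ, ∀ i, algebraMap S D (z i) ^ l ∈
      Ideal.ofList (algebraMap W₀ D π :: ys) ⊔ Module.annihilator D X)
    (hG : BaseGrowth L (algebraMap W₀ S π) z ys.length X)
    (P : Ideal S) [P.IsPrime] (hXP : Nilp D P X) (gs : List S)
    (hgs : RingTheory.Sequence.IsWeaklyRegular S gs) (hlen : gs.length = ys.length + 1)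
    (hgP : Ideal.ofList gs ≤ P) (s : S) (hs : s ∉ P) (hsP : ∀ x ∈ P, s * x ∈ Ideal.ofList gs)
    (hy : ∀ y ∈ algebraMap W₀ D π :: ys, ∃ l : ℕ, y ^ l ∈
      (Ideal.ofList gs).map (algebraMap S D) ⊔ Module.annihilator D X)
    (a : ℕ) (ha : Module.supportDim S (S ⧸ P) = a) (had : a + ys.length = d) (n : ℕ)
    (hn : tau S L (n + 1) (S ⧸ P) X = 0) : 0 < Vale.Agent.P177.SL.chi S L (n + 1) (S ⧸ P) X := by
  have hPann : P ≤ Module.annihilator S (S ⧸ P) := by
    rw [Ideal.annihilator_quotient]
  have hfin : ∀ i, tau S L i (S ⧸ P) X ≠ ⊤ := fun i => tau_ne_top T hG hXP ⟨a, ha.le⟩ hPann i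
  obtain ⟨hK, -⟩ := tau_ci_eq_zero L X gs hgs (algebraMap W₀ D π :: ys)
    (by rw [List.length_cons]; exact hlen) h0 h1 hy
  let α : S ⧸ P →ₗ[S] S ⧸ Ideal.ofList gs :=
    Submodule.mapQ P (Ideal.ofList gs) (LinearMap.lsmul S S s) (fun x hx => hsP x hx)
  let β : S ⧸ Ideal.ofList gs →ₗ[S] S ⧸ P :=
    Submodule.mapQ (Ideal.ofList gs) P LinearMap.id (fun x hx => hgP hx)
  have hαβ : ∀ x, β (α x) = s • x := by
    intro x
    obtain ⟨x, rfl⟩ := Submodule.Quotient.mk_surjective P x
    rfl
  obtain ⟨C, hC, hup⟩ := tau_higher T hG P hXP hK s hs α β hαβ a ha.le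
  obtain ⟨κ, hκ, hlow⟩ := tau_zero_lower L π hπ T hΘ hgen hres hzm hπm X ys h0 hz (S ⧸ P) a ha
  obtain ⟨μ, hμ⟩ : ∃ μ : ℝ, μ = (L.len ((KG.KC X (algebraMap W₀ D π :: ys)).H 0)).toReal :=
    ⟨_, rfl⟩
  have hμ0 : 0 < μ := by
    rw [hμ]
    exact ENNReal.toReal_pos h2 h1
  by_contra hneg
  have hneg' : Vale.Agent.P177.SL.chi S L (n + 1) (S ⧸ P) X ≤ 0 := not_lt.1 hneg
  -- the estimate for `t = κ u`
  have key : ∀ u : ℕ, 1 ≤ u → (u : ℝ) * μ ≤ n * (C.toReal * (κ : ℝ) ^ d) := by
    intro u hu
    have ht : 1 ≤ κ * u := Nat.mul_pos hκ hu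
    have hu0 : (0 : ℝ) < u := by exact_mod_cast hu
    have hκ0 : (0 : ℝ) < κ := by exact_mod_cast hκ
    have hκ1 : (1 : ℝ) ≤ κ := by exact_mod_cast hκ
    have e1 := chi_thick L (T.Θ (κ * u)) (T.near (κ * u)) (S ⧸ P) X hfin (n + 1) hn
    have e2 : Vale.Agent.P177.SL.chi S L (n + 1) (Th (T.Θ (κ * u)) (TB S d (κ * u)) (S ⧸ P)) X ≤ 0 := by
      rw [e1]
      exact mul_nonpos_of_nonneg_of_nonpos (by positivity) hneg'
    have e3 := le_chi (S := S) L (X := X) (N := Th (T.Θ (κ * u)) (TB S d (κ * u)) (S ⧸ P)) n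
    have e4 : (u : ℝ) ^ d * μ ≤
        (tau S L 0 (Th (T.Θ (κ * u)) (TB S d (κ * u)) (S ⧸ P)) X).toReal := by
      have hne : tau S L 0 (Th (T.Θ (κ * u)) (TB S d (κ * u)) (S ⧸ P)) X ≠ ⊤ := by
        refine ne_top_of_le_ne_top ?_ (tau_thick_le L (T.Θ (κ * u)) (T.near (κ * u)) (S ⧸ P) X 0)
        exact ENNReal.mul_ne_top (by finiteness) (hfin 0)
      have h3 := ENNReal.toReal_mono hne (hlow u hu)
      rw [ENNReal.toReal_mul, ENNReal.toReal_mul, ENNReal.toReal_pow, ENNReal.toReal_natCast,
        ENNReal.toReal_natCast, ← hμ] at h3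
      calc (u : ℝ) ^ d * μ = ((u ^ a : ℕ) : ℝ) * ((u : ℝ) ^ ys.length * μ) := by
            rw [← had, pow_add]
            push_cast
            ring
        _ ≤ _ := h3
    have e5 : ((κ * u : ℕ) : ℝ) * ∑ i ∈ Finset.range n,
        (tau S L (i + 1) (Th (T.Θ (κ * u)) (TB S d (κ * u)) (S ⧸ P)) X).toReal ≤
          n * (C.toReal * ((κ * u : ℕ) : ℝ) ^ d) := by
      rw [Finset.mul_sum]
      refine (Finset.sum_le_card_nsmul _ _ (C.toReal * ((κ * u : ℕ) : ℝ) ^ d)
        fun i _ => ?_).trans ?_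
      · have h3 := ENNReal.toReal_mono (by finiteness) (hup (κ * u) ht (i + 1) (Nat.succ_pos i))
        rw [ENNReal.toReal_mul, ENNReal.toReal_mul, ENNReal.toReal_pow, ENNReal.toReal_natCast,
          had] at h3
        exact h3
      · rw [Finset.card_range, nsmul_eq_mul]
    have e6 : (u : ℝ) ^ d * μ ≤ ∑ i ∈ Finset.range n,
        (tau S L (i + 1) (Th (T.Θ (κ * u)) (TB S d (κ * u)) (S ⧸ P)) X).toReal := by linarith
    have e7 : (u : ℝ) * ((u : ℝ) ^ d * μ) ≤ ((κ * u : ℕ) : ℝ) * ∑ i ∈ Finset.range n,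
        (tau S L (i + 1) (Th (T.Θ (κ * u)) (TB S d (κ * u)) (S ⧸ P)) X).toReal := by
      refine mul_le_mul ?_ e6 (by positivity) (by positivity)
      push_cast
      exact le_mul_of_one_le_left hu0.le hκ1
    have e8 : (u : ℝ) ^ d * ((u : ℝ) * μ) ≤ (u : ℝ) ^ d * (n * (C.toReal * (κ : ℝ) ^ d)) := by
      calc (u : ℝ) ^ d * ((u : ℝ) * μ) = (u : ℝ) * ((u : ℝ) ^ d * μ) := by ring
        _ ≤ n * (C.toReal * ((κ * u : ℕ) : ℝ) ^ d) := e7.trans e5
        _ = (u : ℝ) ^ d * (n * (C.toReal * (κ : ℝ) ^ d)) := by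
            push_cast
            rw [mul_pow]
            ring
    exact le_of_mul_le_mul_left e8 (pow_pos hu0 _)
  obtain ⟨u, hu⟩ := exists_nat_gt (n * (C.toReal * (κ : ℝ) ^ d) / μ)
  rw [div_lt_iff₀ hμ0] at hu
  have h5 := key (u + 1) (Nat.succ_pos u)
  have h6 : (u : ℝ) * μ ≤ ((u + 1 : ℕ) : ℝ) * μ := by
    gcongr
    exact_mod_cast Nat.le_succ u
  linarith

end Vale.Agent.P177.SL
end

section

/-!
P177, inner assembly: the statement `RhoStmt` from the independence of the Koszul characteristic of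
the ideals `J` of `C`.
-/

namespace Vale.Agent.P177.Full

open TensorProduct IsLocalRing RingTheory.Sequence Function Module Vale.Agent.P177.Flag
  Vale.Agent.P202.Mix Vale.Agent.P177.Lev WittVector Vale.Agent.P177.KG Vale.Agent.P177.PI
  Vale.Agent.P177.KM Vale.Agent.P177.Perf
open scoped ENNReal

universe u

section YJ

variable {p : ℕ} [hp : Fact p.Prime] {C : Type u} [CommRing C] [CharP C p] [PerfectRing C p]

/-- `H_i(p :: xs; WI J / ξ) = H_i([t] :: xs; J)`. -/
theorem len_KC_JSh (L : ALen (WittVector p C)) {J : Ideal C} (hJ : IsPerf p J) {t : C}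
    (ht : t ∈ nonZeroDivisors C) (xs : List (WittVector p C)) (i : ℕ) :
    letI := algW p C
    L.len ((KC (Ap.JSh (Ap.xiW p t) (WI p J)) ((p : WittVector p C) :: xs)).H i) =
      L.len ((KC ↥J (teichmuller p t :: xs)).H i) := by
  let _ := algW p C
  refine MN.KC_len_WIE L (fun r => rfl) hJ (teichmuller p t) ?_
    ((p : WittVector p C) - teichmuller p t) (-1) ?_ (Submodule.mkQ _)
    (Submodule.mkQ_surjective _) (fun x => ?_) xs i
  · change (teichmuller p t).coeff 0 ∈ nonZeroDivisors C
    rw [teichmuller_coeff_zero]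
    exact ht
  · rw [SL.coeff_zero_xi]
    change _ = _ * (teichmuller p t).coeff 0
    rw [teichmuller_coeff_zero]
    simp
  · rw [Submodule.mkQ_apply]
    exact Ap.JSh.mk_eq_zero_iff x

end YJ

namespace Core

variable {p : ℕ} [Fact p.Prime] {R : Type u} [CommRing R] [IsRegularLocalRing R]
    [CharP (ResidueField R) p] [PerfectRing (ResidueField R) p] {d : ℕ} {P : Ideal R}
    {hs : List R} {r : ℕ} [IsRegularLocalRing (Lam p (ResidueField R) r)]
    [Algebra (Lam p (ResidueField R) r) R] {Ω : Type u} [Field Ω]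
    [Algebra (Lam p (ResidueField R) r) Ω] {F : Fin 2 → FlagMod (Lam p (ResidueField R) r) Ω hs}
    (X : Core p d P hs r Ω F)

theorem la_X (l : Fin r) : X.la (MvPowerSeries.X l) =
    teichmuller p (xC p (ResidueField R) r X.K.C l.succ) := by
  change (WittVector.map _) (X.ψ (MvPowerSeries.X l)) = _
  rw [X.base.psi_u, map_teichmuller]

theorem parL_map_la : (parL p (ResidueField R) r).map X.la =
    (p : WittVector p X.K.C) :: List.ofFn fun l : Fin r =>
      teichmuller p (xC p (ResidueField R) r X.K.C l.succ) := by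
  rw [parL, List.map_cons, map_natCast, List.map_ofFn]
  congr 2
  funext l
  exact X.la_X l

theorem len_KC_YJ (J : Ideal X.K.C) (hJ : IsPerf p J) (j : ℕ) :
    letI := algW p X.K.C
    X.K.mass.len ((KC (R := WittVector p X.K.C) (X.YJ J)
      ((parL p (ResidueField R) r).map X.la)).H j) =
    X.K.mass.len ((KC (R := WittVector p X.K.C) ↥J
      (List.ofFn fun l => teichmuller p (xC p (ResidueField R) r X.K.C l))).H j) := by
  let _ := algW p X.K.C
  rw [X.parL_map_la, List.ofFn_succ]
  exact len_KC_JSh (ALen.of X.K.mass) hJ X.K.t_reg _ j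

end Core

end Vale.Agent.P177.Full
end

section

/-!
P177, inner assembly: `RhoStmt` holds for all ideals of the flag family.
-/

namespace Vale.Agent.P177.Full

open TensorProduct IsLocalRing RingTheory.Sequence Function Module Vale.Agent.P177.Flag
  Vale.Agent.P202.Mix Vale.Agent.P177.Lev WittVector Vale.Agent.P177.KG Vale.Agent.P177.PI
  Vale.Agent.P177.KM Vale.Agent.P177.Perf
open scoped ENNReal

universe u

namespace Core

variable {p : ℕ} [Fact p.Prime] {R : Type u} [CommRing R] [IsRegularLocalRing R]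
    [CharP (ResidueField R) p] [PerfectRing (ResidueField R) p] {d : ℕ} {P : Ideal R}
    {hs : List R} {r : ℕ} [IsRegularLocalRing (Lam p (ResidueField R) r)]
    [Algebra (Lam p (ResidueField R) r) R] {Ω : Type u} [Field Ω]
    [Algebra (Lam p (ResidueField R) r) Ω] {F : Fin 2 → FlagMod (Lam p (ResidueField R) r) Ω hs}
    (X : Core p d P hs r Ω F)

/-- **RHO**. -/
theorem rhoStmt (hN : Norm p R r hs) (i : Fin 2) (z : Fin (F i).n → ℤ) :
    X.RhoStmt (X.K.J (F i).n (X.pl i) z) := by
  let _ := algW p X.K.C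
  have hdom : IsDomain (Lam p (ResidueField R) r) := regular_isDomain _
  have hJ := X.K.isPerf_J (F i).n (X.pl i) z
  have hmax : maximalIdeal (Lam p (ResidueField R) r) = Ideal.span (insert
      (p : Lam p (ResidueField R) r) (Set.range fun i : Fin r => MvPowerSeries.X i)) := by
    rw [hN.max, Set.singleton_union]
  obtain ⟨γ, w, hγ, hw, hrel⟩ := X.exists_gam i z
  have hfin : ∀ j, X.K.mass.len ((KC (R := WittVector p X.K.C) ↥(X.K.J (F i).n (X.pl i) z)
      (List.ofFn fun l => teichmuller p (xC p (ResidueField R) r X.K.C l))).H j) ≠ ⊤ :=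
    fun j => (X.KC_J_lt_top i z j).ne
  have hn : ∀ e, p ^ X.K.j e * (X.K.j e) ≤ X.K.I e + 1 := by
    intro e
    have h1 := X.K.le_I e
    have h2 := X.gr_le (X.K.j e)
    have h4 : 1 ≤ p ^ X.K.j e := Nat.one_le_pow _ _ (Fact.out : p.Prime).pos
    calc p ^ X.K.j e * X.K.j e ≤ p ^ X.K.j e * ((X.K.j e + 2 * X.c0) * p ^ X.K.j e) := by
          refine Nat.mul_le_mul_left _ ?_
          calc X.K.j e ≤ (X.K.j e + 2 * X.c0) * 1 := by omega
            _ ≤ _ := Nat.mul_le_mul_left _ h4
      _ = (X.K.j e + 2 * X.c0) * (p ^ X.K.j e * p ^ X.K.j e) := by ring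
      _ ≤ _ := by omega
  have key := X.K.kchi_pi hmax (prime_p_lam p (ResidueField R) r)
    (fun l => X.base.psi_u l) X.ε_ne
    (fun e => PI.JJ p (X.K.IJ (F i).n (X.pl i) e) z) (fun e => CN.SP_perfHull _) γ hγ
    (teichmuller p X.K.η * w) (Ideal.mul_mem_left _ _ hw) (fun e => X.K.j e)
    (fun M => ⟨M, fun e he => he.trans ((Nat.le_add_right _ _).trans (X.K.le_j e))⟩)
    (by rw [← mul_sub]; exact hrel _ hn) hfin (r + 2) (by omega)
  refine ⟨fun j => ?_, ?_⟩
  · rw [X.len_KC_YJ _ hJ j]
    exact hfin j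
  · have h1 : ∑ j ∈ Finset.range (r + 2), (-1 : ℝ) ^ j * (X.K.mass.len
      ((KC (R := WittVector p X.K.C) (X.YJ (X.K.J (F i).n (X.pl i) z))
        ((parL p (ResidueField R) r).map X.la)).H j)).toReal =
        ∑ j ∈ Finset.range (r + 2), (-1 : ℝ) ^ j * (X.K.mass.len
      ((KC (R := WittVector p X.K.C) ↥(X.K.J (F i).n (X.pl i) z)
        (List.ofFn fun l => teichmuller p (xC p (ResidueField R) r X.K.C l))).H j)).toReal :=
      Finset.sum_congr rfl fun j _ => by rw [X.len_KC_YJ _ hJ j]
    rw [h1]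
    refine Eq.trans ?_ key
    rw [Rho.kchi, Finset.sum_range_succ _ (r + 2)]
    have h2 : X.K.mass.len ((KC (R := WittVector p X.K.C) ↥(X.K.J (F i).n (X.pl i) z)
        (List.ofFn fun l => teichmuller p (xC p (ResidueField R) r X.K.C l))).H (r + 2)) = 0 :=
      KC_len_eq_zero (ALen.of X.K.mass) _ _ (by rw [List.length_ofFn]; omega)
    have h3 : (-1 : ℝ) ^ (r + 2) * (X.K.mass.len ((KC (R := WittVector p X.K.C)
        (Ideal.pi fun e => PI.JJ p (X.K.IJ (F i).n (X.pl i) e) z : Ideal X.K.C)
        X.K.xs).H (r + 2))).toReal = 0 := by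
      have h4 : X.K.mass.len ((KC (R := WittVector p X.K.C)
        (Ideal.pi fun e => PI.JJ p (X.K.IJ (F i).n (X.pl i) e) z : Ideal X.K.C)
        X.K.xs).H (r + 2)) = 0 := h2
      rw [h4, ENNReal.toReal_zero, mul_zero]
    rw [h3, add_zero]
    rfl

end Core

end Vale.Agent.P177.Full
end

section

/-!
P177, block LEV: positivity at one level.
-/

namespace Vale.Agent.P177.Lev

open Vale.Agent.P202.Mix Vale.Agent.P202.Mix.UL WittVector Vale.Agent.P177.Perf
open Vale.Agent.P177.PI hiding rt
open scoped ENNReal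

universe u

section E1

variable {p : ℕ} [Fact p.Prime] {C : Type u} [CommRing C] [CharP C p] [PerfectRing C p]

theorem rt_pow_add (j f n : ℕ) (x : C) : (rt p j x ^ n) ^ p ^ (f + j) = x ^ (n * p ^ f) := by
  rw [← pow_mul, mul_comm n, pow_add, mul_comm (p ^ f), mul_assoc, pow_mul]
  have h1 : rt p j x ^ p ^ j = x := rt_pow_self p C x j
  rw [h1, mul_comm n]

theorem rt_mem_of_perfHull {x a b : C} (h : x ∈ perfHull p (Ideal.span {a, b})) (j n : ℕ) :
    rt p j x ^ (2 * n) ∈ Ideal.span {rt p j a ^ n, rt p j b ^ n} := by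
  obtain ⟨f, hf⟩ := h
  have h1 : (rt p j x ^ (2 * n)) ^ p ^ (f + j) ∈
      Ideal.span {a ^ (n * p ^ f)} ⊔ Ideal.span {b ^ (n * p ^ f)} := by
    rw [rt_pow_add]
    have h2 := Ideal.pow_mem_pow hf (2 * n)
    rw [← pow_mul, ← pow_mul, mul_comm (p ^ f), Ideal.span_insert,
      show 2 * n * p ^ f = n * p ^ f + n * p ^ f by ring] at h2
    have h3 := Ideal.sup_pow_add_le_pow_sup_pow h2
    rw [Ideal.span_singleton_pow, Ideal.span_singleton_pow] at h3
    rw [show 2 * n * p ^ f = n * p ^ f + n * p ^ f by ring]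
    exact h3
  obtain ⟨y, hy, z, hz, hyz⟩ := Submodule.mem_sup.1 h1
  obtain ⟨α, rfl⟩ := Ideal.mem_span_singleton'.1 hy
  obtain ⟨β, rfl⟩ := Ideal.mem_span_singleton'.1 hz
  rw [Ideal.mem_span_pair]
  refine ⟨rt p (f + j) α, rt p (f + j) β, ?_⟩
  refine rt_inj (p := p) (e := f + j) ?_
  rw [← hyz, add_pow_char_pow, mul_pow, mul_pow, rt_pow_add, rt_pow_add]
  have h4 : ∀ y : C, rt p (f + j) y ^ p ^ (f + j) = y := fun y => rt_pow_self p C y (f + j)
  rw [h4, h4]

end E1

section E2

variable {p : ℕ} [Fact p.Prime] {k : Type u} [Field k] [CharP k p] {r : ℕ}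
variable {C : Type u} [CommRing C] [CharP C p] [PerfectRing C p] [Algebra (Rp p k r) C]

/-- transfer from `O` to the hull. -/
theorem mem_perfHull_of {z x : C} {w : WittVector p C} {I : ℕ}
    (h : teichmuller p x - teichmuller p z * w ∈ xiM p k r C (I + 1)) :
    x ∈ perfHull p (Ideal.span {z, tC p k r C ^ (I + 1)}) := by
  obtain ⟨v1, v2, h1⟩ := (mem_xiM_iff_exists _ _).1 h
  set t := tC p k r C with ht
  set K := perfHull p (Ideal.span {z, t ^ (I + 1)}) with hKdef
  have hK : IsPerf p K := isPerf_perfHull p _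
  have hz : z ∈ K := le_perfHull (Ideal.subset_span (Set.mem_insert _ _))
  have htK : t ^ (I + 1) ∈ K :=
    le_perfHull (Ideal.subset_span (Set.mem_insert_of_mem _ rfl))
  have hT : IsPerf p (⊤ : Ideal C) := fun _ _ _ _ _ _ _ _ => Submodule.mem_top
  have h2 : (∑ i ∈ Finset.range (I + 1), (p : WittVector p C) ^ i *
      teichmuller p t ^ (I + 1 - 1 - i)) * ((p : WittVector p C) - teichmuller p t) =
      (p : WittVector p C) ^ (I + 1) - teichmuller p t ^ (I + 1) :=
    (Commute.all (p : WittVector p C) (teichmuller p t)).geom_sum₂_mul (I + 1)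
  set S := ∑ i ∈ Finset.range (I + 1), (p : WittVector p C) ^ i *
      teichmuller p t ^ (I + 1 - 1 - i)
  have hWT : ∀ y : WittVector p C, y ∈ WI p (⊤ : Ideal C) := by
    intro y
    rw [mem_WI]
    intro N
    have h3 : (1 : WittVector p C) ∈ TI p (⊤ : Ideal C) := by
      rw [← map_one (teichmuller p)]
      exact te_mem_TI p Submodule.mem_top
    have h4 := TI_le_TN p (⊤ : Ideal C) N h3
    rw [← mul_one y]
    exact Ideal.mul_mem_left _ _ h4
  refine te_transfer p hK hT t x (I + 1) (fun y _ => Ideal.mul_mem_right _ _ htK)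
    Submodule.mem_top (v := v1 + S * v2) (j := teichmuller p z * w +
      teichmuller p (t ^ (I + 1)) * v2) (hWT _) ?_ ?_
  · exact add_mem (Ideal.mul_mem_right _ _ (te_mem_WI p hz))
      (Ideal.mul_mem_right _ _ (te_mem_WI p htK))
  · rw [map_pow]
    linear_combination h1 - v2 * h2

/-- two elements of `C` congruent modulo `t` act in the same way on `W(C)/(p, [t], [u])`. -/
theorem te_sub_mem_vW {a b : C} (h : a - b ∈ vI p k r C) :
    teichmuller p a - teichmuller p b ∈ vW p k r C := by
  rw [mem_vW_iff]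
  have : (teichmuller p a - teichmuller p b).coeff 0 =
      constantCoeff (teichmuller p a - teichmuller p b) := rfl
  rw [this, map_sub]
  change (teichmuller p a).coeff 0 - (teichmuller p b).coeff 0 ∈ _
  rwa [teichmuller_coeff_zero, teichmuller_coeff_zero]

omit [CharP C p] [PerfectRing C p] in
theorem sm_congr {x y : WittVector p C} (h : x - y ∈ vW p k r C) :
    sm x (WittVector p C ⧸ vW p k r C) = sm y (WittVector p C ⧸ vW p k r C) := by
  have h1 : ∀ m : WittVector p C ⧸ vW p k r C, x • m = y • m := by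
    intro m
    obtain ⟨m, rfl⟩ := Ideal.Quotient.mk_surjective m
    change Ideal.Quotient.mk (vW p k r C) (x * m) = Ideal.Quotient.mk (vW p k r C) (y * m)
    rw [Ideal.Quotient.eq, ← sub_mul]
    exact Ideal.mul_mem_right _ _ h
  ext m
  rw [mem_sm, mem_sm]
  simp only [h1]

omit [CharP C p] [PerfectRing C p] in
theorem sm_mul_le (x y : WittVector p C) :
    sm (x * y) (WittVector p C ⧸ vW p k r C) ≤ sm x (WittVector p C ⧸ vW p k r C) := by
  intro m hm
  obtain ⟨z, rfl⟩ := mem_sm.1 hm
  exact mem_sm.2 ⟨y • z, by rw [smul_smul]⟩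

omit [CharP C p] [PerfectRing C p] in
/-- the quotient by `x (W(C)/vW)` -/
theorem len_quot_sm (L : AddLen (WittVector p C)) (x : WittVector p C) :
    L.len ((WittVector p C ⧸ vW p k r C) ⧸ sm x (WittVector p C ⧸ vW p k r C)) =
      L.len (WittVector p C ⧸ (vW p k r C ⊔ Ideal.span {x})) := by
  have h1 : sm x (WittVector p C ⧸ vW p k r C) =
      Submodule.map (vW p k r C).mkQ (vW p k r C ⊔ Ideal.span {x}) := by
    ext m
    rw [mem_sm]
    constructor
    · rintro ⟨z, rfl⟩
      obtain ⟨z, rfl⟩ := Submodule.Quotient.mk_surjective _ z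
      refine ⟨x * z, ?_, rfl⟩
      exact Ideal.mul_mem_right _ _ ((le_sup_right : _ ≤ vW p k r C ⊔ Ideal.span {x})
        (Ideal.mem_span_singleton_self x))
    · rintro ⟨y, hy, rfl⟩
      obtain ⟨a, ha, b, hb, rfl⟩ := Submodule.mem_sup.1 hy
      obtain ⟨c, rfl⟩ := Ideal.mem_span_singleton'.1 hb
      refine ⟨Submodule.Quotient.mk c, ?_⟩
      rw [map_add]
      have h2 : (vW p k r C).mkQ a = 0 := (Submodule.Quotient.mk_eq_zero _).2 ha
      rw [h2, zero_add, mul_comm]
      rfl
  rw [h1]
  exact len_congr L (Submodule.quotientQuotientEquivQuotient (vW p k r C)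
    (vW p k r C ⊔ Ideal.span {x}) le_sup_left)

end E2

end Vale.Agent.P177.Lev
end

section

/-!
P177, block LEV: positivity at one level, the sum over all choices of roots.
-/

namespace Vale.Agent.P177.Lev

open Vale.Agent.P202.Mix Vale.Agent.P202.Mix.UL WittVector Vale.Agent.P177.Perf
open Vale.Agent.P177.PI hiding rt
open scoped ENNReal

universe u

variable {p : ℕ} [Fact p.Prime] {k : Type u} [Field k] [CharP k p] {r : ℕ}

theorem ker_ccV_eq {r0 : ℕ} (d : PExt.{u} p k r r0) :
    RingHom.ker (Vale.Agent.P177.Pos.ccV d) = vW p k r d.C := by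
  ext x
  rw [mem_vW_iff, RingHom.mem_ker]
  exact Ideal.Quotient.eq_zero_iff_mem

/-- the form of `γ` for which the smallness holds -/
structure SmallForm {r0 : ℕ} (d : PExt.{u} p k r r0) (a Cg : ℕ) (γ : d.C) : Prop where
  ex : ∃ (g : R0 k r) (x : d.C), (∀ q c : ℕ, 1 ≤ q → 1 ≤ c →
      (q : ℝ≥0∞) * ENat.toENNReal (Module.length (R0 k r) (R0 k r ⧸ Ideal.span
        ({(MvPowerSeries.X 0 : R0 k r), g ^ c} ∪
          Set.range fun i : Fin r => (MvPowerSeries.X i.succ : R0 k r) ^ q))) ≤
        (c * Cg * q ^ r : ℕ)) ∧ γ = tC p k r d.C ^ a *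
      (algebraMap (Rp p k r) d.C (PerfectClosure.of (R0 k r) p g) + rt p 1 (tC p k r d.C) * x)

theorem small_of {r0 : ℕ} (d : PExt.{u} p k r r0) (L : AddLen (WittVector p d.C))
    (hL : L.len (WittVector p d.C ⧸ vW p k r d.C) = 1) {a Cg : ℕ} {γ : d.C}
    (h : SmallForm d a Cg γ) (j c : ℕ) (hc : 1 ≤ c) :
    L.len ((WittVector p d.C ⧸ vW p k r d.C) ⧸
      sm (teichmuller p (rt p j γ) ^ c) (WittVector p d.C ⧸ vW p k r d.C)) ≤
      (p * c * (a + Cg) : ℕ) / (p : ℝ≥0∞) ^ j := by
  obtain ⟨g, x, h1, h2⟩ := h.ex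
  rw [len_quot_sm]
  have h3 := Vale.Agent.P177.Pos.small d L (by rw [ker_ccV_eq]; exact hL) g Cg h1 a x γ h2 j c hc
  rw [ker_ccV_eq] at h3
  exact h3

variable {Λ : Type u} [CommRing Λ] {ψ : Λ →+* WittVector p (Rp p k r)}
variable {s D : ℕ} {G : Fin s → Polynomial Λ} {E : MvPolynomial (Fin s) Λ} {g : Λ} {I r0 : ℕ}
  (d : CData.{u} ψ (D := D) G E g I r0)

/-- the element `Θ_π`. -/
noncomputable def Thπ (nz : Finset (Fin s)) (γ : d.C) (π : Fin s → Fin D) : d.C :=
  d.δ π * γ * ∏ l ∈ nz, d.c l (π l)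

theorem sm_le_of_hull {nz : Finset (Fin s)} {γ : d.C} {π : Fin s → Fin D} {w : WittVector p d.C}
    (h : teichmuller p (d.δ π * γ) - teichmuller p (∏ l ∈ nz, d.c l (π l)) * w ∈
      xiM p k r d.C (I + 1)) {j n : ℕ} (hn : 1 ≤ n) (hj : p ^ j ≤ I + 1) :
    sm (teichmuller p (rt p j (d.δ π * γ)) ^ (3 * n)) (WittVector p d.C ⧸ vW p k r d.C) ≤
      sm (teichmuller p (rt p j (Thπ d nz γ π)) ^ n) (WittVector p d.C ⧸ vW p k r d.C) := by
  set z := ∏ l ∈ nz, d.c l (π l) with hz
  set x := d.δ π * γ with hx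
  have h1 := rt_mem_of_perfHull (mem_perfHull_of h) j n
  obtain ⟨y, y', hy⟩ := Ideal.mem_span_pair.1 h1
  have h2 : rt p j (tC p k r d.C ^ (I + 1)) ∈ Ideal.span {tC p k r d.C ^ 1} :=
    rt_mem_span p (tC p k r d.C) (e := j) (m := 1) (by rw [one_mul]; exact hj)
      (Ideal.mem_span_singleton_self _)
  have h3 : Ideal.span {tC p k r d.C ^ 1} ≤ vI p k r d.C := by
    rw [pow_one, Ideal.span_singleton_le_iff_mem]
    exact Ideal.subset_span ⟨0, rfl⟩
  have h4 : rt p j x ^ (2 * n) - y * rt p j z ^ n ∈ vI p k r d.C := by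
    rw [← hy, add_sub_cancel_left]
    refine Ideal.mul_mem_left _ _ ?_
    exact Ideal.pow_mem_of_mem _ (h3 h2) _ (by omega)
  have h5 : rt p j x ^ (3 * n) - y * rt p j (x * z) ^ n ∈ vI p k r d.C := by
    have h6 := Ideal.mul_mem_left _ (rt p j x ^ n) h4
    have h7 : rt p j x ^ n * (rt p j x ^ (2 * n) - y * rt p j z ^ n) =
        rt p j x ^ (3 * n) - y * rt p j (x * z) ^ n := by
      rw [rt_mul' p j x z, show 3 * n = n + 2 * n by ring, pow_add, mul_pow]
      ring
    rwa [h7] at h6
  have h8 := te_sub_mem_vW h5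
  rw [map_pow, map_mul, map_pow] at h8
  rw [sm_congr h8, mul_comm]
  exact sm_mul_le _ _

variable {Ω : Type u} [Field Ω] [Algebra Λ Ω] (hinj : Function.Injective (algebraMap Λ Ω))
  (b : Fin s → Ω) (hGm : ∀ l, (G l).Monic) (hGD : ∀ l, (G l).natDegree = D)
  (hGb : ∀ l, Polynomial.aeval (b l) (G l) = 0)
  (hEg : MvPolynomial.aeval b E = algebraMap Λ Ω g)
  (hE : ∀ f : MvPolynomial (Fin s) Λ, MvPolynomial.aeval b f = 0 →
    E * f ∈ Ideal.span (Set.range fun j => Polynomial.toMvPolynomial j (G j)))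

include hinj hGm hGD hGb hEg hE in
theorem level_sum (L : AddLen (WittVector p d.C))
    (hL : L.len (WittVector p d.C ⧸ vW p k r d.C) = 1) {nz : Finset (Fin s)} {γ : d.C}
    (w : (Fin s → Fin D) → WittVector p d.C)
    (hw : ∀ π, teichmuller p (d.δ π * γ) - teichmuller p (∏ l ∈ nz, d.c l (π l)) * w π ∈
      xiM p k r d.C (I + 1)) {a1 C1 a3 C3 : ℕ}
    (h1 : ∀ π, SmallForm d.toPExt a1 C1 (d.δ π + d.δ' π)) (h3 : SmallForm d.toPExt a3 C3 γ)
    {j n : ℕ} (hn : 1 ≤ n) (hj : p ^ j ≤ I + 1) :
    1 ≤ ∑ π, (L.len (sm (teichmuller p (rt p j (Thπ d nz γ π)) ^ n)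
      (WittVector p d.C ⧸ vW p k r d.C)) + ((p * (3 * n) * (a3 + C3) : ℕ) / (p : ℝ≥0∞) ^ j +
        (p * (3 * n) * (a1 + C1) : ℕ) / (p : ℝ≥0∞) ^ j)) := by
  have ht := tC_mem_nonZeroDivisors d.toPExt
  obtain ⟨m, hm⟩ : ∃ m, 3 * n = m + 1 := ⟨3 * n - 1, by omega⟩
  have hvt : Ideal.span {tC p k r d.C ^ 1} ≤ vI p k r d.C := by
    rw [pow_one, Ideal.span_singleton_le_iff_mem]
    exact Ideal.subset_span ⟨0, rfl⟩
  have hk : ∀ y ∈ Ideal.span {tC p k r d.C ^ (I + 1)},
      ∀ m : WittVector p d.C ⧸ vW p k r d.C, teichmuller p (rt p j y) • m = 0 := by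
    intro y hy m
    have h1 := rt_mem_span p (tC p k r d.C) (e := j) (m := 1) (by rw [one_mul]; exact hj) hy
    obtain ⟨m, rfl⟩ := Ideal.Quotient.mk_surjective m
    change Ideal.Quotient.mk (vW p k r d.C) (teichmuller p (rt p j y) * m) = 0
    rw [Ideal.Quotient.eq_zero_iff_mem]
    refine Ideal.mul_mem_right _ _ ?_
    rw [mem_vW_iff, teichmuller_coeff_zero]
    exact hvt h1
  have key := len_le_sum L (M := WittVector p d.C ⧸ vW p k r d.C)
    (fun π => teichmuller p (rt p j (d.δ π))) (fun π => teichmuller p (rt p j (d.δ' π)))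
    (fun π m => by
      rw [← map_mul, ← rt_mul']
      exact hk _ (delta_mul_mem p (tC p k r d.C) ht (laB ψ d.C) G b E g hEg hE d.c d.δ d.δ'
        d.split d.hδ d.hδ' π) m)
    (fun m => by
      rw [← map_prod, ← rt_prod']
      exact hk _ (prod_delta_mem p (tC p k r d.C) ht hinj (laB ψ d.C) G hGm hGD b hGb E g hEg
        d.c d.δ' d.split d.hδ') m) m
  rw [hL, ← hm] at key
  refine key.trans (Finset.sum_le_sum fun π _ => ?_)
  have e1 : teichmuller p (rt p j (d.δ π)) + teichmuller p (rt p j (d.δ' π)) -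
      teichmuller p (rt p j (d.δ π + d.δ' π)) ∈ vW p k r d.C := by
    rw [rt_add', ← neg_sub]
    exact neg_mem (te_add_sub_mem _ _)
  have e2 : (teichmuller p (rt p j (d.δ π)) + teichmuller p (rt p j (d.δ' π))) ^ (3 * n) -
      teichmuller p (rt p j (d.δ π + d.δ' π)) ^ (3 * n) ∈ vW p k r d.C := by
    rw [← Ideal.Quotient.eq] at e1 ⊢
    rw [map_pow, map_pow, e1]
  rw [sm_congr e2]
  have e3 := small_of d.toPExt L hL (h1 π) j (3 * n) (by omega)
  have e4 := small_of d.toPExt L hL h3 j (3 * n) (by omega)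
  have e5 := len_sm_le L (M := WittVector p d.C ⧸ vW p k r d.C)
    (teichmuller p (rt p j (d.δ π)) ^ (3 * n)) (teichmuller p (rt p j γ) ^ (3 * n))
  rw [← mul_pow, ← map_mul, ← rt_mul'] at e5
  have e6 := Vale.Agent.P177.Lim.len_sub_mono L (sm_le_of_hull d (hw π) hn hj)
  rw [← add_assoc]
  exact add_le_add (e5.trans (add_le_add e6 e4)) e3

end Vale.Agent.P177.Lev
end

section

/-!
P202 MIX, M6 (helper666): a generic idempotent, and monic polynomials with a simple root.
-/

namespace Vale.Agent.P202.Mix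

open Polynomial TensorProduct IsLocalRing

universe u

section aux

/-- A finite torsion-free module over a domain: a dual basis up to a nonzero denominator. -/
theorem exists_dual_family {Λ A : Type u} [CommRing Λ] [IsDomain Λ] [AddCommGroup A]
    [Module Λ A] [Module.Finite Λ A] :
    ∃ (ι : Type) (_ : Fintype ι) (e : ι → A) (φ : ι → (A →ₗ[Λ] Λ)) (d : Λ), d ≠ 0 ∧
      ∀ x : A, d • x = ∑ i, φ i x • e i := by
  classical
  obtain ⟨n, v, hv⟩ := Module.Finite.exists_fin (R := Λ) (M := A)
  obtain ⟨s, hs, hmax⟩ := exists_maximal_linearIndepOn Λ v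
  have hex : ∀ i : Fin n, ∃ c : Λ, c ≠ 0 ∧ c • v i ∈ Submodule.span Λ (v '' s) := by
    intro i
    by_cases hi : i ∈ s
    · exact ⟨1, one_ne_zero, by
        rw [one_smul]; exact Submodule.subset_span (Set.mem_image_of_mem _ hi)⟩
    · exact hmax i hi
  choose c hc0 hc using hex
  set d : Λ := ∏ i, c i with hd
  have hd0 : d ≠ 0 := Finset.prod_ne_zero_iff.2 fun i _ => hc0 i
  have hdx : ∀ x : A, d • x ∈ Submodule.span Λ (v '' s) := by
    intro x
    have hx : x ∈ Submodule.span Λ (Set.range v) := hv ▸ Submodule.mem_top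
    refine Submodule.span_induction ?_ ?_ ?_ ?_ hx
    · rintro _ ⟨i, rfl⟩
      rw [hd, ← Finset.mul_prod_erase Finset.univ c (Finset.mem_univ i), mul_comm, mul_smul]
      exact Submodule.smul_mem _ _ (hc i)
    · rw [smul_zero]; exact Submodule.zero_mem _
    · intro x y _ _ hx hy
      rw [smul_add]; exact Submodule.add_mem _ hx hy
    · intro r x _ hx
      rw [smul_comm]; exact Submodule.smul_mem _ _ hx
  have hli : LinearIndependent Λ (fun i : s => v i) := hs
  have himg : Submodule.span Λ (v '' s) = Submodule.span Λ (Set.range fun i : s => v i) := by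
    congr 1
    ext y
    simp
  rw [himg] at hdx
  let b := Module.Basis.span hli
  let D : A →ₗ[Λ] Submodule.span Λ (Set.range fun i : s => v i) :=
    LinearMap.codRestrict _ (d • (LinearMap.id : A →ₗ[Λ] A)) (fun x => hdx x)
  refine ⟨s, inferInstance, fun i => v i, fun i => (b.coord i).comp D, d, hd0, fun x => ?_⟩
  have h := b.sum_repr (D x)
  have h2 := congrArg (Submodule.subtype _) h
  rw [map_sum] at h2
  have h3 : (Submodule.subtype (Submodule.span Λ (Set.range fun i : s => v i))) (D x) = d • x := rfl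
  rw [h3] at h2
  rw [← h2]
  refine Finset.sum_congr rfl fun i _ => ?_
  rw [map_smul, LinearMap.comp_apply, Module.Basis.coord_apply]
  congr 1
  exact congrArg Subtype.val (Module.Basis.span_apply hli i)

/-- coefficientwise application of a linear map -/
noncomputable def cw {Λ A : Type u} [CommRing Λ] [CommRing A] [Algebra Λ A] {s : ℕ}
    (φ : A →ₗ[Λ] Λ) (q : MvPolynomial (Fin s) A) : MvPolynomial (Fin s) Λ :=
  ∑ m ∈ q.support, MvPolynomial.monomial m (φ (q.coeff m))

theorem coeff_cw {Λ A : Type u} [CommRing Λ] [CommRing A] [Algebra Λ A] {s : ℕ}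
    (φ : A →ₗ[Λ] Λ) (q : MvPolynomial (Fin s) A) (m : Fin s →₀ ℕ) :
    (cw φ q).coeff m = φ (q.coeff m) := by
  classical
  rw [cw, MvPolynomial.coeff_sum]
  simp only [MvPolynomial.coeff_monomial]
  rw [Finset.sum_ite_eq']
  split_ifs with h
  · rfl
  · rw [MvPolynomial.notMem_support_iff.1 h, map_zero]

theorem cw_add {Λ A : Type u} [CommRing Λ] [CommRing A] [Algebra Λ A] {s : ℕ}
    (φ : A →ₗ[Λ] Λ) (q r : MvPolynomial (Fin s) A) : cw φ (q + r) = cw φ q + cw φ r := by
  ext m
  simp [coeff_cw]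

theorem cw_zero {Λ A : Type u} [CommRing Λ] [CommRing A] [Algebra Λ A] {s : ℕ}
    (φ : A →ₗ[Λ] Λ) : cw φ (0 : MvPolynomial (Fin s) A) = 0 := by
  ext m
  simp [coeff_cw]

theorem cw_sum {Λ A : Type u} [CommRing Λ] [CommRing A] [Algebra Λ A] {s : ℕ}
    (φ : A →ₗ[Λ] Λ) {κ : Type} (t : Finset κ) (q : κ → MvPolynomial (Fin s) A) :
    cw φ (∑ i ∈ t, q i) = ∑ i ∈ t, cw φ (q i) := by
  classical
  induction t using Finset.induction_on with
  | empty => simp [cw_zero]
  | insert i t hi ih => rw [Finset.sum_insert hi, Finset.sum_insert hi, cw_add, ih]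

theorem cw_map_mul {Λ A : Type u} [CommRing Λ] [CommRing A] [Algebra Λ A] {s : ℕ}
    (φ : A →ₗ[Λ] Λ) (p : MvPolynomial (Fin s) Λ) (q : MvPolynomial (Fin s) A) :
    cw φ (MvPolynomial.map (algebraMap Λ A) p * q) = p * cw φ q := by
  classical
  ext m
  rw [coeff_cw, MvPolynomial.coeff_mul, MvPolynomial.coeff_mul, map_sum]
  refine Finset.sum_congr rfl fun ij _ => ?_
  rw [MvPolynomial.coeff_map, ← Algebra.smul_def, map_smul, coeff_cw, smul_eq_mul]

theorem smul_eval_eq {Λ A : Type u} [CommRing Λ] [CommRing A] [Algebra Λ A] {s : ℕ}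
    (a : Fin s → A) {ι : Type} [Fintype ι] (e : ι → A) (φ : ι → (A →ₗ[Λ] Λ)) (d : Λ)
    (h : ∀ x : A, d • x = ∑ i, φ i x • e i) (q : MvPolynomial (Fin s) A) :
    d • MvPolynomial.eval a q = ∑ i, MvPolynomial.aeval a (cw (φ i) q) * e i := by
  have h1 : MvPolynomial.eval a q = ∑ m ∈ q.support, q.coeff m * m.prod fun j k => a j ^ k := by
    rw [MvPolynomial.eval_eq]
    rfl
  have h2 : ∀ i, MvPolynomial.aeval a (cw (φ i) q) =
      ∑ m ∈ q.support, algebraMap Λ A (φ i (q.coeff m)) * m.prod fun j k => a j ^ k := by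
    intro i
    rw [cw, map_sum]
    exact Finset.sum_congr rfl fun m _ => MvPolynomial.aeval_monomial _ _ _
  rw [h1, Finset.smul_sum]
  simp only [h2, Finset.sum_mul]
  rw [Finset.sum_comm]
  refine Finset.sum_congr rfl fun m _ => ?_
  rw [← smul_mul_assoc, h, Finset.sum_mul]
  refine Finset.sum_congr rfl fun i _ => ?_
  rw [Algebra.smul_def]
  ring

theorem sub_eval_mem {A : Type u} [CommRing A] {s : ℕ} (a : Fin s → A)
    (f : MvPolynomial (Fin s) A) :
    f - MvPolynomial.C (MvPolynomial.eval a f) ∈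
      Ideal.span (Set.range fun j => MvPolynomial.X j - MvPolynomial.C (a j)) := by
  induction f using MvPolynomial.induction_on with
  | C c => simp
  | add p q hp hq =>
    have : p + q - MvPolynomial.C (MvPolynomial.eval a (p + q)) =
        (p - MvPolynomial.C (MvPolynomial.eval a p)) +
          (q - MvPolynomial.C (MvPolynomial.eval a q)) := by
      rw [map_add, map_add]; ring
    rw [this]
    exact Ideal.add_mem _ hp hq
  | mul_X p j hp =>
    have : p * MvPolynomial.X j - MvPolynomial.C (MvPolynomial.eval a (p * MvPolynomial.X j)) =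
        MvPolynomial.X j * (p - MvPolynomial.C (MvPolynomial.eval a p)) +
          MvPolynomial.C (MvPolynomial.eval a p) * (MvPolynomial.X j - MvPolynomial.C (a j)) := by
      rw [map_mul, map_mul, MvPolynomial.eval_X]; ring
    rw [this]
    exact Ideal.add_mem _ (Ideal.mul_mem_left _ _ hp)
      (Ideal.mul_mem_left _ _ (Ideal.subset_span ⟨j, rfl⟩))

end aux

section M6

/-- TASK M6a: a generic idempotent. Proof: in `A[T]` let `ε = ∏_j F_j(T_j)/(T_j - a_j)`; for
`f ∈ Λ[T]` with `f(a) = 0` we have `f ∈ (T_j - a_j)`, hence `f ε ∈ (F_j(T_j)) A[T]`. For a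
`Λ`-linear `φ : A → Λ`, applied to the coefficients, `φ(ε) f ∈ (F_j(T_j)) Λ[T]`. As
`ε(a) = ∏ F_j'(a_j) ≠ 0`, some `φ` has `φ(ε)(a) ≠ 0` (basis of `Frac A` over `Frac Λ`, dual basis,
clear the denominators); multiply by a polynomial `β` with `β(a) φ(ε)(a) ∈ Λ - 0`. -/
theorem exists_idem {Λ A : Type u} [CommRing Λ] [IsDomain Λ] [CommRing A] [IsDomain A]
    [Algebra Λ A] [Module.Finite Λ A] (hinj : Function.Injective (algebraMap Λ A)) {s : ℕ}
    (a : Fin s → A) (ha : Algebra.adjoin Λ (Set.range a) = ⊤) (F : Fin s → Λ[X])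
    (hFm : ∀ j, (F j).Monic) (hF : ∀ j, aeval (a j) (F j) = 0)
    (hF' : ∀ j, aeval (a j) (derivative (F j)) ≠ 0) :
    ∃ (g : Λ) (E : MvPolynomial (Fin s) Λ), g ≠ 0 ∧
      MvPolynomial.aeval a E = algebraMap Λ A g ∧
      ∀ f : MvPolynomial (Fin s) Λ, MvPolynomial.aeval a f = 0 →
        E * f ∈ Ideal.span (Set.range fun j => Polynomial.toMvPolynomial j (F j)) := by
  classical
  have _ := hFm
  -- the quotients `G_j`
  set FA : Fin s → A[X] := fun j => (F j).map (algebraMap Λ A) with hFA
  set G : Fin s → A[X] := fun j => FA j /ₘ (X - C (a j)) with hG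
  have hroot : ∀ j, (FA j).IsRoot (a j) := by
    intro j
    rw [IsRoot.def, hFA, eval_map_algebraMap]
    exact hF j
  have hGmul : ∀ j, (X - C (a j)) * G j = FA j := fun j => mul_divByMonic_eq_iff_isRoot.2 (hroot j)
  have hGeval : ∀ j, (G j).eval (a j) ≠ 0 := by
    intro j h
    apply hF' j
    have h1 : (derivative (FA j)).eval (a j) = (G j).eval (a j) := by
      rw [← hGmul j, derivative_mul]
      simp
    rw [h, hFA, derivative_map, eval_map_algebraMap] at h1
    exact h1
  set ε : MvPolynomial (Fin s) A := ∏ j, toMvPolynomial j (G j) with hε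
  have hεa : MvPolynomial.eval a ε ≠ 0 := by
    rw [hε, map_prod]
    refine Finset.prod_ne_zero_iff.2 fun j _ => ?_
    rw [MvPolynomial.eval_toMvPolynomial]
    exact hGeval j
  -- `ε` kills
  set J : Ideal (MvPolynomial (Fin s) A) :=
    Ideal.span (Set.range fun j => toMvPolynomial j (FA j)) with hJ
  have hkill1 : ∀ f ∈ Ideal.span (Set.range fun j : Fin s =>
      (MvPolynomial.X j - MvPolynomial.C (a j) : MvPolynomial (Fin s) A)), ε * f ∈ J := by
    intro f hf
    refine Submodule.span_induction ?_ ?_ ?_ ?_ hf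
    · rintro _ ⟨j, rfl⟩
      have h1 : ε * (MvPolynomial.X j - MvPolynomial.C (a j)) =
          (∏ i ∈ Finset.univ.erase j, toMvPolynomial i (G i)) * toMvPolynomial j (FA j) := by
        rw [hε, ← Finset.mul_prod_erase Finset.univ _ (Finset.mem_univ j), ← hGmul j, map_mul,
          map_sub, toMvPolynomial_X, toMvPolynomial_C]
        ring
      change ε * (MvPolynomial.X j - MvPolynomial.C (a j)) ∈ J
      rw [h1]
      exact Ideal.mul_mem_left _ _ (Ideal.subset_span ⟨j, rfl⟩)
    · rw [mul_zero]; exact Ideal.zero_mem _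
    · intro x y _ _ hx hy
      rw [mul_add]; exact Ideal.add_mem _ hx hy
    · intro r x _ hx
      rw [smul_eq_mul, mul_left_comm]; exact Ideal.mul_mem_left _ _ hx
  have hkill : ∀ f : MvPolynomial (Fin s) A, MvPolynomial.eval a f = 0 → ε * f ∈ J := by
    intro f hf
    apply hkill1
    have := sub_eval_mem a f
    rwa [hf, map_zero, sub_zero] at this
  -- the dual family
  obtain ⟨ι, _, e, φ, d, hd0, hdφ⟩ := exists_dual_family (Λ := Λ) (A := A)
  have hne : ∃ i, MvPolynomial.aeval a (cw (φ i) ε) ≠ 0 := by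
    by_contra hcon
    push Not at hcon
    have h1 := smul_eval_eq a e φ d hdφ ε
    simp only [hcon, zero_mul, Finset.sum_const_zero] at h1
    rw [Algebra.smul_def] at h1
    rcases mul_eq_zero.1 h1 with h2 | h2
    · exact hd0 (hinj (by rw [h2, map_zero]))
    · exact hεa h2
  obtain ⟨i, hi⟩ := hne
  obtain ⟨g, hg0, z, hz⟩ :=
    ((Algebra.IsIntegral.isIntegral (R := Λ)
      (MvPolynomial.aeval a (cw (φ i) ε))).isAlgebraic).exists_nonzero_dvd
        (mem_nonZeroDivisors_of_ne_zero hi)
  have hzmem : z ∈ Algebra.adjoin Λ (Set.range a) := ha ▸ Algebra.mem_top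
  rw [Algebra.adjoin_range_eq_range_aeval] at hzmem
  obtain ⟨β, hβ⟩ := hzmem
  refine ⟨g, β * cw (φ i) ε, hg0, ?_, fun f hf => ?_⟩
  · rw [map_mul]
    rw [show (MvPolynomial.aeval a) β = z from hβ, hz, mul_comm]
  · have h1 : ε * MvPolynomial.map (algebraMap Λ A) f ∈ J := by
      apply hkill
      rw [MvPolynomial.eval_map, ← MvPolynomial.aeval_def]
      exact hf
    obtain ⟨c, hc⟩ := Submodule.mem_span_range_iff_exists_fun _ |>.1 h1
    have h2 : cw (φ i) (ε * MvPolynomial.map (algebraMap Λ A) f) = f * cw (φ i) ε := by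
      rw [mul_comm, cw_map_mul]
    have h3 : f * cw (φ i) ε = ∑ j, toMvPolynomial j (F j) * cw (φ i) (c j) := by
      rw [← h2, ← hc, cw_sum]
      refine Finset.sum_congr rfl fun j _ => ?_
      have h4 : toMvPolynomial j (FA j) =
          MvPolynomial.map (algebraMap Λ A) (toMvPolynomial j (F j)) := by
        rw [hFA]
        change toMvPolynomial j ((F j).map (algebraMap Λ A)) = _
        induction (F j) using Polynomial.induction_on' with
        | add p q hp hq => rw [Polynomial.map_add, map_add, hp, hq, map_add, map_add]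
        | monomial n c =>
          rw [Polynomial.map_monomial, ← C_mul_X_pow_eq_monomial, ← C_mul_X_pow_eq_monomial,
            map_mul, map_mul, map_pow, map_pow, toMvPolynomial_X, toMvPolynomial_X,
            toMvPolynomial_C, toMvPolynomial_C, map_mul, map_pow, MvPolynomial.map_C,
            MvPolynomial.map_X]
      rw [h4, smul_eq_mul, mul_comm, cw_map_mul]
    have h5 : β * cw (φ i) ε * f = β * (f * cw (φ i) ε) := by ring
    rw [h5, h3]
    refine Ideal.mul_mem_left _ _ (Ideal.sum_mem _ fun j _ => ?_)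
    exact Ideal.mul_mem_right _ _ (Ideal.subset_span ⟨j, rfl⟩)

/-- TASK M6b: monic polynomials with a simple root at `a`. Proof: `G` monic of degree `D1` with
lower coefficients in `𝔪` and `G(a) = 0` (Cayley-Hamilton for `a^M`); `P ≠ 0` in `Λ[T]` of minimal
degree with `P(a) = 0`, so `P'(a) ≠ 0`; `c ∈ 𝔪`, `c ≠ 0`. For `D ≥ D1, deg P + 1` take
`F = G T^(D - D1)` or `G T^(D - D1) + c P`. -/
theorem exists_simple_root {Λ A : Type u} [CommRing Λ] [IsDomain Λ] [CommRing A] [IsDomain A]
    [CharZero A] [Algebra Λ A] [Module.Finite Λ A] (hinj : Function.Injective (algebraMap Λ A))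
    (𝔪 : Ideal Λ) (h𝔪 : 𝔪 ≠ ⊥) (a : A) (M : ℕ) (ha : a ^ M ∈ 𝔪.map (algebraMap Λ A)) :
    ∃ D0 : ℕ, ∀ D, D0 ≤ D → ∃ F : Λ[X], F.Monic ∧ F.natDegree = D ∧ (∀ i < D, F.coeff i ∈ 𝔪) ∧
      aeval a F = 0 ∧ aeval a (derivative F) ≠ 0 := by
  classical
  have : CharZero Λ := by
    refine ⟨fun m n h => ?_⟩
    have : ((m : Λ) : Λ) = (n : Λ) := h
    have h2 := congrArg (algebraMap Λ A) this
    rw [map_natCast, map_natCast] at h2
    exact_mod_cast h2
  -- Cayley-Hamilton
  have haM : a ^ (M + 1) ∈ 𝔪.map (algebraMap Λ A) := by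
    rw [pow_succ]; exact Ideal.mul_mem_right _ _ ha
  have hrange : LinearMap.range (Algebra.lmul Λ A (a ^ (M + 1))) ≤
      𝔪 • (⊤ : Submodule Λ A) := by
    rintro _ ⟨x, rfl⟩
    have h1 : (𝔪 • (⊤ : Submodule Λ A)) = (𝔪.map (algebraMap Λ A)).restrictScalars Λ :=
      Ideal.smul_top_eq_map 𝔪
    rw [h1]
    change a ^ (M + 1) * x ∈ 𝔪.map (algebraMap Λ A)
    exact Ideal.mul_mem_right _ _ haM
  obtain ⟨g0, hg0m, -, hg0c, hg0a⟩ :=
    LinearMap.exists_monic_and_natDegree_eq_and_coeff_mem_pow_and_aeval_eq_zero Λ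
      (Algebra.lmul Λ A (a ^ (M + 1))) 𝔪 hrange
  have hg0a' : aeval (a ^ (M + 1)) g0 = 0 := by
    rw [Polynomial.aeval_algHom_apply] at hg0a
    exact Algebra.lmul_injective (by rw [hg0a, map_zero])
  set G : Λ[X] := Polynomial.expand Λ (M + 1) g0 with hG
  have hGm : G.Monic := hg0m.expand (Nat.succ_pos M)
  have hGa : aeval a G = 0 := by
    rw [hG, Polynomial.expand_aeval]; exact hg0a'
  have hGd : G.natDegree = g0.natDegree * (M + 1) := natDegree_expand _ _
  have hGc : ∀ i < G.natDegree, G.coeff i ∈ 𝔪 := by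
    intro i hi
    rw [hG, coeff_expand (Nat.succ_pos M)]
    split_ifs with h
    · have h2 : i / (M + 1) < g0.natDegree := by
        rw [hGd] at hi
        exact Nat.div_lt_of_lt_mul (by rwa [mul_comm])
      have h3 := hg0c (i / (M + 1))
      exact Ideal.pow_le_self (by omega) h3
    · exact Ideal.zero_mem _
  -- minimal degree
  have hexP : ∃ n : ℕ, ∃ P : Λ[X], P ≠ 0 ∧ P.natDegree = n ∧ aeval a P = 0 :=
    ⟨G.natDegree, G, hGm.ne_zero, rfl, hGa⟩
  obtain ⟨P, hP0, hPn, hPa⟩ := Nat.find_spec hexP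
  have hmin : ∀ Q : Λ[X], Q ≠ 0 → aeval a Q = 0 → P.natDegree ≤ Q.natDegree := by
    intro Q hQ hQa
    rw [hPn]
    exact Nat.find_min' hexP ⟨Q, hQ, rfl, hQa⟩
  have hP' : aeval a (derivative P) ≠ 0 := by
    intro h
    by_cases hd : derivative P = 0
    · have h1 := Polynomial.derivative_eq_zero.1 hd
      obtain ⟨c, hc⟩ := Polynomial.natDegree_eq_zero.1 h1
      rw [← hc, aeval_C] at hPa
      have : c = 0 := hinj (by rw [hPa, map_zero])
      exact hP0 (by rw [← hc, this, map_zero])
    · have h1 := hmin _ hd h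
      have h2 : P.natDegree ≠ 0 := by
        intro h3
        obtain ⟨c, hc⟩ := Polynomial.natDegree_eq_zero.1 h3
        exact hd (by rw [← hc, derivative_C])
      have h3 := Polynomial.natDegree_derivative_lt h2
      omega
  obtain ⟨c, hc, hc0⟩ := Submodule.exists_mem_ne_zero_of_ne_bot h𝔪
  refine ⟨max G.natDegree (P.natDegree + 1), fun D hD => ?_⟩
  have hD1 : G.natDegree ≤ D := le_trans (le_max_left _ _) hD
  have hD2 : P.natDegree < D := lt_of_lt_of_le (Nat.lt_succ_self _) (le_trans (le_max_right _ _) hD)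
  set F1 : Λ[X] := G * X ^ (D - G.natDegree) with hF1
  have hF1m : F1.Monic := hGm.mul (monic_X_pow _)
  have hF1d : F1.natDegree = D := by
    rw [hF1, hGm.natDegree_mul (monic_X_pow _), natDegree_X_pow]; omega
  have hF1a : aeval a F1 = 0 := by rw [hF1, map_mul, hGa, zero_mul]
  have hF1c : ∀ i < D, F1.coeff i ∈ 𝔪 := by
    intro i hi
    rw [hF1, coeff_mul_X_pow']
    split_ifs with h
    · exact hGc _ (by omega)
    · exact Ideal.zero_mem _
  by_cases h1 : aeval a (derivative F1) = 0
  · have hlt : (C c * P).degree < F1.degree := by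
      rw [degree_C_mul hc0, degree_eq_natDegree hP0, degree_eq_natDegree hF1m.ne_zero, hF1d]
      exact_mod_cast hD2
    refine ⟨F1 + C c * P, hF1m.add_of_left hlt, ?_, fun i hi => ?_, ?_, ?_⟩
    · rw [natDegree_add_eq_left_of_degree_lt hlt, hF1d]
    · rw [coeff_add, coeff_C_mul]
      exact Ideal.add_mem _ (hF1c i hi) (Ideal.mul_mem_right _ _ hc)
    · rw [map_add, hF1a, map_mul, hPa, mul_zero, add_zero]
    · rw [derivative_add, derivative_C_mul, map_add, h1, zero_add, map_mul, aeval_C]
      refine mul_ne_zero (fun h => hc0 (hinj (by rw [h, map_zero]))) hP'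
  · exact ⟨F1, hF1m, hF1d, hF1c, hF1a, h1⟩

end M6

end Vale.Agent.P202.Mix
end

section

/-!
P177, block LEV: the polynomials attached to finitely many integral elements.
-/

namespace Vale.Agent.P177.Lev

open Polynomial Vale.Agent.P202.Mix IsLocalRing

universe u

theorem exists_poly {Λ : Type u} [CommRing Λ] [IsDomain Λ] [IsLocalRing Λ]
    (hm : maximalIdeal Λ ≠ ⊥) {Ω : Type u} [Field Ω] [CharZero Ω] [Algebra Λ Ω]
    (hinj : Function.Injective (algebraMap Λ Ω)) {s : ℕ} (b : Fin s → Ω) (F : Fin s → Λ[X])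
    (hF : ∀ l, (F l).Monic) (hFb : ∀ l, aeval (b l) (F l) = 0) (nz : Finset (Fin s))
    (hnz : ∀ l ∈ nz, b l ≠ 0) :
    ∃ (D : ℕ) (G : Fin s → Λ[X]) (E : MvPolynomial (Fin s) Λ) (g g3 : Λ)
      (Y : MvPolynomial (Fin s) Λ), (∀ l, (G l).Monic) ∧ (∀ l, (G l).natDegree = D) ∧
      (∀ l, aeval (b l) (G l) = 0) ∧
      (∀ l, (∀ i < (F l).natDegree, (F l).coeff i ∈ maximalIdeal Λ) →
        ∀ i < D, (G l).coeff i ∈ maximalIdeal Λ) ∧
      g ≠ 0 ∧ g3 ≠ 0 ∧ MvPolynomial.aeval b E = algebraMap Λ Ω g ∧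
      (∀ f : MvPolynomial (Fin s) Λ, MvPolynomial.aeval b f = 0 →
        E * f ∈ Ideal.span (Set.range fun j => Polynomial.toMvPolynomial j (G j))) ∧
      MvPolynomial.aeval b (MvPolynomial.C g3 -
        (∏ l, Polynomial.toMvPolynomial l (derivative (G l))) *
          (∏ l ∈ nz, MvPolynomial.X l) * Y) = 0 := by
  classical
  let A : Subalgebra Λ Ω := Algebra.adjoin Λ (Set.range b)
  let a : Fin s → A := fun l => ⟨b l, Algebra.subset_adjoin ⟨l, rfl⟩⟩
  have hint : ∀ l, IsIntegral Λ (b l) := fun l => ⟨F l, hF l, hFb l⟩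
  have hfin : Module.Finite Λ A := by
    have h : (Subalgebra.toSubmodule A).FG :=
      fg_adjoin_of_finite (Set.finite_range b) (by rintro _ ⟨l, rfl⟩; exact hint l)
    exact Module.Finite.iff_fg.2 h
  have hAinj : Function.Injective (algebraMap Λ A) := by
    intro x y h
    apply hinj
    exact congrArg (fun z : A => (z : Ω)) h
  have hcz : CharZero A := by
    refine ⟨fun m n h => ?_⟩
    have h2 : (m : Ω) = (n : Ω) := congrArg (fun z : A => (z : Ω)) h
    exact_mod_cast h2
  have hav : ∀ f : MvPolynomial (Fin s) Λ, ((MvPolynomial.aeval a f : A) : Ω) =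
      MvPolynomial.aeval b f := by
    intro f
    exact MvPolynomial.comp_aeval_apply a A.val f
  have hav0 : ∀ f : MvPolynomial (Fin s) Λ, MvPolynomial.aeval a f = 0 ↔
      MvPolynomial.aeval b f = 0 := by
    intro f
    rw [← hav, ZeroMemClass.coe_eq_zero]
  have hpv : ∀ (l : Fin s) (f : Λ[X]), ((aeval (a l) f : A) : Ω) = aeval (b l) f := by
    intro l f
    exact (Polynomial.aeval_algHom_apply A.val (a l) f).symm
  have hpv0 : ∀ (l : Fin s) (f : Λ[X]), aeval (a l) f = 0 ↔ aeval (b l) f = 0 := by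
    intro l f
    rw [← hpv, ZeroMemClass.coe_eq_zero]
  have ha : Algebra.adjoin Λ (Set.range a) = ⊤ := by
    have h1 : Set.range a = ((↑) : A → Ω) ⁻¹' (Set.range b) := by
      ext x
      constructor
      · rintro ⟨l, rfl⟩
        exact ⟨l, rfl⟩
      · rintro ⟨l, hl⟩
        exact ⟨l, Subtype.ext hl⟩
    rw [h1]
    exact Algebra.adjoin_adjoin_coe_preimage
  -- the polynomials `G`
  have hG : ∀ l, ∃ D0 : ℕ, ∀ D, D0 ≤ D → ∃ G : Λ[X], G.Monic ∧ G.natDegree = D ∧
      ((∀ i < (F l).natDegree, (F l).coeff i ∈ maximalIdeal Λ) →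
        ∀ i < D, G.coeff i ∈ maximalIdeal Λ) ∧
      aeval (a l) G = 0 ∧ aeval (a l) (derivative G) ≠ 0 := by
    intro l
    by_cases hl : ∀ i < (F l).natDegree, (F l).coeff i ∈ maximalIdeal Λ
    · have h1 : a l ^ (F l).natDegree ∈ (maximalIdeal Λ).map (algebraMap Λ A) := by
        have h2 : aeval (a l) (F l) = 0 := (hpv0 l _).2 (hFb l)
        rw [Polynomial.aeval_eq_sum_range, Finset.sum_range_succ, (hF l).coeff_natDegree,
          one_smul, ← eq_neg_iff_add_eq_zero] at h2
        rw [← neg_neg (a l ^ (F l).natDegree), ← h2]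
        refine neg_mem (Ideal.sum_mem _ fun i hi => ?_)
        rw [Algebra.smul_def]
        exact Ideal.mul_mem_right _ _ (Ideal.mem_map_of_mem _ (hl i (Finset.mem_range.1 hi)))
      obtain ⟨D0, h⟩ := exists_simple_root hAinj (maximalIdeal Λ) hm (a l) _ h1
      refine ⟨D0, fun D hD => ?_⟩
      obtain ⟨G, h1, h2, h3, h4, h5⟩ := h D hD
      exact ⟨G, h1, h2, fun _ => h3, h4, h5⟩
    · obtain ⟨D0, h⟩ := exists_simple_root hAinj ⊤ (by
        intro h
        exact hm (le_bot_iff.1 (le_top.trans h.le))) (a l) 0 (by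
          rw [Ideal.map_top]
          trivial)
      refine ⟨D0, fun D hD => ?_⟩
      obtain ⟨G, h1, h2, h3, h4, h5⟩ := h D hD
      exact ⟨G, h1, h2, fun h => absurd h hl, h4, h5⟩
  choose D0 hG using hG
  let D : ℕ := ∑ l, D0 l
  have hD : ∀ l, D0 l ≤ D := fun l => Finset.single_le_sum (fun _ _ => Nat.zero_le _)
    (Finset.mem_univ l)
  choose G h1 h2 h3 h4 h5 using fun l => hG l D (hD l)
  obtain ⟨g, E, hg, hE1, hE2⟩ := exists_idem hAinj a ha G h1 h4 h5
  -- the discriminant
  let z : A := (∏ l, aeval (a l) (derivative (G l))) * ∏ l ∈ nz, a l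
  have hz : z ≠ 0 := by
    refine mul_ne_zero (Finset.prod_ne_zero_iff.2 fun l _ => h5 l)
      (Finset.prod_ne_zero_iff.2 fun l hl h => hnz l hl ?_)
    exact congrArg (fun z : A => (z : Ω)) h
  have hcomap : (Ideal.span {z}).comap (algebraMap Λ A) ≠ ⊥ :=
    Ideal.comap_ne_bot_of_integral_mem hz (Ideal.mem_span_singleton_self z)
      (Algebra.IsIntegral.isIntegral z)
  obtain ⟨g3, hg3, hg30⟩ := Submodule.exists_mem_ne_zero_of_ne_bot hcomap
  obtain ⟨y, hy⟩ := Ideal.mem_span_singleton'.1 (Ideal.mem_comap.1 hg3)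
  have hsurj : Function.Surjective (MvPolynomial.aeval a : MvPolynomial (Fin s) Λ →ₐ[Λ] A) := by
    rw [← AlgHom.range_eq_top, ← Algebra.adjoin_range_eq_range_aeval, ha]
  obtain ⟨Y, rfl⟩ := hsurj y
  refine ⟨D, G, E, g, g3, Y, h1, h2, fun l => (hpv0 l _).1 (h4 l), h3, hg, hg30, ?_, ?_, ?_⟩
  · rw [← hav, hE1]
    rfl
  · intro f hf
    exact hE2 f ((hav0 f).2 hf)
  · rw [← hav0, map_sub, MvPolynomial.aeval_C, ← hy, map_mul, map_mul, map_prod, map_prod]
    have h6 : ∀ l, MvPolynomial.aeval a (Polynomial.toMvPolynomial l (derivative (G l))) =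
        aeval (a l) (derivative (G l)) := by
      intro l
      rw [Polynomial.toMvPolynomial]
      have h7 := Polynomial.aeval_algHom_apply (MvPolynomial.aeval a :
        MvPolynomial (Fin s) Λ →ₐ[Λ] A) (MvPolynomial.X l) (derivative (G l))
      rw [MvPolynomial.aeval_X] at h7
      exact h7.symm
    simp only [h6, MvPolynomial.aeval_X]
    change _ * z - z * _ = 0
    ring

end Vale.Agent.P177.Lev
end
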