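import Mathlib
import Vale.Agent.P177.Bd4.B3
import Vale.Agent.P177.Bd4.B11
import Vale.Agent.P177.Bd4.B16
import Vale.Agent.P177.Bd4.B15
import Vale.Agent.P177.Bd4.B13
import Vale.Agent.P177.Bd4.B10
import Vale.Agent.P177.Bd4.B8
import Vale.Agent.P177.Bd4.B17
import Vale.Agent.P177.Bd4.B18
import Vale.Agent.P177.Bd4.B5
import Vale.Agent.P177.Bd4.B4
attribute [-instance] DenselyNormedField.toNontriviallyNormedField DenselyNormedField.toNormedField NontriviallyNormedField.toNormedField RCLike.toDenselyNormedField NormedField.toNormedDivisionRing littleWedderburn NormedDivisionRing.toDivisionRing NormedField.toField IdemCommSemiring.toCommSemiring IdemCommSemiring.toIdemSemiring KleeneAlgebra.toIdemSemiring DivisionRing.toDivisionSemiring SSet.stdSimplex.instFunLikeObjOppositeSimplexCategoryMkOpFinHAddNatOfNat SemiRingCat.instSemiringObjForgetRingHomCarrier BooleanRing.toRing CommSemiRingCat.FilteredColimits.colimitCommSemiring LeftPreLieRing.instLieAdmissibleRing RightPreLieRing.instLieAdmissibleRing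 NormedAlgebra.toAlgebra CommCStarAlgebra.toNormedCommRing NormedField.toNormedCommRing CommCStarAlgebra.toCStarAlgebra CStarAlgebra.toNormedRing NormedCommRing.toNormedRing NormedDivisionRing.toNormedRing Bialgebra.toAlgebra CommSemiring.toBialgebra CommSemiring.toHopfAlgebra HopfAlgebra.toHopfAlgebraStruct HopfAlgebraStruct.toBialgebra NormedCommRing.toSeminormedCommRing LinearOrderedAddCommGroupWithTop.instLinearOrderedAddCommMonoidWithTop NormedRing.toSeminormedRing SeminormedCommRing.toSeminormedRing LinearOrderedAddCommGroupWithTop.toAddCommMonoid LinearOrderedAddCommMonoidWithTop.toAddCommMonoid CStarAlgebra.toNonUnitalCStarAlgebra CommCStarAlgebra.toNonUnitalCommCStarAlgebra NonUnitalCommCStarAlgebra.toNonUnitalCStarAlgebra NonUnitalCStarAlgebra.toNonUnitalNormedRing NonUnitalCommCStarAlgebra.toNonUnitalNormedCommRing NonUnitalNormedCommRing.toNonUnitalNormedRing NormedCommRing.toNonUnitalNormedCommRing NormedRing.toNonUnitalNormedRing Field.toEuclideanDomain BooleanRing.toCommRing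 EuclideanDomain.toCommRing NormedCommRing.toCommRing SeminormedCommRing.toCommRing NormedRing.toRing SeminormedRing.toRing LieAdmissibleRing.instLieRing CommRing.toNonAssocCommRing NonAssocCommRing.toNonAssocRing Ring.toNonAssocRing LieRing.toAddCommGroup CommSemiring.toNonAssocCommSemiring LeftPreLieRing.toNonUnitalNonAssocRing LieAdmissibleRing.toNonUnitalNonAssocRing NonAssocCommRing.toNonAssocCommSemiring NonAssocCommSemiring.toNonAssocSemiring NonAssocRing.toNonAssocSemiring RightPreLieRing.toNonUnitalNonAssocRing CommRing.toAddCommGroupWithOne NonAssocRing.toAddCommGroupWithOne AddCommGroupWithOne.toAddCommMonoidWithOne NonUnitalNormedCommRing.toNonUnitalSeminormedCommRing NonUnitalNormedRing.toNonUnitalSeminormedRing NonUnitalSeminormedCommRing.toNonUnitalSeminormedRing SeminormedCommRing.toNonUnitalSeminormedCommRing SeminormedRing.toNonUnitalSeminormedRing NonUnitalCommRing.toNonUnitalRing NonUnitalNormedCommRing.toNonUnitalCommRing NonUnitalNormedRing.toNonUnitalRing NonUnitalSeminormedCommRing.toNonUnitalCommRing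 NonUnitalSeminormedRing.toNonUnitalRing Ring.toNonUnitalRing NonAssocCommRing.toNonUnitalNonAssocCommRing NonAssocRing.toNonUnitalNonAssocRing NonUnitalRing.toNonUnitalNonAssocRing CategoryTheory.instBraidedCategoryType CategoryTheory.Abelian.toPreadditive CategoryTheory.CommGrpObj.mk CategoryTheory.CommGrpObj.toGrpObj CategoryTheory.Preadditive.instGrpObj CommSemiring.toNonUnitalCommSemiring NonUnitalRing.toNonUnitalSemiring NonAssocCommSemiring.toNonUnitalNonAssocCommSemiring NonUnitalCommSemiring.toNonUnitalNonAssocCommSemiring NonUnitalNonAssocCommSemiring.toNonUnitalNonAssocSemiring CategoryTheory.BimonObj.toMonObj CategoryTheory.CommRingObj.toRingObj CategoryTheory.GrpObj.toMonObj CategoryTheory.HopfObj.toBimonObj CategoryTheory.RingObj.toMonObj TopRep.hV1 MonTypeEquivalenceMon.monMonoid AddCommMonoidWithOne.toAddCommMonoid AddCommMonCat.FilteredColimits.colimitAddCommMonoid instCoeT Pi.nonUnitalNonAssocSemiring RightPreLieAlgebra.instLieAdmissibleAlgebra instCoeTOfCoeDep NonUnitalNormedRing.toNormedAddCommGroup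 Pi.instTopForall LinearOrderedAddCommGroupWithTop.toSubNegMonoid SemiNormedGrp.str BoxIntegral.Box.instMembershipForallReal AddCommGroupWithOne.toAddGroupWithOne instNonUnitalCStarAlgebraForall NormedCommGroup.toNormedGroup NormedCommGroup.toSeminormedCommGroup NormedGroup.toSeminormedGroup SeminormedCommGroup.toSeminormedGroup Complex.instRCLike ContDiffMapSupportedInClass.toDFunLike RKHS.instFunLike Real.instRCLike TestFunctionClass.toDFunLike GradedMonoid.GradeZero.smul Std.DTreeMap.Raw.instSingletonSigma instCoeTC instCoeTCOfCoe NormedAddCommGroup.toNormedAddGroup instCommGroupOfIsSimpleGroupOfIsNilpotent CommGroup.toGroup CommGrpTypeEquivalenceCommGrp.commGrpCommGroup GrpTypeEquivalenceGrp.grpGroup MulSemiringAction.toDistribMulAction NormedCommGroup.toCommGroup NormedGroup.toGroup SeminormedCommGroup.toCommGroup SeminormedGroup.toGroup NonUnitalSeminormedRing.toSeminormedAddCommGroup NormedAddCommGroup.toSeminormedAddCommGroup instDistribSMul RingCat.FilteredColimits.colimitRing Pi.addZeroClass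 instCoeHTC instCoeHTCT instSMulZeroClass NormedAlgebra.id ProfiniteAddGrp.addGroup CategoryTheory.Mat_.fintype MonCat.monoidObj LinearOrderedCommGroupWithZero.toLinearOrderedCommMonoidWithZero OrderRingHom.instRingHomClass NormedAddGroup.toSeminormedAddGroup SeminormedAddCommGroup.toSeminormedAddGroup instNonUnitalAlgHomClassOfNonUnitalAlgEquivClass Pi.mulZeroOneClass AddCommGroupWithOne.toAddCommGroup NonUnitalNonAssocRing.toAddCommGroup NormedAddCommGroup.toAddCommGroup SeminormedAddCommGroup.toAddCommGroup ContinuousAddMonoidHom.instCoeOutOfAddMonoidHomClassOfContinuousMapClass ContinuousMonoidHom.instCoeOutOfMonoidHomClassOfContinuousMapClass HomeomorphClass.instCoeOutHomeomorph IsometryClass.instCoeOutIsometryEquiv Pi.instMaxForall_mathlib EMetricSpace.toPseudoEMetricSpace IsValuativeTopology.instValuedValueGroupWithZeroOfIsUniformAddGroup MetricSpace.toEMetricSpace MetricSpace.toPseudoMetricSpace NonUnitalNormedRing.toMetricSpace NonUnitalSeminormedRing.toPseudoMetricSpace NormedAddCommGroup.toMetricSpace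 NormedAddGroup.toMetricSpace NormedCommGroup.toMetricSpace NormedDivisionRing.toMetricSpace NormedField.toMetricSpace NormedGroup.toMetricSpace NormedRing.toMetricSpace PseudoEMetricSpace.toUniformSpace PseudoMetricSpace.toPseudoEMetricSpace PseudoMetricSpace.toUniformSpace SeminormedAddCommGroup.toPseudoMetricSpace SeminormedAddGroup.toPseudoMetricSpace SeminormedCommGroup.toPseudoMetricSpace SeminormedGroup.toPseudoMetricSpace SeminormedRing.toPseudoMetricSpace UniformSpace.toTopologicalSpace UpgradedStandardBorel.toTopologicalSpace Valued.toUniformSpace WithIdeal.instTopologicalSpace WithIdeal.instUniformSpace TopologicalSpace.UpgradedIsCompletelyMetrizableSpace.toMetricSpace TopologicalSpace.UpgradedIsCompletelyPseudoMetrizableSpace.toPseudoMetricSpace LinearOrderedCommGroupWithZero.toCommGroupWithZero Semifield.toCommGroupWithZero NormedAddGroup.toAddGroup SeminormedAddGroup.toAddGroup Pi.subtractionMonoid MulOpposite.instMulOne LinearOrderedAddCommGroupWithTop.toSubtractionMonoid BialgEquivClass.toBialgHomClass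 CommGroupWithZero.toCommMonoidWithZero CommGroupWithZero.toGroupWithZero DivisionSemiring.toGroupWithZero LinearOrderedCommMonoidWithZero.toCommMonoidWithZero AddCancelCommMonoid.toAddCommMonoid AddCommGroup.toAddCancelCommMonoid ESeminormedAddCommMonoid.toAddCommMonoid SubtractionCommMonoid.toAddCommMonoid OrderAddMonoidHom.instAddMonoidHomClass CommMonoidWithZero.toMonoidWithZero GroupWithZero.toMonoidWithZero MonoidWithZero.toSemigroupWithZero NonUnitalNonAssocSemiring.toMulZeroClass SemigroupWithZero.toMulZeroClass AddCancelCommMonoid.toAddCancelMonoid AddCancelCommMonoid.toAddLeftCancelMonoid AddCancelMonoid.toAddLeftCancelMonoid AddCancelMonoid.toAddRightCancelMonoid AddGroup.toAddCancelMonoid AddLeftCancelMonoid.toAddMonoid AddRightCancelMonoid.toAddMonoid ENormedAddCommMonoid.toENormedAddMonoid ENormedAddCommMonoid.toESeminormedAddCommMonoid ENormedAddMonoid.toESeminormedAddMonoid ESeminormedAddCommMonoid.toESeminormedAddMonoid ESeminormedAddMonoid.toAddMonoid NormedAddCommGroup.toENormedAddCommMonoid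 NormedAddGroup.toENormedAddMonoid TwoSidedIdeal.instIsTwoSidedCoeOrderHomIdealAsIdeal Pi.instOne TensorProduct.instModule TensorProduct.instModuleFstSnd Pi.nonUnitalSemiring LeftPreLieAlgebra.toModule LieAdmissibleAlgebra.toModule LieAlgebra.toModule NormedSpace.toModule RightPreLieAlgebra.toModule OrderDual.instDivisionSemiring Quaternion.instDivisionRing AlgHom.instContinuousLinearMapClassOfAlgHomClass BialgHomClass.toCoalgHomClass CoalgEquivClass.toCoalgHomClass CoalgHomClass.toSemilinearMapClass ContinuousSemilinearEquivClass.continuousSemilinearMapClass ContinuousSemilinearMapClass.toSemilinearMapClass PositiveLinearMap.instContinuousLinearMapClassComplexOfLinearMapClassOfOrderHomClass RingHomClass.toLinearMapClassNNRat RingHomClass.toLinearMapClassRat SemilinearIsometryClass.toContinuousSemilinearMapClass SemilinearIsometryClass.toSemilinearMapClass Turing.FinTM2.decidableEqK AlgEquivClass.toAlgHomClass AlgHomClass.linearMapClass BialgHomClass.toAlgHomClass NonUnitalAlgHomClass.instSemilinearMapClassOfNonUnitalAlgSemiHomClassToMonoidHomRingHom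 CentroidHomClass.toAddMonoidHomClass MulSemiringActionSemiHomClass.toDistribMulActionSemiHomClass NonUnitalAlgSemiHomClass.toDistribMulActionSemiHomClass ValuationClass.toMonoidWithZeroHomClass Pi.normedRing PerfectClosure.instDivisionRing PerfectClosure.instField Monoid.End.instMonoidHomClass OneHom.oneHomClass CompleteLinearOrder.toConditionallyCompleteLinearOrderBot ConditionallyCompleteLinearOrderBot.toConditionallyCompleteLinearOrder AddOpposite.instAddZero CommMonCat.str AbsoluteValue.mulHomClass Pi.mulOneClass BialgHomClass.toMonoidHomClass MulCharClass.toMonoidHomClass MulDistribMulActionSemiHomClass.toMonoidHomClass MonoidWithZero.toMulActionWithZero Action.instMulAction Torsor.toMulAction Action.FintypeCat.instMulActionObjFiniteOf GradedMonoid.GradeZero.mulAction CommMonTypeEquivalenceCommMon.commMonCommMonoid AbsoluteValue.zeroHomClass CompleteLinearOrder.toLinearOrder ConditionallyCompleteLinearOrder.toLinearOrder LinearOrderedAddCommGroupWithTop.toLinearOrder LinearOrderedAddCommMonoidWithTop.toLinearOrder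 LinearOrderedCommMonoidWithZero.toLinearOrder AddCommGroup.toGrindIntModule CommRing.toGrindCommRing Field.toGrindField Ring.toGrindRing instMulActionSemiHomClassMulActionHom PadicComplex.normedField Pi.mulZeroClass coePNatNat Nat.Primes.coeNat Nat.Primes.coePNat -- iprune

set_option linter.all false

section

/-!
Stabilization of the homology of the filtered pieces.
-/

namespace Vale.Agent.P177

open Function IsLocalRing

universe u

section stab

variable {A : Type u} [CommRing A] {I : Ideal A} {M : Type u} [AddCommGroup M] [Module A M]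
  {F : ℕ → Submodule A M} {r : ℕ} (X : FRes I F r) {N : Type u} [AddCommGroup N] [Module A N]
  (G : ℕ → Submodule A N)

/-- Cycles of filtration level `n`. -/
def FRes.ZK (n i : ℕ) : Submodule A (Fin (X.b i) → N) := X.Z N i ⊓ wfil G (X.a i) n

/-- Boundaries of filtration level `n`. -/
def FRes.BK (n i : ℕ) : Submodule A (Fin (X.b i) → N) :=
  (wfil G (X.a (i + 1)) n).map (act N (X.δ i))

variable {G}

/-- The stabilization statement for one homological degree. -/
def FRes.Stab (G : ℕ → Submodule A N) (x : A) (i k : ℕ) : Prop :=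
  (∀ z ∈ X.ZK G (k + 1) i, ∃ w ∈ X.ZK G k i, z - x • w ∈ X.BK G (k + 1) i) ∧
  ∀ w ∈ X.ZK G k i, x • w ∈ X.BK G (k + 1) i → w ∈ X.BK G k i

end stab

end Vale.Agent.P177
end

section

/-!
Pairs of modules supported on a common hypersurface: transfer between two regular local rings.
-/

namespace Vale.Agent.P177

open CategoryTheory TensorProduct Function IsLocalRing RingTheory.Sequence Pointwise

universe u

section data

variable (A : Type u) [CommRing A] [IsLocalRing A] [IsNoetherianRing A]
    (C : Type u) [CommRing C] [IsLocalRing C] [Algebra A C] [Module.Flat A C]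
    (hloc : (maximalIdeal A).map (algebraMap A C) = maximalIdeal C)
    (S : Type u) [CommRing S] [Algebra S C]
    (hφ : Surjective (algebraMap S C))

end data

section base

variable (R : Type u) [CommRing R] [IsRegularLocalRing R] (d : ℕ) (hd : ringKrullDim R = d)
  (f : R) (hf0 : f ≠ 0)
  (S : Type u) [CommRing S] [IsRegularLocalRing S] (hdS : ringKrullDim S = d)
  (hS : SerreAll S d) (g : S) (hg0 : g ≠ 0)
  (C : Type u) [CommRing C] [IsLocalRing C] [Algebra (R ⧸ Ideal.span {f}) C]
  [Module.Flat (R ⧸ Ideal.span {f}) C]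
  (hloc : ((maximalIdeal R).map (Ideal.Quotient.mk (Ideal.span {f}))).map
    (algebraMap (R ⧸ Ideal.span {f}) C) = maximalIdeal C)
  [Algebra S C] (hφ : Surjective (algebraMap S C))
  (hker : RingHom.ker (algebraMap S C) = Ideal.span {g})

end base

end Vale.Agent.P177
end

section

/-!
# The annihilators of the Tor modules of `WI J'` over `S ⊗ W(C')` (P177)

`D = S ⊗ W(C')` acts on `X = WI J'` through `ψ : S → W(C')`. Elements of `I.map ψ ⊆ W(C')` lie in
`I D + ann X`. The condition `Nilp D I X` for `S` with maximal ideal generated by `p` and the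
`x_l`, `ψ x_l = [c_l]`.
-/

namespace Vale.Agent.P177.SL

open Vale.Agent.P202.Mix Function TensorProduct IsLocalRing Vale.Agent.P177.PI
open scoped ENNReal

universe u

section teich

variable (p : ℕ) [hp : Fact p.Prime] {C' : Type u} [CommRing C'] [CharP C' p] [PerfectRing C' p]

theorem annx_teich_add (a b : C') : WittVector.teichmuller p (a + b) -
    (WittVector.teichmuller p a + WittVector.teichmuller p b) ∈
      Ideal.span {(p : WittVector p C')} := by
  have h1 := (WittVector.mem_span_p_pow_iff_le_coeff_eq_zero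
    (WittVector.teichmuller p (a + b) -
      (WittVector.teichmuller p a + WittVector.teichmuller p b)) 1).2 (fun m hm => by
    have hm0 : m = 0 := by omega
    subst hm0
    have h2 : WittVector.constantCoeff (WittVector.teichmuller p (a + b) -
        (WittVector.teichmuller p a + WittVector.teichmuller p b)) = 0 := by
      have h3 : ∀ x : C', WittVector.constantCoeff (WittVector.teichmuller p x) = x := fun x =>
        WittVector.teichmuller_coeff_zero p x
      rw [map_sub, RingHom.map_add, h3, h3, h3, sub_self]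
    exact h2)
  rwa [pow_one] at h1

/-- the elements of `C'` with Teichmueller lift in a radical ideal containing `p`. -/
def teichIdeal (𝔞 : Ideal (WittVector p C')) (hpa : (p : WittVector p C') ∈ 𝔞.radical) :
    Ideal C' where
  carrier := {x | WittVector.teichmuller p x ∈ 𝔞.radical}
  zero_mem' := by
    change WittVector.teichmuller p (0 : C') ∈ 𝔞.radical
    rw [WittVector.teichmuller_zero]
    exact zero_mem _
  add_mem' := by
    intro a b ha hb
    change WittVector.teichmuller p (a + b) ∈ 𝔞.radical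
    have h1 := annx_teich_add p a b
    have h2 : Ideal.span {(p : WittVector p C')} ≤ 𝔞.radical := by
      rw [Ideal.span_singleton_le_iff_mem]
      exact hpa
    have h3 := add_mem (h2 h1) (add_mem ha hb)
    rwa [sub_add_cancel] at h3
  smul_mem' := by
    intro r a ha
    change WittVector.teichmuller p (r * a) ∈ 𝔞.radical
    rw [map_mul]
    exact Ideal.mul_mem_left _ _ ha

/-- if `c ^ m ∈ (y)` and `p`, all `[y_i]` are in the radical of `𝔞`, so is `[c]`. -/
theorem teich_mem_radical {𝔞 : Ideal (WittVector p C')}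
    (hpa : (p : WittVector p C') ∈ 𝔞.radical) {ι : Type*} (y : ι → C')
    (hy : ∀ i, WittVector.teichmuller p (y i) ∈ 𝔞.radical) {c : C'} {m : ℕ}
    (hc : c ^ m ∈ Ideal.span (Set.range y)) : WittVector.teichmuller p c ∈ 𝔞.radical := by
  have h1 : Ideal.span (Set.range y) ≤ teichIdeal p 𝔞 hpa := by
    rw [Ideal.span_le]
    rintro _ ⟨i, rfl⟩
    exact hy i
  have h2 : WittVector.teichmuller p (c ^ m) ∈ 𝔞.radical := h1 hc
  rw [map_pow] at h2
  have h3 : WittVector.teichmuller p c ∈ 𝔞.radical.radical := ⟨m, h2⟩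
  rwa [Ideal.radical_idem] at h3

end teich

section ann

variable (p : ℕ) [hp : Fact p.Prime] {C' : Type u} [CommRing C'] {S : Type u} [CommRing S]
  (J' : Ideal C') (ψ : S →+* WittVector p C')

/-- the module `WI J'` over `S ⊗ W(C')`. -/
abbrev XS : Type u := XMod p J' (rhoS ψ (RingHom.id (WittVector p C')))

theorem tmul_sub_mem_ann (s : S) : (s ⊗ₜ (1 : WittVector p C') : S ⊗[ℤ] WittVector p C') -
    (1 : S) ⊗ₜ ψ s ∈ Module.annihilator (S ⊗[ℤ] WittVector p C') (XS p J' ψ) := by
  rw [Module.mem_annihilator]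
  intro x
  rw [xmod_smul, map_sub, rhoS_tmul, rhoS_tmul, map_one, map_one, mul_one, one_mul,
    RingHom.id_apply, sub_self, zero_smul]

theorem one_tmul_mem {I : Ideal S} {v : WittVector p C'} (hv : v ∈ I.map ψ) :
    ((1 : S) ⊗ₜ v : S ⊗[ℤ] WittVector p C') ∈
      I.map (algebraMap S (S ⊗[ℤ] WittVector p C')) ⊔
        Module.annihilator (S ⊗[ℤ] WittVector p C') (XS p J' ψ) := by
  let g : WittVector p C' →+* S ⊗[ℤ] WittVector p C' :=
    (Algebra.TensorProduct.includeRight : WittVector p C' →ₐ[ℤ] S ⊗[ℤ] WittVector p C').toRingHom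
  have h1 : I.map ψ ≤ (I.map (algebraMap S (S ⊗[ℤ] WittVector p C')) ⊔
      Module.annihilator (S ⊗[ℤ] WittVector p C') (XS p J' ψ)).comap g := by
    rw [Ideal.map_le_iff_le_comap]
    intro s hs
    change (1 : S) ⊗ₜ ψ s ∈ I.map (algebraMap S (S ⊗[ℤ] WittVector p C')) ⊔
      Module.annihilator (S ⊗[ℤ] WittVector p C') (XS p J' ψ)
    have h2 : algebraMap S (S ⊗[ℤ] WittVector p C') s ∈
        I.map (algebraMap S (S ⊗[ℤ] WittVector p C')) := Ideal.mem_map_of_mem _ hs
    have h3 := Ideal.sub_mem _ (Ideal.mem_sup_left h2 : _ ∈ I.map (algebraMap S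
      (S ⊗[ℤ] WittVector p C')) ⊔ Module.annihilator (S ⊗[ℤ] WittVector p C') (XS p J' ψ))
      (Ideal.mem_sup_right (tmul_sub_mem_ann p J' ψ s))
    have h4 : algebraMap S (S ⊗[ℤ] WittVector p C') s -
        ((s ⊗ₜ (1 : WittVector p C') : S ⊗[ℤ] WittVector p C') - (1 : S) ⊗ₜ ψ s) =
          (1 : S) ⊗ₜ ψ s := by
      have h5 : algebraMap S (S ⊗[ℤ] WittVector p C') s = s ⊗ₜ (1 : WittVector p C') := rfl
      rw [h5, sub_sub_cancel]
    rwa [h4] at h3
  exact h1 hv

theorem algebraMap_mem_of {I : Ideal S} {s : S} (hs : ψ s ∈ I.map ψ) :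
    algebraMap S (S ⊗[ℤ] WittVector p C') s ∈
      I.map (algebraMap S (S ⊗[ℤ] WittVector p C')) ⊔
        Module.annihilator (S ⊗[ℤ] WittVector p C') (XS p J' ψ) := by
  have h1 := Ideal.add_mem _ (Ideal.mem_sup_right (tmul_sub_mem_ann p J' ψ s) :
    _ ∈ I.map (algebraMap S (S ⊗[ℤ] WittVector p C')) ⊔
      Module.annihilator (S ⊗[ℤ] WittVector p C') (XS p J' ψ)) (one_tmul_mem p J' ψ hs)
  rw [sub_add_cancel] at h1
  exact h1

/-- powers of elements of `W(C')` in the radical of `I.map ψ`. -/
theorem exists_pow_one_tmul_mem {I : Ideal S} {v : WittVector p C'}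
    (hv : v ∈ (I.map ψ).radical) : ∃ l : ℕ,
    ((1 : S) ⊗ₜ v : S ⊗[ℤ] WittVector p C') ^ l ∈
      I.map (algebraMap S (S ⊗[ℤ] WittVector p C')) ⊔
        Module.annihilator (S ⊗[ℤ] WittVector p C') (XS p J' ψ) := by
  obtain ⟨l, hl⟩ := hv
  refine ⟨l, ?_⟩
  rw [Algebra.TensorProduct.tmul_pow, one_pow]
  exact one_tmul_mem p J' ψ hl

/-- the condition `Nilp`. -/
theorem nilp_of_le_radical [IsLocalRing S] [IsNoetherianRing S] {I : Ideal S}
    (h : (maximalIdeal S).map ψ ≤ (I.map ψ).radical) :
    Nilp (S ⊗[ℤ] WittVector p C') I (XS p J' ψ) := by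
  obtain ⟨c, hc⟩ := Ideal.exists_pow_le_of_le_radical_of_fg h
    (Ideal.FG.map (IsNoetherian.noetherian (maximalIdeal S)) ψ)
  refine ⟨c, fun s hs => algebraMap_mem_of p J' ψ ?_⟩
  rw [map_pow]
  exact hc (Ideal.pow_mem_pow (Ideal.mem_map_of_mem ψ hs) c)

end ann

section nilp

variable (p : ℕ) [hp : Fact p.Prime] {C' : Type u} [CommRing C'] [CharP C' p] [PerfectRing C' p]
  {S : Type u} [CommRing S] [IsLocalRing S] [IsNoetherianRing S]
  (J' : Ideal C') (ψ : S →+* WittVector p C') {d : ℕ} (z : Fin d → S) (c : Fin d → C')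

end nilp

section cut

open Vale.Agent.P177.NatC

variable (p : ℕ) [hp : Fact p.Prime] {C' : Type u} [CommRing C'] [CharP C' p] [PerfectRing C' p]
  {S : Type u} [CommRing S] (J' : Ideal C') (φ : S →+* WittVector p C')

end cut

end Vale.Agent.P177.SL
end

section

/-!
P177, block B7, concrete form, part A: the hypotheses `Nilp` and `BaseGrowth` for the modules
`WI J` over `S ⊗ W(C')`, `S` local with maximal ideal `(p, z_1, .., z_d)`.
-/

namespace Vale.Agent.P177.SL

open Vale.Agent.P202.Mix Function TensorProduct IsLocalRing Vale.Agent.P177.PI WittVector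
open scoped ENNReal

universe u

section change

/-- change of rings for Koszul homology along a ring homomorphism. -/
theorem len_KC_restrict {V D : Type u} [CommRing V] [CommRing D] (g : V →+* D) (L' : AddLen V)
    {M M' : Type u} [AddCommGroup M] [Module V M] [AddCommGroup M'] [Module D M'] (e : M ≃+ M')
    (h : ∀ (v : V) (m : M), e (v • m) = g v • e m) (xs : List V) (i : ℕ) :
    (L'.restrict g).len ((KG.KC (R := D) M' (xs.map g)).H i) =
      L'.len ((KG.KC (R := V) M xs).H i) := by
  let i1 : Algebra V D := g.toAlgebra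
  let i2 : Module V M' := Module.compHom M' g
  have i3 : IsScalarTower V D M' := IsScalarTower.of_algebraMap_smul fun _ _ => rfl
  let e' : M ≃ₗ[V] M' := { e with map_smul' := h }
  have h1 := KG.len_KC_change (D := D) (M := M') (KG.ALen.of L') xs i
  have h2 := MN.KC_len_congr (KG.ALen.of L') e' xs i
  exact h1.symm.trans h2.symm

end change

/-- the homomorphism `V → S ⊗ V`. -/
noncomputable abbrev inR (S : Type u) [CommRing S] (V : Type u) [CommRing V] : V →+* S ⊗[ℤ] V :=
  (Algebra.TensorProduct.includeRight : V →ₐ[ℤ] S ⊗[ℤ] V).toRingHom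

/-- lengths over `S ⊗ V` pulled back from `V`. -/
noncomputable abbrev lenR (S : Type u) [CommRing S] {V : Type u} [CommRing V] (L' : AddLen V) :
    AddLen (S ⊗[ℤ] V) :=
  L'.restrict (inR S V)

section W

variable {p : ℕ} [hp : Fact p.Prime] {C' : Type u} [CommRing C'] {S : Type u} [CommRing S]
  (ψ : S →+* WittVector p C')

theorem rhoS_inR (v : WittVector p C') :
    rhoS ψ (RingHom.id (WittVector p C')) (inR S (WittVector p C') v) = v := by
  have h2 : inR S (WittVector p C') v = (1 : S) ⊗ₜ v := rfl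
  rw [h2, rhoS_tmul, map_one, one_mul, RingHom.id_apply]

/-- the Koszul homology of `WI J` over `S ⊗ W(C')` and over `W(C')`. -/
theorem xs_KC (L' : AddLen (WittVector p C')) (J : Ideal C') (xs : List (WittVector p C'))
    (i : ℕ) :
    (lenR S L').len ((KG.KC (R := S ⊗[ℤ] WittVector p C') (XS p J ψ)
        (xs.map (inR S (WittVector p C')))).H i) =
      L'.len ((KG.KC (R := WittVector p C') (WI p J) xs).H i) := by
  refine len_KC_restrict _ L' (M := WI p J) (M' := XS p J ψ) (AddEquiv.refl _) ?_ xs i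
  intro v m
  have h1 := rhoS_inR (S := S) ψ v
  change v • m = rhoS ψ (RingHom.id (WittVector p C')) (inR S (WittVector p C') v) • m
  rw [h1]

variable {d : ℕ} {z : Fin d → S} {n : ℕ} (v : Fin n → C')

section

variable [IsLocalRing S] [IsNoetherianRing S]
  (hmax : maximalIdeal S = Ideal.span ({(p : S)} ∪ Set.range z))
include hmax

omit [IsNoetherianRing S] in
theorem xs_le_radical {I : Ideal S}
    (hp' : ∃ m : ℕ, (p : WittVector p C') ^ m ∈ I.map ψ)
    (hv : ∀ i, ∃ m : ℕ, teichmuller p (v i) ^ m ∈ I.map ψ)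
    (hr1 : ∀ l, ∃ m : ℕ, ψ (z l) ^ m ∈
      Ideal.ofList ((p : WittVector p C') :: List.ofFn fun i => teichmuller p (v i))) :
    (maximalIdeal S).map ψ ≤ (I.map ψ).radical := by
  have h0 : Ideal.ofList ((p : WittVector p C') :: List.ofFn fun i => teichmuller p (v i)) ≤
      (I.map ψ).radical := by
    refine Ideal.span_le.2 ?_
    intro x hx
    rcases List.mem_cons.1 hx with rfl | hx
    · exact hp'
    · obtain ⟨i, rfl⟩ := (List.mem_ofFn' _ _).1 hx
      exact hv i
  rw [Ideal.map_le_iff_le_comap, hmax, Ideal.span_le]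
  rintro s (hs | ⟨l, rfl⟩)
  · rw [Set.mem_singleton_iff] at hs
    subst hs
    change ψ (p : S) ∈ (I.map ψ).radical
    rw [map_natCast]
    exact hp'
  · change ψ (z l) ∈ (I.map ψ).radical
    obtain ⟨m, hm⟩ := hr1 l
    have h1 : ψ (z l) ∈ (I.map ψ).radical.radical := ⟨m, h0 hm⟩
    rwa [Ideal.radical_idem] at h1

/-- the condition `Nilp`. -/
theorem xs_nilp (J : Ideal C') {I : Ideal S}
    (hp' : ∃ m : ℕ, (p : WittVector p C') ^ m ∈ I.map ψ)
    (hv : ∀ i, ∃ m : ℕ, teichmuller p (v i) ^ m ∈ I.map ψ)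
    (hr1 : ∀ l, ∃ m : ℕ, ψ (z l) ^ m ∈
      Ideal.ofList ((p : WittVector p C') :: List.ofFn fun i => teichmuller p (v i))) :
    Nilp (S ⊗[ℤ] WittVector p C') I (XS p J ψ) :=
  nilp_of_le_radical p J ψ (xs_le_radical ψ v hmax hp' hv hr1)

end

theorem map_ofList_pz : (Ideal.ofList (pz (p : S) z 1)).map ψ =
    Ideal.span (Set.range fun l => ψ (z l)) ⊔ Ideal.span {(p : WittVector p C')} := by
  rw [Ideal.map_ofList, pz, List.map_cons, Ideal.ofList_cons, sup_comm, map_natCast]
  congr 1
  rw [Ideal.ofList]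
  congr 1
  ext x
  simp only [pow_one, List.map_ofFn, List.mem_ofFn, Function.comp_apply, Set.mem_ofPred_eq,
    Set.mem_range]

/-- `p` is regular on `WI J`. -/
theorem xs_p_regular [CharP C' p] [PerfectRing C' p] (J : Ideal C') (x : XS p J ψ)
    (hx : algebraMap S (S ⊗[ℤ] WittVector p C') (p : S) • x = 0) : x = 0 := by
  rw [map_natCast, xmod_smul, map_natCast] at hx
  have h1 : (p : WittVector p C') * ((show WI p J from x) : WittVector p C') = 0 :=
    congrArg (Subtype.val : WI p J → WittVector p C') hx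
  rw [mul_comm] at h1
  exact Subtype.ext (WittVector.eq_zero_of_p_mul_eq_zero _ h1)

/-- the powers of `1 ⊗ p`, `1 ⊗ [v_i]` lie in `(p, z) + ann`. -/
theorem xs_pow_mem (J : Ideal C') {I : Ideal S}
    (hp' : ∃ m : ℕ, (p : WittVector p C') ^ m ∈ I.map ψ)
    (hv : ∀ i, ∃ m : ℕ, teichmuller p (v i) ^ m ∈ I.map ψ) :
    ∀ y ∈ ((p : WittVector p C') :: List.ofFn fun i => teichmuller p (v i)).map
      (inR S (WittVector p C')), ∃ l : ℕ, y ^ l ∈
      I.map (algebraMap S (S ⊗[ℤ] WittVector p C')) ⊔
        Module.annihilator (S ⊗[ℤ] WittVector p C') (XS p J ψ) := by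
  have key : ∀ y ∈ ((p : WittVector p C') :: List.ofFn fun i => teichmuller p (v i)),
      y ∈ (I.map ψ).radical := by
    intro y hy
    rcases List.mem_cons.1 hy with rfl | hy
    · exact hp'
    · obtain ⟨i, rfl⟩ := (List.mem_ofFn' _ _).1 hy
      exact hv i
  intro y hy
  obtain ⟨w, hw, rfl⟩ := List.mem_map.1 hy
  exact exists_pow_one_tmul_mem p J ψ (key w hw)

/-- the growth of the Tor modules. -/
theorem xs_growth [CharP C' p] [PerfectRing C' p]
    (hreg : ∀ t, 1 ≤ t → RingTheory.Sequence.IsWeaklyRegular S (pz (p : S) z t))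
    (L' : AddLen (WittVector p C')) (J : Ideal C')
    (hmJ : ∀ i, L'.len ((KG.KC (R := WittVector p C') (WI p J)
      ((p : WittVector p C') :: List.ofFn fun i => teichmuller p (v i))).H i) ≠ ⊤)
    (hr2 : ∀ i, ∃ m : ℕ, teichmuller p (v i) ^ m ∈
      Ideal.span (Set.range fun l => ψ (z l)) ⊔ Ideal.span {(p : WittVector p C')}) :
    BaseGrowth (lenR S L') (p : S) z n (XS p J ψ) := by
  have hf : Module.Flat ℤ (WittVector p C') := Full.flat_int_witt p C'
  have h1 : ((List.ofFn fun i => teichmuller p (v i)).map (inR S (WittVector p C'))).length = n := by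
    rw [List.length_map, List.length_ofFn]
  have h2 := baseGrowth_of_kos (lenR S L') (XS p J ψ) (p : S) z hreg (xs_p_regular ψ J)
    ((List.ofFn fun i => teichmuller p (v i)).map (inR S (WittVector p C'))) ?_ ?_
  · rwa [h1] at h2
  · intro y hy
    refine xs_pow_mem ψ v J (I := Ideal.ofList (pz (p : S) z 1)) ⟨1, ?_⟩ (fun i => ?_) y ?_
    · rw [map_ofList_pz, pow_one]
      exact Ideal.mem_sup_right (Ideal.mem_span_singleton_self _)
    · rw [map_ofList_pz]
      exact hr2 i
    · rw [List.map_cons]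
      exact List.mem_cons_of_mem _ hy
  · intro i
    have h3 := hmJ i
    rw [← xs_KC (S := S) ψ L' J] at h3
    have h4 : algebraMap S (S ⊗[ℤ] WittVector p C') (p : S) = inR S (WittVector p C') (p : WittVector p C') := by
      rw [map_natCast, map_natCast]
    rw [h4, ← List.map_cons]
    exact h3

end W

end Vale.Agent.P177.SL
end

section

/-!
P177, inner assembly: Tor of the honest modules over `R ⊗ W(C)` is Tor over
`W(k)[[x]] ⊗ W(C')` of `WI J'`.
-/

namespace Vale.Agent.P177.Full

open TensorProduct IsLocalRing RingTheory.Sequence Function Vale.Agent.P202.Mix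
  Vale.Agent.P177.Flag Vale.Agent.P177.PI Vale.Agent.P177.Lev Vale.Agent.P177.SL WittVector
open scoped ENNReal

universe u

section gen

variable {S R : Type u} [CommRing S] [CommRing R] (Φ : S →+* R) (P : Ideal R)

/-- `S ⧸ Φ⁻¹ P ≃ R ⧸ P` over `S`. -/
theorem exists_quot_equiv (hΦ : Surjective Φ) :
    letI : Module S (R ⧸ P) := Module.compHom _ Φ
    Nonempty ((S ⧸ P.comap Φ) ≃ₗ[S] (R ⧸ P)) := by
  let _ : Module S (R ⧸ P) := Module.compHom _ Φ
  let g : S ⧸ P.comap Φ →+* R ⧸ P := Ideal.quotientMap P Φ le_rfl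
  have hg : Bijective g := by
    constructor
    · exact Ideal.quotientMap_injective
    · exact Ideal.quotientMap_surjective hΦ
  refine ⟨LinearEquiv.ofBijective
    { toFun := g
      map_add' := g.map_add
      map_smul' := fun s x => ?_ } hg⟩
  obtain ⟨x, rfl⟩ := Ideal.Quotient.mk_surjective x
  exact map_mul g (Ideal.Quotient.mk _ s) (Ideal.Quotient.mk _ x)

/-- `S ⧸ Φ⁻¹ P ≃ R ⧸ P`. -/
noncomputable def _root_.Ideal.quotientEquivOfComap (hΦ : Surjective Φ) :
    S ⧸ P.comap Φ ≃+* R ⧸ P :=
  RingEquiv.ofBijective (Ideal.quotientMap P Φ le_rfl)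
    ⟨Ideal.quotientMap_injective, Ideal.quotientMap_surjective hΦ⟩

variable {p : ℕ} [hp : Fact p.Prime] {C C' : Type u}
  [CommRing C] [CharP C p] [PerfectRing C p] [CommRing C'] [CharP C' p] [PerfectRing C' p]
  (f : C →+* C') (hΦ : Surjective Φ) (E : S) (hE : RingHom.ker Φ = Ideal.span {E})
  (ψ : S →+* WittVector p C)

theorem glue_len (L : AddLen (WittVector p C)) (J : Ideal C) (hreg : IsSMulRegular S E)
    (hψ : ∀ x : WittVector p C', ((WittVector.map f).comp ψ) E * x = 0 → x = 0)
    (P : Ideal R) (n : ℕ) :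
    (L.restrict (Algebra.TensorProduct.includeRight :
      WittVector p C →ₐ[ℤ] R ⊗[ℤ] WittVector p C).toRingHom).len
      (TorM (R ⊗[ℤ] WittVector p C) n (NatG.HJ p f Φ hΦ E hE ψ J)
        ((R ⊗[ℤ] WittVector p C) ⊗[R] (R ⧸ P))) =
    tau S (lenR S (L.restrict (WittVector.map f))) n (S ⧸ P.comap Φ)
      (XS p (J.map f) ((WittVector.map f).comp ψ)) := by
  have hflat : Module.Flat ℤ (WittVector p C') := flat_int_witt p C'
  let _ : Module S (R ⧸ P) := Module.compHom _ Φ
  obtain ⟨e⟩ := exists_quot_equiv Φ P hΦ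
  have h1 := NatG.len_tor_HJ_W p f Φ hΦ E hE ψ L J n (R ⧸ P)
  have h2 := len_tor_hmod_eq_tau (J' := J.map f) (L.restrict (WittVector.map f)) Φ hΦ E hE
    hreg ((WittVector.map f).comp ψ) (RingHom.id (WittVector p C')) (fun x _ => hψ x) n (R ⧸ P)
    (fun s a => rfl)
  rw [tau_congr _ n e]
  exact h1.trans h2

/-- **generic form**: the Euler characteristics over `R ⊗ W(C)` and over `S ⊗ W(C')`. -/
theorem glue_chi (L : AddLen (WittVector p C)) (J : Ideal C) (hreg : IsSMulRegular S E)
    (hψ : ∀ x : WittVector p C', ((WittVector.map f).comp ψ) E * x = 0 → x = 0)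
    (P : Ideal R) (nn : ℕ) :
    TH.chi (L.restrict (Algebra.TensorProduct.includeRight :
      WittVector p C →ₐ[ℤ] R ⊗[ℤ] WittVector p C).toRingHom) nn (NatG.HJ p f Φ hΦ E hE ψ J)
        ((R ⊗[ℤ] WittVector p C) ⊗[R] (R ⧸ P)) =
    SL.chi S (lenR S (L.restrict (WittVector.map f))) nn (S ⧸ P.comap Φ)
      (XS p (J.map f) ((WittVector.map f).comp ψ)) := by
  unfold TH.chi SL.chi
  exact Finset.sum_congr rfl fun i _ => by rw [glue_len Φ f hΦ E hE ψ L J hreg hψ P i]

variable (p) in
/-- the Euler characteristic over `S ⊗ W(C')` of `S ⧸ I` and `WI J'`. -/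
noncomputable def chiXS (L' : AddLen (WittVector p C')) (ψ' : S →+* WittVector p C')
    (J' : Ideal C') (nn : ℕ) (I : Ideal S) : ℝ :=
  SL.chi S (lenR S L') nn (S ⧸ I) (XS p J' ψ')

end gen

namespace Core

variable {p : ℕ} [Fact p.Prime] {R : Type u} [CommRing R] [IsRegularLocalRing R]
    [CharP (ResidueField R) p] [PerfectRing (ResidueField R) p] {d : ℕ} {P : Ideal R}
    {hs : List R} {r : ℕ} [IsRegularLocalRing (Lam p (ResidueField R) r)]
    [Algebra (Lam p (ResidueField R) r) R] {Ω : Type u} [Field Ω]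
    [Algebra (Lam p (ResidueField R) r) Ω] {F : Fin 2 → FlagMod (Lam p (ResidueField R) r) Ω hs}
    (X : Core p d P hs r Ω F)

/-- `E` is not zero. -/
theorem E_ne_zero : X.E ≠ 0 := by
  intro h
  have h1 : (MvPowerSeries.constantCoeff (σ := Fin d) (R := WittVector p (ResidueField R))) X.E =
      (p : WittVector p (ResidueField R)) := by
    have h2 : (MvPowerSeries.constantCoeff (σ := Fin d) (R := WittVector p (ResidueField R)))
        X.g = 0 := by
      have h3 : Ideal.span (Set.range (MvPowerSeries.X : Fin d → Sx p (ResidueField R) d)) ^ 2 ≤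
          RingHom.ker (MvPowerSeries.constantCoeff (σ := Fin d)
            (R := WittVector p (ResidueField R))) := by
        refine (Ideal.pow_le_self two_ne_zero).trans ?_
        rw [Ideal.span_le]
        rintro _ ⟨i, rfl⟩
        exact MvPowerSeries.constantCoeff_X i
      exact h3 X.g_mem
    rw [E, map_sub, h2, sub_zero, map_natCast]
  rw [h, map_zero] at h1
  exact (WittVector.p_nonzero p (ResidueField R)) h1.symm

theorem E_regular : IsSMulRegular (Sx p (ResidueField R) d) X.E := by
  intro x y h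
  exact mul_left_cancel₀ X.E_ne_zero h

variable {C' : Type u} [CommRing C'] [CharP C' p] [PerfectRing C' p] (f : X.K.C →+* C')

/-- `W(k)[[x]] → W(C')`. -/
noncomputable abbrev psiZ (σ : R →ₐ[Lam p (ResidueField R) r] Ω) :
    Sx p (ResidueField R) d →+* WittVector p C' := (WittVector.map f).comp (X.psi σ)

/-- **the Euler characteristics**. -/
theorem chi_HJ (σ : R →ₐ[Lam p (ResidueField R) r] Ω) (J : Ideal X.K.C)
    (hψ : ∀ x : WittVector p C', X.psiZ f σ X.E * x = 0 → x = 0) (nn : ℕ) :
    TH.chi X.LD nn (X.HJ f σ J) ((R ⊗[ℤ] WittVector p X.K.C) ⊗[R] (R ⧸ P)) =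
    chiXS p (X.K.mass.restrict (WittVector.map f)) (X.psiZ f σ) (J.map f) nn (P.comap X.Φ) :=
  glue_chi X.Φ f X.Φ_surj X.E X.ker_Φ (X.psi σ) X.K.mass J X.E_regular hψ P nn

/-- (H1) from the exactness relation of `E`. -/
theorem psiE_regular (σ : R →ₐ[Lam p (ResidueField R) r] Ω) {t : C'}
    (ht : t ∈ nonZeroDivisors C') {z w : WittVector p C'} {M : ℕ} (hz : IsUnit z) (hM : 1 ≤ M)
    (hE : X.psiZ f σ X.E = ((p : WittVector p C') - teichmuller p t) * z +
      (p : WittVector p C') ^ M * w) (x : WittVector p C') (hx : X.psiZ f σ X.E * x = 0) :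
    x = 0 :=
  NatC.eq_zero_of_E_mul p ht hz hM hE hx

/-- the dimension of the support. -/
theorem supportDim_comap : Module.supportDim (Sx p (ResidueField R) d)
    (Sx p (ResidueField R) d ⧸ P.comap X.Φ) = ringKrullDim (R ⧸ P) := by
  rw [Module.supportDim_quotient_eq_ringKrullDim]
  exact ringKrullDim_eq_of_ringEquiv (Ideal.quotientEquivOfComap X.Φ P X.Φ_surj)

end Core

end Vale.Agent.P177.Full
end

section

/-!
P177, block RHO, part B: the Euler characteristic of `E ⊗ k` with `Y₁` and `Y₂` agree, if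
`0 → Y₁ → Y₂ → Q → 0` is exact and a nonzero element of the base kills `Q` up to null maps.
-/

namespace Vale.Agent.P177.SL

open Vale.Agent.P202.Mix Function TensorProduct IsLocalRing
open scoped ENNReal

universe u

variable {Λ E : Type u} [CommRing Λ] [CommRing E] [Algebra Λ E] (L : AddLen E)

theorem tl_symm (j : ℕ) (M : Type u) [AddCommGroup M] [Module E M] (Y : Type u) [AddCommGroup Y]
    [Module E Y] : B8.tl L Y j M = B8.tl L M j Y := by
  obtain ⟨e⟩ := tor_symm (R := E) j M Y
  exact len_congr L e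

end Vale.Agent.P177.SL
end

section

/-!
P177, block B7, concrete form, part B: finiteness, vanishing, independence of `J`.
-/

namespace Vale.Agent.P177.SL

open Vale.Agent.P202.Mix Function TensorProduct IsLocalRing Vale.Agent.P177.PI WittVector
open scoped ENNReal

universe u

section gen

variable {S D : Type u} [CommRing S] [CommRing D] [Algebra S D] (L : AddLen D)
  (N : Type u) [AddCommGroup N] [Module S N]

/-- the Euler characteristic is stable. -/
theorem chi_succ_eq {X : Type u} [AddCommGroup X] [Module D X] {n : ℕ}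
    (hn : tau S L n N X = 0) : chi S L (n + 1) N X = chi S L n N X := by
  unfold chi
  rw [Finset.sum_range_succ, hn, ENNReal.toReal_zero, mul_zero, add_zero]

/-- additivity in the second variable. -/
theorem chi_add_right {X₁ X₂ Q : Type u} [AddCommGroup X₁] [Module D X₁] [AddCommGroup X₂]
    [Module D X₂] [AddCommGroup Q] [Module D Q] (f : X₁ →ₗ[D] X₂) (g : X₂ →ₗ[D] Q)
    (hf : Injective f) (hg : Surjective g) (h : Exact f g) (f1 : ∀ j, tau S L j N X₁ ≠ ⊤)
    (f3 : ∀ j, tau S L j N Q ≠ ⊤) (n : ℕ) (v1 : tau S L n N X₁ = 0) (v2 : tau S L n N X₂ = 0)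
    (v3 : tau S L n N Q = 0) :
    chi S L n N X₂ = chi S L n N X₁ + chi S L n N Q := by
  have e : ∀ (X : Type u) [AddCommGroup X] [Module D X] (j : ℕ),
      B8.tl L (D ⊗[S] N) j X = tau S L j N X := fun X _ _ j => (tl_symm L j (D ⊗[S] N) X).symm
  have h2 := B8.chi_add L (D ⊗[S] N) f g hf hg h n (fun j => by rw [e]; exact f1 j)
    (fun j => by rw [e]; exact f3 j) (by rw [e]; exact v1)
  have e2 : ∀ (X : Type u) [AddCommGroup X] [Module D X],
      B8.chi L (D ⊗[S] N) (n + 1) X = chi S L (n + 1) N X := by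
    intro X _ _
    unfold B8.chi chi
    exact Finset.sum_congr rfl fun j _ => by rw [e]
  rw [e2, e2, e2, chi_succ_eq L N v1, chi_succ_eq L N v2, chi_succ_eq L N v3] at h2
  exact h2

end gen

section W

variable {p : ℕ} [hp : Fact p.Prime] {C' : Type u} [CommRing C'] [CharP C' p] [PerfectRing C' p]
  {S : Type u} [CommRing S] (ψ : S →+* WittVector p C')

section quot

omit [CharP C' p] [PerfectRing C' p]

theorem mem_WI_top' (x : WittVector p C') : x ∈ WI p (⊤ : Ideal C') := by
  have h1 : (1 : WittVector p C') ∈ WI p (⊤ : Ideal C') := by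
    have := te_mem_WI p (J := (⊤ : Ideal C')) (c := 1) trivial
    rwa [map_one] at this
  rw [← mul_one x]
  exact Ideal.mul_mem_left _ _ h1

variable (J : Ideal C')

/-- the module `W(C') / WI J` over `S ⊗ W(C')`. -/
def QS (_ : S →+* WittVector p C') (J : Ideal C') : Type u := WittVector p C' ⧸ WI p J

noncomputable instance : AddCommGroup (QS ψ J) :=
  inferInstanceAs (AddCommGroup (WittVector p C' ⧸ WI p J))

noncomputable instance instQSD : Module (S ⊗[ℤ] WittVector p C') (QS ψ J) :=
  Module.compHom (WittVector p C' ⧸ WI p J) (rhoS ψ (RingHom.id (WittVector p C')))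

theorem qs_smul (a : S ⊗[ℤ] WittVector p C') (x : QS ψ J) :
    a • x = (show QS ψ J from rhoS ψ (RingHom.id (WittVector p C')) a •
      (show WittVector p C' ⧸ WI p J from x)) := rfl

theorem WI_le_top : WI p J ≤ WI p (⊤ : Ideal C') := fun _ _ => mem_WI_top' _

/-- the inclusion over `W(C')`. -/
noncomputable def incV : WI p J →ₗ[WittVector p C'] WI p (⊤ : Ideal C') :=
  Submodule.inclusion (WI_le_top J)

/-- the projection over `W(C')`. -/
noncomputable def prV : WI p (⊤ : Ideal C') →ₗ[WittVector p C'] WittVector p C' ⧸ WI p J :=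
  (WI p J).mkQ ∘ₗ (WI p (⊤ : Ideal C')).subtype

/-- the inclusion. -/
noncomputable def incS : XS p J ψ →ₗ[S ⊗[ℤ] WittVector p C'] XS p (⊤ : Ideal C') ψ where
  toFun x := incV J (show WI p J from x)
  map_add' x y := map_add (incV J) (show WI p J from x) (show WI p J from y)
  map_smul' a x := map_smul (incV J) (rhoS ψ (RingHom.id (WittVector p C')) a)
    (show WI p J from x)

/-- the projection. -/
noncomputable def prS : XS p (⊤ : Ideal C') ψ →ₗ[S ⊗[ℤ] WittVector p C'] QS ψ J where
  toFun x := prV J (show WI p (⊤ : Ideal C') from x)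
  map_add' x y := map_add (prV J) (show WI p (⊤ : Ideal C') from x)
    (show WI p (⊤ : Ideal C') from y)
  map_smul' a x := map_smul (prV J) (rhoS ψ (RingHom.id (WittVector p C')) a)
    (show WI p (⊤ : Ideal C') from x)

omit [CommRing S] in
theorem incV_inj : Injective (incV (p := p) J) := Submodule.inclusion_injective _

theorem prV_surj : Surjective (prV (p := p) J) := by
  intro x
  obtain ⟨w, rfl⟩ := Submodule.mkQ_surjective _ x
  exact ⟨⟨w, mem_WI_top' w⟩, rfl⟩

theorem prV_apply (x : WI p (⊤ : Ideal C')) : prV J x = (WI p J).mkQ x.1 := rfl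

theorem incV_coe (x : WI p J) : ((incV J x : WI p (⊤ : Ideal C')) : WittVector p C') = x.1 :=
  Submodule.coe_inclusion (WI_le_top J) x

theorem incV_exact : Exact (incV (p := p) J) (prV J) := by
  intro x
  rw [prV_apply, Submodule.mkQ_apply, Submodule.Quotient.mk_eq_zero]
  constructor
  · intro h
    refine ⟨⟨x.1, h⟩, ?_⟩
    apply Subtype.ext
    rw [incV_coe]
  · rintro ⟨y, rfl⟩
    rw [incV_coe]
    exact y.2

theorem incS_inj : Injective (incS ψ J) := incV_inj J

theorem prS_surj : Surjective (prS ψ J) := prV_surj J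

theorem incS_exact : Exact (incS ψ J) (prS ψ J) := incV_exact J

theorem ann_top_le_ann_quot : Module.annihilator (S ⊗[ℤ] WittVector p C') (XS p (⊤ : Ideal C') ψ) ≤
    Module.annihilator (S ⊗[ℤ] WittVector p C') (QS ψ J) := by
  intro a ha
  rw [Module.mem_annihilator] at ha ⊢
  intro x
  obtain ⟨y, rfl⟩ := prS_surj ψ J x
  rw [← map_smul, ha, map_zero]

/-- the Koszul homology of the quotient over `S ⊗ W(C')` and over `W(C')`. -/
theorem qs_KC (L' : AddLen (WittVector p C')) (xs : List (WittVector p C')) (i : ℕ) :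
    (lenR S L').len ((KG.KC (R := S ⊗[ℤ] WittVector p C') (QS ψ J)
        (xs.map (inR S (WittVector p C')))).H i) =
      L'.len ((KG.KC (R := WittVector p C') (WittVector p C' ⧸ WI p J) xs).H i) := by
  refine len_KC_restrict _ L' (M := WittVector p C' ⧸ WI p J) (M' := QS ψ J)
    (AddEquiv.refl _) ?_ xs i
  intro v m
  have h1 := rhoS_inR (S := S) ψ v
  change v • m = rhoS ψ (RingHom.id (WittVector p C')) (inR S (WittVector p C') v) • m
  rw [h1]

end quot

omit [CommRing S] in
theorem quot_p_regular {J : Ideal C'} (hJ : IsPerf p J) (x : WittVector p C' ⧸ WI p J)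
    (hx : (p : WittVector p C') • x = 0) : x = 0 := by
  obtain ⟨w, rfl⟩ := Submodule.mkQ_surjective _ x
  rw [← map_smul] at hx
  have h1 : (p : WittVector p C') * w ∈ WI p J := (Submodule.Quotient.mk_eq_zero _).1 hx
  exact (Submodule.Quotient.mk_eq_zero _).2 (mem_of_p_mul_mem p hJ h1)

/-- `p` is regular on the quotient. -/
theorem qs_p_regular {J : Ideal C'} (hJ : IsPerf p J) (x : QS ψ J)
    (hx : algebraMap S (S ⊗[ℤ] WittVector p C') (p : S) • x = 0) : x = 0 := by
  rw [map_natCast, qs_smul, map_natCast] at hx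
  exact quot_p_regular hJ _ hx

variable {d : ℕ} {z : Fin d → S} {n : ℕ} (v : Fin n → C')

omit [CharP C' p] [PerfectRing C' p] in
/-- finiteness of the Koszul homology of the quotient. -/
theorem KC_quot_ne_top (L' : AddLen (WittVector p C')) (J : Ideal C')
    (xs : List (WittVector p C'))
    (hmJ : ∀ i, L'.len ((KG.KC (R := WittVector p C') (WI p J) xs).H i) ≠ ⊤)
    (hmV : ∀ i, L'.len ((KG.KC (R := WittVector p C') (WittVector p C') xs).H i) ≠ ⊤) (i : ℕ) :
    L'.len ((KG.KC (R := WittVector p C') (WittVector p C' ⧸ WI p J) xs).H i) ≠ ⊤ := by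
  have hex : Exact (WI p J).subtype (WI p J).mkQ := by
    rw [LinearMap.exact_iff, Submodule.ker_mkQ, Submodule.range_subtype]
  cases i with
  | zero =>
    exact ne_top_of_le_ne_top (hmV 0) (KG.KC_len_right_zero (KG.ALen.of L')
      (Submodule.injective_subtype _) (Submodule.mkQ_surjective _) hex xs)
  | succ i =>
    exact ne_top_of_le_ne_top (ENNReal.add_ne_top.2 ⟨hmV (i + 1), hmJ i⟩)
      (KG.KC_len_right (KG.ALen.of L') (Submodule.injective_subtype _)
        (Submodule.mkQ_surjective _) hex xs i)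

omit [CharP C' p] [PerfectRing C' p] in
/-- `WI ⊤ = W(C')`. -/
theorem KC_top_eq (L' : AddLen (WittVector p C')) (xs : List (WittVector p C')) (i : ℕ) :
    L'.len ((KG.KC (R := WittVector p C') (WI p (⊤ : Ideal C')) xs).H i) =
      L'.len ((KG.KC (R := WittVector p C') (WittVector p C') xs).H i) := by
  have h1 : WI p (⊤ : Ideal C') = ⊤ := Ideal.ext fun x => ⟨fun _ => trivial, fun _ => mem_WI_top' x⟩
  exact MN.KC_len_congr (KG.ALen.of L') ((LinearEquiv.ofEq _ _ h1).trans Submodule.topEquiv) xs i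

/-- the growth for the quotient, with the short list. -/
theorem qs_growth
    (hreg : ∀ t, 1 ≤ t → RingTheory.Sequence.IsWeaklyRegular S (pz (p : S) z t))
    (L' : AddLen (WittVector p C')) {J : Ideal C'} (hJ : IsPerf p J)
    (hmJ : ∀ i, L'.len ((KG.KC (R := WittVector p C') (WI p J)
      ((p : WittVector p C') :: List.ofFn fun i => teichmuller p (v i))).H i) ≠ ⊤)
    (hmV : ∀ i, L'.len ((KG.KC (R := WittVector p C') (WittVector p C')
      ((p : WittVector p C') :: List.ofFn fun i => teichmuller p (v i))).H i) ≠ ⊤)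
    (hr2 : ∀ i, ∃ m : ℕ, teichmuller p (v i) ^ m ∈
      Ideal.span (Set.range fun l => ψ (z l)) ⊔ Ideal.span {(p : WittVector p C')})
    {m : ℕ} (y : Fin m → C') (hy : ∀ j, y j ∈ Ideal.span (Set.range v)) (l : ℕ)
    (hcut : Ideal.span (Set.range v) ^ l ≤ Ideal.span (Set.range y) ⊔ J) :
    BaseGrowth (lenR S L') (p : S) z m (QS ψ J) := by
  have hf : Module.Flat ℤ (WittVector p C') := Full.flat_int_witt p C'
  obtain ⟨ys, hlen, hfin, hrad⟩ := exists_short_list_of_cut p v y hy J l hcut L'
    (KC_quot_ne_top L' J _ hmJ hmV)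
  have h1 : (ys.map (inR S (WittVector p C'))).length = m := by
    rw [List.length_map, hlen]
  have h2 := baseGrowth_of_kos (lenR S L') (QS ψ J) (p : S) z hreg (qs_p_regular ψ hJ)
    (ys.map (inR S (WittVector p C'))) ?_ ?_
  · rwa [h1] at h2
  · intro y' hy'
    obtain ⟨w, hw, rfl⟩ := List.mem_map.1 hy'
    obtain ⟨k, hk⟩ := hrad ((Ideal.ofList (pz (p : S) z 1)).map ψ)
      (by
        rw [map_ofList_pz]
        exact Ideal.mem_sup_right (Ideal.mem_span_singleton_self _))
      (by
        rw [map_ofList_pz]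
        exact hr2) w hw
    obtain ⟨l', hl'⟩ := exists_pow_one_tmul_mem p (⊤ : Ideal C') ψ
      (I := Ideal.ofList (pz (p : S) z 1)) (v := w) ⟨k, hk⟩
    exact ⟨l', (sup_le_sup_left (ann_top_le_ann_quot ψ J) _ : _ ≤ _) hl'⟩
  · intro i
    have h3 := hfin i
    rw [← qs_KC (S := S) ψ J L'] at h3
    have h4 : algebraMap S (S ⊗[ℤ] WittVector p C') (p : S) =
        inR S (WittVector p C') (p : WittVector p C') := by
      rw [map_natCast, map_natCast]
    rw [h4, ← List.map_cons]
    exact h3

section main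

variable [IsLocalRing S] [IsNoetherianRing S]
  (hmax : maximalIdeal S = Ideal.span ({(p : S)} ∪ Set.range z))
  (hreg : ∀ t, 1 ≤ t → RingTheory.Sequence.IsWeaklyRegular S (pz (p : S) z t))
  (T : Thick S d (p : S) z) (L' : AddLen (WittVector p C'))
  (hr1 : ∀ l, ∃ m : ℕ, ψ (z l) ^ m ∈
      Ideal.ofList ((p : WittVector p C') :: List.ofFn fun i => teichmuller p (v i)))
  (hr2 : ∀ i, ∃ m : ℕ, teichmuller p (v i) ^ m ∈
      Ideal.span (Set.range fun l => ψ (z l)) ⊔ Ideal.span {(p : WittVector p C')})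
  {P : Ideal S}
  (hp' : ∃ m : ℕ, (p : WittVector p C') ^ m ∈ P.map ψ)
  (hv : ∀ i, ∃ m : ℕ, teichmuller p (v i) ^ m ∈ P.map ψ)
  (N : Type u) [AddCommGroup N] [Module S N] [Module.Finite S N]
  (hN : P ≤ Module.annihilator S N)
include hmax hreg T hr1 hr2 hp' hv hN

/-- **finiteness** -/
theorem b7_fin (J : Ideal C')
    (hmJ : ∀ i, L'.len ((KG.KC (R := WittVector p C') (WI p J)
      ((p : WittVector p C') :: List.ofFn fun i => teichmuller p (v i))).H i) ≠ ⊤)
    (hdim : ∃ a : ℕ, Module.supportDim S N ≤ a) (i : ℕ) :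
    tau S (lenR S L') i N (XS p J ψ) ≠ ⊤ := by
  have hf : Module.Flat ℤ (WittVector p C') := Full.flat_int_witt p C'
  exact tau_ne_top T (xs_growth ψ v hreg L' J hmJ hr2) (xs_nilp ψ v hmax J hp' hv hr1) hdim hN i

/-- **vanishing** -/
theorem b7_vanish (J : Ideal C')
    (hmJ : ∀ i, L'.len ((KG.KC (R := WittVector p C') (WI p J)
      ((p : WittVector p C') :: List.ofFn fun i => teichmuller p (v i))).H i) ≠ ⊤)
    (a : ℕ) (ha : Module.supportDim S N ≤ a) (had : a + n < d) (nn : ℕ)
    (hnn : tau S (lenR S L') nn N (XS p J ψ) = 0) :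
    chi S (lenR S L') nn N (XS p J ψ) = 0 := by
  have hf : Module.Flat ℤ (WittVector p C') := Full.flat_int_witt p C'
  exact chi_eq_zero T (xs_growth ψ v hreg L' J hmJ hr2) (xs_nilp ψ v hmax J hp' hv hr1)
    (fun t n N _ _ h1 h2 => chi_thick (lenR S L') (T.Θ t) (T.near t) N (XS p J ψ) h1 n h2) N hN a
    ha had nn hnn

/-- **independence of `J`** -/
theorem b7_indep {J : Ideal C'} (hJ : IsPerf p J)
    (hmJ : ∀ i, L'.len ((KG.KC (R := WittVector p C') (WI p J)
      ((p : WittVector p C') :: List.ofFn fun i => teichmuller p (v i))).H i) ≠ ⊤)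
    (hmV : ∀ i, L'.len ((KG.KC (R := WittVector p C') (WittVector p C')
      ((p : WittVector p C') :: List.ofFn fun i => teichmuller p (v i))).H i) ≠ ⊤)
    {m : ℕ} (y : Fin m → C') (hy : ∀ j, y j ∈ Ideal.span (Set.range v)) (l : ℕ)
    (hcut : Ideal.span (Set.range v) ^ l ≤ Ideal.span (Set.range y) ⊔ J)
    (a : ℕ) (ha : Module.supportDim S N ≤ a) (had : a + m < d) (nn : ℕ)
    (hnn : ∀ (X : Type u) [AddCommGroup X] [Module (S ⊗[ℤ] WittVector p C') X],
      tau S (lenR S L') nn N X = 0) :
    chi S (lenR S L') nn N (XS p J ψ) = chi S (lenR S L') nn N (XS p (⊤ : Ideal C') ψ) := by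
  have hf : Module.Flat ℤ (WittVector p C') := Full.flat_int_witt p C'
  have hG := qs_growth ψ v hreg L' hJ hmJ hmV hr2 y hy l hcut
  have hX : Nilp (S ⊗[ℤ] WittVector p C') P (QS ψ J) := by
    obtain ⟨c, hc⟩ := xs_nilp ψ v hmax (⊤ : Ideal C') hp' hv hr1
    exact ⟨c, fun s hs => (sup_le_sup_left (ann_top_le_ann_quot ψ J) _ : _ ≤ _) (hc s hs)⟩
  have h1 := tau_ne_top T hG hX ⟨a, ha⟩ hN
  have h2 : chi S (lenR S L') nn N (QS ψ J) = 0 :=
    chi_eq_zero T hG hX
      (fun t n N _ _ h1 h2 => chi_thick (lenR S L') (T.Θ t) (T.near t) N (QS ψ J) h1 n h2)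
      N hN a ha had nn (hnn _)
  have h3 := chi_add_right (lenR S L') N (incS ψ J) (prS ψ J) (incS_inj ψ J) (prS_surj ψ J)
    (incS_exact ψ J) (b7_fin ψ v hmax hreg T L' hr1 hr2 hp' hv N hN J hmJ ⟨a, ha⟩) h1 nn
    (hnn _) (hnn _) (hnn _)
  rw [h2, add_zero] at h3
  exact h3.symm

end main

end W

end Vale.Agent.P177.SL
end

section

/-!
P177, block BCHOICE: the finite list of integral elements (Pluecker coordinates, coordinates of the
eigenvectors, eigenvalues of the parameters `x_l`, generators of the rings of eigenvalues) to which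
the level construction is applied.
-/

namespace Vale.Agent.P177.Full

open IsLocalRing Module Polynomial Vale.Agent.P177.Flag

universe u

section charpoly

variable {Λ : Type u} [CommRing Λ] [IsLocalRing Λ] {n : ℕ}

/-- the characteristic polynomial of a matrix which is nilpotent modulo the maximal ideal. -/
theorem charpoly_coeff_mem (A : Matrix (Fin n) (Fin n) Λ) (M : ℕ)
    (hA : ∀ i j, (A ^ M) i j ∈ maximalIdeal Λ) (k : ℕ) (hk : k < A.charpoly.natDegree) :
    A.charpoly.coeff k ∈ maximalIdeal Λ := by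
  set A' := A.map (residue Λ) with hA'
  have h1 : A' ^ M = 0 := by
    have h2 : A' ^ M = (A ^ M).map (residue Λ) := by
      rw [hA', ← RingHom.mapMatrix_apply, ← RingHom.mapMatrix_apply, map_pow]
    rw [h2]
    ext i j
    rw [Matrix.map_apply, Matrix.zero_apply, residue_eq_zero_iff]
    exact hA i j
  have h2 := Matrix.isNilpotent_charpoly_sub_pow_of_isNilpotent (M := A') ⟨M, h1⟩
  rw [isNilpotent_iff_eq_zero, sub_eq_zero] at h2
  have h3 : A'.charpoly = A.charpoly.map (residue Λ) := by
    rw [hA', Matrix.charpoly_map]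
  have hdeg : A.charpoly.natDegree = n := by
    rw [Matrix.charpoly_natDegree_eq_dim, Fintype.card_fin]
  rw [← residue_eq_zero_iff, ← coeff_map, ← h3, h2, coeff_X_pow, if_neg]
  rw [Fintype.card_fin]
  omega

end charpoly

section data

variable {R : Type u} [CommRing R] {Λ : Type u} [CommRing Λ] [Algebra Λ R]
    {Ω : Type u} [Field Ω] [Algebra Λ Ω] {hs : List R}

theorem FlagMod.kill' (F : FlagMod Λ Ω hs) {r : R} (hr : r ∈ Ideal.ofList hs) (x : F.L) :
    r • x = 0 := by
  have h1 : Ideal.ofList hs ≤ LinearMap.ker (LinearMap.toSpanSingleton R F.L x) := by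
    rw [Ideal.ofList, Ideal.span_le]
    intro s hs'
    exact F.kill s hs' x
  exact h1 hr

theorem repr_mem_of_mem_map {L : Type u} [AddCommGroup L] [Module R L] [Module Λ L]
    [IsScalarTower Λ R L] {n : ℕ} (b : Basis (Fin n) Λ L) (I : Ideal Λ) {r : R}
    (hr : r ∈ I.map (algebraMap Λ R)) (y : L) (i : Fin n) : b.repr (r • y) i ∈ I := by
  refine Submodule.closure_induction (p := fun r _ => b.repr (r • y) i ∈ I) ?_ ?_ ?_ hr
  · rw [zero_smul, map_zero]; exact zero_mem _
  · intro r s _ _ h1 h2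
    rw [add_smul, map_add]; exact add_mem h1 h2
  · rintro r _ ⟨a, ha, rfl⟩
    have h1 : (r • (algebraMap Λ R) a) • y = a • (r • y) := by
      rw [smul_eq_mul, mul_comm, mul_smul, algebraMap_smul]
    rw [h1, map_smul]
    exact I.mul_mem_right _ ha

/-- the charpoly of an element of the maximal ideal. -/
theorem FlagMod.coeff_mem [IsLocalRing R] [IsLocalRing Λ] (F : FlagMod Λ Ω hs) {M : ℕ}
    (hM : maximalIdeal R ^ M ≤ Ideal.ofList hs ⊔ (maximalIdeal Λ).map (algebraMap Λ R))
    {x : R} (hx : x ∈ maximalIdeal R) (k : ℕ)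
    (hk : k < (actMat F.b x).charpoly.natDegree) :
    (actMat F.b x).charpoly.coeff k ∈ maximalIdeal Λ := by
  refine charpoly_coeff_mem _ M (fun i j => ?_) k hk
  rw [← map_pow, actMat_apply]
  obtain ⟨h, hh, m, hm, he⟩ := Submodule.mem_sup.1 (hM (Ideal.pow_mem_pow hx M))
  rw [← he, add_smul, F.kill' hh, zero_add]
  exact repr_mem_of_mem_map F.b _ hm _ _

/-- the finite list of integral elements. -/
structure BData {J : ℕ} [IsLocalRing Λ] (F : Fin J → FlagMod Λ Ω hs) {d : ℕ} (x : Fin d → R) where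
  m : ℕ
  b : Fin m → Ω
  P : Fin m → Λ[X]
  monic : ∀ l, (P l).Monic
  root : ∀ l, aeval (b l) (P l) = 0
  /-- Pluecker coordinates -/
  lt : ∀ (i : Fin J) (j : ℕ), (Fin j → Fin (F i).n) → Fin m
  lt_eq : ∀ i j t, b (lt i j t) = detT (F i).v j t
  /-- eigenvalues of the parameters -/
  lx : ∀ i : Fin J, Fin (F i).n → Fin d → Fin m
  lx_eq : ∀ i j l, b (lx i j l) = (F i).σ j (x l)
  lx_nil : ∀ i j l, ∀ k < (P (lx i j l)).natDegree, (P (lx i j l)).coeff k ∈ maximalIdeal Λ
  /-- coordinates of the eigenvectors -/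
  lv : ∀ i : Fin J, ℕ → Fin (F i).n → Fin m
  lv_eq : ∀ i j k, b (lv i j k) = (F i).v j k
  /-- polynomial lifts of the eigenvalues -/
  lift : ∀ i j r, ∃ f : MvPolynomial (Fin m) Λ, MvPolynomial.aeval b f = (F i).σ j r

theorem detT_integral {F : FlagMod Λ Ω hs} (j : ℕ) (t : Fin j → Fin F.n) :
    IsIntegral Λ (detT F.v j t) := by
  have h1 := EigFlag.coe_detT_vec (v := F.v) (integralClosure Λ Ω) (fun j i => F.flag.integral j i) j t
  rw [← h1]
  exact (detT (EigFlag.vec (integralClosure Λ Ω) fun j i => F.flag.integral j i) j t).2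

theorem exists_bdata [IsLocalRing R] [IsLocalRing Λ] [Module.Finite Λ (R ⧸ Ideal.ofList hs)]
    {J : ℕ} (F : Fin J → FlagMod Λ Ω hs) {M : ℕ}
    (hM : maximalIdeal R ^ M ≤ Ideal.ofList hs ⊔ (maximalIdeal Λ).map (algebraMap Λ R))
    {d : ℕ} (x : Fin d → R) (hx : ∀ l, x l ∈ maximalIdeal R) : Nonempty (BData F x) := by
  classical
  choose S hS hSB using fun i => (F i).flag.exists_finset (Ideal.ofList hs)
    (fun r hr y => (F i).kill' hr y)
  -- the index type
  let K : Type u := ULift.{u} (Unit ⊕ ((Σ i : Fin J, Σ j : Fin ((F i).n + 1), (Fin j → Fin (F i).n)) ⊕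
    ((Σ i : Fin J, Fin (F i).n × Fin (F i).n) ⊕ (Σ i : Fin J, Fin (F i).n × Fin d)))) ⊕
    (Σ i : Fin J, S i)
  let bK : K → Ω := fun q => match q with
    | Sum.inl ⟨Sum.inl _⟩ => 0
    | Sum.inl ⟨Sum.inr (Sum.inl ⟨i, j, t⟩)⟩ => detT (F i).v j t
    | Sum.inl ⟨Sum.inr (Sum.inr (Sum.inl ⟨i, j, k⟩))⟩ => (F i).v j k
    | Sum.inl ⟨Sum.inr (Sum.inr (Sum.inr ⟨i, j, l⟩))⟩ => (F i).σ j (x l)
    | Sum.inr ⟨i, s⟩ => s.1
  have hex : ∀ q : K, ∃ P : Λ[X], P.Monic ∧ aeval (bK q) P = 0 ∧
      ∀ i j l, q = Sum.inl ⟨Sum.inr (Sum.inr (Sum.inr ⟨i, j, l⟩))⟩ →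
        ∀ k < P.natDegree, P.coeff k ∈ maximalIdeal Λ := by
    rintro (⟨_ | ⟨i, j, t⟩ | ⟨i, j, k⟩ | ⟨i, j, l⟩⟩ | ⟨i, s⟩)
    · exact ⟨Polynomial.X, monic_X, by simp [bK], fun _ _ _ h => by cases h⟩
    · obtain ⟨P, h1, h2⟩ := detT_integral (F := F i) j t
      exact ⟨P, h1, h2, fun _ _ _ h => by cases h⟩
    · obtain ⟨P, h1, h2⟩ := (F i).flag.integral j k
      exact ⟨P, h1, h2, fun _ _ _ h => by cases h⟩
    · refine ⟨(actMat (F i).b (x l)).charpoly, Matrix.charpoly_monic _, ?_, ?_⟩
      · have h1 : actMat (F i).b (aeval (x l) (actMat (F i).b (x l)).charpoly) = 0 := by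
          rw [← Polynomial.aeval_algHom_apply, Matrix.aeval_self_charpoly]
        have h2 := (F i).flag.eq_zero_of_act j h1
        rwa [← Polynomial.aeval_algHom_apply] at h2
      · intro _ _ _ _
        exact (F i).coeff_mem hM (hx l)
    · obtain ⟨P, h1, h2⟩ := hS i s.1 s.2
      exact ⟨P, h1, h2, fun _ _ _ h => by cases h⟩
  choose PK h1 h2 h3 using hex
  let e := Fintype.equivFin K
  have hb : ∀ q, (bK ∘ e.symm) (e q) = bK q := fun q => by simp
  refine ⟨{
    m := Fintype.card K
    b := bK ∘ e.symm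
    P := PK ∘ e.symm
    monic := fun l => h1 _
    root := fun l => h2 _
    lt := fun i j t => if h : j < (F i).n + 1 then
        e (Sum.inl ⟨Sum.inr (Sum.inl ⟨i, ⟨j, h⟩, t⟩)⟩) else e (Sum.inl ⟨Sum.inl ()⟩)
    lt_eq := ?_
    lx := fun i j l => e (Sum.inl ⟨Sum.inr (Sum.inr (Sum.inr ⟨i, j, l⟩))⟩)
    lx_eq := fun i j l => hb _
    lx_nil := ?_
    lv := fun i j k => if h : j < (F i).n then
        e (Sum.inl ⟨Sum.inr (Sum.inr (Sum.inl ⟨i, ⟨j, h⟩, k⟩))⟩) else e (Sum.inl ⟨Sum.inl ()⟩)
    lv_eq := ?_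
    lift := ?_ }⟩
  · intro i j t
    by_cases h : j < (F i).n + 1
    · rw [dif_pos h, hb]
    · rw [dif_neg h, hb]
      exact (detT_eq_zero_of_lt _ (by omega) t).symm
  · intro i j l k hk
    have h4 : (PK ∘ e.symm) (e (Sum.inl ⟨Sum.inr (Sum.inr (Sum.inr ⟨i, j, l⟩))⟩)) =
        PK (Sum.inl ⟨Sum.inr (Sum.inr (Sum.inr ⟨i, j, l⟩))⟩) := by simp
    rw [h4] at hk ⊢
    exact h3 _ i j l rfl k hk
  · intro i j k
    by_cases h : j < (F i).n
    · rw [dif_pos h, hb]
    · rw [dif_neg h, hb, (F i).flag.zero j (by omega)]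
      rfl
  · intro i j r
    have h4 := (hSB i (Algebra.adjoin Λ (Set.range (bK ∘ e.symm))) ?_).2 j r
    · rw [Algebra.adjoin_range_eq_range_aeval] at h4
      exact h4
    · intro s hs'
      refine Algebra.subset_adjoin ⟨e (Sum.inr ⟨i, ⟨s, hs'⟩⟩), hb _⟩

/-- a nonzero algebraic element divides a nonzero element of the base. -/
theorem exists_mul_eq [IsDomain Λ] [FaithfulSMul Λ Ω] {y : Ω} (hy : y ≠ 0) {P : Λ[X]}
    (hP : P ≠ 0) (h : aeval y P = 0) :
    ∃ (f : Λ[X]) (g : Λ), g ≠ 0 ∧ y * aeval y f = algebraMap Λ Ω g := by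
  induction hn : P.natDegree using Nat.strong_induction_on generalizing P with
  | _ n ih =>
    have hdiv : P = X * P.divX + C (P.coeff 0) := (Polynomial.X_mul_divX_add P).symm
    by_cases h0 : P.coeff 0 = 0
    · have hd : P.divX ≠ 0 := by
        intro hd
        rw [hd, h0, mul_zero, C_0, add_zero] at hdiv
        exact hP hdiv
      have h1 : aeval y P.divX = 0 := by
        rw [hdiv, h0, C_0, add_zero, map_mul, aeval_X] at h
        exact (mul_eq_zero.1 h).resolve_left hy
      refine ih P.divX.natDegree ?_ hd h1 rfl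
      rw [← hn, Polynomial.natDegree_divX_eq_natDegree_tsub_one]
      have h2 : P.natDegree ≠ 0 := by
        intro h3
        rw [Polynomial.eq_C_of_natDegree_eq_zero h3, h0, C_0] at hP
        exact hP rfl
      omega
    · refine ⟨P.divX, -P.coeff 0, neg_ne_zero.2 h0, ?_⟩
      rw [hdiv, map_add, map_mul, aeval_X, aeval_C] at h
      rw [map_neg]
      exact eq_neg_of_add_eq_zero_left h

/-- the list of integral elements, in the form of the inner skeleton. -/
theorem exists_list [IsLocalRing R] [IsLocalRing Λ] [IsDomain Λ] [FaithfulSMul Λ Ω]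
    [Module.Finite Λ (R ⧸ Ideal.ofList hs)]
    (F : Fin 2 → FlagMod Λ Ω hs)
    (hM : ∃ M : ℕ, maximalIdeal R ^ M ≤
      Ideal.ofList hs ⊔ (maximalIdeal Λ).map (algebraMap Λ R))
    {d : ℕ} (x : Fin d → R) (hx : ∀ l, x l ∈ maximalIdeal R) :
    ∃ (m : ℕ) (b : Fin m → Ω) (Fp : Fin m → Λ[X])
      (ix : ∀ i : Fin 2, Fin (F i).n → Fin d → Fin m)
      (pl : ∀ (i : Fin 2) (j : ℕ), (Fin j → Fin (F i).n) → Fin m),
      (∀ l, (Fp l).Monic ∧ aeval (b l) (Fp l) = 0) ∧
      (∀ i j l, b (ix i j l) = (F i).σ j (x l) ∧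
        ∀ t < (Fp (ix i j l)).natDegree, (Fp (ix i j l)).coeff t ∈ maximalIdeal Λ) ∧
      (∀ (i : Fin 2) (j : ℕ) (t : Fin j → Fin (F i).n), b (pl i j t) = detT (F i).v j t) ∧
      (∀ i j (r : R), ∃ f : MvPolynomial (Fin m) Λ, MvPolynomial.aeval b f = (F i).σ j r) ∧
      (∀ l, b l ≠ 0 → ∃ (f : Λ[X]) (g : Λ), g ≠ 0 ∧
        b l * aeval (b l) f = algebraMap Λ Ω g) := by
  obtain ⟨M, hM⟩ := hM
  obtain ⟨B⟩ := exists_bdata F hM x hx
  exact ⟨B.m, B.b, B.P, B.lx, B.lt, fun l => ⟨B.monic l, B.root l⟩,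
    fun i j l => ⟨B.lx_eq i j l, B.lx_nil i j l⟩, B.lt_eq, B.lift,
    fun l hl => exists_mul_eq hl (B.monic l).ne_zero (B.root l)⟩

end data

end Vale.Agent.P177.Full
end

section

/-!
P177, block LEV: the covers of P202 with one more Teichmueller representative.
-/

namespace Vale.Agent.P177.Lev

open Polynomial Vale.Agent.P202.Mix

universe u

section XD
variable {p : ℕ} [Fact p.Prime] {k : Type u} [Field k] [CharP k p] {r : ℕ}

/-- existence of the covers, with a Teichmueller representative of `g3`. -/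
theorem exists_xdata {Λ : Type u} [CommRing Λ] (ψ : Λ →+* WittVector p (Rp p k r)) {s D : ℕ}
    (F : Fin s → Λ[X]) (hF : ∀ j, (F j).Monic) (hD : ∀ j, (F j).natDegree = D)
    (E : MvPolynomial (Fin s) Λ) (g g3 : Λ) (I : ℕ) :
    ∃ (r0 : ℕ) (d : CData.{u} ψ (D := D) F E g I r0) (γ : d.C),
      te p d.C (tC p k r d.C) γ - laB ψ d.C g3 ∈
        Ideal.span {(p : Bt p d.C (tC p k r d.C)) ^ (I + 1)} := by
  classical
  obtain ⟨r1, h1⟩ := _root_.P202.Mix.exists_split_family.{u} (p := p) I D s
  obtain ⟨r2, h2⟩ := _root_.P202.Mix.exists_teich.{u} (p := p) I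
    (Fintype.card (Option (Bool × (Fin s → Fin D))))
  refine ⟨r1 * r2, ?_⟩
  have hnt := nontrivial_Rp p k r
  have hnt' : Nontrivial (WittVector p (Rp p k r)) := inferInstance
  obtain ⟨C1, i1, i2, i3, i4, i5, c1, a1, a2, a3, a4⟩ := h1 (xp p k r 0)
    (xp_mem_nonZeroDivisors p k r 0) (xp_mem_jacobson p k r 0) (fun j => (F j).map ψ)
    (fun j => (hF j).map _) (fun j => by rw [(hF j).natDegree_map, hD])
  let e := Fintype.equivFin (Option (Bool × (Fin s → Fin D)))
  let ψ1 : Λ →+* WittVector p C1 := (WittVector.map (algebraMap (Rp p k r) C1)).comp ψ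
  let f1 : (Fin s → Fin D) → WittVector p C1 := fun π =>
    MvPolynomial.eval₂ ψ1 (fun j => WittVector.teichmuller p (c1 j (π j))) E
  let f : Option (Bool × (Fin s → Fin D)) → WittVector p C1 := fun z =>
    match z with
    | none => ψ1 g3
    | some z => if z.1 then f1 z.2 else ψ1 g - f1 z.2
  obtain ⟨C2, j1, j2, j3, j4, j5, d, b1, b2, b3, b4⟩ := h2 (algebraMap (Rp p k r) C1 (xp p k r 0))
    a2 a3 (fun m => f (e.symm m))
  let alg : Algebra (Rp p k r) C2 := ((algebraMap C1 C2).comp (algebraMap (Rp p k r) C1)).toAlgebra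
  have tow : IsScalarTower (Rp p k r) C1 C2 := IsScalarTower.of_algebraMap_eq fun _ => rfl
  have hG := a1.trans b1
  let P : PExt p k r (r1 * r2) :=
    { C := C2, flat := hG.flat, integral := hG.integral, inj := hG.inj, fin := hG.gen }
  have htC : tC p k r C2 = algebraMap C1 C2 (algebraMap (Rp p k r) C1 (xp p k r 0)) := rfl
  have hψ : (WittVector.map (algebraMap (Rp p k r) C2)).comp ψ =
      (WittVector.map (algebraMap C1 C2)).comp ψ1 := by
    rw [← RingHom.comp_assoc, _root_.P202.Mix.map_map_comp]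
    rfl
  -- the evaluation of `E`
  have hE : ∀ π : Fin s → Fin D,
      MvPolynomial.eval₂ (laB ψ C2) (fun j => te p C2 (tC p k r C2) (algebraMap C1 C2 (c1 j (π j)))) E
        = toB p C2 (tC p k r C2) (WittVector.map (algebraMap C1 C2) (f1 π)) := by
    intro π
    have h5 := MvPolynomial.eval₂_comp_left
      ((toB p C2 (tC p k r C2)).comp (WittVector.map (algebraMap C1 C2))) ψ1
      (fun j => WittVector.teichmuller p (c1 j (π j))) E
    have h6 : (toB p C2 (tC p k r C2)) (WittVector.map (algebraMap C1 C2) (f1 π)) =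
      ((toB p C2 (tC p k r C2)).comp (WittVector.map (algebraMap C1 C2))) (f1 π) := rfl
    rw [h6, h5]
    have h7 : laB ψ C2 =
        ((toB p C2 (tC p k r C2)).comp (WittVector.map (algebraMap C1 C2))).comp ψ1 := by
      rw [laB, hψ, RingHom.comp_assoc]
    rw [h7]
    congr 1
    funext j
    change toB p C2 (tC p k r C2) (WittVector.teichmuller p (algebraMap C1 C2 (c1 j (π j)))) =
      toB p C2 (tC p k r C2) (WittVector.map (algebraMap C1 C2)
        (WittVector.teichmuller p (c1 j (π j))))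
    rw [WittVector.map_teichmuller]
  have hla : ∀ l, laB ψ C2 l =
      toB p C2 (tC p k r C2) (WittVector.map (algebraMap C1 C2) (ψ1 l)) := by
    intro l
    have h := RingHom.congr_fun hψ l
    exact congrArg (toB p C2 (tC p k r C2)) h
  have h8 : te p C2 (tC p k r C2) (d (e none)) - laB ψ C2 g3 ∈
      Ideal.span {(p : Bt p C2 (tC p k r C2)) ^ (I + 1)} := by
    have h5 := toB_mem (p := p) _ I (b4 (e none))
    rw [map_sub, e.symm_apply_apply] at h5
    rw [hla]
    exact h5
  refine ⟨{ toPExt := P, c := fun j i => algebraMap C1 C2 (c1 j i),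
            δ := fun π => d (e (some (true, π))), δ' := fun π => d (e (some (false, π))),
            split := ?_, hδ := ?_, hδ' := ?_ }, d (e none), ?_⟩
  · intro j n
    have h5 := (Ideal.mem_map_C_iff.1 (a4 j)) n
    have h6 := _root_.P202.Mix.map_mem_JJ (algebraMap C1 C2) _ I h5
    have h7 := toB_mem (p := p) _ I h6
    have h8 : toB p C2 (tC p k r C2) (WittVector.map (algebraMap C1 C2)
        ((((F j).map ψ).map (WittVector.map (algebraMap (Rp p k r) C1)) -
          ∏ i, (X - Polynomial.C (WittVector.teichmuller p (c1 j i)))).coeff n)) =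
        ((F j).map (laB ψ C2) -
          ∏ i, (X - Polynomial.C (te p C2 (tC p k r C2) (algebraMap C1 C2 (c1 j i))))).coeff n := by
      rw [← RingHom.comp_apply, ← Polynomial.coeff_map, Polynomial.map_sub, Polynomial.map_prod,
        Polynomial.map_map, Polynomial.map_map]
      have h9 : (((toB p C2 (tC p k r C2)).comp (WittVector.map (algebraMap C1 C2))).comp
          (WittVector.map (algebraMap (Rp p k r) C1))).comp ψ = laB ψ C2 := by
        rw [laB, hψ]
        rfl
      have h10 : ∏ i, Polynomial.map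
          ((toB p C2 (tC p k r C2)).comp (WittVector.map (algebraMap C1 C2)))
          (X - Polynomial.C (WittVector.teichmuller p (c1 j i))) =
          ∏ i, (X - Polynomial.C (te p C2 (tC p k r C2) (algebraMap C1 C2 (c1 j i)))) := by
        refine Finset.prod_congr rfl fun i _ => ?_
        rw [Polynomial.map_sub, Polynomial.map_X, Polynomial.map_C, RingHom.comp_apply,
          WittVector.map_teichmuller]
        rfl
      rw [h9, h10]
    rw [← h8]
    exact h7
  · intro π
    have h5 := toB_mem (p := p) _ I (b4 (e (some (true, π))))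
    rw [map_sub] at h5
    have h6 : f (e.symm (e (some (true, π)))) = f1 π := by rw [e.symm_apply_apply]; rfl
    rw [h6] at h5
    rw [hE π]
    exact h5
  · intro π
    have h5 := toB_mem (p := p) _ I (b4 (e (some (false, π))))
    rw [map_sub] at h5
    have h6 : f (e.symm (e (some (false, π)))) = ψ1 g - f1 π := by rw [e.symm_apply_apply]; rfl
    rw [h6, map_sub, map_sub] at h5
    have h7 : laB ψ C2 g = toB p C2 (tC p k r C2) (WittVector.map (algebraMap C1 C2) (ψ1 g)) := by
      rw [laB, hψ]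
      rfl
    rw [hE π, h7]
    exact h5
  · exact h8

end XD

end Vale.Agent.P177.Lev
end
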