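import Mathlib
import Vale.Agent.P177.Bd4.B19
import Vale.Agent.P177.Bd4.B21
import Vale.Agent.P177.Bd4.B20
import Vale.Agent.P177.Bd4.B22
import Vale.Agent.P177.Bd4.B12
import Vale.Agent.P177.Bd4.B8
import Vale.Agent.P177.Bd4.B10
import Vale.Agent.P177.Bd4.B14
import Vale.Agent.P177.Bd4.B13
import Vale.Agent.P177.Bd4.B1
import Vale.Agent.P177.Bd4.B9
import Vale.Agent.P177.Bd4.B11
import Vale.Agent.P177.Bd4.B18
import Vale.Agent.P177.Bd4.B6
import Vale.Agent.P177.Bd4.B5

set_option linter.all false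

section

/-!
P177, inner assembly: the Euler characteristic of `(WI J / ξ) ⊗ L` is the sum of those of the
honest modules of the characters of the flag.
-/

namespace Vale.Agent.P177.Full

open TensorProduct IsLocalRing RingTheory.Sequence Function Vale.Agent.P202.Mix
  Vale.Agent.P177.Flag Vale.Agent.P177.PI Vale.Agent.P177.Lev Vale.Agent.P177.Ap
  Vale.Agent.P177.TH WittVector
open scoped ENNReal

universe u

namespace Core

variable {p : ℕ} [Fact p.Prime] {R : Type u} [CommRing R] [IsRegularLocalRing R]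
    [CharP (ResidueField R) p] [PerfectRing (ResidueField R) p] {d : ℕ} {P : Ideal R}
    {hs : List R} {r : ℕ} [IsRegularLocalRing (Lam p (ResidueField R) r)]
    [Algebra (Lam p (ResidueField R) r) R] {Ω : Type u} [Field Ω]
    [Algebra (Lam p (ResidueField R) r) Ω] {F : Fin 2 → FlagMod (Lam p (ResidueField R) r) Ω hs}
    (X : Core p d P hs r Ω F)

/-- finiteness of the masses of `Tor(H_J, R / P)` for the pieces. -/
theorem z_fin [IsAdicComplete (maximalIdeal R) R] (hN : Norm p R r hs)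
    (hrad : maximalIdeal R ≤ (P ⊔ Ideal.ofList hs).radical) {M : ℕ}
    (hM : 2 * X.c0 + 1 ≤ M)
    (Z : CN.NatZ p X.K.C (tC p (ResidueField R) r X.K.C) (X.K.etM M)) (i : Fin 2)
    (j : Fin (F i).n) (z : Fin (F i).n → ℤ) (l : ℕ) :
    X.LD.len (TorM (R ⊗[ℤ] WittVector p X.K.C) l
      (X.HJ Z.f ((F i).σ j) (X.K.J (F i).n (X.pl i) z))
      ((R ⊗[ℤ] WittVector p X.K.C) ⊗[R] (R ⧸ P))) < ⊤ := by
  have hM2 : 2 ≤ M := by
    have := X.c0_pos
    omega
  exact X.fin_HJ_J Z ((F i).σ j) hN hrad (X.K.kil_etM M) (M := M) (by omega)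
    (X.z_E hN hM2 Z i j)
    (fun s hs' => X.z_hs hN Z i j s (Ideal.subset_span hs'))
    (fun l s hs' => X.ex_X Z.f hN Z.reg (X.errOK_etM M) Z.dvd i j s l hs') i z l

/-- **The flag formula with honest pieces**, from the pieces. -/
theorem flag_HJ_of [IsAdicComplete (maximalIdeal R) R] (hN : Norm p R r hs)
    (hd : ringKrullDim R = d)
    (hdim : ringKrullDim (R ⧸ Ideal.ofList hs) = ((r + 1 : ℕ) : WithBot ℕ∞))
    (hrad : maximalIdeal R ≤ (P ⊔ Ideal.ofList hs).radical) (hd1 : 1 ≤ d) {M : ℕ}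
    (hM : 2 * X.c0 + 1 ≤ M)
    (Z : CN.NatZ p X.K.C (tC p (ResidueField R) r X.K.C) (X.K.etM M)) (i : Fin 2)
    (hn : 0 < (F i).n) (nn : ℕ) (hnn : d ≤ nn) (hrho : X.RhoStmt (X.Jb i)) (k : ℕ)
    (hpiece : ∀ j : Fin (F i).n, X.PieceStmt Z.f i j ((F i).σ j) (X.K.etM M) k) :
    TH.chi X.LD nn (Ap.TenM X.la (X.YJ (X.Jb i)) (F i).L)
      ((R ⊗[ℤ] WittVector p X.K.C) ⊗[R] (R ⧸ P)) = ∑ j, X.chiH Z.f nn ((F i).σ j) (X.Jp i j) :=
  X.chi_flag_H Z.f hN i hn hd hd1 nn hnn (X.euler_mul hN hd hdim hrad i _ hrho.1 hrho.2).1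
    (X.K.etM M) (X.K.tl (M + 2)) (X.K.etM_def M) (X.K.kil_etM M) k hpiece
    fun j l => X.z_fin hN hrad hM Z i j _ l

/-- the pieces are the truncations of the honest modules. -/
theorem z_piece [IsAdicComplete (maximalIdeal R) R] (hN : Norm p R r hs) {M : ℕ}
    (hM : 2 * X.c0 + 1 ≤ M)
    (Z : CN.NatZ p X.K.C (tC p (ResidueField R) r X.K.C) (X.K.etM M)) (i : Fin 2)
    (j : Fin (F i).n) :
    X.PieceStmt Z.f i j ((F i).σ j) (X.K.etM M) (3 * (X.c0 * (1 + 1))) := by
  have hM2 : 2 ≤ M := by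
    have := X.c0_pos
    omega
  have key := X.exists_piece Z ((F i).σ j) (M := M) (by omega) (X.z_E hN hM2 Z i j)
    (fun s hs' => X.z_hs hN Z i j s hs') (F i).n (X.pl i) (sd (F i).n j)
  exact key

/-- **The flag formula with honest pieces.** -/
theorem flag_HJ [IsAdicComplete (maximalIdeal R) R] (hN : Norm p R r hs)
    (hd : ringKrullDim R = d)
    (hdim : ringKrullDim (R ⧸ Ideal.ofList hs) = ((r + 1 : ℕ) : WithBot ℕ∞))
    (hrad : maximalIdeal R ≤ (P ⊔ Ideal.ofList hs).radical) (hd1 : 1 ≤ d) {M : ℕ}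
    (hM : 2 * X.c0 + 1 ≤ M)
    (Z : CN.NatZ p X.K.C (tC p (ResidueField R) r X.K.C) (X.K.etM M)) (i : Fin 2)
    (hn : 0 < (F i).n) (nn : ℕ) (hnn : d ≤ nn) (hrho : X.RhoStmt (X.Jb i)) :
    TH.chi X.LD nn (Ap.TenM X.la (X.YJ (X.Jb i)) (F i).L)
      ((R ⊗[ℤ] WittVector p X.K.C) ⊗[R] (R ⧸ P)) =
        ∑ j, X.chiH Z.f nn ((F i).σ j) (X.Jp i j) :=
  X.flag_HJ_of hN hd hdim hrad hd1 hM Z i hn nn hnn hrho _ fun j => X.z_piece hN hM Z i j

end Core

end Vale.Agent.P177.Full
end

section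

/-!
P177: the hypotheses (hr1), (hr2), (H2C) of `B7Core` for `Z : NatZ`, in the language of
`SL/FinalA`.
-/

namespace Vale.Agent.P177.Full

open TensorProduct IsLocalRing RingTheory.Sequence Function Vale.Agent.P202.Mix
  Vale.Agent.P177.Flag Vale.Agent.P177.PI Vale.Agent.P177.Lev WittVector Vale.Agent.P177.NatC
open scoped ENNReal

universe u

section

variable {p : ℕ} [Fact p.Prime] {R : Type u} [CommRing R] [IsRegularLocalRing R]
    [CharP (ResidueField R) p] [PerfectRing (ResidueField R) p] {d : ℕ} {P : Ideal R}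
    {hs : List R} {r : ℕ} [IsRegularLocalRing (Lam p (ResidueField R) r)]
    [Algebra (Lam p (ResidueField R) r) R] {Ω : Type u} [Field Ω]
    [Algebra (Lam p (ResidueField R) r) Ω] {F : Fin 2 → FlagMod (Lam p (ResidueField R) r) Ω hs}
    (X : Core p d P hs r Ω F)

/-- `ψ' = W(f) ∘ ψ_σ` on the variables -/
theorem Core.psi'_X {C' : Type u} [CommRing C'] [CharP C' p] [PerfectRing C' p]
    (f : X.K.C →+* C') (i : Fin 2) (j : Fin (F i).n) (l : Fin d) :
    (WittVector.map f).comp (X.psi ((F i).σ j)) (MvPowerSeries.X l) =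
      teichmuller p (f (X.K.c (X.ix ((F i).σ j) l))) := by
  rw [RingHom.comp_apply, ← map_teichmuller]
  congr 1
  exact X.psi_X i j l

/-- **(hr1)** -/
theorem Core.z_hr1 {C' : Type u} [CommRing C'] [CharP C' p] [PerfectRing C' p]
    (f : X.K.C →+* C') (i : Fin 2) (j : Fin (F i).n) (l : Fin d) :
    ∃ m : ℕ, ((WittVector.map f).comp (X.psi ((F i).σ j)) (MvPowerSeries.X l)) ^ m ∈
      Ideal.ofList ((p : WittVector p C') :: List.ofFn fun q : Fin (r + 1) =>
        teichmuller p (f (xC p (ResidueField R) r X.K.C q))) := by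
  rw [X.psi'_X]
  refine SL.teich_mem_radical p (y := fun q => f (xC p (ResidueField R) r X.K.C q)) ?_
    (fun q => ?_) (X.nil_fc f i j l)
  · exact Ideal.le_radical (Ideal.subset_span (List.mem_cons_self))
  · exact Ideal.le_radical (Ideal.subset_span (List.mem_cons_of_mem _ (List.mem_ofFn.2 ⟨q, rfl⟩)))

variable [IsAdicComplete (maximalIdeal R) R] (hN : Norm p R r hs) {M : ℕ} (hM : 2 ≤ M)
  (Z : CN.NatZ p X.K.C (tC p (ResidueField R) r X.K.C) (X.K.etM M))
  (i : Fin 2) (j : Fin (F i).n)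

include hN hM

/-- **(hr2)** -/
theorem Core.z_hr2 (q : Fin (r + 1)) :
    ∃ m : ℕ, teichmuller p (Z.f (xC p (ResidueField R) r X.K.C q)) ^ m ∈
      Ideal.span (Set.range fun l : Fin d =>
        (WittVector.map Z.f).comp (X.psi ((F i).σ j)) (MvPowerSeries.X l)) ⊔
        Ideal.span {(p : WittVector p Z.C')} := by
  refine SL.teich_mem_radical p (y := fun l => Z.f (X.K.c (X.ix ((F i).σ j) l))) (m := 1) ?_
    (fun l => ?_) ?_
  · exact Ideal.le_radical ((le_sup_right : Ideal.span {(p : WittVector p Z.C')} ≤ _)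
      (Ideal.mem_span_singleton_self _))
  · refine Ideal.le_radical ((le_sup_left : Ideal.span (Set.range fun l : Fin d =>
        (WittVector.map Z.f).comp (X.psi ((F i).σ j)) (MvPowerSeries.X l)) ≤ _) ?_)
    exact Ideal.subset_span ⟨l, X.psi'_X Z.f i j l⟩
  · rw [pow_one]
    exact X.z_mem hN hM Z i j q

/-- **(H2C)** -/
theorem Core.z_H2C {I : Ideal (Sx p (ResidueField R) d)} (hEI : X.E ∈ I) {K : ℕ} (hKM : K < M)
    (hI : maximalIdeal R ^ K ≤ I.map X.Φ ⊔ Ideal.ofList hs) :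
    (∃ m : ℕ, (p : WittVector p Z.C') ^ m ∈
      I.map ((WittVector.map Z.f).comp (X.psi ((F i).σ j)))) ∧
    ∀ q : Fin (r + 1), ∃ m : ℕ, teichmuller p (Z.f (xC p (ResidueField R) r X.K.C q)) ^ m ∈
      I.map ((WittVector.map Z.f).comp (X.psi ((F i).σ j))) := by
  obtain ⟨-, h2, -, h4⟩ := X.z_H2 hN hM Z i j hEI hKM hI
  exact ⟨⟨K, h2⟩, fun q => ⟨K, h4 q⟩⟩

end

end Vale.Agent.P177.Full
end

section

/-!
Block CHOICE: the power series ring over the Witt vectors over which a complete intersection in a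
complete regular local ring of mixed characteristic is finite and free.
-/

namespace Vale.Agent.P177

open IsLocalRing RingTheory.Sequence Function

universe u

/-- The Witt vector power series ring is a regular local ring. -/
theorem ch_regular (k : Type u) [Field k] (p : ℕ) [Fact p.Prime] [CharP k p] [PerfectRing k p]
    (n : ℕ) : ∃ _ : IsRegularLocalRing (MvPowerSeries (Fin n) (WittVector p k)),
      ringKrullDim (MvPowerSeries (Fin n) (WittVector p k)) = ((n + 1 : ℕ) : WithBot ℕ∞) ∧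
      maximalIdeal (MvPowerSeries (Fin n) (WittVector p k)) =
        Ideal.span ({(p : MvPowerSeries (Fin n) (WittVector p k))} ∪
          Set.range MvPowerSeries.X) := by
  obtain ⟨hreg, hmax, hdim⟩ := witt_dim_one k p
  obtain ⟨h1, h2⟩ := mvPowerSeries_regular (A := WittVector p k) n (Equiv.refl (Fin n)) hdim
  refine ⟨h1, ?_, ?_⟩
  · rw [h2, add_comm]
  · rw [mvPowerSeries_maximalIdeal_gen, hmax, Ideal.map_span, Set.image_singleton, map_natCast,
      Ideal.span_union]

/-- Evaluation homomorphisms with prescribed constants. -/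
theorem ch_evalHom {W R : Type*} [CommRing W] [CommRing R] (I : Ideal R) [IsAdicComplete I R]
    (σ : W →+* R) {n : ℕ} (x : Fin n → R) (hx : ∀ i, x i ∈ I) :
    ∃ ι : MvPowerSeries (Fin n) W →+* R, (∀ w, ι (MvPowerSeries.C w) = σ w) ∧
      ∀ i, ι (MvPowerSeries.X i) = x i := by
  obtain ⟨φ, hφ⟩ := exists_evalHom I σ x hx
  refine ⟨φ, fun w => ?_, fun i => ?_⟩
  · rw [← MvPolynomial.coe_C, hφ]
    simp
  · rw [← MvPolynomial.coe_X, hφ]
    simp

/-- Every power of the maximal ideal of a quotient is covered by a span. -/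
theorem ch_pow_le {A : Type*} [CommRing A] [IsLocalRing A] (I : Ideal A)
    [IsLocalRing (A ⧸ I)] {ι : Type*} (x : ι → A ⧸ I) (u : ι → A)
    (hu : ∀ i, Ideal.Quotient.mk I (u i) = x i) {M : ℕ}
    (hM : maximalIdeal (A ⧸ I) ^ M ≤ Ideal.span (Set.range x)) :
    maximalIdeal A ^ M ≤ I ⊔ Ideal.span (Set.range u) := by
  intro z hz
  have hl : IsLocalHom (Ideal.Quotient.mk I) :=
    IsLocalHom.of_surjective _ Ideal.Quotient.mk_surjective
  have h3 : Ideal.Quotient.mk I z ∈ maximalIdeal (A ⧸ I) ^ M := by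
    have h4 : (maximalIdeal A).map (Ideal.Quotient.mk I) ≤ maximalIdeal (A ⧸ I) := by
      rw [Ideal.map_le_iff_le_comap]
      intro y hy
      rw [Ideal.mem_comap, mem_maximalIdeal, mem_nonunits_iff]
      intro h
      exact (mem_maximalIdeal _).1 hy (isUnit_of_map_unit (Ideal.Quotient.mk I) y h)
    have h5 := Ideal.mem_map_of_mem (Ideal.Quotient.mk I) hz
    rw [Ideal.map_pow] at h5
    exact Ideal.pow_right_mono h4 M h5
  have h6 := hM h3
  have h7 : Ideal.span (Set.range x) =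
      (Ideal.span (Set.range u)).map (Ideal.Quotient.mk I) := by
    rw [Ideal.map_span, ← Set.range_comp]
    congr 2
    funext i
    exact (hu i).symm
  rw [h7, Ideal.mem_map_iff_of_surjective _ Ideal.Quotient.mk_surjective] at h6
  obtain ⟨y, hy, hyz⟩ := h6
  rw [Ideal.Quotient.eq] at hyz
  have h8 : z = -(y - z) + y := by ring
  rw [h8]
  exact add_mem (Ideal.mem_sup_left (neg_mem hyz)) (Ideal.mem_sup_right hy)

/-- **CHOICE.** The power series ring over the Witt vectors over which a complete intersection of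
dimension `r + 1` in a complete regular local ring of mixed characteristic is finite. -/
theorem exists_choice_succ (p : ℕ) [Fact p.Prime] {R : Type u} [CommRing R]
    [IsRegularLocalRing R]
    [IsAdicComplete (maximalIdeal R) R] [CharP (ResidueField R) p]
    [PerfectRing (ResidueField R) p] {d r : ℕ} (hd : ringKrullDim R = d) (hs : List R)
    (hm : ∀ h ∈ hs, h ∈ maximalIdeal R) (hreg : IsWeaklyRegular R (hs ++ [(p : R)]))
    (hlen : hs.length + (r + 1) = d)
    (hdim : ringKrullDim (R ⧸ Ideal.ofList hs) = ((r + 1 : ℕ) : WithBot ℕ∞)) :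
    ∃ ι : MvPowerSeries (Fin r) (WittVector p (ResidueField R)) →+* R,
      (∀ w, residue R (ι (MvPowerSeries.C w)) = w.coeff 0) ∧
      (∀ i, ι (MvPowerSeries.X i) ∈ maximalIdeal R) ∧
      ((Ideal.Quotient.mk (Ideal.ofList hs)).comp ι).Finite ∧
      (∃ M : ℕ, maximalIdeal R ^ M ≤ Ideal.ofList hs ⊔ (Ideal.span {(p : R)} ⊔
        Ideal.span (Set.range fun i => ι (MvPowerSeries.X i)))) ∧
      IsWeaklyRegular R (hs ++ ((p : R) :: List.ofFn fun i => ι (MvPowerSeries.X i))) := by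
  have hle : Ideal.ofList hs ≤ maximalIdeal R := Ideal.span_le.2 fun h hh => hm h hh
  have hnt : Nontrivial (R ⧸ Ideal.ofList hs) := Ideal.Quotient.nontrivial_iff.2 fun h =>
    (maximalIdeal.isMaximal R).ne_top (top_le_iff.1 (h ▸ hle))
  have hloc : IsLocalRing (R ⧸ Ideal.ofList hs) :=
    IsLocalRing.of_surjective' (Ideal.Quotient.mk _) Ideal.Quotient.mk_surjective
  have hlh : IsLocalHom (Ideal.Quotient.mk (Ideal.ofList hs)) :=
    IsLocalHom.of_surjective _ Ideal.Quotient.mk_surjective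
  have hpm : (p : R) ∈ maximalIdeal R := by
    rw [← residue_eq_zero_iff, map_natCast]
    exact CharP.cast_eq_zero _ _
  have hmk : ∀ x ∈ maximalIdeal R,
      Ideal.Quotient.mk (Ideal.ofList hs) x ∈ maximalIdeal (R ⧸ Ideal.ofList hs) := by
    intro x hx
    rw [mem_maximalIdeal, mem_nonunits_iff]
    intro h
    exact (mem_maximalIdeal _).1 hx (isUnit_of_map_unit _ x h)
  have hpreg : IsSMulRegular (R ⧸ (Ideal.ofList hs • ⊤ : Submodule R R)) (p : R) :=
    (isWeaklyRegular_singleton_iff _ _).1 ((isWeaklyRegular_append_iff _ _ _).1 hreg).2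
  have hpA : (p : R ⧸ Ideal.ofList hs) ∈ nonZeroDivisors (R ⧸ Ideal.ofList hs) := by
    rw [mem_nonZeroDivisors_iff_right]
    intro y hy
    have heq : (Ideal.ofList hs • ⊤ : Submodule R R) = Ideal.ofList hs := by
      rw [smul_eq_mul, Ideal.mul_top]
    have h1 : IsSMulRegular (R ⧸ Ideal.ofList hs) (p : R) :=
      (LinearEquiv.isSMulRegular_congr (Submodule.quotEquivOfEq _ _ heq) _).1 hpreg
    refine h1.right_eq_zero_of_smul ?_
    rw [Algebra.smul_def, map_natCast, mul_comm]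
    exact hy
  obtain ⟨hlocB, hdimB⟩ := ch_dim_quot (p : R ⧸ Ideal.ofList hs) hpA
    (by rw [← map_natCast (Ideal.Quotient.mk (Ideal.ofList hs))]; exact hmk _ hpm) hdim.le
  obtain ⟨x, hxm, M, hM⟩ := ch_params hdimB
  choose v hv using fun i => Ideal.Quotient.mk_surjective (x i)
  choose u hu using fun i => Ideal.Quotient.mk_surjective (v i)
  have hum : ∀ i, u i ∈ maximalIdeal R := by
    intro i
    have h3 := hxm i
    rw [← hv, ← hu, mem_maximalIdeal, mem_nonunits_iff] at h3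
    rw [mem_maximalIdeal, mem_nonunits_iff]
    exact fun h => h3 ((h.map _).map _)
  have hMA := ch_pow_le _ x v hv hM
  obtain ⟨σ, hσ⟩ := exists_witt_hom (S := R) p
  obtain ⟨ι, hιC, hιX⟩ := ch_evalHom (maximalIdeal R) σ u hum
  have hιX' : (fun i => ι (MvPowerSeries.X i)) = u := funext hιX
  have hMR : maximalIdeal R ^ M ≤ Ideal.ofList hs ⊔ (Ideal.span {(p : R)} ⊔
      Ideal.span (Set.range u)) := by
    have h1 : (Ideal.span {(p : R ⧸ Ideal.ofList hs)} ⊔ Ideal.span (Set.range v)) =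
        Ideal.span (Set.range (Option.elim · (p : R ⧸ Ideal.ofList hs) v)) := by
      rw [← Ideal.span_union]
      congr 1
      ext y
      simp only [Set.singleton_union, Set.mem_insert_iff, Set.mem_range, Option.exists,
        Option.elim_none, Option.elim_some]
      tauto
    rw [h1] at hMA
    have h2 := ch_pow_le _ (Option.elim · (p : R ⧸ Ideal.ofList hs) v)
      (Option.elim · (p : R) u) (by
        rintro (_ | i)
        · simp
        · exact hu i) hMA
    refine h2.trans (sup_le_sup_left ?_ _)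
    rw [Ideal.span_le]
    rintro _ ⟨(_ | i), rfl⟩
    · exact Ideal.mem_sup_left (Ideal.mem_span_singleton_self _)
    · exact Ideal.mem_sup_right (Ideal.subset_span ⟨i, rfl⟩)
  refine ⟨ι, fun w => by rw [hιC, hσ], fun i => by rw [hιX]; exact hum i, ?_, ⟨M, ?_⟩, ?_⟩
  · -- finiteness
    refine ch_finite (M := M) (p : WittVector p (ResidueField R)) _ (fun z => ?_) ?_ (fun i => ?_) ?_
    · obtain ⟨z, rfl⟩ := Ideal.Quotient.mk_surjective z
      refine ⟨WittVector.teichmuller p (residue R z), ?_⟩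
      rw [RingHom.comp_apply, ← map_sub]
      refine hmk _ ?_
      rw [← residue_eq_zero_iff, map_sub, hιC, hσ, WittVector.teichmuller_coeff_zero, sub_self]
    · rw [RingHom.comp_apply, hιC, map_natCast]
      exact hmk _ hpm
    · rw [RingHom.comp_apply, hιX]
      exact hmk _ (hum i)
    · have h1 : (Set.range fun i => (Ideal.Quotient.mk (Ideal.ofList hs)).comp ι
          (MvPowerSeries.X i)) = Set.range v := by
        congr 1
        funext i
        rw [RingHom.comp_apply, hιX, hu]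
      rw [h1, Ideal.span_union, RingHom.comp_apply, hιC, map_natCast, map_natCast]
      exact hMA
  · rw [hιX']
    exact hMR
  · rw [hιX']
    refine isWeaklyRegular_of_sop hd _ ?_ ?_ ?_
    · rw [List.length_append, List.length_cons, List.length_ofFn, ← hlen]
    · intro z hz
      rw [List.mem_append, List.mem_cons, List.mem_ofFn] at hz
      rcases hz with hz | rfl | ⟨i, rfl⟩
      · exact hm z hz
      · exact hpm
      · exact hum i
    · have h1 : Ideal.ofList hs ⊔ (Ideal.span {(p : R)} ⊔ Ideal.span (Set.range u)) =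
          Ideal.ofList (hs ++ ((p : R) :: List.ofFn u)) := by
        rw [Ideal.ofList_append, Ideal.ofList_cons]
        congr 2
        rw [Ideal.ofList]
        congr 1
        ext y
        simp [List.mem_ofFn]
      rw [← h1]
      intro z hz
      exact ⟨M, hMR (Ideal.pow_mem_pow hz M)⟩

/-- **CHOICE**, with the dimension `b`. -/
theorem exists_choice (p : ℕ) [Fact p.Prime] {R : Type u} [CommRing R] [IsRegularLocalRing R]
    [IsAdicComplete (maximalIdeal R) R] [CharP (ResidueField R) p]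
    [PerfectRing (ResidueField R) p] {d b : ℕ} (hd : ringKrullDim R = d) (hs : List R)
    (hm : ∀ h ∈ hs, h ∈ maximalIdeal R) (hreg : IsWeaklyRegular R (hs ++ [(p : R)]))
    (hlen : hs.length + b = d) (hb : 1 ≤ b) (hdim : ringKrullDim (R ⧸ Ideal.ofList hs) = b) :
    ∃ ι : MvPowerSeries (Fin (b - 1)) (WittVector p (ResidueField R)) →+* R,
      (∀ w, residue R (ι (MvPowerSeries.C w)) = w.coeff 0) ∧
      (∀ i, ι (MvPowerSeries.X i) ∈ maximalIdeal R) ∧
      ((Ideal.Quotient.mk (Ideal.ofList hs)).comp ι).Finite ∧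
      (∃ M : ℕ, maximalIdeal R ^ M ≤ Ideal.ofList hs ⊔ (Ideal.span {(p : R)} ⊔
        Ideal.span (Set.range fun i => ι (MvPowerSeries.X i)))) ∧
      IsWeaklyRegular R (hs ++ ((p : R) :: List.ofFn fun i => ι (MvPowerSeries.X i))) := by
  obtain ⟨r, rfl⟩ : ∃ r, b = r + 1 := ⟨b - 1, by omega⟩
  exact exists_choice_succ p hd hs hm hreg hlen hdim

/-- **CHOICE**, packaged for the flag formula: the algebra `Λ = W(k)[[u_1, ..., u_{b-1}]] → R`, a
regular local ring of dimension `b`, over which `R ⧸ (hs)` is finite and free, and an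
algebraically closed field `Ω` containing it. -/
theorem exists_choice_flag (p : ℕ) [Fact p.Prime] {R : Type u} [CommRing R]
    [IsRegularLocalRing R] [IsAdicComplete (maximalIdeal R) R] [CharP (ResidueField R) p]
    [PerfectRing (ResidueField R) p] {d b : ℕ} (hd : ringKrullDim R = d) (hs : List R)
    (hm : ∀ h ∈ hs, h ∈ maximalIdeal R) (hreg : IsWeaklyRegular R (hs ++ [(p : R)]))
    (hlen : hs.length + b = d) (hb : 1 ≤ b) (hdim : ringKrullDim (R ⧸ Ideal.ofList hs) = b) :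
    ∃ (_ : IsRegularLocalRing (MvPowerSeries (Fin (b - 1)) (WittVector p (ResidueField R))))
      (_ : Algebra (MvPowerSeries (Fin (b - 1)) (WittVector p (ResidueField R))) R),
      (∀ w, residue R (algebraMap (MvPowerSeries (Fin (b - 1)) (WittVector p (ResidueField R))) R
        (MvPowerSeries.C w)) = w.coeff 0) ∧
      (∀ i, algebraMap (MvPowerSeries (Fin (b - 1)) (WittVector p (ResidueField R))) R
        (MvPowerSeries.X i) ∈ maximalIdeal R) ∧
      ringKrullDim (MvPowerSeries (Fin (b - 1)) (WittVector p (ResidueField R))) =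
        ringKrullDim (R ⧸ Ideal.ofList hs) ∧
      maximalIdeal (MvPowerSeries (Fin (b - 1)) (WittVector p (ResidueField R))) =
        Ideal.span ({(p : MvPowerSeries (Fin (b - 1)) (WittVector p (ResidueField R)))} ∪
          Set.range MvPowerSeries.X) ∧
      Module.Finite (MvPowerSeries (Fin (b - 1)) (WittVector p (ResidueField R)))
        (R ⧸ Ideal.ofList hs) ∧
      Module.Free (MvPowerSeries (Fin (b - 1)) (WittVector p (ResidueField R)))
        (R ⧸ Ideal.ofList hs) ∧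
      (∃ M : ℕ, maximalIdeal R ^ M ≤ Ideal.ofList hs ⊔
        (maximalIdeal (MvPowerSeries (Fin (b - 1)) (WittVector p (ResidueField R)))).map
          (algebraMap (MvPowerSeries (Fin (b - 1)) (WittVector p (ResidueField R))) R)) ∧
      IsWeaklyRegular R (hs ++ ((p : R) :: List.ofFn fun i =>
        algebraMap (MvPowerSeries (Fin (b - 1)) (WittVector p (ResidueField R))) R
          (MvPowerSeries.X i))) := by
  obtain ⟨ι, h1, h2, h3, ⟨M, hM⟩, h5⟩ := exists_choice p hd hs hm hreg hlen hb hdim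
  obtain ⟨hΛ, hΛd, hΛm⟩ := ch_regular (ResidueField R) p (b - 1)
  have hb1 : b - 1 + 1 = b := by omega
  rw [hb1] at hΛd
  let _ : Algebra (MvPowerSeries (Fin (b - 1)) (WittVector p (ResidueField R))) R := ι.toAlgebra
  have hfin : Module.Finite (MvPowerSeries (Fin (b - 1)) (WittVector p (ResidueField R)))
      (R ⧸ Ideal.ofList hs) := h3
  refine ⟨hΛ, ι.toAlgebra, h1, h2, hΛd.trans hdim.symm, hΛm, hfin,
    free_quotient_ofList hd hs hm hlen _ hΛd, ⟨M, ?_⟩, h5⟩
  refine hM.trans (sup_le_sup_left ?_ _)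
  rw [hΛm, Ideal.map_span, Set.image_union, Set.image_singleton, Ideal.span_union,
    ← Set.range_comp]
  refine sup_le_sup ?_ le_rfl
  rw [Ideal.span_singleton_le_iff_mem]
  refine Ideal.subset_span ?_
  rw [Set.mem_singleton_iff]
  exact (map_natCast ι p).symm

theorem ch_charZero_witt (k : Type u) [Field k] (p : ℕ) [Fact p.Prime] [CharP k p] :
    CharZero (WittVector p k) := by
  obtain ⟨q, hq⟩ := CharP.exists (WittVector p k)
  rcases CharP.char_is_prime_or_zero (WittVector p k) q with hqp | rfl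
  · exfalso
    have h1 : (q : WittVector p k) = 0 := CharP.cast_eq_zero _ _
    have h2 : (q : k) = 0 := by
      have := congrArg (WittVector.constantCoeff (p := p) (R := k)) h1
      rwa [map_natCast, map_zero] at this
    have h3 : p ∣ q := (CharP.cast_eq_zero_iff k p q).1 h2
    have h4 : p = q := (Nat.prime_dvd_prime_iff_eq Fact.out hqp).1 h3
    exact WittVector.p_nonzero p k (by rw [← h4] at h1; exact h1)
  · exact CharP.charP_to_charZero _

theorem ch_charZero (k : Type u) [Field k] (p : ℕ) [Fact p.Prime] [CharP k p] (n : ℕ) :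
    CharZero (MvPowerSeries (Fin n) (WittVector p k)) := by
  have := ch_charZero_witt k p
  exact charZero_of_injective_ringHom (f := MvPowerSeries.C) MvPowerSeries.C_injective

end Vale.Agent.P177
end

section

/-!
The thickenings of the power series ring over the Witt vectors (block F1 of B7).
-/

namespace Vale.Agent.P177.SL

open Vale.Agent.P202.Mix Function TensorProduct IsLocalRing RingTheory.Sequence
open scoped ENNReal

universe u

section PS

variable (p : ℕ) [Fact p.Prime] (k : Type u) [Field k] [CharP k p] [PerfectRing k p] (d : ℕ)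

/-- The thickenings of the power series ring over the Witt vectors. -/
theorem exists_thick :
    ∃ T : Thick (MvPowerSeries (Fin d) (WittVector p k)) d
      (MvPowerSeries.C (p : WittVector p k)) MvPowerSeries.X,
      ∀ t w, T.Θ t (MvPowerSeries.C w) =
        algebraMap (MvPowerSeries (Fin d) (WittVector p k))
          (TB (MvPowerSeries (Fin d) (WittVector p k)) d t) (MvPowerSeries.C w) := by
  have h : ∀ t : ℕ, ∃ Θ : MvPowerSeries (Fin d) (WittVector p k) →+*
      TB (MvPowerSeries (Fin d) (WittVector p k)) d t,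
      (∀ i, Θ (MvPowerSeries.X i) = Ideal.Quotient.mk _ (MvPolynomial.C (MvPowerSeries.X i)) +
        Ideal.Quotient.mk _ (MvPolynomial.X i)) ∧
      (∀ w, Θ (MvPowerSeries.C w) =
        Ideal.Quotient.mk _ (MvPolynomial.C (MvPowerSeries.C w))) ∧
      ∀ s, Θ s - algebraMap _ _ s ∈ Ideal.span (Set.range fun i : Fin d =>
        (Ideal.Quotient.mk (boxI (MvPowerSeries (Fin d) (WittVector p k)) (fun _ : Fin d => t))
          (MvPolynomial.X i))) := by
    intro t
    rcases Nat.eq_zero_or_pos t with rfl | ht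
    · by_cases hd : d = 0
      · subst hd
        refine ⟨algebraMap _ _, fun i => i.elim0, fun w => rfl, fun s => ?_⟩
        rw [sub_self]
        exact zero_mem _
      · have i0 : Fin d := ⟨0, Nat.pos_of_ne_zero hd⟩
        have hs : Subsingleton (TB (MvPowerSeries (Fin d) (WittVector p k)) d 0) := by
          rw [Ideal.Quotient.subsingleton_iff, Ideal.eq_top_iff_one]
          have h1 := X_pow_mem_boxI (S := MvPowerSeries (Fin d) (WittVector p k))
            (fun _ : Fin d => 0) i0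
          rwa [pow_zero] at h1
        refine ⟨algebraMap _ _, fun i => Subsingleton.elim _ _, fun w => Subsingleton.elim _ _,
          fun s => ?_⟩
        rw [sub_self]
        exact zero_mem _
    · exact exists_taylor p k d t ht
  choose Θ h1 h2 h3 using h
  refine ⟨⟨Θ, h1, h3, fun t _ => ?_⟩, h2⟩
  exact th_residue p k d t (Θ t) (h1 t) (h2 t)

/-- Polynomials are dense. -/
theorem ps_gen (s : MvPowerSeries (Fin d) (WittVector p k)) (M : ℕ) :
    ∃ q : MvPolynomial (Fin d) (WittVector p k),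
      s - MvPolynomial.aeval (MvPowerSeries.X : Fin d → MvPowerSeries (Fin d) (WittVector p k)) q ∈
        Ideal.span (Set.range (MvPowerSeries.X :
          Fin d → MvPowerSeries (Fin d) (WittVector p k))) ^ M := by
  obtain ⟨q, hq⟩ := exists_poly_sub_mem M s
  refine ⟨q, ?_⟩
  have h1 : MvPolynomial.aeval (MvPowerSeries.X : Fin d → MvPowerSeries (Fin d) (WittVector p k))
      q = (q : MvPowerSeries (Fin d) (WittVector p k)) := by
    have h2 : (MvPolynomial.aeval (R := WittVector p k)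
        (MvPowerSeries.X : Fin d → MvPowerSeries (Fin d) (WittVector p k))).toRingHom =
        MvPolynomial.coeToMvPowerSeries.ringHom := by
      apply MvPolynomial.ringHom_ext
      · intro w
        change MvPolynomial.aeval _ (MvPolynomial.C w) =
          ((MvPolynomial.C w : MvPolynomial (Fin d) (WittVector p k)) :
            MvPowerSeries (Fin d) (WittVector p k))
        rw [MvPolynomial.aeval_C, MvPolynomial.coe_C]
        rfl
      · intro i
        change MvPolynomial.aeval _ (MvPolynomial.X i) =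
          ((MvPolynomial.X i : MvPolynomial (Fin d) (WittVector p k)) :
            MvPowerSeries (Fin d) (WittVector p k))
        rw [MvPolynomial.aeval_X, MvPolynomial.coe_X]
    exact RingHom.congr_fun h2 q
  rw [h1]
  exact hq

/-- The maximal ideal. -/
theorem ps_reg (t : ℕ) (ht : 1 ≤ t) :
    IsWeaklyRegular (MvPowerSeries (Fin d) (WittVector p k))
      (pz (MvPowerSeries.C (p : WittVector p k))
        (MvPowerSeries.X : Fin d → MvPowerSeries (Fin d) (WittVector p k)) t) := by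
  obtain ⟨h0, hdim, hmax⟩ := ch_regular k p d
  have hpm : (MvPowerSeries.C (p : WittVector p k) : MvPowerSeries (Fin d) (WittVector p k)) ∈
      maximalIdeal (MvPowerSeries (Fin d) (WittVector p k)) := by
    rw [map_natCast, hmax]
    exact Ideal.subset_span (Or.inl rfl)
  have hXm : ∀ i : Fin d, (MvPowerSeries.X i : MvPowerSeries (Fin d) (WittVector p k)) ∈
      maximalIdeal (MvPowerSeries (Fin d) (WittVector p k)) := by
    intro i
    rw [hmax]
    exact Ideal.subset_span (Or.inr ⟨i, rfl⟩)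
  refine isWeaklyRegular_of_sop hdim _ (by simp [pz]) ?_ ?_
  · intro z hz
    rcases List.mem_cons.1 hz with rfl | hz
    · exact hpm
    · obtain ⟨i, rfl⟩ := List.mem_ofFn.1 hz
      exact Ideal.pow_mem_of_mem _ (hXm i) _ (by omega)
  · conv_lhs => rw [hmax]
    rw [Ideal.span_le]
    rintro x (hx | ⟨i, rfl⟩)
    · rw [Set.mem_singleton_iff] at hx
      subst hx
      refine Ideal.le_radical (Ideal.subset_span ?_)
      rw [← map_natCast (MvPowerSeries.C (σ := Fin d) (R := WittVector p k))]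
      exact List.mem_cons_self
    · refine ⟨t, Ideal.subset_span ?_⟩
      exact List.mem_cons_of_mem _ (List.mem_ofFn.2 ⟨i, rfl⟩)

end PS

end Vale.Agent.P177.SL
end

section

/-!
P177, block B7: the data of the power series ring `W(k)[[x_1, .., x_d]]` used in the concrete form,
as hypotheses on a general ring `S`; finiteness, vanishing and independence for such rings.
-/

namespace Vale.Agent.P177.SL

open Vale.Agent.P202.Mix Function TensorProduct IsLocalRing Vale.Agent.P177.PI WittVector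
open scoped ENNReal

universe u

/-- the properties of `S = W(k)[[z_1, .., z_d]]` used for vanishing and positivity. -/
structure PSRing (p : ℕ) (S : Type u) [CommRing S] [IsLocalRing S] {d : ℕ} (z : Fin d → S) :
    Prop where
  regular : IsRegularLocalRing S
  dim : ringKrullDim S = ((d + 1 : ℕ) : WithBot ℕ∞)
  max : maximalIdeal S = Ideal.span ({(p : S)} ∪ Set.range z)
  wreg : ∀ t, 1 ≤ t → RingTheory.Sequence.IsWeaklyRegular S (pz (p : S) z t)
  thick : ∃ (W₀ : Type u) (_ : CommRing W₀) (_ : IsDomain W₀) (_ : IsDiscreteValuationRing W₀)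
    (_ : Algebra W₀ S) (T : Thick S d (p : S) z), Irreducible (p : W₀) ∧
      (∀ t w, T.Θ t (algebraMap W₀ S w) = algebraMap S (TB S d t) (algebraMap W₀ S w)) ∧
      (∀ (s : S) (M : ℕ), ∃ q : MvPolynomial (Fin d) W₀,
        s - MvPolynomial.aeval z q ∈ Ideal.span (Set.range z) ^ M) ∧
      Surjective ((Ideal.Quotient.mk (maximalIdeal S)).comp (algebraMap W₀ S))

/-- `W(k)[[x_1, .., x_d]]`. -/
theorem psRing_sx (p : ℕ) [Fact p.Prime] (k : Type u) [Field k] [CharP k p] [PerfectRing k p]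
    (d : ℕ) : PSRing p (MvPowerSeries (Fin d) (WittVector p k)) MvPowerSeries.X := by
  obtain ⟨h0, hdim, hmax⟩ := ch_regular k p d
  have hreg := ps_reg p k d
  have hT := exists_thick p k d
  rw [map_natCast] at hT
  rw [map_natCast] at hreg
  obtain ⟨T, hΘ⟩ := hT
  refine ⟨h0, hdim, hmax, hreg, WittVector p k, inferInstance, inferInstance, inferInstance,
    inferInstance, T, WittVector.irreducible p, fun t w => hΘ t w, fun s M => ps_gen p k d s M, ?_⟩
  intro y
  obtain ⟨s, rfl⟩ := Ideal.Quotient.mk_surjective y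
  refine ⟨MvPowerSeries.constantCoeff s, ?_⟩
  change Ideal.Quotient.mk _ (MvPowerSeries.C (MvPowerSeries.constantCoeff s)) = _
  rw [Ideal.Quotient.eq, mem_maximalIdeal, mem_nonunits_iff]
  intro hu
  have h1 := hu.map (MvPowerSeries.constantCoeff (σ := Fin d) (R := WittVector p k))
  rw [map_sub, MvPowerSeries.constantCoeff_C, sub_self] at h1
  exact not_isUnit_zero h1

namespace PSRing

variable {p : ℕ} [hp : Fact p.Prime] {C' : Type u} [CommRing C'] {S : Type u} [CommRing S]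
  [IsLocalRing S] {d : ℕ} {z : Fin d → S}

theorem tau_eq_zero (h : PSRing p S z) {D : Type u} [CommRing D] [Algebra S D]
    [Module.Flat S D] (L : AddLen D) (N : Type u) [AddCommGroup N] [Module S N]
    [Module.Finite S N] (X : Type u) [AddCommGroup X] [Module D X] (n : ℕ) (hn : d + 2 ≤ n) :
    tau S L n N X = 0 := by
  have h0 := h.regular
  have := tor_vanish_baseChange (R := S) (T := D) (d + 1) N
    (fun j hj I => regular_tor_vanish _ (d + 1) h.dim N _ j hj) n (by omega) X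
  exact len_subsingleton L

theorem exists_supportDim_le (h : PSRing p S z) (P : Ideal S) :
    ∃ a : ℕ, Module.supportDim S (S ⧸ P) ≤ a := by
  refine ⟨d + 1, ?_⟩
  rw [← h.dim]
  exact Module.supportDim_le_ringKrullDim S (S ⧸ P)

variable [CharP C' p] [PerfectRing C' p] (h : PSRing p S z) (ψ : S →+* WittVector p C') {n : ℕ}
  (v : Fin n → C') (L' : AddLen (WittVector p C'))
  (hr1 : ∀ l, ∃ m : ℕ, ψ (z l) ^ m ∈
    Ideal.ofList ((p : WittVector p C') :: List.ofFn fun i => teichmuller p (v i)))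
  (hr2 : ∀ i, ∃ m : ℕ, teichmuller p (v i) ^ m ∈
    Ideal.span (Set.range fun l => ψ (z l)) ⊔ Ideal.span {(p : WittVector p C')})
include h hr1 hr2

/-- **finiteness** for `S ⧸ P`. -/
theorem fin (P : Ideal S) (hp' : ∃ m : ℕ, (p : WittVector p C') ^ m ∈ P.map ψ)
    (hv : ∀ i, ∃ m : ℕ, teichmuller p (v i) ^ m ∈ P.map ψ) (J : Ideal C')
    (hmJ : ∀ i, L'.len ((KG.KC (R := WittVector p C') (WI p J)
      ((p : WittVector p C') :: List.ofFn fun i => teichmuller p (v i))).H i) ≠ ⊤) (i : ℕ) :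
    tau S (lenR S L') i (S ⧸ P) (XS p J ψ) ≠ ⊤ := by
  have h0 := h.regular
  obtain ⟨W₀, i1, i2, i3, i4, T, -⟩ := h.thick
  exact b7_fin ψ v h.max h.wreg T L' hr1 hr2 hp' hv (S ⧸ P) (by rw [Ideal.annihilator_quotient]) J
    hmJ (h.exists_supportDim_le P) i

/-- **vanishing** for `S ⧸ P`. -/
theorem vanish (P : Ideal S) (hp' : ∃ m : ℕ, (p : WittVector p C') ^ m ∈ P.map ψ)
    (hv : ∀ i, ∃ m : ℕ, teichmuller p (v i) ^ m ∈ P.map ψ) (J : Ideal C')
    (hmJ : ∀ i, L'.len ((KG.KC (R := WittVector p C') (WI p J)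
      ((p : WittVector p C') :: List.ofFn fun i => teichmuller p (v i))).H i) ≠ ⊤)
    (a : ℕ) (ha : Module.supportDim S (S ⧸ P) ≤ a) (had : a + n < d) (nn : ℕ)
    (hnn : d + 2 ≤ nn) : chi S (lenR S L') nn (S ⧸ P) (XS p J ψ) = 0 := by
  have h0 := h.regular
  have hf : Module.Flat ℤ (WittVector p C') := Full.flat_int_witt p C'
  obtain ⟨W₀, i1, i2, i3, i4, T, -⟩ := h.thick
  exact b7_vanish ψ v h.max h.wreg T L' hr1 hr2 hp' hv (S ⧸ P)
    (by rw [Ideal.annihilator_quotient]) J hmJ a ha had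
    nn (h.tau_eq_zero (lenR S L') (S ⧸ P) (XS p J ψ) nn hnn)

/-- **independence of `J`** for `S ⧸ P`. -/
theorem indep (P : Ideal S) (hp' : ∃ m : ℕ, (p : WittVector p C') ^ m ∈ P.map ψ)
    (hv : ∀ i, ∃ m : ℕ, teichmuller p (v i) ^ m ∈ P.map ψ) {J : Ideal C'} (hJ : IsPerf p J)
    (hmJ : ∀ i, L'.len ((KG.KC (R := WittVector p C') (WI p J)
      ((p : WittVector p C') :: List.ofFn fun i => teichmuller p (v i))).H i) ≠ ⊤)
    (hmV : ∀ i, L'.len ((KG.KC (R := WittVector p C') (WittVector p C')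
      ((p : WittVector p C') :: List.ofFn fun i => teichmuller p (v i))).H i) ≠ ⊤)
    {m : ℕ} (y : Fin m → C') (hy : ∀ j, y j ∈ Ideal.span (Set.range v)) (l : ℕ)
    (hcut : Ideal.span (Set.range v) ^ l ≤ Ideal.span (Set.range y) ⊔ J)
    (a : ℕ) (ha : Module.supportDim S (S ⧸ P) ≤ a) (had : a + m < d) (nn : ℕ)
    (hnn : d + 2 ≤ nn) :
    chi S (lenR S L') nn (S ⧸ P) (XS p J ψ) =
      chi S (lenR S L') nn (S ⧸ P) (XS p (⊤ : Ideal C') ψ) := by
  have h0 := h.regular
  have hf : Module.Flat ℤ (WittVector p C') := Full.flat_int_witt p C'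
  obtain ⟨W₀, i1, i2, i3, i4, T, -⟩ := h.thick
  exact b7_indep ψ v h.max h.wreg T L' hr1 hr2 hp' hv (S ⧸ P)
    (by rw [Ideal.annihilator_quotient]) hJ hmJ hmV y hy l hcut a ha had
    nn (fun X _ _ => h.tau_eq_zero (lenR S L') (S ⧸ P) X nn hnn)

end PSRing

end Vale.Agent.P177.SL
end

section

/-!
P177, block B7, concrete form: positivity for the module `W(C')` over `S ⊗ W(C')`.
-/

namespace Vale.Agent.P177.SL

open Vale.Agent.P202.Mix Function TensorProduct IsLocalRing Vale.Agent.P177.PI WittVector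
open scoped ENNReal

universe u

section pos

variable {p : ℕ} [hp : Fact p.Prime] {C' : Type u} [CommRing C'] {S : Type u} [CommRing S]
  (ψ : S →+* WittVector p C') {d : ℕ} {z : Fin d → S} {n : ℕ} (v : Fin n → C')

theorem WI_top : WI p (⊤ : Ideal C') = ⊤ := by
  rw [Ideal.eq_top_iff_one]
  have h1 := te_mem_WI p (J := (⊤ : Ideal C')) (c := 1) trivial
  rwa [map_one] at h1

/-- the Koszul homology of `XS ⊤` and of `W(C')`. -/
theorem xs_KC_top (L' : AddLen (WittVector p C')) (xs : List (WittVector p C')) (i : ℕ) :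
    (lenR S L').len ((KG.KC (R := S ⊗[ℤ] WittVector p C') (XS p ⊤ ψ)
        (xs.map (inR S (WittVector p C')))).H i) =
      L'.len ((KG.KC (R := WittVector p C') (WittVector p C') xs).H i) := by
  rw [xs_KC]
  exact MN.KC_len_congr (KG.ALen.of L') ((LinearEquiv.ofEq _ _ (WI_top (p := p))).trans
    (Submodule.topEquiv (R := WittVector p C') (M := WittVector p C'))) xs i

theorem xs_z_mem (J : Ideal C') (hr1 : ∀ l, ∃ m : ℕ, ψ (z l) ^ m ∈
      Ideal.ofList ((p : WittVector p C') :: List.ofFn fun i => teichmuller p (v i))) :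
    ∃ l : ℕ, ∀ i, algebraMap S (S ⊗[ℤ] WittVector p C') (z i) ^ l ∈
      Ideal.ofList (((p : WittVector p C') :: List.ofFn fun i => teichmuller p (v i)).map
        (inR S (WittVector p C'))) ⊔
        Module.annihilator (S ⊗[ℤ] WittVector p C') (XS p J ψ) := by
  choose m hm using hr1
  refine ⟨Finset.univ.sup m, fun i => ?_⟩
  have h0 : ψ (z i) ^ (Finset.univ.sup m) ∈
      Ideal.ofList ((p : WittVector p C') :: List.ofFn fun i => teichmuller p (v i)) := by
    obtain ⟨c, hc⟩ := pow_dvd_pow (ψ (z i)) (Finset.le_sup (f := m) (Finset.mem_univ i))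
    rw [hc]
    exact Ideal.mul_mem_right _ _ (hm i)
  have h1 := tmul_sub_mem_ann p J ψ (z i ^ (Finset.univ.sup m))
  have h2 := Ideal.mem_map_of_mem (inR S (WittVector p C')) h0
  rw [Ideal.map_ofList] at h2
  have h3 := Ideal.add_mem _ (Ideal.mem_sup_right h1 : _ ∈
    Ideal.ofList (((p : WittVector p C') :: List.ofFn fun i => teichmuller p (v i)).map
        (inR S (WittVector p C'))) ⊔
        Module.annihilator (S ⊗[ℤ] WittVector p C') (XS p J ψ)) (Ideal.mem_sup_left h2)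
  have h4 : inR S (WittVector p C') (ψ (z i) ^ (Finset.univ.sup m)) =
      (1 : S) ⊗ₜ ψ (z i ^ (Finset.univ.sup m)) := by
    rw [map_pow ψ]
    rfl
  rw [h4, sub_add_cancel] at h3
  rw [← map_pow]
  exact h3

/-- **positivity** over `S ⊗ W(C')`. -/
theorem b7_pos [CharP C' p] [PerfectRing C' p] [IsLocalRing S] [IsNoetherianRing S]
    {W₀ : Type u} [CommRing W₀] [IsDomain W₀] [IsDiscreteValuationRing W₀] [Algebra W₀ S]
    (hp0 : Irreducible (p : W₀))
    (hmax : maximalIdeal S = Ideal.span ({(p : S)} ∪ Set.range z))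
    (T : Thick S d (p : S) z)
    (hΘ : ∀ t w, T.Θ t (algebraMap W₀ S w) = algebraMap S (TB S d t) (algebraMap W₀ S w))
    (hgen : ∀ (s : S) (M : ℕ), ∃ q : MvPolynomial (Fin d) W₀,
      s - MvPolynomial.aeval z q ∈ Ideal.span (Set.range z) ^ M)
    (hres : Surjective ((Ideal.Quotient.mk (maximalIdeal S)).comp (algebraMap W₀ S)))
    (hreg : ∀ t, 1 ≤ t → RingTheory.Sequence.IsWeaklyRegular S (pz (p : S) z t))
    (L' : AddLen (WittVector p C'))
    (m0 : ∀ i, 1 ≤ i → L'.len ((KG.KC (R := WittVector p C') (WittVector p C')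
      ((p : WittVector p C') :: List.ofFn fun i => teichmuller p (v i))).H i) = 0)
    (m1 : L'.len ((KG.KC (R := WittVector p C') (WittVector p C')
      ((p : WittVector p C') :: List.ofFn fun i => teichmuller p (v i))).H 0) ≠ ⊤)
    (m2 : L'.len ((KG.KC (R := WittVector p C') (WittVector p C')
      ((p : WittVector p C') :: List.ofFn fun i => teichmuller p (v i))).H 0) ≠ 0)
    (hr1 : ∀ l, ∃ m : ℕ, ψ (z l) ^ m ∈
      Ideal.ofList ((p : WittVector p C') :: List.ofFn fun i => teichmuller p (v i)))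
    (hr2 : ∀ i, ∃ m : ℕ, teichmuller p (v i) ^ m ∈
      Ideal.span (Set.range fun l => ψ (z l)) ⊔ Ideal.span {(p : WittVector p C')})
    (P : Ideal S) [hP : P.IsPrime] (gs : List S)
    (hgs : RingTheory.Sequence.IsWeaklyRegular S gs) (hlen : gs.length = n + 1)
    (hgP : Ideal.ofList gs ≤ P) (s : S) (hs : s ∉ P) (hsP : ∀ x ∈ P, s * x ∈ Ideal.ofList gs)
    (hp' : ∃ m : ℕ, (p : WittVector p C') ^ m ∈ (Ideal.ofList gs).map ψ)
    (hv : ∀ i, ∃ m : ℕ, teichmuller p (v i) ^ m ∈ (Ideal.ofList gs).map ψ)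
    (a : ℕ) (ha : Module.supportDim S (S ⧸ P) = a) (had : a + n = d) (N : ℕ)
    (hN : tau S (lenR S L') (N + 1) (S ⧸ P) (XS p ⊤ ψ) = 0) :
    0 < SL.chi S (lenR S L') (N + 1) (S ⧸ P) (XS p ⊤ ψ) := by
  have hf : Module.Flat ℤ (WittVector p C') := Full.flat_int_witt p C'
  have e0 : algebraMap W₀ S (p : W₀) = (p : S) := map_natCast _ _
  let iM : Module W₀ (XS p (⊤ : Ideal C') ψ) :=
    Module.compHom _ (algebraMap W₀ (S ⊗[ℤ] WittVector p C'))
  have iT : IsScalarTower W₀ (S ⊗[ℤ] WittVector p C') (XS p (⊤ : Ideal C') ψ) :=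
    ⟨fun w x y => by
      change (w • x) • y = algebraMap W₀ (S ⊗[ℤ] WittVector p C') w • (x • y)
      have h1 : w • x = algebraMap W₀ (S ⊗[ℤ] WittVector p C') w * x := Algebra.smul_def w x
      rw [h1, mul_smul]⟩
  let ys : List (S ⊗[ℤ] WittVector p C') :=
    (List.ofFn fun i => teichmuller p (v i)).map (inR S (WittVector p C'))
  have hys : ys.length = n := by rw [List.length_map, List.length_ofFn]
  have e1 : algebraMap W₀ (S ⊗[ℤ] WittVector p C') (p : W₀) :: ys =
      ((p : WittVector p C') :: List.ofFn fun i => teichmuller p (v i)).map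
        (inR S (WittVector p C')) := by
    rw [List.map_cons, map_natCast, map_natCast]
  have hPm : ∀ I : Ideal S, Ideal.ofList gs ≤ I → (Ideal.ofList gs).map ψ ≤ I.map ψ :=
    fun I h => Ideal.map_mono h
  have hgrow : ∀ i, L'.len ((KG.KC (R := WittVector p C') (WI p (⊤ : Ideal C'))
      ((p : WittVector p C') :: List.ofFn fun i => teichmuller p (v i))).H i) ≠ ⊤ := by
    intro i
    rw [← xs_KC (S := S) ψ L' ⊤, xs_KC_top]
    rcases Nat.eq_zero_or_pos i with rfl | hi
    · exact m1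
    · rw [m0 i hi]
      exact ENNReal.zero_ne_top
  have hG := xs_growth ψ v hreg L' ⊤ hgrow hr2
  have key : ∀ (q : S) (hq : algebraMap W₀ S (p : W₀) = q) (T' : Thick S d q z)
      (hΘ' : ∀ t w, T'.Θ t (algebraMap W₀ S w) = algebraMap S (TB S d t) (algebraMap W₀ S w))
      (hqm : q ∈ maximalIdeal S)
      (hG' : BaseGrowth (lenR S L') q z n (XS p ⊤ ψ)),
      0 < SL.chi S (lenR S L') (N + 1) (S ⧸ P) (XS p ⊤ ψ) := by
    intro q hq T' hΘ' hqm hG'
    subst hq
    refine chi_pos (lenR S L') (p : W₀) hp0 T' hΘ' hgen hres (fun i => ?_) hqm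
      (XS p ⊤ ψ) ys ?_ ?_ ?_ ?_ ?_ P ?_ gs hgs (by rw [hys]; exact hlen) hgP s hs hsP ?_ a ha
      (by rw [hys]; exact had) N hN
    · rw [hmax]
      exact Ideal.subset_span (Or.inr ⟨i, rfl⟩)
    · intro i hi
      rw [e1, xs_KC_top]
      exact m0 i hi
    · rw [e1, xs_KC_top]
      exact m1
    · rw [e1, xs_KC_top]
      exact m2
    · rw [e1]
      exact xs_z_mem ψ v ⊤ hr1
    · rw [hys]
      exact hG'
    · refine xs_nilp ψ v hmax ⊤ ?_ ?_ hr1
      · obtain ⟨m, hm⟩ := hp'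
        exact ⟨m, hPm P hgP hm⟩
      · intro i
        obtain ⟨m, hm⟩ := hv i
        exact ⟨m, hPm P hgP hm⟩
    · rw [e1]
      exact xs_pow_mem ψ v ⊤ hp' hv
  refine key (p : S) e0 T hΘ ?_ hG
  rw [hmax]
  exact Ideal.subset_span (Or.inl rfl)

end pos

namespace PSRing

variable {p : ℕ} [hp : Fact p.Prime] {C' : Type u} [CommRing C'] {S : Type u} [CommRing S]
  [IsLocalRing S] {d : ℕ} {z : Fin d → S} [CharP C' p] [PerfectRing C' p] (h : PSRing p S z)
  (ψ : S →+* WittVector p C') {n : ℕ} (v : Fin n → C') (L' : AddLen (WittVector p C'))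
  (hr1 : ∀ l, ∃ m : ℕ, ψ (z l) ^ m ∈
    Ideal.ofList ((p : WittVector p C') :: List.ofFn fun i => teichmuller p (v i)))
  (hr2 : ∀ i, ∃ m : ℕ, teichmuller p (v i) ^ m ∈
    Ideal.span (Set.range fun l => ψ (z l)) ⊔ Ideal.span {(p : WittVector p C')})
include h hr1 hr2

/-- **positivity** for `S ⧸ P`, `gs` a generic complete intersection in `P`. -/
theorem pos
    (m0 : ∀ i, 1 ≤ i → L'.len ((KG.KC (R := WittVector p C') (WittVector p C')
      ((p : WittVector p C') :: List.ofFn fun i => teichmuller p (v i))).H i) = 0)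
    (m1 : L'.len ((KG.KC (R := WittVector p C') (WittVector p C')
      ((p : WittVector p C') :: List.ofFn fun i => teichmuller p (v i))).H 0) ≠ ⊤)
    (m2 : L'.len ((KG.KC (R := WittVector p C') (WittVector p C')
      ((p : WittVector p C') :: List.ofFn fun i => teichmuller p (v i))).H 0) ≠ 0)
    (P : Ideal S) [hP : P.IsPrime] (gs : List S)
    (hgs : RingTheory.Sequence.IsWeaklyRegular S gs) (hlen : gs.length = n + 1)
    (hgP : Ideal.ofList gs ≤ P) (s : S) (hs : s ∉ P) (hsP : ∀ x ∈ P, s * x ∈ Ideal.ofList gs)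
    (hp' : ∃ m : ℕ, (p : WittVector p C') ^ m ∈ (Ideal.ofList gs).map ψ)
    (hv : ∀ i, ∃ m : ℕ, teichmuller p (v i) ^ m ∈ (Ideal.ofList gs).map ψ)
    (a : ℕ) (ha : Module.supportDim S (S ⧸ P) = a) (had : a + n = d) (nn : ℕ)
    (hnn : d + 2 ≤ nn) :
    0 < chi S (lenR S L') nn (S ⧸ P) (XS p (⊤ : Ideal C') ψ) := by
  have h0 := h.regular
  have hf : Module.Flat ℤ (WittVector p C') := Full.flat_int_witt p C'
  obtain ⟨W₀, i1, i2, i3, i4, T, hp0, hΘ, hgen, hres⟩ := h.thick
  obtain ⟨N, rfl⟩ : ∃ N', nn = N' + 1 := ⟨nn - 1, by omega⟩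
  exact b7_pos ψ v hp0 h.max T hΘ hgen hres h.wreg L' m0 m1 m2 hr1 hr2 P gs hgs hlen hgP s hs hsP
    hp' hv a ha had N (h.tau_eq_zero (lenR S L') (S ⧸ P) (XS p ⊤ ψ) (N + 1) hnn)

end PSRing

end Vale.Agent.P177.SL
end

section

/-!
P177, inner assembly: independence of `J` and positivity for the honest modules.
-/

namespace Vale.Agent.P177.Full

open TensorProduct IsLocalRing RingTheory.Sequence Function Vale.Agent.P202.Mix
  Vale.Agent.P177.Flag Vale.Agent.P177.PI Vale.Agent.P177.Lev WittVector Vale.Agent.P177.KG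
open scoped ENNReal

universe u

namespace Core

variable {p : ℕ} [Fact p.Prime] {R : Type u} [CommRing R] [IsRegularLocalRing R]
    [CharP (ResidueField R) p] [PerfectRing (ResidueField R) p] {d : ℕ} {P : Ideal R}
    {hs : List R} {r : ℕ} [IsRegularLocalRing (Lam p (ResidueField R) r)]
    [Algebra (Lam p (ResidueField R) r) R] {Ω : Type u} [Field Ω]
    [Algebra (Lam p (ResidueField R) r) Ω] {F : Fin 2 → FlagMod (Lam p (ResidueField R) r) Ω hs}
    (X : Core p d P hs r Ω F)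

section one

variable [IsAdicComplete (maximalIdeal R) R] (hN : Norm p R r hs) {M : ℕ} (hM : 2 ≤ M)
  (Z : CN.NatZ p X.K.C (tC p (ResidueField R) r X.K.C) (X.K.etM M))
  (i : Fin 2) (j : Fin (F i).n)

include hN hM

theorem psiZ_E (x : WittVector p Z.C') (hx : X.psiZ Z.f ((F i).σ j) X.E * x = 0) : x = 0 := by
  obtain ⟨z, w, hz, h⟩ := X.z_E hN hM Z i j
  exact X.psiE_regular Z.f ((F i).σ j) Z.reg hz (by omega) h x hx

theorem chiH_top (nn : ℕ) : X.chiH Z.f nn ((F i).σ j) ⊤ =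
    chiXS p (X.K.mass.restrict (WittVector.map Z.f)) (X.psiZ Z.f ((F i).σ j)) ⊤ nn
      (P.comap X.Φ) := by
  refine (X.chi_HJ Z.f ((F i).σ j) ⊤ (X.psiZ_E hN hM Z i j) nn).trans ?_
  rw [Ideal.map_top]

variable {K : ℕ} (hK : maximalIdeal R ^ K ≤ P ⊔ Ideal.ofList hs) (hKM : K < M)
include hK hKM

theorem h2_P : (∃ m : ℕ, (p : WittVector p Z.C') ^ m ∈
      (P.comap X.Φ).map (X.psiZ Z.f ((F i).σ j))) ∧
    ∀ q : Fin (r + 1), ∃ m : ℕ, teichmuller p (Z.f (xC p (ResidueField R) r X.K.C q)) ^ m ∈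
      (P.comap X.Φ).map (X.psiZ Z.f ((F i).σ j)) := by
  refine X.z_H2C hN hM Z i j ?_ hKM ?_
  · rw [Ideal.mem_comap]
    have h1 : X.Φ X.E = 0 := by
      rw [← RingHom.mem_ker, X.ker_Φ]
      exact Ideal.mem_span_singleton_self _
    rw [h1]
    exact P.zero_mem
  · rw [Ideal.map_comap_of_surjective X.Φ X.Φ_surj]
    exact hK

/-- **independence of `J`.** -/
theorem b7_indep_one {a : ℕ} (ha : ringKrullDim (R ⧸ P) = a) (hab : a + (r + 1) ≤ d)
    (z : Fin (F i).n → ℤ)
    (hcut : ∃ y : Fin r → Z.C', (∀ j, y j ∈ Ideal.span (Set.range fun l : Fin (r + 1) =>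
          Z.f (xC p (ResidueField R) r X.K.C l))) ∧
        ∃ L : ℕ, Ideal.span (Set.range fun l : Fin (r + 1) =>
            Z.f (xC p (ResidueField R) r X.K.C l)) ^ L ≤
          Ideal.span (Set.range y) ⊔ (X.K.J (F i).n (X.pl i) z).map Z.f)
    (nn : ℕ) (hnn : d + 2 ≤ nn) :
    X.chiH Z.f nn ((F i).σ j) (X.K.J (F i).n (X.pl i) z) = X.chiH Z.f nn ((F i).σ j) ⊤ := by
  obtain ⟨y, hy, L, hL⟩ := hcut
  have hψ := X.psiZ_E hN hM Z i j
  have h1 := X.chi_HJ Z.f ((F i).σ j) (X.K.J (F i).n (X.pl i) z) hψ nn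
  refine h1.trans (Eq.trans ?_ (X.chiH_top hN hM Z i j nn).symm)
  obtain ⟨k1, k2⟩ := X.h2_P hN hM Z i j hK hKM
  have hη := X.K.kil_etM M
  exact (SL.psRing_sx p (ResidueField R) d).indep (X.psiZ Z.f ((F i).σ j))
    (fun q => Z.f (xC p (ResidueField R) r X.K.C q)) (X.K.mass.restrict (WittVector.map Z.f))
    (X.z_hr1 Z.f i j) (X.z_hr2 hN hM Z i j) (P.comap X.Φ) k1 k2
    ((X.K.sp_Jz (X.pl i) z).map Z.f).isPerf
    (fun q => by
      rw [X.K.KC_WI_map_eq hη Z _ (X.K.sp_Jz (X.pl i) z)]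
      exact (X.KC_J_lt_top i z q).ne)
    (fun q => by
      rcases Nat.eq_zero_or_pos q with rfl | hq
      · exact X.K.m1 hη Z
      · rw [X.K.m0 hη Z q hq]
        exact ENNReal.zero_ne_top)
    y hy L hL a (by rw [X.supportDim_comap, ha]) (by omega) nn hnn

/-- **vanishing** for the top ideal. -/
theorem b7_vanish_one {a : ℕ} (ha : ringKrullDim (R ⧸ P) = a) (hab : a + (r + 1) < d)
    (nn : ℕ) (hnn : d + 2 ≤ nn) :
    X.chiH Z.f nn ((F i).σ j) ⊤ = 0 := by
  refine (X.chiH_top hN hM Z i j nn).trans ?_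
  obtain ⟨k1, k2⟩ := X.h2_P hN hM Z i j hK hKM
  have hη := X.K.kil_etM M
  exact (SL.psRing_sx p (ResidueField R) d).vanish (X.psiZ Z.f ((F i).σ j))
    (fun q => Z.f (xC p (ResidueField R) r X.K.C q)) (X.K.mass.restrict (WittVector.map Z.f))
    (X.z_hr1 Z.f i j) (X.z_hr2 hN hM Z i j) (P.comap X.Φ) k1 k2 ⊤
    (fun q => by
      rw [SL.KC_top_eq]
      rcases Nat.eq_zero_or_pos q with rfl | hq
      · exact X.K.m1 hη Z
      · rw [X.K.m0 hη Z q hq]
        exact ENNReal.zero_ne_top)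
    a (by rw [X.supportDim_comap, ha]) (by omega) nn hnn

omit hK hKM in
/-- **positivity** for the top ideal. -/
theorem b7_pos_one (hP : P.IsPrime) {a : ℕ} (ha : ringKrullDim (R ⧸ P) = a)
    (hab : a + (r + 1) = d) (fs : List (Sx p (ResidueField R) d)) (hfl : fs.length = r + 1)
    (hreg : IsWeaklyRegular (Sx p (ResidueField R) d) (X.E :: fs))
    (hle : Ideal.ofList (X.E :: fs) ≤ P.comap X.Φ) (s : Sx p (ResidueField R) d)
    (hs1 : s ∉ P.comap X.Φ) (hs2 : ∀ x ∈ P.comap X.Φ, s * x ∈ Ideal.ofList (X.E :: fs))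
    {K : ℕ} (hKM : K < M)
    (hK : maximalIdeal R ^ K ≤ (Ideal.ofList (X.E :: fs)).map X.Φ ⊔ Ideal.ofList hs)
    (nn : ℕ) (hnn : d + 2 ≤ nn) :
    0 < X.chiH Z.f nn ((F i).σ j) ⊤ := by
  refine lt_of_lt_of_eq ?_ (X.chiH_top hN hM Z i j nn).symm
  obtain ⟨k1, k2⟩ := X.z_H2C hN hM Z i j (I := Ideal.ofList (X.E :: fs))
    (Ideal.subset_span List.mem_cons_self) hKM hK
  have hη := X.K.kil_etM M
  have hPc : (P.comap X.Φ).IsPrime := Ideal.comap_isPrime X.Φ P
  exact (SL.psRing_sx p (ResidueField R) d).pos (X.psiZ Z.f ((F i).σ j))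
    (fun q => Z.f (xC p (ResidueField R) r X.K.C q)) (X.K.mass.restrict (WittVector.map Z.f))
    (X.z_hr1 Z.f i j) (X.z_hr2 hN hM Z i j) (fun q hq => X.K.m0 hη Z q hq) (X.K.m1 hη Z)
    (X.K.m2 X.ε_ne hη Z) (P.comap X.Φ) (X.E :: fs) hreg (by rw [List.length_cons, hfl]) hle s hs1
    hs2 k1 k2 a (by rw [X.supportDim_comap, ha]) hab nn hnn

end one

/-- **(B7)** -/
theorem b7 [IsAdicComplete (maximalIdeal R) R] (hN : Norm p R r hs) (hd : ringKrullDim R = d)
    (hP : P.IsPrime) (hdim : ringKrullDim (R ⧸ Ideal.ofList hs) = ((r + 1 : ℕ) : WithBot ℕ∞))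
    (hrad : maximalIdeal R ≤ (P ⊔ Ideal.ofList hs).radical) (hlen : hs.length + (r + 1) = d)
    {a : ℕ} (ha : ringKrullDim (R ⧸ P) = a) (hab : a + (r + 1) ≤ d) (nn : ℕ)
    (hnn : d + r + 3 ≤ nn) :
    ∃ M0 : ℕ, ∀ M, M0 ≤ M →
      ∀ (Z : CN.NatZ p X.K.C (tC p (ResidueField R) r X.K.C) (X.K.etM M)) (i : Fin 2)
        (j : Fin (F i).n),
        X.chiH Z.f nn ((F i).σ j) (X.Jp i j) = X.chiH Z.f nn ((F i).σ j) ⊤ ∧
          0 ≤ X.chiH Z.f nn ((F i).σ j) ⊤ ∧
          (a + (r + 1) = d → 0 < X.chiH Z.f nn ((F i).σ j) ⊤) := by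
  classical
  obtain ⟨K, hK⟩ := Ideal.exists_pow_le_of_le_radical_of_fg hrad (IsNoetherian.noetherian _)
  have hcut : ∀ (i : Fin 2) (j : Fin (F i).n), ∃ M0 : ℕ, ∀ M, M0 ≤ M →
      ∀ (Z : CN.NatZ p X.K.C (tC p (ResidueField R) r X.K.C) (X.K.etM M)),
      ∃ y : Fin r → Z.C', (∀ j, y j ∈ Ideal.span (Set.range fun l : Fin (r + 1) =>
          Z.f (xC p (ResidueField R) r X.K.C l))) ∧
        ∃ L : ℕ, Ideal.span (Set.range fun l : Fin (r + 1) =>
            Z.f (xC p (ResidueField R) r X.K.C l)) ^ L ≤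
          Ideal.span (Set.range y) ⊔ (X.Jp i j).map Z.f := by
    intro i j
    obtain ⟨M0, h⟩ := X.exists_cut hN i
      (PI.sb (F i).n + PI.dg (F i).n j - PI.dg (F i).n ((j : ℕ) + 1))
    exact ⟨M0, fun M hM Z => h M hM Z.f Z.reg Z.jac Z.dvd⟩
  choose Mc hMc using hcut
  have hpos : ∃ K1 : ℕ, a + (r + 1) = d → ∃ fs : List (Sx p (ResidueField R) d),
      fs.length = r + 1 ∧ IsWeaklyRegular (Sx p (ResidueField R) d) (X.E :: fs) ∧
      Ideal.ofList (X.E :: fs) ≤ P.comap X.Φ ∧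
      (∃ s, s ∉ P.comap X.Φ ∧ ∀ x ∈ P.comap X.Φ, s * x ∈ Ideal.ofList (X.E :: fs)) ∧
      maximalIdeal R ^ K1 ≤ (Ideal.ofList (X.E :: fs)).map X.Φ ⊔ Ideal.ofList hs := by
    by_cases had : a + (r + 1) = d
    · obtain ⟨fs, h1, -, h3, h4, h5, h6⟩ := SL.exists_generic_ci_lift X.Φ X.Φ_surj X.E X.ker_Φ
        (mem_nonZeroDivisors_of_ne_zero X.E_ne_zero) P hs hN.mem a (r + 1) d hd ha (by omega) had
        hrad hdim.le
      obtain ⟨K1, hK1⟩ := Ideal.exists_pow_le_of_le_radical_of_fg h6 (IsNoetherian.noetherian _)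
      refine ⟨K1, fun _ => ⟨fs, h1, h3, h4, h5, ?_⟩⟩
      have h7 := Ideal.map_mono (f := X.Φ) hK1
      rw [Ideal.map_pow, Ideal.map_sup, Ideal.map_comap_of_surjective X.Φ X.Φ_surj] at h7
      have h8 : maximalIdeal R ≤ (maximalIdeal (Sx p (ResidueField R) d)).map X.Φ := by
        have h9 : IsLocalHom X.Φ := IsLocalHom.of_surjective X.Φ X.Φ_surj
        intro x hx
        obtain ⟨y, rfl⟩ := X.Φ_surj x
        refine Ideal.mem_map_of_mem _ ?_
        rw [mem_maximalIdeal, mem_nonunits_iff] at hx ⊢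
        exact fun hu => hx (hu.map X.Φ)
      exact (Ideal.pow_right_mono h8 K1).trans h7
    · exact ⟨0, fun h => absurd h had⟩
  obtain ⟨K1, hpos⟩ := hpos
  refine ⟨max (max (K + 1) (K1 + 1)) (max 2 (Finset.univ.sup fun i : Fin 2 =>
    Finset.univ.sup fun j : Fin (F i).n => Mc i j)), fun M hM Z i j => ?_⟩
  have hM1 : K < M := by
    have := (le_max_left _ _).trans ((le_max_left _ _).trans hM)
    omega
  have hM2 : K1 < M := by
    have := (le_max_right _ _).trans ((le_max_left _ _).trans hM)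
    omega
  have hM3 : 2 ≤ M := (le_max_left _ _).trans ((le_max_right _ _).trans hM)
  have hM4 : Mc i j ≤ M := by
    refine le_trans ?_ ((le_max_right _ _).trans ((le_max_right _ _).trans hM))
    exact (Finset.le_sup (f := fun j : Fin (F i).n => Mc i j) (Finset.mem_univ j)).trans
      (Finset.le_sup (f := fun i : Fin 2 => Finset.univ.sup fun j : Fin (F i).n => Mc i j)
        (Finset.mem_univ i))
  refine ⟨X.b7_indep_one hN hM3 Z i j hK hM1 ha hab _ (hMc i j M hM4 Z) nn (by omega), ?_⟩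
  have hp : a + (r + 1) = d → 0 < X.chiH Z.f nn ((F i).σ j) ⊤ := by
    intro had
    obtain ⟨fs, h1, h3, h4, ⟨s, h5, h6⟩, h7⟩ := hpos had
    exact X.b7_pos_one hN hM3 Z i j hP ha had fs h1 h3 h4 s h5 h6 hM2 h7 nn (by omega)
  refine ⟨?_, hp⟩
  by_cases had : a + (r + 1) = d
  · exact (hp had).le
  · rw [X.b7_vanish_one hN hM3 Z i j hK hM1 ha (by omega) nn (by omega)]

end Core

end Vale.Agent.P177.Full
end

section

/-!
P177, block LEV: the form of `δ + δ'` (after P202 `gamma_form`, without hypotheses on the ring).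
-/

namespace Vale.Agent.P177.Lev

open Polynomial Vale.Agent.P202.Mix
open scoped ENNReal

universe u

variable {p : ℕ} [Fact p.Prime] {k : Type u} [Field k] [CharP k p] {r : ℕ}
variable {Λ : Type u} [CommRing Λ] {u : Fin r → Λ}
  {ψ : Λ →+* WittVector p (Rp p k r)}
  {red : Λ →+* R0 k r ⧸ Ideal.span {(MvPowerSeries.X 0 : R0 k r)}}

/-- TASK M15a: the form of `γ = δ + δ'`. -/
theorem gamma_form1 (hb : IsBase p k r Λ u ψ red) (g : Λ)
    (hg : ∃ (a : ℕ) (g' : Λ), g = (p : Λ) ^ a * g' ∧ g' ∉ Ideal.span {(p : Λ)}) :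
    ∃ (a : ℕ) (g' : R0 k r) (I0 : ℕ), g' ∉ Ideal.span {(MvPowerSeries.X 0 : R0 k r)} ∧
      ∀ {s D : ℕ} (F : Fin s → Λ[X]) (E : MvPolynomial (Fin s) Λ),
        (E * (E - MvPolynomial.C g) ∈
          Ideal.span (Set.range fun j => Polynomial.toMvPolynomial j (F j))) →
        ∀ (I r0 : ℕ) (_ : I0 ≤ I) (d : CData.{u} ψ (D := D) F E g I r0) (π : Fin s → Fin D),
          ∃ x : d.C, d.δ π + d.δ' π = tC p k r d.C ^ a *
            (algebraMap (Rp p k r) d.C (PerfectClosure.of (R0 k r) p g') +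
              rt p 1 (tC p k r d.C) * x) := by
  obtain ⟨a, g', hgg, hg'⟩ := hg
  obtain ⟨g0, y, hred, hcoeff⟩ := hb.red_coeff g'
  refine ⟨a, g0, a * p ^ (a + 1) + a, fun h0 => hg' (hb.red_ker g' ?_), ?_⟩
  · rw [hred, Ideal.Quotient.eq_zero_iff_mem]
    exact h0
  intro s D F E h1 I r0 hI d π
  obtain ⟨Eπ, hEπ⟩ : ∃ z, z = MvPolynomial.eval₂ (laB ψ d.C)
    (fun j => te p d.C (tC p k r d.C) (d.c j (π j))) E := ⟨_, rfl⟩
  have hδ := d.hδ π
  have hδ' := d.hδ' π
  rw [← hEπ] at hδ hδ'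
  -- the relation
  have hrel : Eπ * (Eπ - laB ψ d.C g) ∈
      Ideal.span {(p : Bt p d.C (tC p k r d.C)) ^ (I + 1)} := by
    have h2 : Ideal.span (Set.range fun j => Polynomial.toMvPolynomial j (F j)) ≤
        (Ideal.span {(p : Bt p d.C (tC p k r d.C)) ^ (I + 1)}).comap
          (MvPolynomial.eval₂Hom (laB ψ d.C)
            (fun j => te p d.C (tC p k r d.C) (d.c j (π j)))) := by
      rw [Ideal.span_le]
      rintro _ ⟨j, rfl⟩
      rw [SetLike.mem_coe, Ideal.mem_comap]
      have h3 : MvPolynomial.eval₂Hom (laB ψ d.C)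
          (fun j => te p d.C (tC p k r d.C) (d.c j (π j))) (Polynomial.toMvPolynomial j (F j)) =
          ((F j).map (laB ψ d.C)).eval (te p d.C (tC p k r d.C) (d.c j (π j))) := by
        rw [Polynomial.eval_map]
        show MvPolynomial.eval₂Hom _ _ (Polynomial.aeval (MvPolynomial.X j) (F j)) = _
        rw [Polynomial.aeval_def, Polynomial.hom_eval₂]
        congr 1
        · ext z
          simp
        · simp
      rw [h3]
      exact gf_eval _ _ (fun i => te p d.C (tC p k r d.C) (d.c j i)) (d.split j) (π j)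
    have h4 := h2 h1
    rw [Ideal.mem_comap, map_mul, map_sub] at h4
    have h5 : MvPolynomial.eval₂Hom (laB ψ d.C)
        (fun j => te p d.C (tC p k r d.C) (d.c j (π j))) E = Eπ := by rw [hEπ]; rfl
    have h6 : MvPolynomial.eval₂Hom (laB ψ d.C)
        (fun j => te p d.C (tC p k r d.C) (d.c j (π j))) (MvPolynomial.C g) = laB ψ d.C g := by
      simp
    rw [h5, h6] at h4
    exact h4
  have hG : laB ψ d.C g = (p : Bt p d.C (tC p k r d.C)) ^ a *
      toB p d.C (tC p k r d.C) (WittVector.map (algebraMap (Rp p k r) d.C) (ψ g')) := by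
    have h := congrArg (laB ψ d.C) hgg
    rw [map_mul, map_pow, map_natCast] at h
    exact h
  rw [hG] at hrel hδ'
  refine gf_main p d.C (tC p k r d.C) (gf_tC d.toPExt) (d.δ π) (d.δ' π)
    (WittVector.map (algebraMap (Rp p k r) d.C) (ψ g')) _ (algebraMap (Rp p k r) d.C y) ?_ a I hI
    ?_ ?_ ?_
  · rw [WittVector.map_coeff, hcoeff, map_add, map_mul]
  · obtain ⟨ε, hε⟩ : ∃ ε, ε = te p d.C (tC p k r d.C) (d.δ π) - Eπ := ⟨_, rfl⟩
    rw [← hε] at hδ
    have h1 : te p d.C (tC p k r d.C) (d.δ π) = Eπ + ε := by rw [hε]; ring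
    rw [h1]
    generalize (p : Bt p d.C (tC p k r d.C)) ^ a *
      toB p d.C (tC p k r d.C) (WittVector.map (algebraMap (Rp p k r) d.C) (ψ g')) = G at hrel ⊢
    have h2 : (Eπ + ε) * (Eπ + ε) - G * (Eπ + ε) = Eπ * (Eπ - G) + ε * (2 * Eπ + ε - G) := by
      ring
    rw [h2]
    exact add_mem hrel (Ideal.mul_mem_right _ _ hδ)
  · generalize (p : Bt p d.C (tC p k r d.C)) ^ a *
      toB p d.C (tC p k r d.C) (WittVector.map (algebraMap (Rp p k r) d.C) (ψ g')) = G
      at hrel hδ' ⊢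
    obtain ⟨ε, hε⟩ : ∃ ε, ε = te p d.C (tC p k r d.C) (d.δ' π) - (G - Eπ) := ⟨_, rfl⟩
    rw [← hε] at hδ'
    have h1 : te p d.C (tC p k r d.C) (d.δ' π) = G - Eπ + ε := by rw [hε]; ring
    rw [h1]
    have h2 : (G - Eπ + ε) * (G - Eπ + ε) - G * (G - Eπ + ε) =
        Eπ * (Eπ - G) + ε * (G - 2 * Eπ + ε) := by
      ring
    rw [h2]
    exact add_mem hrel (Ideal.mul_mem_right _ _ hδ')
  · generalize (p : Bt p d.C (tC p k r d.C)) ^ a *
      toB p d.C (tC p k r d.C) (WittVector.map (algebraMap (Rp p k r) d.C) (ψ g')) = G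
      at hδ' ⊢
    have h2 := add_mem hδ hδ'
    have h3 : te p d.C (tC p k r d.C) (d.δ π) - Eπ +
        (te p d.C (tC p k r d.C) (d.δ' π) - (G - Eπ)) =
        te p d.C (tC p k r d.C) (d.δ π) + te p d.C (tC p k r d.C) (d.δ' π) - G := by ring
    rwa [h3] at h2

end Vale.Agent.P177.Lev
end

section

/-!
P177, block LEV: existence of the levels.
-/

namespace Vale.Agent.P177.Lev

open Vale.Agent.P202.Mix Vale.Agent.P202.Mix.UL WittVector IsLocalRing
open scoped ENNReal Polynomial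

universe u

variable {p : ℕ} [Fact p.Prime] {k : Type u} [Field k] [CharP k p] {r : ℕ}

section

variable {Λ : Type u} [CommRing Λ] {ψ : Λ →+* WittVector p (Rp p k r)}
variable {s D : ℕ} {G : Fin s → Polynomial Λ} {E : MvPolynomial (Fin s) Λ} {g : Λ} {I r0 : ℕ}
  (d : CData.{u} ψ (D := D) G E g I r0)

/-- evaluation at the Teichmueller representatives of the chosen roots. -/
noncomputable def evπ (π : Fin s → Fin D) : MvPolynomial (Fin s) Λ →+* WittVector p d.C :=
  MvPolynomial.eval₂Hom (laW ψ d.C) fun l => teichmuller p (d.c l (π l))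

theorem evπ_apply (π : Fin s → Fin D) (f : MvPolynomial (Fin s) Λ) :
    evπ d π f = MvPolynomial.eval₂ (laW ψ d.C) (fun l => teichmuller p (d.c l (π l))) f := rfl

/-- the product of the derivatives. -/
noncomputable def vπ (π : Fin s → Fin D) : WittVector p d.C :=
  ∏ l, Polynomial.eval₂ (laW ψ d.C) (teichmuller p (d.c l (π l))) (Polynomial.derivative (G l))

theorem disc_aux {nz : Finset (Fin s)} {g3 : Λ} {Y : MvPolynomial (Fin s) Λ} {γ : d.C}
    (hγ : te p d.C (tC p k r d.C) γ - laB ψ d.C g3 ∈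
        Ideal.span {(p : Bt p d.C (tC p k r d.C)) ^ (I + 1)})
    (hQ : E * (MvPolynomial.C g3 -
        (∏ l, Polynomial.toMvPolynomial l (Polynomial.derivative (G l))) *
          (∏ l ∈ nz, MvPolynomial.X l) * Y) ∈
      Ideal.span (Set.range fun j => Polynomial.toMvPolynomial j (G j)))
    (π : Fin s → Fin D) :
    teichmuller p (d.δ π * γ) - teichmuller p (∏ l ∈ nz, d.c l (π l)) *
      (teichmuller p (d.δ π) * vπ d π * evπ d π Y) ∈ xiM p k r d.C (I + 1) := by
  have h1 : teichmuller p γ - laW ψ d.C g3 ∈ xiM p k r d.C (I + 1) := by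
    rw [mem_xiM_iff, map_sub]
    exact hγ
  have h2 := rel_of d π hQ
  rw [← evπ_apply, map_sub, map_mul, map_mul, map_prod, map_prod] at h2
  have h3 : evπ d π (MvPolynomial.C g3) = laW ψ d.C g3 := MvPolynomial.eval₂Hom_C _ _ _
  have h4 : ∏ l, evπ d π (Polynomial.toMvPolynomial l (Polynomial.derivative (G l))) =
      vπ d π := Finset.prod_congr rfl fun l _ => eval_toMv (C := d.C) (ψ := ψ) _ l _
  have h5 : ∏ l ∈ nz, evπ d π (MvPolynomial.X l) =
      teichmuller p (∏ l ∈ nz, d.c l (π l)) := by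
    rw [map_prod]
    exact Finset.prod_congr rfl fun l _ => MvPolynomial.eval₂Hom_X' _ _ _
  rw [h3, h4, h5] at h2
  have h6 := add_mem h2 (Ideal.mul_mem_left _ (teichmuller p (d.δ π)) h1)
  convert h6 using 1
  rw [map_mul]
  ring

end

section

variable {Λ : Type u} [CommRing Λ] [IsDomain Λ] [IsLocalRing Λ] [IsNoetherianRing Λ]
  {u : Fin r → Λ} {ψ : Λ →+* WittVector p (Rp p k r)}
  {red : Λ →+* R0 k r ⧸ Ideal.span {(MvPowerSeries.X 0 : R0 k r)}}

omit [Fact p.Prime] in
theorem exists_eq_p_pow [CharZero Λ] (hp : (p : Λ) ∈ maximalIdeal Λ) {g : Λ} (hg : g ≠ 0) :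
    ∃ (a : ℕ) (g' : Λ), g = (p : Λ) ^ a * g' ∧ g' ∉ Ideal.span {(p : Λ)} := by
  have h1 : FiniteMultiplicity (p : Λ) g :=
    FiniteMultiplicity.of_not_isUnit ((mem_maximalIdeal _).1 hp) hg
  obtain ⟨c, h2, h3⟩ := h1.exists_eq_pow_mul_and_not_dvd
  exact ⟨_, c, h2, fun h => h3 (Ideal.mem_span_singleton.1 h)⟩

theorem exists_j (N K e : ℕ) : ∃ j, e ≤ j ∧
    (N : ℝ≥0∞) * ((K : ℝ≥0∞) / (p : ℝ≥0∞) ^ j) ≤ 1 / 2 := by
  refine ⟨max e (2 * (N * K)), le_max_left _ _, ?_⟩
  have hp2 : 2 ≤ p := (Fact.out : p.Prime).two_le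
  set j := max e (2 * (N * K))
  have h1 : 2 * (N * K) ≤ p ^ j := by
    calc 2 * (N * K) ≤ j := le_max_right _ _
      _ ≤ 2 ^ j := Nat.lt_two_pow_self.le
      _ ≤ p ^ j := Nat.pow_le_pow_left hp2 j
  have hp0 : ((p : ℝ≥0∞) ^ j) ≠ 0 := pow_ne_zero _ (by exact_mod_cast (by omega : p ≠ 0))
  have hpt : ((p : ℝ≥0∞) ^ j) ≠ ⊤ := ENNReal.pow_ne_top (ENNReal.natCast_ne_top p)
  rw [← mul_div_assoc, ENNReal.div_le_iff hp0 hpt, one_div,
    ← ENNReal.mul_le_iff_le_inv two_ne_zero ENNReal.ofNat_ne_top]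
  exact_mod_cast h1

/-- **Existence of the levels.** -/
theorem exists_level [PerfectRing k p] (hb : IsBase p k r Λ u ψ red)
    (hmax : maximalIdeal Λ = Ideal.span (insert (p : Λ) (Set.range u)))
    {Ω : Type u} [Field Ω] [CharZero Ω] [Algebra Λ Ω]
    (hinj : Function.Injective (algebraMap Λ Ω)) {s : ℕ} (b : Fin s → Ω) (F : Fin s → Λ[X])
    (hF : ∀ l, (F l).Monic) (hFb : ∀ l, Polynomial.aeval (b l) (F l) = 0) :
    ∃ (D : ℕ) (G : Fin s → Λ[X]) (ε : ℝ≥0∞), (∀ l, (G l).Monic) ∧ (∀ l, (G l).natDegree = D) ∧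
      (∀ l, Polynomial.aeval (b l) (G l) = 0) ∧ ε ≠ 0 ∧
      ∀ (Φ : ℕ → ℕ) (e : ℕ), Nonempty (Level ψ b F G D ε Φ e) := by
  classical
  have hcz : CharZero Λ := by
    refine ⟨fun m n h => ?_⟩
    have h2 := congrArg (algebraMap Λ Ω) (show ((m : Λ) : Λ) = (n : Λ) from h)
    rw [map_natCast, map_natCast] at h2
    exact_mod_cast h2
  have hpm : (p : Λ) ∈ maximalIdeal Λ := by
    rw [hmax]
    exact Ideal.subset_span (Set.mem_insert _ _)
  have hm : maximalIdeal Λ ≠ ⊥ := by
    intro h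
    rw [h, Ideal.mem_bot, Nat.cast_eq_zero] at hpm
    exact (Fact.out : p.Prime).ne_zero hpm
  let nz : Finset (Fin s) := Finset.univ.filter fun l => b l ≠ 0
  obtain ⟨D, G, E, g, g3, Y, hGm, hGD, hGb, hGmax, hg0, hg30, hEg, hE, hQ⟩ :=
    exists_poly hm hinj b F hF hFb nz fun l hl => (Finset.mem_filter.1 hl).2
  obtain ⟨a1, g1', I1, hg1', H1⟩ := gamma_form1 hb g (exists_eq_p_pow hpm hg0)
  obtain ⟨C1, hC1⟩ := length_estimate k r g1' hg1'
  obtain ⟨a3, g3', I3, hg3', H3⟩ := gamma_form1 hb g3 (exists_eq_p_pow hpm hg30)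
  obtain ⟨C3, hC3⟩ := length_estimate k r g3' hg3'
  let N := Fintype.card (Fin s → Fin D)
  refine ⟨D, G, 1 / (2 * N), hGm, hGD, hGb, ?_, fun Φ e => ?_⟩
  · rw [one_div]
    exact ENNReal.inv_ne_zero.2 (ENNReal.mul_ne_top ENNReal.ofNat_ne_top
      (ENNReal.natCast_ne_top N))
  obtain ⟨j, hej, hj⟩ := exists_j (p := p) N (p * (3 * (e + 1)) * (a3 + C3) +
    p * (3 * (e + 1)) * (a1 + C1)) e
  let I := Φ j + I1 + I3 + p ^ j
  obtain ⟨r0, d, γ, hγ⟩ := exists_xdata ψ G hGm hGD E g g3 I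
  obtain ⟨L, hL⟩ := exists_len_witt d.toPExt
  have hw := fun π => disc_aux d (nz := nz) hγ (hE _ hQ) π
  have hs1 : ∀ π, SmallForm d.toPExt a1 C1 (d.δ π + d.δ' π) := by
    intro π
    obtain ⟨x, hx⟩ := H1 G E (hE _ (by rw [map_sub, hEg, MvPolynomial.aeval_C, sub_self])) I r0
      (by omega) d π
    exact ⟨g1', x, hC1, hx⟩
  have hs3 : SmallForm d.toPExt a3 C3 γ := by
    let d3 : CData.{u} ψ (s := 0) (D := 0) (fun j => Fin.elim0 j) (MvPolynomial.C g3) g3 I r0 :=
      { toPExt := d.toPExt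
        c := fun j => Fin.elim0 j
        δ := fun _ => γ
        δ' := fun _ => 0
        split := fun j => Fin.elim0 j
        hδ := fun π => by
          rw [MvPolynomial.eval₂_C]
          exact hγ
        hδ' := fun π => by
          rw [MvPolynomial.eval₂_C, sub_self, te_zero, sub_zero]
          exact zero_mem _ }
    obtain ⟨x, hx⟩ := H3 (fun j => Fin.elim0 j) (MvPolynomial.C g3) (by
      rw [sub_self, mul_zero]
      exact zero_mem _) I r0 (by omega) d3 (fun j => Fin.elim0 j)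
    refine ⟨g3', x, hC3, ?_⟩
    rw [← hx]
    exact (add_zero γ).symm
  have key := level_sum d hinj b hGm hGD hGb hEg hE L hL (nz := nz) (γ := γ) _ hw hs1 hs3
    (j := j) (n := e + 1) (by omega) (by omega)
  obtain ⟨π, hπ⟩ : ∃ π, 1 / (2 * N : ℝ≥0∞) ≤ L.len (sm (teichmuller p (rt p j (Thπ d nz γ π)) ^
      (e + 1)) (WittVector p d.C ⧸ vW p k r d.C)) := by
    by_contra hcon
    push Not at hcon
    rw [← ENNReal.add_div, ← Nat.cast_add] at key
    have hσ : ((p * (3 * (e + 1)) * (a3 + C3) + p * (3 * (e + 1)) * (a1 + C1) : ℕ) : ℝ≥0∞) /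
        (p : ℝ≥0∞) ^ j ≠ ⊤ := by
      refine ENNReal.div_ne_top (ENNReal.natCast_ne_top _) (pow_ne_zero _ ?_)
      exact_mod_cast (Fact.out : p.Prime).ne_zero
    generalize hσ0 : ((p * (3 * (e + 1)) * (a3 + C3) + p * (3 * (e + 1)) * (a1 + C1) : ℕ) :
      ℝ≥0∞) / (p : ℝ≥0∞) ^ j = σ at key hσ hj
    rcases isEmpty_or_nonempty (Fin s → Fin D) with hP | hP
    · rw [Finset.univ_eq_empty, Finset.sum_empty] at key
      exact absurd key (by simp)
    · have h4 := ENNReal.sum_lt_sum_of_nonempty (s := (Finset.univ : Finset (Fin s → Fin D)))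
        Finset.univ_nonempty fun π _ => ENNReal.add_lt_add_right hσ (hcon π)
      refine absurd (lt_of_le_of_lt key h4) (not_lt.2 ?_)
      rw [Finset.sum_const, Finset.card_univ, nsmul_eq_mul, mul_add]
      have hN0 : (N : ℝ≥0∞) ≠ 0 := by exact_mod_cast Fintype.card_ne_zero
      have h5 : (N : ℝ≥0∞) * (1 / (2 * N)) = 1 / 2 := by
        rw [← mul_div_assoc, mul_one, mul_comm 2 (N : ℝ≥0∞)]
        conv_lhs => rw [← mul_one (N : ℝ≥0∞), mul_assoc, one_mul]
        exact ENNReal.mul_div_mul_left 1 2 hN0 (ENNReal.natCast_ne_top N)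
      have h6 : (1 : ℝ≥0∞) / 2 + 1 / 2 = 1 := ENNReal.add_halves 1
      change (N : ℝ≥0∞) * (1 / (2 * N)) + (N : ℝ≥0∞) * σ ≤ 1
      rw [h5]
      exact (add_le_add le_rfl hj).trans h6.le
  refine ⟨{ r0 := r0, ext := d.toPExt, L := L, c := fun l => d.c l (π l), Θ := Thπ d nz γ π,
            j := j, I := I, le_j := hej, le_I := by omega, len_one := hL, len_pos := ?_,
            dvd := ?_, rel := ?_, relG := fun l => relG_of d π l, disc := ?_, nil := ?_ }⟩
  · refine hπ.trans (Vale.Agent.P177.Lim.len_sub_mono L ?_)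
    rw [pow_succ]
    exact sm_mul_le _ _
  · intro l hl
    exact (Finset.dvd_prod_of_mem (fun l => d.c l (π l))
      (Finset.mem_filter.2 ⟨Finset.mem_univ l, hl⟩)).mul_left _
  · intro f hf
    have h1 := rel_of d π (hE f hf)
    have h2 := Ideal.mul_mem_left _ (teichmuller p (γ * ∏ l ∈ nz, d.c l (π l))) h1
    rw [← mul_assoc, ← map_mul] at h2
    have h3 : Thπ d nz γ π = γ * (∏ l ∈ nz, d.c l (π l)) * d.δ π := by
      rw [Thπ]
      ring
    rw [h3]
    exact h2
  · have h1 := Ideal.mul_mem_left _ (teichmuller p (∏ l ∈ nz, d.c l (π l))) (hw π)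
    have h2 : teichmuller p (Thπ d nz γ π) = (teichmuller p (∏ l ∈ nz, d.c l (π l)) *
        teichmuller p (∏ l ∈ nz, d.c l (π l)) * teichmuller p (d.δ π) * evπ d π Y) * vπ d π +
        teichmuller p (∏ l ∈ nz, d.c l (π l)) * (teichmuller p (d.δ π * γ) -
          teichmuller p (∏ l ∈ nz, d.c l (π l)) *
            (teichmuller p (d.δ π) * vπ d π * evπ d π Y)) := by
      rw [Thπ, map_mul]
      ring
    rw [h2]
    exact Submodule.add_mem_sup (Ideal.mul_mem_left _ _ (Ideal.mem_span_singleton_self _)) h1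
  · intro l hl
    have h1 := relG_of d π l
    have h2 := hGmax l hl
    rw [Polynomial.eval₂_eq_sum_range, Finset.sum_range_succ, (hGm l).coeff_natDegree, map_one,
      one_mul, hGD l] at h1
    have hxi : xiM p k r d.C (I + 1) ≤ vW p k r d.C := by
      rw [xiM, Ideal.span_le]
      rintro y (rfl | rfl)
      · exact sub_mem (Ideal.subset_span (Set.mem_insert _ _))
          (Ideal.subset_span (Set.mem_insert_of_mem _ ⟨0, rfl⟩))
      · rw [pow_succ]
        exact Ideal.mul_mem_left _ _ (Ideal.subset_span (Set.mem_insert _ _))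
    have hla : ∀ x ∈ maximalIdeal Λ, laW ψ d.C x ∈ vW p k r d.C := by
      have h3 : maximalIdeal Λ ≤ (vW p k r d.C).comap (laW ψ d.C) := by
        rw [hmax, Ideal.span_le]
        rintro y (rfl | ⟨i, rfl⟩)
        · rw [SetLike.mem_coe, Ideal.mem_comap, map_natCast]
          exact Ideal.subset_span (Set.mem_insert _ _)
        · rw [SetLike.mem_coe, Ideal.mem_comap]
          change WittVector.map _ (ψ (u i)) ∈ _
          rw [hb.psi_u, WittVector.map_teichmuller]
          exact Ideal.subset_span (Set.mem_insert_of_mem _ ⟨i.succ, rfl⟩)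
      exact fun x hx => h3 hx
    have h4 : ∑ i ∈ Finset.range D, laW ψ d.C ((G l).coeff i) *
        teichmuller p (d.c l (π l)) ^ i ∈ vW p k r d.C := by
      refine Ideal.sum_mem _ fun i hi => Ideal.mul_mem_right _ _ ?_
      exact hla _ (h2 i (Finset.mem_range.1 hi))
    have h5 := sub_mem (hxi h1) h4
    rw [add_sub_cancel_left, ← map_pow, mem_vW_iff, teichmuller_coeff_zero] at h5
    exact h5

end

end Vale.Agent.P177.Lev
end

section

/-!
P177, inner assembly: the structure `Core` exists.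
-/

namespace Vale.Agent.P177.Full

open TensorProduct IsLocalRing RingTheory.Sequence Function Vale.Agent.P202.Mix
  Vale.Agent.P177.Flag Vale.Agent.P177.Lev WittVector
open scoped ENNReal

universe u

/-- a power of `p` is the sum of a nonzero element of `P` and an element of `(hs)`. -/
theorem exists_alpha_reg {p : ℕ} [Fact p.Prime] {R : Type u} [CommRing R] [IsLocalRing R] {P : Ideal R}
    {hs : List R} (hm : ∀ h ∈ hs, h ∈ maximalIdeal R) (l : List R)
    (hreg : IsWeaklyRegular R (hs ++ ((p : R) :: l)))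
    (hp : (p : R) ∈ (P ⊔ Ideal.ofList hs).radical) :
    ∃ (c : ℕ) (α β : R), 1 ≤ c ∧ α ∈ P ∧ β ∈ Ideal.ofList hs ∧ (p : R) ^ c = α + β ∧ α ≠ 0 := by
  obtain ⟨n, hn⟩ := hp
  have hn1 : (p : R) ^ (n + 1) ∈ P ⊔ Ideal.ofList hs := by
    rw [pow_succ]
    exact Ideal.mul_mem_right _ _ hn
  obtain ⟨α, hα, β, hβ, hab⟩ := Submodule.mem_sup.1 hn1
  refine ⟨n + 1, α, β, Nat.le_add_left 1 n, hα, hβ, hab.symm, ?_⟩
  rintro rfl
  rw [zero_add] at hab
  have hle : Ideal.ofList hs ≤ maximalIdeal R := by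
    rw [Ideal.ofList, Ideal.span_le]
    exact hm
  have h1 := (isWeaklyRegular_append_iff R hs ((p : R) :: l)).1 hreg
  have h2 := ((isWeaklyRegular_cons_iff _ _ _).1 h1.2).1
  have h3 : ∀ k : ℕ, (p : R) ^ k ∈ Ideal.ofList hs → (1 : R) ∈ Ideal.ofList hs := by
    intro k
    induction k with
    | zero => intro h; rwa [pow_zero] at h
    | succ k ih =>
      intro h
      apply ih
      have h4 : (Submodule.Quotient.mk ((p : R) ^ k) : R ⧸ (Ideal.ofList hs • (⊤ : Submodule R R))) = 0 := by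
        apply h2
        change (p : R) • (Submodule.Quotient.mk ((p : R) ^ k) :
          R ⧸ (Ideal.ofList hs • (⊤ : Submodule R R))) = (p : R) • 0
        rw [smul_zero, ← Submodule.Quotient.mk_smul, Submodule.Quotient.mk_eq_zero, smul_eq_mul,
          smul_eq_mul, Ideal.mul_top, ← pow_succ']
        exact h
      rwa [Submodule.Quotient.mk_eq_zero, smul_eq_mul, Ideal.mul_top] at h4
  refine (maximalIdeal.isMaximal R).ne_top ((Ideal.eq_top_iff_one _).2 (hle (h3 (n + 1) ?_)))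
  rw [← hab]
  exact hβ

section phi

variable {p : ℕ} [Fact p.Prime] {k : Type u} [Field k] [CharP k p] {r : ℕ}
variable {Λ : Type u} [CommRing Λ] [IsLocalRing Λ] {ψ : Λ →+* WittVector p (Rp p k r)}
variable {Ω : Type u} [Field Ω] [Algebra Λ Ω] {s : ℕ} {b : Fin s → Ω} {F G : Fin s → Polynomial Λ}
    {D : ℕ} {ε : ℝ≥0∞} {Φ : ℕ → ℕ}

/-- the homomorphisms of the levels glue. -/
theorem Pkg.exists_glue (K : Pkg ψ b F G D ε Φ) {T : Type*} [CommRing T]
    (φe : ∀ e, T →+* WittVector p (K.Ce e)) :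
    ∃ φ : T →+* WittVector p K.C, ∀ e x, K.pr e (φ x) = φe e x := by
  choose φ hφ using fun x => K.exists_pr fun e => φe e x
  refine ⟨{
    toFun := φ
    map_one' := K.pr_ext fun e => ?_
    map_mul' := fun x y => K.pr_ext fun e => ?_
    map_zero' := K.pr_ext fun e => ?_
    map_add' := fun x y => K.pr_ext fun e => ?_ }, fun e x => hφ x e⟩
  · rw [hφ, map_one, map_one]
  · rw [hφ, map_mul, map_mul, hφ, hφ]
  · rw [hφ, map_zero, map_zero]
  · rw [hφ, map_add, map_add, hφ, hφ]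

/-- evaluation of power series at the Teichmueller representatives. -/
theorem Pkg.exists_phi (K : Pkg ψ b F G D ε Φ) {d : ℕ} (c : Fin d → K.C)
    (h : ∀ e, ∃ φe : MvPowerSeries (Fin d) Λ →+* WittVector p (K.Ce e),
      ∀ f : MvPolynomial (Fin d) Λ, φe f =
        MvPolynomial.eval₂ (laW ψ (K.Ce e)) (fun l => teichmuller p (c l e)) f) :
    ∃ φ : MvPowerSeries (Fin d) Λ →+* WittVector p K.C, ∀ f : MvPolynomial (Fin d) Λ,
      φ f = MvPolynomial.eval₂ (laW ψ K.C) (fun l => teichmuller p (c l)) f := by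
  choose φe hφe using h
  obtain ⟨φ, hφ⟩ := K.exists_glue φe
  refine ⟨φ, fun f => K.pr_ext fun e => ?_⟩
  rw [hφ, hφe, K.pr_eval₂]

end phi

/-- THE EXISTENCE OF THE DATA, with levels starting at `N0` or later. -/
theorem exists_core (N0 : ℕ) (p : ℕ) [Fact p.Prime] (R : Type u) [CommRing R]
    [IsRegularLocalRing R] [IsAdicComplete (maximalIdeal R) R] [CharP (ResidueField R) p]
    [PerfectRing (ResidueField R) p] (d : ℕ) (hd : ringKrullDim R = d)
    (hp2 : (p : R) ∈ maximalIdeal R ^ 2) (P : Ideal R) (hs : List R)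
    (hrad : maximalIdeal R ≤ (P ⊔ Ideal.ofList hs).radical) (r : ℕ)
    [IsRegularLocalRing (Lam p (ResidueField R) r)] [Algebra (Lam p (ResidueField R) r) R]
    (hN : Norm p R r hs) (Ω : Type u) [Field Ω] [CharZero Ω]
    [Algebra (Lam p (ResidueField R) r) Ω] [FaithfulSMul (Lam p (ResidueField R) r) Ω]
    (F : Fin 2 → FlagMod (Lam p (ResidueField R) r) Ω hs) :
    ∃ X : Core p d P hs r Ω F, N0 ≤ X.K.N := by
  classical
  have hdom : IsDomain (Lam p (ResidueField R) r) := regular_isDomain _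
  have hfin := hN.finite
  have hpm : (p : R) ∈ maximalIdeal R := Ideal.pow_le_self two_ne_zero hp2
  -- the presentation
  obtain ⟨Φ, g, h1, h2, h3, -, h5, h6⟩ := exists_pres p hd hp2
    ((algebraMap (Lam p (ResidueField R) r) R).comp MvPowerSeries.C) hN.residue
  -- `α`, `β`
  obtain ⟨c0, α, β, a1, a2, a3, a4, a5⟩ := exists_alpha_reg (p := p) (P := P) hN.mem _ hN.reg (hrad hpm)
  -- the list
  obtain ⟨m, b, Fp, ix0, pl, b1, b2, b3, -, b5⟩ := exists_list F hN.pow_le
    (fun l => Φ (MvPowerSeries.X l)) h3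
  let ix : (R →ₐ[Lam p (ResidueField R) r] Ω) → Fin d → Fin m := fun σ =>
    if h : ∃ (i : Fin 2) (j : Fin (F i).n), (F i).σ j = σ then ix0 h.choose h.choose_spec.choose
    else fun _ => pl 0 0 Fin.elim0
  have hix : ∀ (i : Fin 2) (j : Fin (F i).n), ∃ (i' : Fin 2) (j' : Fin (F i').n),
      (F i').σ j' = (F i).σ j ∧ ix ((F i).σ j) = ix0 i' j' := by
    intro i j
    have h : ∃ (i' : Fin 2) (j' : Fin (F i').n), (F i').σ j' = (F i).σ j := ⟨i, j, rfl⟩
    exact ⟨h.choose, h.choose_spec.choose, h.choose_spec.choose_spec, dif_pos h⟩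
  -- the base
  obtain ⟨ψ0, red, e1, -, -⟩ := Lf.exists_isBase0 p (ResidueField R) r
    (maximalIdeal_witt p (ResidueField R)) (RingHom.id _)
  let ψ : Lam p (ResidueField R) r →+* WittVector p (Rp p (ResidueField R) r) :=
    (WittVector.map (PerfectClosure.of (R0 (ResidueField R) r) p)).comp ψ0
  change IsBase p (ResidueField R) r (Lam p (ResidueField R) r) (fun i => MvPowerSeries.X i) ψ red
    at e1
  -- the levels
  obtain ⟨D, G, ε, -, -, -, l4, l5⟩ := exists_level e1 (by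
    rw [hN.max, Set.singleton_union]) (FaithfulSMul.algebraMap_injective _ Ω) b Fp
    (fun l => (b1 l).1) (fun l => (b1 l).2)
  obtain ⟨K, hK⟩ := exists_pkg ψ b Fp G D ε (fun j => (j + 2 * c0) * (p ^ j * p ^ j))
    (2 * c0 + 2 + N0) (fun e => l5 _ e)
  -- the homomorphisms
  have hφ : ∀ σ : R →ₐ[Lam p (ResidueField R) r] Ω,
      ∃ φ : MvPowerSeries (Fin d) (Lam p (ResidueField R) r) →+* WittVector p K.C,
        (∃ (i : Fin 2) (j : Fin (F i).n), (F i).σ j = σ) →
        ∀ f : MvPolynomial (Fin d) (Lam p (ResidueField R) r),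
        φ f = MvPolynomial.eval₂ (laW ψ K.C) (fun l => teichmuller p (K.c (ix σ l))) f := by
    intro σ
    by_cases h : ∃ (i : Fin 2) (j : Fin (F i).n), (F i).σ j = σ
    · obtain ⟨φ, hφ⟩ := K.exists_phi (fun l => K.c (ix σ l)) (fun e => by
        obtain ⟨φe, hφe⟩ := Lf.exists_phi ψ0 (K.lv e).ext (fun l => K.c (ix σ l) e) (fun l => by
          obtain ⟨i, j, rfl⟩ := h
          obtain ⟨i', j', -, hij⟩ := hix i j
          refine ⟨D, (K.lv e).nil _ ?_⟩
          rw [hij]
          exact (b2 i' j' l).2)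
        exact ⟨φe, fun f => hφe f⟩)
      exact ⟨φ, fun _ => hφ⟩
    · exact ⟨(laW ψ K.C).comp MvPowerSeries.constantCoeff, fun h' => absurd h' h⟩
  choose φ hφ using hφ
  refine ⟨{
    Φ := Φ
    g := g
    Φ_surj := h1
    Φ_C := h2
    Φ_X := h3
    g_mem := h5
    Φ_ker := h6
    c0 := c0
    α := α
    β := β
    c0_pos := a1
    α_mem := a2
    β_mem := a3
    α_add := a4
    α_ne := a5
    m := m
    b := b
    Fp := Fp
    ix := ix
    ix_spec := fun i j l => ?_
    ix_nil := fun i j l => ?_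
    pl := pl
    pl_spec := fun i j _ t => b3 i j t
    cof := b5
    ψ := ψ
    red := red
    base := e1
    G := G
    D := D
    ε := ε
    gr := _
    ε_ne := l4
    gr_le := fun j => le_rfl
    K := K
    N_le := hK ▸ Nat.le_add_right _ _
    φ := φ
    φ_spec := fun i j f => hφ _ ⟨i, j, rfl⟩ f }, ?_⟩
  · obtain ⟨i', j', h7, h8⟩ := hix i j
    rw [h8, (b2 i' j' l).1, h7]
  · obtain ⟨i', j', h7, h8⟩ := hix i j
    rw [h8]
    exact (b2 i' j' l).2
  · change N0 ≤ K.N
    rw [hK]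
    exact Nat.le_add_left _ _

end Vale.Agent.P177.Full
end

section

/-!
P177, outer part of the assembly: `FlagStmt` follows from `InnerStmt`, where the Noether
normalization `W(k)[[u]] → R`, the algebraically closed field and the flags of eigenvectors are
given.
-/

namespace Vale.Agent.P177.Full

open TensorProduct IsLocalRing RingTheory.Sequence Function Module Vale.Agent.P177.Flag

universe u

section Aux

variable {R Λ : Type u} [CommRing R] [CommRing Λ] [Algebra Λ R]

/-- A finite `R`-module killed by `I` is finite over `Λ` if `R/I` is. -/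
theorem finite_of_kill (I : Ideal R) [Module.Finite Λ (R ⧸ I)] (L : Type u) [AddCommGroup L]
    [Module R L] [Module.Finite R L] [Module Λ L] [IsScalarTower Λ R L]
    (h : ∀ r ∈ I, ∀ x : L, r • x = 0) : Module.Finite Λ L := by
  let m : Module (R ⧸ I) L :=
    Module.IsTorsionBySet.module (R := R) (M := L) (I := I) (fun x a => h a.1 a.2 x)
  have h1 : ∀ (r : R) (x : L), (Ideal.Quotient.mk I r) • x = r • x := fun r x => rfl
  have t1 : IsScalarTower R (R ⧸ I) L := ⟨fun r q x => by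
    obtain ⟨s, rfl⟩ := Ideal.Quotient.mk_surjective q
    rw [Algebra.smul_def, Ideal.Quotient.algebraMap_eq, ← map_mul, h1, h1, mul_smul]⟩
  have t2 : IsScalarTower Λ (R ⧸ I) L := ⟨fun a q x => by
    obtain ⟨s, rfl⟩ := Ideal.Quotient.mk_surjective q
    have : a • (Ideal.Quotient.mk I s) = Ideal.Quotient.mk I (a • s) := rfl
    rw [this, h1, h1, smul_assoc]⟩
  have : Module.Finite (R ⧸ I) L := Module.Finite.of_restrictScalars_finite R (R ⧸ I) L
  exact Module.Finite.trans (R ⧸ I) L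

theorem exists_flagMod (Ω : Type u) [IsDomain Λ] [Field Ω] [IsAlgClosed Ω]
    [Algebra Λ Ω] [FaithfulSMul Λ Ω] [Algebra.IsAlgebraic Λ Ω] (hs : List R)
    [Module.Finite Λ (R ⧸ Ideal.ofList hs)] (L : Type u) [AddCommGroup L]
    [Module R L] [Module.Finite R L] [Module Λ L] [IsScalarTower Λ R L] [Module.Free Λ L]
    (h : ∀ h ∈ hs, ∀ x : L, h • x = 0) :
    ∃ (n : ℕ) (b : Basis (Fin n) Λ L) (v : ℕ → Fin n → Ω) (σ : Fin n → R →ₐ[Λ] Ω),
      EigFlag b v σ := by
  have hk : ∀ r ∈ Ideal.ofList hs, ∀ x : L, r • x = 0 := by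
    intro r hr x
    have h1 : Ideal.ofList hs ≤ LinearMap.ker (LinearMap.toSpanSingleton R L x) := by
      rw [Ideal.ofList, Ideal.span_le]
      intro s hs'
      exact h s hs' x
    exact h1 hr
  have := finite_of_kill (Λ := Λ) (Ideal.ofList hs) L hk
  obtain ⟨v, σ, hf⟩ := exists_eigFlag (R := R) (Ω := Ω) (Module.finBasis Λ L)
  exact ⟨_, _, v, σ, hf⟩

end Aux

theorem flagStmt_of_inner (H : InnerStmt.{u}) : FlagStmt.{u} := by
  classical
  intro p _ R _ _ _ _ _ d hd hp0 hp2 P hP hs hm hreg hrad a b ha hlen hb hdim hab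
  obtain ⟨r, rfl⟩ : ∃ r, b = r + 1 := ⟨b - 1, by omega⟩
  have key := exists_choice_flag p hd hs hm hreg hlen hb hdim
  rw [Nat.add_sub_cancel] at key
  obtain ⟨i1, i2, h1, h2, h3, h4, h5, h6, h7, h8⟩ := key
  have hN : Norm p R r hs := ⟨hm, h1, h2, h4, h3, h5, h6, h7, h8⟩
  have hc := ch_charZero (ResidueField R) p r
  have hdom : IsDomain (Lam p (ResidueField R) r) := regular_isDomain _
  let Ω := AlgebraicClosure (FractionRing (Lam p (ResidueField R) r))
  have j1 : Function.Injective (algebraMap (Lam p (ResidueField R) r) Ω) := by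
    rw [IsScalarTower.algebraMap_eq (Lam p (ResidueField R) r)
      (FractionRing (Lam p (ResidueField R) r)) Ω]
    exact (algebraMap (FractionRing (Lam p (ResidueField R) r)) _).injective.comp
      (IsFractionRing.injective (Lam p (ResidueField R) r) _)
  have j2 : CharZero Ω := charZero_of_injective_ringHom j1
  have j3 : FaithfulSMul (Lam p (ResidueField R) r) Ω :=
    (faithfulSMul_iff_algebraMap_injective _ _).2 j1
  have j4 : Algebra.IsAlgebraic (Lam p (ResidueField R) r) Ω :=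
    (IsFractionRing.comap_isAlgebraic_iff (K := FractionRing (Lam p (ResidueField R) r))).2
      inferInstance
  refine ⟨Lam p (ResidueField R) r, inferInstance, i1, i2, Ω, inferInstance, inferInstance, j2,
    inferInstance, j3, h5, h3, ?_⟩
  intro L₁ L₂ _ _ _ _ _ _ _ _ _ _ _ _ hL₁ hL₂
  obtain ⟨n₁, b₁, v₁, σ₁, f₁⟩ :=
    exists_flagMod (Λ := Lam p (ResidueField R) r) Ω hs L₁ hL₁
  obtain ⟨n₂, b₂, v₂, σ₂, f₂⟩ :=
    exists_flagMod (Λ := Lam p (ResidueField R) r) Ω hs L₂ hL₂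
  let F₁ : FlagMod (Lam p (ResidueField R) r) Ω hs := ⟨L₁, n₁, b₁, v₁, σ₁, f₁, hL₁, inferInstance⟩
  let F₂ : FlagMod (Lam p (ResidueField R) r) Ω hs := ⟨L₂, n₂, b₂, v₂, σ₂, f₂, hL₂, inferInstance⟩
  obtain ⟨w, hw, hF⟩ := H p R d hd hp0 hp2 P hP hs hrad a r ha hlen hdim hab hN Ω ![F₁, F₂]
  have hF₁ : (eulerTor R (d + 1) (R ⧸ P) L₁ : ℝ) = ∑ j, w (σ₁ j) := hF 0
  have hF₂ : (eulerTor R (d + 1) (R ⧸ P) L₂ : ℝ) = ∑ j, w (σ₂ j) := hF 1
  have hw₁ : ∀ j, 0 ≤ w (σ₁ j) ∧ (a + (r + 1) = d → 0 < w (σ₁ j)) := hw 0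
  have hw₂ : ∀ j, 0 ≤ w (σ₂ j) ∧ (a + (r + 1) = d → 0 < w (σ₂ j)) := hw 1
  let w' : (R →ₐ[Lam p (ResidueField R) r] Ω) → ℝ := fun τ =>
    if (∃ j, σ₁ j = τ) ∨ ∃ j, σ₂ j = τ then w τ else 1
  have e₁ : ∀ j, w' (σ₁ j) = w (σ₁ j) := fun j => if_pos (Or.inl ⟨j, rfl⟩)
  have e₂ : ∀ j, w' (σ₂ j) = w (σ₂ j) := fun j => if_pos (Or.inr ⟨j, rfl⟩)
  refine ⟨w', fun τ _ => ?_, ⟨n₁, σ₁, fun j h hh => f₁.eq_zero_of_smul j (hL₁ h hh),
    fun x => f₁.trace_eq x, ?_⟩, ⟨n₂, σ₂, fun j h hh => f₂.eq_zero_of_smul j (hL₂ h hh),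
    fun x => f₂.trace_eq x, ?_⟩⟩
  · by_cases hτ : (∃ j, σ₁ j = τ) ∨ ∃ j, σ₂ j = τ
    · rcases hτ with ⟨j, rfl⟩ | ⟨j, rfl⟩
      · rw [e₁]
        exact hw₁ j
      · rw [e₂]
        exact hw₂ j
    · have : w' τ = 1 := if_neg hτ
      rw [this]
      exact ⟨zero_le_one, fun _ => zero_lt_one⟩
  · simp only [e₁]
    exact hF₁
  · simp only [e₂]
    exact hF₂

end Vale.Agent.P177.Full
end

section

/-!
P177: the flag formula `FlagStmt`.
-/

namespace Vale.Agent.P177.Full

open IsLocalRing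

universe u

/-- **The inner statement.** -/
theorem innerStmt : InnerStmt.{u} := by
  intro p _ R _ _ _ _ _ d hd hp0 hp2 P hP hs hrad a r ha hlen hdim hab _ _ hN Ω _ _ _ _ _ _ F
  obtain ⟨X, -⟩ := exists_core 0 p R d hd hp2 P hs hrad r hN Ω F
  obtain ⟨M0, h⟩ := X.b7 hN hd hP hdim hrad hlen ha hab (d + r + 3) le_rfl
  obtain ⟨Z⟩ := X.K.exists_natZ X.ε_ne (max M0 (2 * X.c0 + 1))
  refine X.conclude hN hd hdim hrad (nn := d + r + 3) le_rfl (fun i _ => X.rhoStmt hN i _)
    (fun σ => X.chiH Z.f (d + r + 3) σ ⊤)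
    (fun i j => (h _ (le_max_left _ _) Z i j).2) fun i hi => ?_
  rw [X.flag_HJ hN hd hdim hrad (by omega) (le_max_right _ _) Z i hi _ (by omega)
    (X.rhoStmt hN i _)]
  exact Finset.sum_congr rfl fun j _ => (h _ (le_max_left _ _) Z i j).1

end Vale.Agent.P177.Full

namespace Vale.Agent.P177

universe u

/-- **The flag formula.** -/
theorem flagStmt : FlagStmt.{u} := Full.flagStmt_of_inner Full.innerStmt

end Vale.Agent.P177
end
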