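import Mathlib
import Vale.Agent.P177.Bd4.B20
import Vale.Agent.P177.Bd4.B21
import Vale.Agent.P177.Bd4.B15
import Vale.Agent.P177.Bd4.B3
import Vale.Agent.P177.Bd4.B8
import Vale.Agent.P177.Bd4.B12
import Vale.Agent.P177.Bd4.B6
import Vale.Agent.P177.Bd4.B22
import Vale.Agent.P177.Bd4.B1
attribute [-instance] DenselyNormedField.toNontriviallyNormedField RCLike.toDenselyNormedField DenselyNormedField.toNormedField NontriviallyNormedField.toNormedField NormedField.toNormedDivisionRing littleWedderburn NormedDivisionRing.toDivisionRing NormedField.toField IdemCommSemiring.toCommSemiring IdemCommSemiring.toIdemSemiring KleeneAlgebra.toIdemSemiring BooleanRing.toRing CommCStarAlgebra.toNormedCommRing NormedField.toNormedCommRing CommCStarAlgebra.toCStarAlgebra CStarAlgebra.toNormedRing NormedCommRing.toNormedRing NormedDivisionRing.toNormedRing NormedCommRing.toSeminormedCommRing NormedRing.toSeminormedRing SeminormedCommRing.toSeminormedRing LeftPreLieRing.instLieAdmissibleRing RightPreLieRing.instLieAdmissibleRing SemiRingCat.instSemiringObjForgetRingHomCarrier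 Field.toEuclideanDomain BooleanRing.toCommRing EuclideanDomain.toCommRing NormedCommRing.toCommRing SeminormedCommRing.toCommRing NormedRing.toRing SeminormedRing.toRing CommSemiring.toNonAssocCommSemiring NonAssocCommRing.toNonAssocCommSemiring NonAssocCommSemiring.toNonAssocSemiring CommCStarAlgebra.toNonUnitalCommCStarAlgebra CStarAlgebra.toNonUnitalCStarAlgebra NonUnitalCommCStarAlgebra.toNonUnitalCStarAlgebra NonUnitalCommCStarAlgebra.toNonUnitalNormedCommRing NormedCommRing.toNonUnitalNormedCommRing NonUnitalCStarAlgebra.toNonUnitalNormedRing NonUnitalNormedCommRing.toNonUnitalNormedRing NormedRing.toNonUnitalNormedRing CommRing.toAddCommGroupWithOne LinearOrderedAddCommGroupWithTop.instLinearOrderedAddCommMonoidWithTop AddCommGroupWithOne.toAddCommMonoidWithOne LinearOrderedAddCommGroupWithTop.toAddCommMonoid LeftPreLieRing.toNonUnitalNonAssocRing LieAdmissibleRing.toNonUnitalNonAssocRing RightPreLieRing.toNonUnitalNonAssocRing NonUnitalNormedCommRing.toNonUnitalSeminormedCommRing SeminormedCommRing.toNonUnitalSeminormedCommRing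 NonUnitalNormedRing.toNonUnitalSeminormedRing NonUnitalSeminormedCommRing.toNonUnitalSeminormedRing SeminormedRing.toNonUnitalSeminormedRing CommSemiRingCat.FilteredColimits.colimitCommSemiring NonUnitalNormedCommRing.toNonUnitalCommRing NonUnitalSeminormedCommRing.toNonUnitalCommRing NonAssocCommRing.toNonUnitalNonAssocCommRing NonUnitalCommRing.toNonUnitalRing NonUnitalNormedRing.toNonUnitalRing NonUnitalRing.toNonUnitalNonAssocRing NonUnitalSeminormedRing.toNonUnitalRing Ring.toNonUnitalRing NonAssocCommSemiring.toNonUnitalNonAssocCommSemiring NonUnitalCommSemiring.toNonUnitalNonAssocCommSemiring NonUnitalNonAssocCommRing.toNonUnitalNonAssocCommSemiring NonUnitalNonAssocCommSemiring.toNonUnitalNonAssocSemiring NonUnitalRing.toNonUnitalSemiring NonUnitalSemiring.toNonUnitalNonAssocSemiring Semiring.toNonUnitalSemiring AddCommMonoidWithOne.toAddCommMonoid instCoeT CategoryTheory.CommGrpObj.mk CategoryTheory.CommGrpObj.toGrpObj CategoryTheory.Preadditive.instGrpObj instCoeTOfCoeDep AddCommMonCat.FilteredColimits.colimitAddCommMonoid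 CategoryTheory.instBraidedCategoryType CategoryTheory.Abelian.toPreadditive LieAdmissibleRing.instLieRing NormedCommGroup.toNormedGroup NormedCommGroup.toSeminormedCommGroup NormedGroup.toSeminormedGroup SeminormedCommGroup.toSeminormedGroup GradedMonoid.GradeZero.smul CategoryTheory.BimonObj.toMonObj CategoryTheory.CommRingObj.toRingObj CategoryTheory.GrpObj.toMonObj CategoryTheory.HopfObj.toBimonObj CategoryTheory.RingObj.toMonObj MonTypeEquivalenceMon.monMonoid LinearOrderedAddCommGroupWithTop.toSubNegMonoid Bialgebra.toAlgebra CommSemiring.toBialgebra CommSemiring.toHopfAlgebra HopfAlgebra.toHopfAlgebraStruct HopfAlgebraStruct.toBialgebra NormedAlgebra.toAlgebra instCommGroupOfIsSimpleGroupOfIsNilpotent CommGroup.toGroup CommGrpTypeEquivalenceCommGrp.commGrpCommGroup GrpTypeEquivalenceGrp.grpGroup NormedCommGroup.toCommGroup NormedGroup.toGroup SeminormedCommGroup.toCommGroup SeminormedGroup.toGroup AddCommGroupWithOne.toAddGroupWithOne Pi.nonUnitalNonAssocSemiring MulSemiringAction.toDistribMulAction NonUnitalNormedRing.toNormedAddCommGroup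 LieRing.toAddCommGroup instDistribSMul NonUnitalNonAssocSemiring.toDistribSMul instSMulZeroClass NormedAlgebra.id LeftPreLieAlgebra.toModule LieAdmissibleAlgebra.toModule LieAlgebra.toModule NormedSpace.toModule RightPreLieAlgebra.toModule TopologicalSpace.Compacts.instSetLike SSet.stdSimplex.instFunLikeObjOppositeSimplexCategoryMkOpFinHAddNatOfNat RingCat.FilteredColimits.colimitRing LinearOrderedCommGroupWithZero.toLinearOrderedCommMonoidWithZero Pi.nonAssocSemiring Complex.instRCLike CompleteAtomicBooleanAlgebra.toCompleteBooleanAlgebra AlgebraicGeometry.Scheme.instPreorderCarrierCarrierCommRingCat ContDiffMapSupportedInClass.toDFunLike RKHS.instFunLike TestFunctionClass.toDFunLike CompleteAtomicBooleanAlgebra.toCompletelyDistribLattice BoxIntegral.Box.instMembershipForallReal CompleteBooleanAlgebra.toCompleteLattice Pi.instTopForall CommGroupWithZero.toGroupWithZero LinearOrderedCommGroupWithZero.toCommGroupWithZero Semifield.toCommGroupWithZero CommGroupWithZero.toCommMonoidWithZero CommMonoidWithZero.toMonoidWithZero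 CommSemiring.toCommMonoidWithZero GroupWithZero.toMonoidWithZero LinearOrderedCommMonoidWithZero.toCommMonoidWithZero MonoidWithZero.toMulZeroOneClass MonoidWithZero.toSemigroupWithZero MulZeroOneClass.toMulZeroClass SemigroupWithZero.toMulZeroClass CompleteLinearOrder.toConditionallyCompleteLinearOrderBot CompleteBooleanAlgebra.toCompleteDistribLattice CompletelyDistribLattice.toCompleteDistribLattice NumberField.instFiniteDimensional ConditionallyCompleteLinearOrderBot.toConditionallyCompleteLinearOrder CompleteLinearOrder.toLinearOrder ConditionallyCompleteLinearOrder.toLinearOrder LinearOrderedAddCommGroupWithTop.toLinearOrder LinearOrderedCommMonoidWithZero.toLinearOrder CategoryTheory.Limits.Concrete.instUniqueToTypeTerminal TwoSidedIdeal.instIsTwoSidedCoeOrderHomIdealAsIdeal CompleteDistribLattice.toCoframe CompleteDistribLattice.toFrame instIsDedekindDomainOfIsDomainOfIsDedekindRing IsDedekindDomainDvr.isDedekindDomain TensorProduct.instModuleFstSnd NonUnitalSeminormedRing.toSeminormedAddCommGroup NormedAddCommGroup.toSeminormedAddCommGroup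 Invertible.toNeZero LinearOrderedCommMonoidWithZero.toIsBotZeroClass NeZero.of_gt' Nat.AtLeastTwo.toNeZero NormedAddCommGroup.toNormedAddGroup Ring.HasFiniteQuotients.instIsNoetherianRing instCoeTC instSubsingleton Group.IsPerfect.subsingleton_of_isMulCommutative instCoeTCOfCoe CompleteLinearOrder.toCompleteLattice Order.Coframe.toCompleteLattice Order.Frame.toCompleteLattice instIsNoetherianRingOfIsArtinianRing isNoetherian_of_finite isNoetherian_of_isNoetherianRing_of_finite isNoetherian_of_subsingleton IsDedekindDomainDvr.toIsNoetherian IsDedekindRing.toIsNoetherian IsSemisimpleModule.instIsNoetherianOfFinite IsSimpleModule.instIsNoetherian PrincipalIdealRing.isNoetherianRing IsEmpty.instSubsingleton instFinitePresentation Algebra.IsFiniteSplit.instFinitePresentation Pi.addGroupWithOne instCoeHTC instCoeHTCT CompleteBooleanAlgebra.toBooleanAlgebra instFiniteOfFinitePresentation Algebra.instFiniteOfIsQuadraticExtension FiniteDimensional.finiteDimensional_self IsAzumaya.toFinite Module.Finite.self Module.FinitePresentation.of_subsingleton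 RingHom.Finite.instFinite TopRep.hV1 Action.instMulAction Torsor.toMulAction Action.FintypeCat.instMulActionObjFiniteOf GradedMonoid.GradeZero.mulAction Module.instFiniteDimensionalOfIsReflexive Module.Finite.of_finite ContinuousAddMonoidHom.instCoeOutOfAddMonoidHomClassOfContinuousMapClass ContinuousMonoidHom.instCoeOutOfMonoidHomClassOfContinuousMapClass HomeomorphClass.instCoeOutHomeomorph IsometryClass.instCoeOutIsometryEquiv boolToProp DivisionRing.isDomain EuclideanDomain.instIsDomain Field.isDomain IsDedekindDomain.toIsDomain IsStrictOrderedRing.isDomain instFiniteProp MonoidWithZero.toMulActionWithZero MonCat.monoidObj IsSemisimpleRing.isSemisimpleModule BooleanAlgebra.toBiheytingAlgebra CompleteDistribLattice.toBiheytingAlgebra CompleteLinearOrder.toBiheytingAlgebra CompletelyDistribLattice.toBiheytingAlgebra NormedAddGroup.toSeminormedAddGroup SeminormedAddCommGroup.toSeminormedAddGroup OrderRingHom.instRingHomClass ChainCompletePartialOrder.instOfCompleteLattice ChainCompletePartialOrder.instOmegaCompletePartialOrder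 ChainCompletePartialOrder.toPartialOrder CompletePartialOrder.toOmegaCompletePartialOrder OmegaCompletePartialOrder.toPartialOrder instNonUnitalAlgHomClassOfNonUnitalAlgEquivClass instIsSimpleModule SemiNormedGrp.str AddCommGroupWithOne.toAddCommGroup NonUnitalNonAssocRing.toAddCommGroup NormedAddCommGroup.toAddCommGroup SeminormedAddCommGroup.toAddCommGroup ENormedAddCommMonoid.toESeminormedAddCommMonoid NonUnitalNormedRing.toMetricSpace NormedAddCommGroup.toENormedAddCommMonoid NormedAddCommGroup.toMetricSpace NormedAddGroup.toAddGroup NormedAddGroup.toMetricSpace NormedCommGroup.toMetricSpace NormedDivisionRing.toMetricSpace NormedField.toMetricSpace NormedGroup.toMetricSpace NormedRing.toMetricSpace SeminormedAddGroup.toAddGroup TopologicalSpace.UpgradedIsCompletelyMetrizableSpace.toMetricSpace Nat.instNontrivial Nat.instOne Nat.Prime.one_lt' CategoryTheory.Mat_.fintype BiheytingAlgebra.toCoheytingAlgebra BiheytingAlgebra.toHeytingAlgebra BooleanAlgebra.toGeneralizedBooleanAlgebra Order.Coframe.toCoheytingAlgebra Order.Frame.toHeytingAlgebra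 AddCancelCommMonoid.toAddCancelMonoid AddCancelCommMonoid.toAddCommMonoid AddCancelCommMonoid.toAddLeftCancelMonoid AddCancelMonoid.toAddLeftCancelMonoid AddCancelMonoid.toAddRightCancelMonoid AddCommGroup.toAddCancelCommMonoid AddLeftCancelMonoid.toAddMonoid AddRightCancelMonoid.toAddMonoid EMetricSpace.toPseudoEMetricSpace ENormedAddCommMonoid.toENormedAddMonoid ENormedAddMonoid.toESeminormedAddMonoid ESeminormedAddCommMonoid.toAddCommMonoid ESeminormedAddCommMonoid.toESeminormedAddMonoid ESeminormedAddMonoid.toAddMonoid IsValuativeTopology.instValuedValueGroupWithZeroOfIsUniformAddGroup LinearOrderedAddCommGroupWithTop.toSubtractionMonoid MetricSpace.toEMetricSpace MetricSpace.toPseudoMetricSpace NonUnitalSeminormedRing.toPseudoMetricSpace NormedAddGroup.toENormedAddMonoid PseudoEMetricSpace.toUniformSpace PseudoMetricSpace.toPseudoEMetricSpace PseudoMetricSpace.toUniformSpace SeminormedAddCommGroup.toPseudoMetricSpace SeminormedAddGroup.toPseudoMetricSpace SeminormedCommGroup.toPseudoMetricSpace SeminormedGroup.toPseudoMetricSpace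 SeminormedRing.toPseudoMetricSpace SubNegZeroMonoid.toSubNegMonoid SubtractionCommMonoid.toAddCommMonoid UniformSpace.toTopologicalSpace UpgradedStandardBorel.toTopologicalSpace Valued.toUniformSpace WithIdeal.instTopologicalSpace WithIdeal.instUniformSpace TopologicalSpace.UpgradedIsCompletelyPseudoMetrizableSpace.toPseudoMetricSpace ProfiniteAddGrp.addGroup Fin.completeLinearOrder CoheytingAlgebra.toGeneralizedCoheytingAlgebra GeneralizedBooleanAlgebra.toGeneralizedCoheytingAlgebra HeytingAlgebra.toGeneralizedHeytingAlgebra Field.instIsLocalRing IsDiscreteValuationRing.toIsLocalRing ValuationRing.isLocalRing instNonUnitalCStarAlgebraForall instIsSemisimpleModuleOfIsSimpleModule BialgEquivClass.toBialgHomClass AddMonCat.addMonoidObj Pi.mulZeroOneClass instConditionallyCompletePartialOrderSup CompleteLattice.toCompleteSemilatticeInf CompleteLattice.toCompleteSemilatticeSup ConditionallyCompletePartialOrder.toConditionallyCompletePartialOrderInf smoothSheafCommRing.instLocalRing_stalk OrderAddMonoidHom.instAddMonoidHomClass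 Subalgebra.instSMulMemClass instIsSemisimpleRingOfSubsingleton IsSimpleRing.instIsSemisimpleRing Std.DTreeMap.Raw.instSingletonSigma IsDedekindDomain.isDedekindDomainDvr CategoryTheory.instFinCategoryOfFintypeOfIsThin Unique.fintype CategoryTheory.FinCategory.fintypeObj BooleanAlgebra.toDistribLattice CompleteLattice.toLattice CompleteLattice.toPartialOrder' CompleteSemilatticeInf.toPartialOrder CompleteSemilatticeSup.toPartialOrder ConditionallyCompletePartialOrderInf.toPartialOrder FinEnum.instFintype GeneralizedBooleanAlgebra.toDistribLattice GeneralizedCoheytingAlgebra.toDistribLattice GeneralizedCoheytingAlgebra.toLattice GeneralizedHeytingAlgebra.toDistribLattice GeneralizedHeytingAlgebra.toLattice LinearOrder.toLattice NumberField.to_charZero SetLike.instFintype Order.Coframe.toDistribLattice Order.Frame.toDistribLattice Pi.addZeroClass LeftPreLieAlgebra.instLieAdmissibleAlgebra LieAdmissibleAlgebra.instLieAlgebra LieAlgebra.ofAssociativeAlgebra MulActionWithZero.toMulAction MulDistribMulAction.toMulAction MulSemiringAction.toMulDistribMulAction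 RightPreLieAlgebra.instLieAdmissibleAlgebra Subalgebra.algebra' SubalgebraClass.toAlgebra MulZeroClass.toSMulWithZero AddOpposite.instAddZero Pi.normedAddCommGroup RCLike.toInnerProductSpaceReal FiniteDimensional.finiteDimensional_quotient AlgEquivClass.toAlgHomClass BialgHomClass.toAlgHomClass IsDedekindDomain.toIsDedekindRing of_isDiscreteValuationRing ValuationRing.of_field Fin.instBiheytingAlgebra IsLocalRing.instFiniteResidueField NumberField.to_finiteDimensional instCharZeroOfIsSemireal IsStrictOrderedRing.toCharZero RCLike.charZero_rclike FirstOrder.Language.instDecidableEqFunctions FirstOrder.Language.instDecidableEqRelations CentroidHomClass.toAddMonoidHomClass MulSemiringActionSemiHomClass.toDistribMulActionSemiHomClass NonUnitalAlgSemiHomClass.toDistribMulActionSemiHomClass instIsPrincipalIdealRingOfIsSemisimpleRing EuclideanDomain.to_principal_ideal_domain IsDedekindDomain.isPrincipalIdealRing ValuationRing.instOfIsLocalRingOfIsBezout instIsSemirealOfIsStrictOrderedRingOfExistsAddOfLE IsRealClosed.toIsSemireal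 AddQuantale.instAddLeftMono Pi.subtractionMonoid ValuationClass.toMonoidWithZeroHomClass MulOpposite.instMulOne AbsoluteValue.zeroHomClass Finite.of_subsingleton SetLike.instFinite Algebra.IsFiniteSplit.instOfIsSepClosedOfEssFiniteTypeOfFormallyEtale instSMulCommClassOfIsScalarTower LeftPreLieAlgebra.toSMulCommClass LieAdmissibleAlgebra.toSMulCommClass RightPreLieAlgebra.toSMulCommClass Subalgebra.toAlgebra SetLike.GradeZero.instAlgebraSubtypeMemOfNat DivisionSemiring.isPrincipalIdealRing IsPrincipalIdealRing.of_isNoetherianRing_of_isBezout instNontrivialOfCharZero DivisionRing.toNontrivial EuclideanDomain.toNontrivial IsSimpleOrder.toNontrivial LinearOrderedAddCommGroupWithTop.toNontrivial SubfieldClass.toSubringClass SubfieldClass.toNormedField Pi.instBotForall Module.instIsReflexiveOfFiniteOfProjective Module.IsReflexive.of_finite_of_free CentroidHom.instSMulCommClass_1 RCLike.innerProductSpace Pi.addMonoidWithOne StarSubalgebra.commCStarAlgebra AlgHom.instContinuousLinearMapClassOfAlgHomClass BialgHomClass.toCoalgHomClass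 CoalgEquivClass.toCoalgHomClass CoalgHomClass.toSemilinearMapClass ContinuousSemilinearEquivClass.continuousSemilinearMapClass ContinuousSemilinearMapClass.toSemilinearMapClass PositiveLinearMap.instContinuousLinearMapClassComplexOfLinearMapClassOfOrderHomClass RingHomClass.toLinearMapClassNNRat RingHomClass.toLinearMapClassRat SemilinearIsometryClass.toContinuousSemilinearMapClass SemilinearIsometryClass.toSemilinearMapClass Fin.instCoheytingAlgebra Fin.instHeytingAlgebra ValuationRing.toPreValuationRing PositiveLinearMap.instInnerProductSpaceComplexPreGNS SemilatSupCat.isSemilatticeSup SubringClass.toNormedCommRing AlgHomClass.linearMapClass NonUnitalAlgHomClass.instSemilinearMapClassOfNonUnitalAlgSemiHomClassToMonoidHomRingHom SemilinearEquivClass.instSemilinearMapClass AbsoluteValue.mulHomClass CommMonTypeEquivalenceCommMon.commMonCommMonoid IdemSemiring.toCanonicallyOrderedAdd LinearOrderedAddCommGroupWithTop.toIsOrderedAddMonoid StarSubalgebra.cstarAlgebra SubfieldClass.toDivisionRing SubfieldClass.toField SubringClass.toSeminormedCommRing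 ENormedCommMonoid.toESeminormedCommMonoid NormedCommGroup.toENormedCommMonoid instInfiniteOfUncountable CharZero.infinite Denumerable.instInfinite GroupWithZero.toNontrivial Infinite.instNontrivial IsAlgClosed.instInfinite IsOrderedRing.toIsStrictOrderedRing IsSimpleAddGroup.toNontrivial IsSimpleGroup.toNontrivial IsSimpleRing.instNontrivial IsStrictOrderedRing.toNontrivial NoMaxOrder.infinite NoMinOrder.infinite NontriviallyNormedField.infinite FirstOrder.Language.instInfiniteOfModelDloOrderOfNonempty isPurelyInseparable_self IsPurelyInseparable.instOfHasExponent IsPurelyInseparable.isIntegral Algebra.IsAlgebraic.isIntegral Algebra.IsAlgebraic.isPurelyInseparable_of_isSepClosed IsAlgClosed.instIsAlgClosure IsSepClosure.isAlgClosure_of_perfectField IsSepClosure.isAlgClosure_of_perfectField_top IsScalarTower.to_smulCommClass LeftPreLieAlgebra.toIsScalarTower LieAdmissibleAlgebra.toIsScalarTower LieRinehartAlgebra.toIsScalarTower RightPreLieAlgebra.toIsScalarTower FinEnum.decEq FunLike.toDecidableEq FirstOrder.Language.graph.instSubsingleton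 FiniteDimensional.finiteDimensional_pi FiniteDimensional.finiteDimensional_pi' Ideal.Quotient.normedCommRing ModuleCat.CoextendScalars.hasSMul SubalgebraClass.normedRing SubringClass.toNormedRing ValuationRing.instIsBezout MulEquivClass.toMonoidWithZeroHomClass MulRingSeminormClass.toMonoidWithZeroHomClass AddMonoid.FG.to_moduleFinite_int IsSepClosure.isSeparable Module.free_of_finite_type_torsion_free' Algebra.IsFiniteSplit.instFree Algebra.IsQuadraticExtension.toFree CommRing.Pic.instFreeOfSubsingleton Module.FaithfullyFlat.of_isIntegral_of_isDomain Module.Free.self Finsupp.tsub RCLike.toDecidableEq LinearMap.IsScalarTower.compatibleSMul' Pi.normedRing Pi.distribMulAction' BialgHomClass.toMonoidHomClass IsStrictOrderedRing.noZeroDivisors MulCharClass.toMonoidHomClass MulDistribMulActionSemiHomClass.toMonoidHomClass NormMulClass.toNoZeroDivisors SubalgebraClass.seminormedRing SubringClass.toSeminormedRing NonUnitalAlgHomClass.toNonUnitalRingHomClass RingEquivClass.toNonUnitalRingHomClass instNonemptyOfMonad CommRing.toGrindCommRing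 CommSemiring.toGrindCommSemiring Field.toGrindField Ring.toGrindRing Semiring.toGrindSemiring AddMonoid.fg_of_addGroup_fg IsAffineAddMonoid.toFG IsAzumaya.id Algebra.isSeparable_self IsAlgClosure.isAlgebraic IsAlgClosure.separable IsGalois.to_isSeparable IsPurelyInseparable.hasExponent_of_finiteDimensional Normal.toIsAlgebraic Algebra.IsAlgebraic.of_finite Algebra.IsIntegral.isAlgebraic Algebra.IsSeparable.isAlgebraic Algebra.IsSeparable.of_integral decidableEq_of_subsingleton AlgebraicGeometry.instIsNoetherianRingCarrierStalkCommRingCatPresheafOfIsLocallyNoetherian instCommCStarAlgebraForall Pi.normedCommutativeRing Pi.seminormedCommRing SubringClass.toCommRing Ideal.Quotient.semiNormedCommRing SetLike.GradeZero.instCommRing -- iprune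

set_option linter.all false

section

/-!
Degrees of Hilbert functions and dimension.
-/

namespace Vale.Agent.P177

open Function IsLocalRing PowerSeries

universe u

variable {A : Type u} [CommRing A] [IsRegularLocalRing A] {d : ℕ}

end Vale.Agent.P177
end

section

/-!
Flat extension of a regular local ring to a complete one with perfect residue field, and the
presentation theorem.
-/

namespace Vale.Agent.P177

open IsLocalRing Function TensorProduct

universe u

section completion

variable {A : Type u} [CommRing A] [IsLocalRing A] (fg : (maximalIdeal A).FG)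

include fg in
theorem adic_approx (n : ℕ) (s : AdicCompletion (maximalIdeal A) A) :
    ∃ a : A, s - algebraMap A (AdicCompletion (maximalIdeal A) A) a ∈
      ((maximalIdeal A) ^ n).map (algebraMap A (AdicCompletion (maximalIdeal A) A)) := by
  obtain ⟨a, ha⟩ := Ideal.Quotient.mk_surjective (s.1 n)
  refine ⟨a, ?_⟩
  rw [← Submodule.restrictScalars_mem A, ← Ideal.smul_top_eq_map,
    AdicCompletion.pow_smul_top_eq_ker_eval fg, LinearMap.mem_ker, map_sub, sub_eq_zero]
  exact ha.symm

include fg in
theorem adic_closed (n : ℕ) (a : A) (ha : algebraMap A (AdicCompletion (maximalIdeal A) A) a ∈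
      ((maximalIdeal A) ^ n).map (algebraMap A (AdicCompletion (maximalIdeal A) A))) :
    a ∈ (maximalIdeal A) ^ n := by
  rw [← Submodule.restrictScalars_mem A, ← Ideal.smul_top_eq_map,
    AdicCompletion.pow_smul_top_eq_ker_eval fg, LinearMap.mem_ker] at ha
  have h1 : (Submodule.Quotient.mk a : A ⧸ (maximalIdeal A ^ n • ⊤ : Submodule A A)) = 0 := ha
  rw [Submodule.Quotient.mk_eq_zero, smul_eq_mul, Ideal.mul_top] at h1
  exact h1

end completion

/-- Every regular local ring with residue characteristic `p` has a flat complete extension, with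
the same parameters and with perfect residue field. -/
theorem exists_gonflement (R : Type u) [CommRing R] [IsRegularLocalRing R] (p : ℕ) [Fact p.Prime]
    [CharP (ResidueField R) p] {d : ℕ} (hd : ringKrullDim R = d) :
    ∃ (S : Type u) (_ : CommRing S) (_ : IsRegularLocalRing S) (_ : Algebra R S),
      Module.Flat R S ∧ (maximalIdeal R).map (algebraMap R S) = maximalIdeal S ∧
      ringKrullDim S = d ∧ IsAdicComplete (maximalIdeal S) S ∧
      CharP (ResidueField S) p ∧ PerfectRing (ResidueField S) p := by
  have hdom : IsDomain R := regular_isDomain R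
  obtain ⟨rs, hrs, hlen⟩ := exists_list_maximalIdeal R
  have hl : rs.length = d := by
    rw [hd] at hlen
    exact_mod_cast hlen
  subst hl
  let x : Fin rs.length → R := fun i => rs.get i
  have hx : Ideal.span (Set.range x) = maximalIdeal R := by
    rw [← hrs, Ideal.ofList]
    congr 1
    ext y
    simp only [x, Set.mem_range, Set.mem_ofPred_eq, List.mem_iff_get]
  let Ω := AlgebraicClosure (FractionRing R)
  have hinj : Injective (algebraMap R Ω) := by
    rw [IsScalarTower.algebraMap_eq R (FractionRing R) Ω]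
    exact (algebraMap (FractionRing R) Ω).injective.comp (IsFractionRing.injective R _)
  obtain ⟨A, hA, hroot⟩ := exists_locUnion_perfect (Ω := Ω) hx p Fact.out
  have hint : Algebra.IsIntegral R A := hA.isIntegral
  have hflat : Module.Flat R A := hA.flat hx hd hinj
  obtain ⟨hloc, hm⟩ := isLocalRing_of_integral_map (hA.isMaximal hx)
  have fg : (maximalIdeal A).FG := by
    rw [← hm]
    exact ((maximalIdeal R).fg_of_isNoetherianRing).map _
  let S := AdicCompletion (maximalIdeal A) A
  let aS : Algebra A S := inferInstance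
  let mS : SMul A S := aS.toSMul
  let rS : Algebra R S := inferInstance
  have hlS : IsLocalRing S := AdicCompletion.isLocalRing_of_fg fg
  have hmS : maximalIdeal S = (maximalIdeal A).map (algebraMap A S) :=
    AdicCompletion.maximalIdeal_eq_map_of_fg fg
  have hcS : IsAdicComplete (maximalIdeal S) S := AdicCompletion.isAdicComplete_of_fg fg
  have htow : IsScalarTower R A S := inferInstance
  have hmRS : (maximalIdeal R).map (algebraMap R S) = maximalIdeal S := by
    rw [IsScalarTower.algebraMap_eq R A S, ← Ideal.map_map, hm, hmS]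
  have hpow : ∀ n, ((maximalIdeal R) ^ n).map (algebraMap R S) =
      ((maximalIdeal A) ^ n).map (algebraMap A S) := fun n => by
    rw [IsScalarTower.algebraMap_eq R A S, ← Ideal.map_map, Ideal.map_pow (algebraMap R A), hm]
  have happ : ∀ (n : ℕ) (s : S), ∃ a : A, s - algebraMap A S a ∈
      ((maximalIdeal R) ^ n).map (algebraMap R S) := fun n s => by
    rw [hpow]
    exact adic_approx fg n s
  have hcl : ∀ (n : ℕ) (a : A), algebraMap A S a ∈ ((maximalIdeal R) ^ n).map (algebraMap R S) →
      a ∈ ((maximalIdeal R) ^ n).map (algebraMap R A) := fun n a ha => by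
    rw [hpow] at ha
    rw [Ideal.map_pow, hm]
    exact adic_closed fg n a ha
  let f : ResidueField R →+* ResidueField S := Ideal.quotientMap (maximalIdeal S)
    (algebraMap R S) (Ideal.map_le_iff_le_comap.1 hmRS.le)
  have hch : CharP (ResidueField S) p := charP_of_injective_ringHom f.injective p
  have hpr : PerfectRing (ResidueField S) p := PerfectRing.ofSurjective _ p fun y => by
    obtain ⟨s, rfl⟩ := residue_surjective y
    obtain ⟨a, ha⟩ := happ 1 s
    obtain ⟨b, hb, h1⟩ := hroot a a.2
    have h2 : (⟨b, hb⟩ : A) ^ p - a ∈ maximalIdeal A := by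
      rw [← hm]
      exact (mem_map_iff hx A _).2 h1
    refine ⟨residue S (algebraMap A S ⟨b, hb⟩), ?_⟩
    rw [frobenius_def, ← RingHom.map_pow, ← sub_eq_zero, ← RingHom.map_sub,
      residue_eq_zero_iff]
    have h3 : algebraMap A S ⟨b, hb⟩ ^ p - s =
        algebraMap A S (⟨b, hb⟩ ^ p - a) - (s - algebraMap A S a) := by
      rw [RingHom.map_sub, RingHom.map_pow]
      ring
    rw [h3]
    refine sub_mem ?_ ?_
    · rw [hmS]
      exact Ideal.mem_map_of_mem _ h2
    · rw [pow_one, hmRS] at ha
      exact ha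
  have hxS : Ideal.span (Set.range fun i => algebraMap R S (x i)) = maximalIdeal S := by
    rw [← hmRS, ← hx, Ideal.map_span, ← Set.range_comp]
    rfl
  have hNS : IsNoetherianRing S := by
    obtain ⟨σ, hσ⟩ := exists_witt_hom (S := S) p
    obtain ⟨φ, hφ, -⟩ := exists_evalHom_surjective σ (fun y =>
      ⟨WittVector.teichmuller p y, by
        change residue S (σ (WittVector.teichmuller p y)) = y
        rw [hσ, WittVector.teichmuller_coeff_zero]⟩) (fun i => algebraMap R S (x i)) hxS
    exact isNoetherianRing_of_surjective _ _ φ hφ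
  have hfS : Module.Flat R S := flat_of_approx hx hmRS happ hcl
  have hdS : ringKrullDim S = rs.length := by
    rw [ringKrullDim_eq_of_flat hmRS, hd]
  have hrS := (isRegularLocalRing_of_list (B := S) (rs.map (algebraMap R S)) (by
    rw [← Ideal.map_ofList, hrs, hmRS]) (by rw [List.length_map, hdS])).1
  exact ⟨S, inferInstance, hrS, inferInstance, hfS, hmRS, hdS, hcS, hch, hpr⟩

end Vale.Agent.P177
end

section

/-!
The outer shell of Serre's positivity conjecture: reduction to pairs of prime cyclic modules over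
complete ramified regular local rings with perfect residue field.
-/

namespace Vale.Agent.P177

open TensorProduct IsLocalRing RingTheory.Sequence Function

universe u

/-- The core statement for pairs `P`, `Q` with `C P Q`. -/
def CoreStmt (C : ∀ (_ : ℕ) (R : Type u) [CommRing R], Ideal R → Ideal R → Prop) : Prop :=
  ∀ (p : ℕ) [Fact p.Prime] (R : Type u) [CommRing R] [IsRegularLocalRing R]
    [IsAdicComplete (maximalIdeal R) R] [CharP (ResidueField R) p] [PerfectRing (ResidueField R) p]
    (d : ℕ), ringKrullDim R = d → (p : R) ≠ 0 → (p : R) ∈ maximalIdeal R ^ 2 →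
    ∀ (P Q : Ideal R), P.IsPrime → Q.IsPrime → C p R P Q →
      Module.length R ((R ⧸ P) ⊗[R] (R ⧸ Q)) ≠ ⊤ →
      ∀ a b : ℕ, ringKrullDim (R ⧸ P) = a → ringKrullDim (R ⧸ Q) = b →
        (a + b < d → 0 ≤ eulerTor R (d + 1) (R ⧸ P) (R ⧸ Q)) ∧
        (a + b = d → 0 < eulerTor R (d + 1) (R ⧸ P) (R ⧸ Q))

/-- The core statement for the pairs with `p ∉ P` and `p ∉ Q`. -/
def CoreStmt₀ : Prop := CoreStmt.{u} fun p R _ P Q => (p : R) ∉ P ∧ (p : R) ∉ Q

/-- The core statement for the pairs with `p ∉ P` and `p ∈ Q`. -/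
def CoreStmt₁ : Prop := CoreStmt.{u} fun p R _ P Q => (p : R) ∉ P ∧ (p : R) ∈ Q

/-- Presentation of a complete ramified regular local ring with perfect residue field. -/
theorem exists_core_presentation (p : ℕ) [Fact p.Prime] (R : Type u) [CommRing R]
    [IsRegularLocalRing R] [IsAdicComplete (maximalIdeal R) R] [CharP (ResidueField R) p]
    [PerfectRing (ResidueField R) p] (d : ℕ) (hd : ringKrullDim R = d)
    (hp2 : (p : R) ∈ maximalIdeal R ^ 2) :
    ∃ (c : Fin d → Fin d → MvPowerSeries (Fin d) (WittVector p (ResidueField R)))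
      (φ : MvPowerSeries (Fin d) (WittVector p (ResidueField R)) →+* R), Surjective φ ∧
      RingHom.ker φ = Ideal.span {quadEq (WittVector p (ResidueField R)) (p : WittVector p _) d c} ∧
      Ideal.span (Set.range fun i => φ (MvPowerSeries.X i)) = maximalIdeal R ∧
      ∀ w : WittVector p (ResidueField R), residue R (φ (MvPowerSeries.C w)) = w.coeff 0 := by
  obtain ⟨rs, hrs, hlen⟩ := exists_list_maximalIdeal R
  have hl : rs.length = d := by
    rw [hd] at hlen
    exact_mod_cast hlen
  subst hl
  let x : Fin rs.length → R := fun i => rs.get i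
  have hx : Ideal.span (Set.range x) = maximalIdeal R := by
    rw [← hrs, Ideal.ofList]
    congr 1
    ext y
    simp only [x, Set.mem_range, Set.mem_ofPred_eq, List.mem_iff_get]
  -- the quadratic form
  obtain ⟨c, hc⟩ : ∃ c : Fin rs.length → Fin rs.length → R,
      (p : R) = ∑ i, ∑ j, x i * c i j * x j := by
    rw [← hx, pow_two] at hp2
    have h1 : ∀ y ∈ Ideal.span (Set.range x) * Ideal.span (Set.range x),
        ∃ c : Fin rs.length → Fin rs.length → R, y = ∑ i, ∑ j, x i * c i j * x j := by
      intro y hy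
      refine Submodule.mul_induction_on hy ?_ ?_
      · intro a ha b hb
        obtain ⟨α, rfl⟩ := (Ideal.mem_span_range_iff_exists_fun).1 ha
        obtain ⟨β, rfl⟩ := (Ideal.mem_span_range_iff_exists_fun).1 hb
        refine ⟨fun i j => α i * β j, ?_⟩
        rw [Finset.sum_mul_sum]
        refine Finset.sum_congr rfl fun i _ => Finset.sum_congr rfl fun j _ => ?_
        ring
      · rintro a b ⟨α, rfl⟩ ⟨β, rfl⟩
        refine ⟨fun i j => α i j + β i j, ?_⟩
        simp only [← Finset.sum_add_distrib]
        refine Finset.sum_congr rfl fun i _ => Finset.sum_congr rfl fun j _ => ?_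
        ring
    exact h1 _ hp2
  obtain ⟨σ, hσ⟩ := exists_witt_hom (S := R) p
  obtain ⟨hreg, hmax, hdim⟩ := witt_dim_one (ResidueField R) p
  obtain ⟨φ, hφ, hC, hX⟩ := exists_evalHom_surjective σ (fun y =>
    ⟨WittVector.teichmuller p y, by
      change residue R (σ (WittVector.teichmuller p y)) = y
      rw [hσ, WittVector.teichmuller_coeff_zero]⟩) x hx
  choose g hg using hφ
  let c' : Fin rs.length → Fin rs.length →
    MvPowerSeries (Fin rs.length) (WittVector p (ResidueField R)) := fun i j => g (c i j)
  have hle : Ideal.span {quadEq (WittVector p (ResidueField R)) (p : WittVector p _) rs.length c'} ≤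
      RingHom.ker φ := by
    rw [Ideal.span_singleton_le_iff_mem, RingHom.mem_ker, quadEq, map_sub, hC, map_natCast, hc,
      map_sum, sub_eq_zero]
    refine Finset.sum_congr rfl fun i _ => ?_
    rw [map_sum]
    refine Finset.sum_congr rfl fun j _ => ?_
    rw [map_mul, map_mul, hX, hX, hg]
  obtain ⟨hR, -, hdR⟩ := quadRing_regular (WittVector p (ResidueField R)) (p : WittVector p _)
    hmax hdim rs.length c'
  refine ⟨c', φ, fun y => ⟨g y, hg y⟩, le_antisymm ?_ hle, ?_, fun w => ?_⟩
  · let ψ : QuadRing (WittVector p (ResidueField R)) (p : WittVector p _) rs.length c' →+* R :=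
      Ideal.Quotient.lift _ φ fun a ha => hle ha
    have hψ : Surjective ψ := fun s => ⟨Ideal.Quotient.mk _ (g s), hg s⟩
    have hinj : RingHom.ker ψ = ⊥ := ker_eq_bot_of_dim_eq ψ hψ (by rw [hd, hdR])
    intro a ha
    rw [← Ideal.Quotient.eq_zero_iff_mem]
    have h1 : Ideal.Quotient.mk _ a ∈ RingHom.ker ψ := by
      rw [RingHom.mem_ker]
      exact ha
    rwa [hinj, Ideal.mem_bot] at h1
  · rw [← hx]
    congr 1
    ext y
    simp only [Set.mem_range, hX]
  · rw [hC, hσ]

end Vale.Agent.P177
end

section

/-!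
The formula for the Euler characteristics: from modules free over the Noether normalization to all
modules over the complete intersection.
-/

namespace Vale.Agent.P177

open TensorProduct IsLocalRing RingTheory.Sequence Function

universe u

/-- A finite module killed by `I` is covered by a finite free module over `R/I`. -/
theorem exists_quotient_cover {R : Type u} [CommRing R] (I : Ideal R) (M : Type u)
    [AddCommGroup M] [Module R M] [Module.Finite R M] (hI : ∀ a ∈ I, ∀ x : M, a • x = 0) :
    ∃ (m : ℕ) (g : (Fin m → R ⧸ I) →ₗ[R] M), Surjective g := by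
  obtain ⟨m, x, hx⟩ := Module.Finite.exists_fin (R := R) (M := M)
  let q : Fin m → ((R ⧸ I) →ₗ[R] M) := fun i =>
    Submodule.liftQ I (LinearMap.toSpanSingleton R M (x i)) fun a ha => by
      rw [LinearMap.mem_ker, LinearMap.toSpanSingleton_apply]
      exact hI a ha _
  let g : (Fin m → R ⧸ I) →ₗ[R] M := ∑ i, q i ∘ₗ LinearMap.proj i
  refine ⟨m, g, ?_⟩
  rw [← LinearMap.range_eq_top, ← top_le_iff, ← hx, Submodule.span_le]
  rintro _ ⟨i, rfl⟩
  refine ⟨Pi.single i (Ideal.Quotient.mk I 1), ?_⟩
  simp only [g, LinearMap.sum_apply, LinearMap.comp_apply, LinearMap.proj_apply]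
  rw [Finset.sum_eq_single i]
  · rw [Pi.single_eq_same]
    change Submodule.liftQ I (LinearMap.toSpanSingleton R M (x i)) _ (Submodule.Quotient.mk 1) = _
    rw [Submodule.liftQ_apply, LinearMap.toSpanSingleton_apply, one_smul]
  · intro j _ hj
    rw [Pi.single_eq_of_ne hj, map_zero]
  · simp

theorem flat_field {Λ Ω : Type u} [CommRing Λ] [IsDomain Λ] [Field Ω] [Algebra Λ Ω]
    [FaithfulSMul Λ Ω] : Module.Flat Λ Ω := by
  let _ : Algebra (FractionRing Λ) Ω := FractionRing.liftAlgebra Λ Ω
  have : IsScalarTower Λ (FractionRing Λ) Ω := FractionRing.isScalarTower_liftAlgebra Λ Ω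
  have : Module.Flat Λ (FractionRing Λ) := IsLocalization.flat _ (nonZeroDivisors Λ)
  exact Module.Flat.trans Λ (FractionRing Λ) Ω

section nice

variable {R : Type u} [CommRing R] {Λ : Type u} [CommRing Λ] [Algebra Λ R] {Ω : Type u} [Field Ω]
  [Algebra Λ Ω]

/-- The trace of an element on the base change of `M`. -/
noncomputable def trΩ (Λ Ω : Type u) [CommRing Λ] [Algebra Λ R] [Field Ω] [Algebra Λ Ω]
    (M : Type u) [AddCommGroup M] [Module R M] [Module Λ M] [IsScalarTower Λ R M] (r : R) : Ω :=
  LinearMap.trace Ω (Ω ⊗[Λ] M) ((Algebra.lsmul Λ Λ M r).baseChange Ω)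

/-- The Euler characteristic of `M` is given by the weights `w`. -/
def Nice (d : ℕ) (A : Type u) [AddCommGroup A] [Module R A] (w : (R →ₐ[Λ] Ω) → ℝ) (M : Type u)
    [AddCommGroup M] [Module R M] [Module Λ M] [IsScalarTower Λ R M] : Prop :=
  ∃ D : (R →ₐ[Λ] Ω) →₀ ℤ, (∀ r, trΩ Λ Ω M r = D.sum fun σ m => (m : Ω) * σ r) ∧
    (eulerTor R (d + 1) A M : ℝ) = D.sum fun σ m => (m : ℝ) * w σ

theorem sum_single_eq {ι S : Type*} [CommRing S] (n : ℕ) (σ : Fin n → ι) (f : ι → S) :
    (∑ j, Finsupp.single (σ j) (1 : ℤ)).sum (fun i m => (m : S) * f i) = ∑ j, f (σ j) := by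
  rw [← Finsupp.sum_finsetSum_index (by simp) (by intros; push_cast; ring)]
  refine Finset.sum_congr rfl fun j _ => ?_
  rw [Finsupp.sum_single_index (by simp)]
  simp

theorem FlagRep.nice {d : ℕ} {A : Type u} [AddCommGroup A] [Module R A] {hs : List R}
    {w : (R →ₐ[Λ] Ω) → ℝ} {L : Type u} [AddCommGroup L] [Module R L]
    [Module Λ L] [IsScalarTower Λ R L] [Module.Free Λ L] [Module.Finite Λ L]
    (h : FlagRep d A Λ Ω hs w L) : Nice d A w L := by
  obtain ⟨n, σ, -, h1, h2⟩ := h
  refine ⟨∑ j, Finsupp.single (σ j) 1, fun r => ?_, ?_⟩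
  · rw [sum_single_eq n σ (fun σ => σ r), ← h1, trΩ, LinearMap.trace_baseChange]
  · rw [sum_single_eq n σ w, h2]

variable {d : ℕ} {A : Type u} [AddCommGroup A] [Module R A] {w : (R →ₐ[Λ] Ω) → ℝ}

theorem sum_sub_eq {ι S : Type*} [CommRing S] (D D' : ι →₀ ℤ) (f : ι → S) :
    (D - D').sum (fun i m => (m : S) * f i) =
      D.sum (fun i m => (m : S) * f i) - D'.sum (fun i m => (m : S) * f i) := by
  refine Finsupp.sum_sub_index ?_
  intros
  push_cast
  ring

theorem sum_add_eq {ι S : Type*} [CommRing S] (D D' : ι →₀ ℤ) (f : ι → S) :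
    (D + D').sum (fun i m => (m : S) * f i) =
      D.sum (fun i m => (m : S) * f i) + D'.sum (fun i m => (m : S) * f i) := by
  classical
  refine Finsupp.sum_add_index (by simp) ?_
  intros
  push_cast
  ring

theorem trΩ_add [Module.Flat Λ Ω] {M' M M'' : Type u} [AddCommGroup M'] [Module R M']
    [Module Λ M'] [IsScalarTower Λ R M'] [AddCommGroup M] [Module R M] [Module Λ M]
    [IsScalarTower Λ R M] [Module.Finite Λ M] [AddCommGroup M''] [Module R M''] [Module Λ M'']
    [IsScalarTower Λ R M''] (f : M' →ₗ[R] M) (g : M →ₗ[R] M'') (hf : Injective f)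
    (hg : Surjective g) (h : Exact f g) (r : R) :
    trΩ Λ Ω M r = trΩ Λ Ω M' r + trΩ Λ Ω M'' r := by
  have hcomp : ∀ {X Y : Type u} [AddCommGroup X] [Module R X] [Module Λ X] [IsScalarTower Λ R X]
      [AddCommGroup Y] [Module R Y] [Module Λ Y] [IsScalarTower Λ R Y] (φ : X →ₗ[R] Y)
      (v : Ω ⊗[Λ] X), (φ.restrictScalars Λ).baseChange Ω ((Algebra.lsmul Λ Λ X r).baseChange Ω v) =
        (Algebra.lsmul Λ Λ Y r).baseChange Ω ((φ.restrictScalars Λ).baseChange Ω v) := by
    intro X Y _ _ _ _ _ _ _ _ φ v
    rw [← LinearMap.comp_apply, ← LinearMap.comp_apply, ← LinearMap.baseChange_comp,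
      ← LinearMap.baseChange_comp]
    congr 2
    ext x
    simp
  refine trace_add_of_exact ((f.restrictScalars Λ).baseChange Ω)
    ((g.restrictScalars Λ).baseChange Ω) ?_ ?_ ?_ _ _ _ (fun v => hcomp f v) (fun v => hcomp g v)
  · exact Module.Flat.lTensor_preserves_injective_linearMap (f.restrictScalars Λ) hf
  · exact LinearMap.lTensor_surjective Ω (g := g.restrictScalars Λ) hg
  · exact lTensor_exact Ω (f := f.restrictScalars Λ) (g := g.restrictScalars Λ) h hg

theorem trΩ_subsingleton {M : Type u} [AddCommGroup M] [Module R M] [Module Λ M]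
    [IsScalarTower Λ R M] [Subsingleton M] (r : R) : trΩ Λ Ω M r = 0 := by
  rw [trΩ, Subsingleton.elim ((Algebra.lsmul Λ Λ M r).baseChange Ω) 0, map_zero]

end nice

section induction

variable {R : Type u} [CommRing R] [IsRegularLocalRing R] {d : ℕ} (hd : ringKrullDim R = d)
  (hs : List R) (A : Type u) [AddCommGroup A] [Module R A] [Module.Finite R A]
  (hfin : ∀ (X : Type u) [AddCommGroup X] [Module R X] [Module.Finite R X],
    (∀ h ∈ hs, ∀ x : X, h • x = 0) → Module.length R (X ⊗[R] A) ≠ ⊤)

include hd hfin in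
theorem eulerTor_add_killed {M' M M'' : Type u} [AddCommGroup M'] [Module R M']
    [Module.Finite R M'] [AddCommGroup M] [Module R M] [Module.Finite R M] [AddCommGroup M'']
    [Module R M''] [Module.Finite R M''] (f : M' →ₗ[R] M) (g : M →ₗ[R] M'') (hf : Injective f)
    (hg : Surjective g) (h : Exact f g) (hM : ∀ h ∈ hs, ∀ x : M, h • x = 0) :
    eulerTor R (d + 1) A M = eulerTor R (d + 1) A M' + eulerTor R (d + 1) A M'' := by
  have hM' : ∀ h ∈ hs, ∀ x : M', h • x = 0 := fun a ha x => hf (by
    rw [map_smul, hM a ha, map_zero])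
  have hM'' : ∀ h ∈ hs, ∀ x : M'', h • x = 0 := fun a ha x => by
    obtain ⟨x, rfl⟩ := hg x
    rw [← map_smul, hM a ha, map_zero]
  rw [eulerTor_symm A, eulerTor_symm A, eulerTor_symm A]
  exact eulerTor_add f g hf hg h A d (fun j => tor_length_ne_top j M' A (hfin M' hM'))
    (fun j => tor_length_ne_top j M A (hfin M hM))
    (fun j => tor_length_ne_top j M'' A (hfin M'' hM''))
    (regular_tor_vanish R d hd M'' A (d + 1) le_rfl)

variable {Λ : Type u} [CommRing Λ] [Algebra Λ R] {Ω : Type u} [Field Ω] [Algebra Λ Ω]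
  [Module.Flat Λ Ω] {w : (R →ₐ[Λ] Ω) → ℝ}

include hd hfin in
theorem Nice.mid {M' M M'' : Type u} [AddCommGroup M'] [Module R M'] [Module.Finite R M']
    [Module Λ M'] [IsScalarTower Λ R M'] [AddCommGroup M] [Module R M] [Module.Finite R M]
    [Module Λ M] [IsScalarTower Λ R M] [Module.Finite Λ M] [AddCommGroup M''] [Module R M'']
    [Module.Finite R M''] [Module Λ M'']
    [IsScalarTower Λ R M''] (f : M' →ₗ[R] M) (g : M →ₗ[R] M'') (hf : Injective f)
    (hg : Surjective g) (h : Exact f g) (hM : ∀ h ∈ hs, ∀ x : M, h • x = 0)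
    (h1 : Nice d A w M') (h3 : Nice d A w M'') : Nice d A w M := by
  obtain ⟨D', t', e'⟩ := h1
  obtain ⟨D'', t'', e''⟩ := h3
  refine ⟨D' + D'', fun r => ?_, ?_⟩
  · rw [sum_add_eq D' D'' (fun σ : R →ₐ[Λ] Ω => σ r), ← t', ← t'']
    exact trΩ_add f g hf hg h r
  · rw [sum_add_eq D' D'' w, ← e', ← e'', eulerTor_add_killed hd hs A hfin f g hf hg h hM]
    push_cast
    rfl

include hd hfin in
theorem Nice.right {M' M M'' : Type u} [AddCommGroup M'] [Module R M'] [Module.Finite R M']
    [Module Λ M'] [IsScalarTower Λ R M'] [AddCommGroup M] [Module R M] [Module.Finite R M]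
    [Module Λ M] [IsScalarTower Λ R M] [Module.Finite Λ M] [AddCommGroup M''] [Module R M'']
    [Module.Finite R M''] [Module Λ M'']
    [IsScalarTower Λ R M''] (f : M' →ₗ[R] M) (g : M →ₗ[R] M'') (hf : Injective f)
    (hg : Surjective g) (h : Exact f g) (hM : ∀ h ∈ hs, ∀ x : M, h • x = 0)
    (h1 : Nice d A w M') (h2 : Nice d A w M) : Nice d A w M'' := by
  obtain ⟨D', t', e'⟩ := h1
  obtain ⟨D, t, e⟩ := h2
  refine ⟨D - D', fun r => ?_, ?_⟩
  · rw [sum_sub_eq D D' (fun σ : R →ₐ[Λ] Ω => σ r), ← t', ← t, trΩ_add f g hf hg h r]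
    ring
  · rw [sum_sub_eq D D' w, ← e', ← e, eulerTor_add_killed hd hs A hfin f g hf hg h hM]
    push_cast
    ring

include hd hfin in
theorem Nice.pi {M : Type u} [AddCommGroup M] [Module R M] [Module.Finite R M]
    [Module Λ M] [IsScalarTower Λ R M] [Module.Finite Λ M] (hM : ∀ h ∈ hs, ∀ x : M, h • x = 0)
    (h1 : Nice d A w M) (m : ℕ) : Nice d A w (Fin m → M) := by
  induction m with
  | zero =>
    refine ⟨0, fun r => ?_, ?_⟩
    · rw [trΩ_subsingleton, Finsupp.sum_zero_index]
    · have h3 := eulerTor_add_killed hd hs A hfin (M' := Fin 0 → M) (M := Fin 0 → M)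
        (M'' := Fin 0 → M) 0 0 (injective_of_subsingleton _)
        (fun x => ⟨x, Subsingleton.elim _ _⟩) (fun x => ⟨fun _ => ⟨x, Subsingleton.elim _ _⟩,
          fun _ => Subsingleton.elim _ _⟩) (fun h hh x => Subsingleton.elim _ _)
      have h4 : eulerTor R (d + 1) A (Fin 0 → M) = 0 := by linarith
      rw [h4, Finsupp.sum_zero_index]
      simp
  | succ m ih =>
    refine Nice.mid hd hs A hfin (LinearMap.single R (fun _ : Fin (m + 1) => M) 0)
      (LinearMap.funLeft R M Fin.succ) ?_ ?_ ?_ (fun h hh x => by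
        ext i
        exact hM h hh (x i)) h1 ih
    · intro a b hab
      have := congrFun hab 0
      simpa using this
    · exact LinearMap.funLeft_surjective_of_injective _ _ _ (Fin.succ_injective m)
    · intro x
      constructor
      · intro hx
        refine ⟨x 0, ?_⟩
        ext i
        refine Fin.cases ?_ (fun i => ?_) i
        · simp
        · have := congrFun hx i
          simp only [LinearMap.funLeft_apply, Pi.zero_apply] at this
          rw [this]
          simp
      · rintro ⟨y, rfl⟩
        ext i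
        simp [LinearMap.funLeft_apply]

theorem smul_quotient_ofList {R : Type u} [CommRing R] (hs : List R) :
    ∀ h ∈ hs, ∀ x : R ⧸ Ideal.ofList hs, h • x = 0 := by
  intro h hh x
  obtain ⟨y, rfl⟩ := Ideal.Quotient.mk_surjective x
  exact Ideal.Quotient.eq_zero_iff_mem.2 (Ideal.mul_mem_right _ _ (Ideal.subset_span hh))

theorem smul_eq_zero_of_mem_ofList {R : Type u} [CommRing R] {hs : List R} {M : Type u}
    [AddCommGroup M] [Module R M] (hM : ∀ h ∈ hs, ∀ x : M, h • x = 0) :
    ∀ a ∈ Ideal.ofList hs, ∀ x : M, a • x = 0 := by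
  intro a ha x
  have h1 : Ideal.ofList hs ≤ Module.annihilator R M := by
    rw [Ideal.ofList, Ideal.span_le]
    intro h hh
    exact Module.mem_annihilator.2 (hM h hh)
  exact Module.mem_annihilator.1 (h1 ha) x

/-- Modules killed by `hs` are finite over `Λ`. -/
theorem finite_of_killed {R : Type u} [CommRing R] {hs : List R} {Λ : Type u} [CommRing Λ]
    [Algebra Λ R] [Module.Finite Λ (R ⧸ Ideal.ofList hs)] (M : Type u) [AddCommGroup M]
    [Module R M] [Module.Finite R M] [Module Λ M] [IsScalarTower Λ R M]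
    (hM : ∀ h ∈ hs, ∀ x : M, h • x = 0) : Module.Finite Λ M := by
  obtain ⟨m, g, hg⟩ := exists_quotient_cover (Ideal.ofList hs) M (smul_eq_zero_of_mem_ofList hM)
  exact Module.Finite.of_surjective (g.restrictScalars Λ) hg

include hd hfin in
theorem exists_last_syzygy [IsLocalRing Λ] [IsNoetherianRing Λ]
    [Module.Finite Λ (R ⧸ Ideal.ofList hs)] [Module.Free Λ (R ⧸ Ideal.ofList hs)] (n : ℕ) :
    ∀ (M : Type u) [AddCommGroup M] [Module R M] [Module.Finite R M] [Module Λ M]
      [IsScalarTower Λ R M], (∀ h ∈ hs, ∀ x : M, h • x = 0) →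
      (∀ j, n + 1 ≤ j → Subsingleton (TorM Λ j M (Λ ⧸ maximalIdeal Λ))) →
      ∃ (L : Type u) (_ : AddCommGroup L) (_ : Module R L) (_ : Module.Finite R L)
        (_ : Module Λ L) (_ : IsScalarTower Λ R L), Module.Free Λ L ∧
        (∀ h ∈ hs, ∀ x : L, h • x = 0) ∧
        ∀ w : (R →ₐ[Λ] Ω) → ℝ, Nice d A w (R ⧸ Ideal.ofList hs) → Nice d A w L →
          Nice d A w M := by
  induction n with
  | zero =>
    intro M _ _ _ _ _ hM hT
    have hfM := finite_of_killed (Λ := Λ) M hM
    exact ⟨M, inferInstance, inferInstance, inferInstance, inferInstance, inferInstance,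
      free_of_tor_residue M hT, hM, fun _ _ h => h⟩
  | succ n ih =>
    intro M _ _ _ _ _ hM hT
    obtain ⟨m, g, hg⟩ := exists_quotient_cover (Ideal.ofList hs) M
      (smul_eq_zero_of_mem_ofList hM)
    let K := LinearMap.ker g
    have hF : ∀ h ∈ hs, ∀ x : Fin m → R ⧸ Ideal.ofList hs, h • x = 0 := fun h hh x => by
      ext i
      exact smul_quotient_ofList hs h hh (x i)
    have hK : ∀ h ∈ hs, ∀ x : K, h • x = 0 := fun h hh x => Subtype.ext (hF h hh x.1)
    have hex : Exact K.subtype g := by
      rw [LinearMap.exact_iff, Submodule.range_subtype]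
    have hKT : ∀ j, n + 1 ≤ j → Subsingleton (TorM Λ j K (Λ ⧸ maximalIdeal Λ)) := by
      intro j hj
      obtain ⟨i, rfl⟩ : ∃ i, j = i + 1 := ⟨j - 1, by omega⟩
      obtain ⟨e⟩ := tor_shift (K.subtype.restrictScalars Λ) (g.restrictScalars Λ)
        K.subtype_injective hg hex (Λ ⧸ maximalIdeal Λ) i
      have := hT (i + 2) (by omega)
      exact e.symm.injective.subsingleton
    obtain ⟨L, i1, i2, i3, i4, i5, hfree, hL, hw⟩ := ih K hK hKT
    refine ⟨L, i1, i2, i3, i4, i5, hfree, hL, fun w h1 h2 => ?_⟩
    have hpi := Nice.pi hd hs A hfin (Λ := Λ) (Ω := Ω) (w := w) (smul_quotient_ofList hs) h1 m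
    exact Nice.right hd hs A hfin K.subtype g K.subtype_injective hg hex hF (hw w h1 h2) hpi

end induction

end Vale.Agent.P177
end

section

/-!
Regular local rings with a flat map with trivial closed fibre to a power series ring over a regular
local ring of small dimension, and hypersurface versions.
-/

namespace Vale.Agent.P177

open CategoryTheory TensorProduct Function IsLocalRing RingTheory.Sequence Pointwise

universe u

theorem mvPowerSeries_regular_fin (A : Type u) [CommRing A] [IsRegularLocalRing A] (n : ℕ) :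
    IsRegularLocalRing (MvPowerSeries (Fin n) A) := by
  obtain ⟨a', ha'⟩ : ∃ a' : ℕ, ringKrullDim A = a' := by
    obtain ⟨rs, -, hlen⟩ := exists_list_maximalIdeal A
    exact ⟨_, hlen.symm⟩
  exact (mvPowerSeries_regular n (Equiv.refl (Fin n)) ha').1

/-- Serre's statements for a regular local ring `R` with a flat map with trivial closed fibre to
`A[[x₁, …, xₙ]]`, where `A` is regular local of dimension at most `a`. -/
theorem serreAll_formal (a : ℕ) (hLoc : LocPos.{u} a) (A : Type u) [CommRing A]
    [IsRegularLocalRing A] (hA : ringKrullDim A ≤ a) (n : ℕ)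
    (R : Type u) [CommRing R] [IsRegularLocalRing R] [Algebra R (MvPowerSeries (Fin n) A)]
    [Module.Flat R (MvPowerSeries (Fin n) A)]
    (hloc : (maximalIdeal R).map (algebraMap R (MvPowerSeries (Fin n) A)) =
      maximalIdeal (MvPowerSeries (Fin n) A)) (d : ℕ) (hd : ringKrullDim R = d) :
    SerreAll R d := by
  have hreg := mvPowerSeries_regular_fin A n
  refine SerreAll.descend hloc (serreAll_powerSeries a hLoc A hA n d ?_)
  rw [ringKrullDim_eq_of_flat hloc, hd]

end Vale.Agent.P177
end

section

/-!
The outer shell of Serre's positivity conjecture: from the core statement to all modules over all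
regular local rings with residue characteristic `p` in which `p` lies in the square of the maximal
ideal.
-/

namespace Vale.Agent.P177

open TensorProduct IsLocalRing RingTheory.Sequence Function

universe u

theorem supportDim_quotient_eq {R : Type u} [CommRing R] (P : Ideal R) :
    Module.supportDim R (R ⧸ P) = ringKrullDim (R ⧸ P) := by
  rw [Module.supportDim_eq_ringKrullDim_quotient_annihilator, Ideal.annihilator_quotient]

theorem exists_nat_ringKrullDim_quot {R : Type u} [CommRing R] [IsLocalRing R]
    [IsNoetherianRing R] (P : Ideal R) [P.IsPrime] : ∃ a : ℕ, ringKrullDim (R ⧸ P) = a := by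
  have : Nontrivial (R ⧸ P) := Ideal.Quotient.nontrivial_iff.2 (Ideal.IsPrime.ne_top ‹_›)
  have : IsLocalRing (R ⧸ P) :=
    IsLocalRing.of_surjective' (Ideal.Quotient.mk P) Ideal.Quotient.mk_surjective
  exact exists_nat_eq_ringKrullDim (R ⧸ P)

theorem dimension_inequality_of_presentation {V R : Type u} [CommRing V] [IsRegularLocalRing V]
    (hdim : ringKrullDim V = (1 : ℕ)) [CommRing R] [IsRegularLocalRing R] (d : ℕ)
    (hd : ringKrullDim R = d) (φ : MvPowerSeries (Fin d) V →+* R) (hφ : Surjective φ)
    (f : MvPowerSeries (Fin d) V) (hker : RingHom.ker φ = Ideal.span {f})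
    (M N : Type u) [AddCommGroup M] [Module R M] [Module.Finite R M]
    [AddCommGroup N] [Module R N] [Module.Finite R N]
    (hlen : Module.length R (M ⊗[R] N) ≠ ⊤) (a b : ℕ)
    (ha : (a : WithBot ℕ∞) ≤ Module.supportDim R M)
    (hb : (b : WithBot ℕ∞) ≤ Module.supportDim R N) : a + b ≤ d := by
  have hregB : IsRegularLocalRing (MvPowerSeries (Fin d) V) := mvPowerSeries_regular_fin _ d
  have hdB : ringKrullDim (MvPowerSeries (Fin d) V) = ((d + 1 : ℕ) : WithBot ℕ∞) := by
    have h := (mvPowerSeries_regular (A := V) d (Equiv.refl (Fin d)) hdim).2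
    rw [h]
    norm_cast
    omega
  have hS : SerreAll (MvPowerSeries (Fin d) V) (d + 1) :=
    serreAll_powerSeries 4 locPos_four _ (by rw [hdim]; norm_num) d (d + 1) hdB
  let _ : Algebra (MvPowerSeries (Fin d) V) R := φ.toAlgebra
  have hdom : IsDomain (MvPowerSeries (Fin d) V) := regular_isDomain _
  have hne : f ≠ 0 := by
    intro h0
    have h1 : RingHom.ker φ = ⊥ := by
      rw [hker, h0, Ideal.span_singleton_eq_bot]
    have h2 := ringKrullDim_eq_of_ringEquiv (RingEquiv.ofBijective φ
      ⟨(RingHom.injective_iff_ker_eq_bot φ).2 h1, hφ⟩)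
    rw [hdB, hd] at h2
    have h3 : d + 1 = d := by exact_mod_cast h2
    omega
  exact dimension_inequality_hypersurface (B := MvPowerSeries (Fin d) V) (A := R) (f := f)
    { regular := fun x y hxy => mul_left_cancel₀ hne hxy
      surj := hφ
      ker := hker } d hdB hd hS M N hlen a b ha hb

/-- The dimension inequality over a complete ramified regular local ring with perfect residue
field. -/
theorem dimension_inequality_complete (p : ℕ) [Fact p.Prime] (R : Type u) [CommRing R]
    [IsRegularLocalRing R] [IsAdicComplete (maximalIdeal R) R] [CharP (ResidueField R) p]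
    [PerfectRing (ResidueField R) p] (d : ℕ) (hd : ringKrullDim R = d)
    (hp2 : (p : R) ∈ maximalIdeal R ^ 2)
    (M N : Type u) [AddCommGroup M] [Module R M] [Module.Finite R M]
    [AddCommGroup N] [Module R N] [Module.Finite R N]
    (hlen : Module.length R (M ⊗[R] N) ≠ ⊤) (a b : ℕ)
    (ha : (a : WithBot ℕ∞) ≤ Module.supportDim R M)
    (hb : (b : WithBot ℕ∞) ≤ Module.supportDim R N) : a + b ≤ d := by
  obtain ⟨c, φ, hφ, hker, -, -⟩ := exists_core_presentation p R d hd hp2
  obtain ⟨hreg, hmax, hdim⟩ := witt_dim_one (ResidueField R) p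
  exact dimension_inequality_of_presentation hdim d hd φ hφ _ hker M N hlen a b ha hb

/-- From the core statement to all modules over the complete ramified regular local rings with
perfect residue field. -/
theorem serreAll_complete_of_core (h₀ : CoreStmt₀.{u}) (h₁ : CoreStmt₁.{u}) (p : ℕ)
    [Fact p.Prime] (R : Type u) [CommRing R]
    [IsRegularLocalRing R] [IsAdicComplete (maximalIdeal R) R] [CharP (ResidueField R) p]
    [PerfectRing (ResidueField R) p] (d : ℕ) (hd : ringKrullDim R = d) (hp0 : (p : R) ≠ 0)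
    (hp2 : (p : R) ∈ maximalIdeal R ^ 2) : SerreAll R d := by
  intro M N _ _ _ _ _ _ hlen
  refine sp_dev₂ hd M N hlen fun P Q hP hQ _ _ hl => ?_
  have hcomm : ∀ P Q : Ideal R, Module.length R ((R ⧸ P) ⊗[R] (R ⧸ Q)) ≠ ⊤ →
      Module.length R ((R ⧸ Q) ⊗[R] (R ⧸ P)) ≠ ⊤ := fun P Q h => by
    rwa [(TensorProduct.comm R (R ⧸ Q) (R ⧸ P)).length_eq]
  -- from the core statement for a pair
  have key : ∀ (P Q : Ideal R) (_ : P.IsPrime) (_ : Q.IsPrime)
      (_ : Module.length R ((R ⧸ P) ⊗[R] (R ⧸ Q)) ≠ ⊤),
      (∀ a b : ℕ, ringKrullDim (R ⧸ P) = a → ringKrullDim (R ⧸ Q) = b →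
        (a + b < d → 0 ≤ eulerTor R (d + 1) (R ⧸ P) (R ⧸ Q)) ∧
        (a + b = d → 0 < eulerTor R (d + 1) (R ⧸ P) (R ⧸ Q))) →
      SP R d (R ⧸ P) (R ⧸ Q) := by
    intro P Q hP hQ hl h
    obtain ⟨a, ha⟩ := exists_nat_ringKrullDim_quot P
    obtain ⟨b, hb⟩ := exists_nat_ringKrullDim_quot Q
    obtain ⟨h1, h2⟩ := h a b ha hb
    have hle : a + b ≤ d := dimension_inequality_complete p R d hd hp2 (R ⧸ P) (R ⧸ Q) hl a b
      (by rw [supportDim_quotient_eq, ha]) (by rw [supportDim_quotient_eq, hb])
    refine ⟨?_, fun m n hm hn => ?_⟩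
    · rcases hle.lt_or_eq with h3 | h3
      · exact h1 h3
      · exact (h2 h3).le
    · rw [supportDim_quotient_eq, ha] at hm
      rw [supportDim_quotient_eq, hb] at hn
      have hm' : m ≤ a := by exact_mod_cast hm
      have hn' : n ≤ b := by exact_mod_cast hn
      exact ⟨by omega, fun h4 => h2 (by omega)⟩
  by_cases hpP : (p : R) ∈ P
  · by_cases hpQ : (p : R) ∈ Q
    · have hpm : (p : R) ∈ maximalIdeal R := Ideal.pow_le_self two_ne_zero hp2
      have hg := good_p_power R d hd p hp0 hpm (R ⧸ P) (R ⧸ Q) 1 1 (fun x => by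
        rw [pow_one]
        obtain ⟨y, rfl⟩ := Ideal.Quotient.mk_surjective x
        exact Ideal.Quotient.eq_zero_iff_mem.2 (Ideal.mul_mem_right _ _ hpP)) (fun x => by
        rw [pow_one]
        obtain ⟨y, rfl⟩ := Ideal.Quotient.mk_surjective x
        exact Ideal.Quotient.eq_zero_iff_mem.2 (Ideal.mul_mem_right _ _ hpQ)) hl
      refine key P Q hP hQ hl fun a b ha hb => ⟨fun _ => hg.1, fun hab => ?_⟩
      exact hg.2 a b (by rw [supportDim_quotient_eq, ha]) (by rw [supportDim_quotient_eq, hb])
        hab.ge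
    · refine SP.symm (key Q P hQ hP (hcomm P Q hl) fun a b ha hb => ?_)
      exact h₁ p R d hd hp0 hp2 Q P hQ hP ⟨hpQ, hpP⟩ (hcomm P Q hl) a b ha hb
  · by_cases hpQ : (p : R) ∈ Q
    · exact key P Q hP hQ hl fun a b ha hb =>
        h₁ p R d hd hp0 hp2 P Q hP hQ ⟨hpP, hpQ⟩ hl a b ha hb
    · exact key P Q hP hQ hl fun a b ha hb =>
        h₀ p R d hd hp0 hp2 P Q hP hQ ⟨hpP, hpQ⟩ hl a b ha hb

/-- From the core statement to all modules over the ramified regular local rings. -/
theorem serreAll_ramified_of_core (h₀ : CoreStmt₀.{u}) (h₁ : CoreStmt₁.{u}) (p : ℕ)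
    [Fact p.Prime] (R : Type u) [CommRing R] [IsRegularLocalRing R] [CharP (ResidueField R) p]
    (d : ℕ) (hd : ringKrullDim R = d) (hp0 : (p : R) ≠ 0)
    (hp2 : (p : R) ∈ maximalIdeal R ^ 2) : SerreAll R d := by
  obtain ⟨S, _, _, _, hflat, hm, hdS, hcomp, hch, hperf⟩ := exists_gonflement R p hd
  have hloc : IsLocalHom (algebraMap R S) := ((local_hom_TFAE (algebraMap R S)).out 0 2).2 hm.le
  have hff : Module.FaithfullyFlat R S := Module.FaithfullyFlat.of_flat_of_isLocalHom
  have hinj : Injective (algebraMap R S) := FaithfulSMul.algebraMap_injective R S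
  refine SerreAll.descend hm (serreAll_complete_of_core h₀ h₁ p S d hdS ?_ ?_)
  · rw [← map_natCast (algebraMap R S)]
    exact fun h => hp0 ((injective_iff_map_eq_zero _).1 hinj _ h)
  · rw [← map_natCast (algebraMap R S), ← hm, ← Ideal.map_pow]
    exact Ideal.mem_map_of_mem _ hp2

end Vale.Agent.P177
end

section

/-!
Serre's positivity conjecture for equicharacteristic and unramified regular local rings, and the
outer shell for all regular local rings.
-/

namespace Vale.Agent.P177

open TensorProduct IsLocalRing RingTheory.Sequence Function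

universe u

theorem exists_evalHom_surjective_base {A L : Type u} [CommRing A] [IsLocalRing A]
    [IsNoetherianRing A] [IsAdicComplete (maximalIdeal A) A] [CommRing L] [IsLocalRing L]
    [IsAdicComplete (maximalIdeal L) L] (σ : L →+* A)
    (hσ : Function.Surjective (fun x => residue A (σ x))) {r s : ℕ} (x : Fin r → A)
    (t : Fin s → L) (ht : ∀ i, t i ∈ maximalIdeal L)
    (hle : maximalIdeal L ≤ (maximalIdeal A).comap σ)
    (hx : Ideal.span (Set.range fun i => σ (t i)) ⊔ Ideal.span (Set.range x) = maximalIdeal A) :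
    ∃ φ : MvPowerSeries (Fin r) L →+* A, Function.Surjective φ ∧
      (∀ v, φ (MvPowerSeries.C v) = σ v) ∧ ∀ i, φ (MvPowerSeries.X i) = x i := by
  have hxm : Ideal.span (Set.range x) ≤ maximalIdeal A := hx ▸ le_sup_right
  obtain ⟨φ, hφ⟩ := exists_evalHom (maximalIdeal A) σ x
    (fun i => hxm (Ideal.subset_span ⟨i, rfl⟩))
  have hC : ∀ r, φ (MvPowerSeries.C r) = σ r := by
    intro r
    rw [← MvPolynomial.coe_C, hφ]
    simp
  have hX : ∀ i, φ (MvPowerSeries.X i) = x i := by
    intro i
    rw [← MvPolynomial.coe_X, hφ]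
    simp
  refine ⟨φ, ?_, hC, hX⟩
  have hmap : (Ideal.span (Set.range MvPowerSeries.X) : Ideal (MvPowerSeries (Fin r) L)).map φ =
      Ideal.span (Set.range x) := by
    rw [Ideal.map_span, ← Set.range_comp]
    congr 2
    ext i
    exact hX i
  -- the base ring surjects onto the quotient
  let A' := A ⧸ Ideal.span (Set.range x)
  have hnt : Nontrivial A' := Ideal.Quotient.nontrivial_iff.2 fun h =>
    (maximalIdeal.isMaximal A).ne_top (top_le_iff.1 (h ▸ hxm))
  have hlA : IsLocalRing A' := .of_surjective' (Ideal.Quotient.mk _) Ideal.Quotient.mk_surjective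
  let q : A →+* A' := Ideal.Quotient.mk _
  have hmA : (maximalIdeal A).map q = maximalIdeal A' :=
    map_maximalIdeal_of_surjective _ Ideal.Quotient.mk_surjective
  have hmL : (maximalIdeal L).map (q.comp σ) ≤ maximalIdeal A' := by
    rw [← Ideal.map_map, ← hmA]
    exact Ideal.map_mono (Ideal.map_le_iff_le_comap.2 hle)
  have hH' : IsHausdorff ((maximalIdeal L).map (q.comp σ)) A' :=
    IsHausdorff.of_le_jacobson _ _ (hmL.trans (IsLocalRing.maximalIdeal_le_jacobson ⊥))
  have hsurj' : Surjective (q.comp σ) := by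
    apply surjective_of_mk_map_comp_surjective (I := maximalIdeal L) (q.comp σ)
    intro y
    obtain ⟨a', rfl⟩ := Ideal.Quotient.mk_surjective y
    obtain ⟨a, rfl⟩ : ∃ a, q a = a' := Ideal.Quotient.mk_surjective a'
    obtain ⟨v, hv⟩ := hσ (residue A a)
    refine ⟨v, ?_⟩
    rw [RingHom.comp_apply, RingHom.comp_apply, Ideal.Quotient.mk_eq_mk_iff_sub_mem, ← map_sub]
    have h1 : σ v - a ∈ maximalIdeal A := by
      rw [← residue_eq_zero_iff, map_sub, sub_eq_zero]
      exact hv
    rw [← hx] at h1
    have h2 : Ideal.span (Set.range fun i => σ (t i)) ⊔ Ideal.span (Set.range x) ≤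
        ((maximalIdeal L).map (q.comp σ)).comap q := by
      refine sup_le ?_ ?_
      · rw [Ideal.span_le]
        rintro _ ⟨i, rfl⟩
        exact Ideal.mem_map_of_mem (q.comp σ) (ht i)
      · rw [Ideal.span_le]
        rintro _ ⟨i, rfl⟩
        rw [SetLike.mem_coe, Ideal.mem_comap]
        have h3 : q (x i) = 0 := Ideal.Quotient.eq_zero_iff_mem.2 (Ideal.subset_span ⟨i, rfl⟩)
        rw [h3]
        exact Ideal.zero_mem _
    exact h2 h1
  have hH : IsHausdorff ((Ideal.span (Set.range MvPowerSeries.X) :
      Ideal (MvPowerSeries (Fin r) L)).map φ) A := by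
    rw [hmap]
    exact IsHausdorff.of_le_jacobson _ _ (hxm.trans (IsLocalRing.maximalIdeal_le_jacobson ⊥))
  apply surjective_of_mk_map_comp_surjective (I := Ideal.span (Set.range MvPowerSeries.X)) φ
  intro y
  obtain ⟨a, rfl⟩ := Ideal.Quotient.mk_surjective y
  obtain ⟨v, hv⟩ := hsurj' (q a)
  refine ⟨MvPowerSeries.C v, ?_⟩
  rw [RingHom.comp_apply, hC, Ideal.Quotient.mk_eq_mk_iff_sub_mem, hmap]
  rw [← Ideal.Quotient.mk_eq_mk_iff_sub_mem]
  exact hv


theorem serreAll_of_powerSeries_equiv {V S : Type u} [CommRing V] [IsRegularLocalRing V]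
    (hV : ringKrullDim V ≤ 4) (n : ℕ) [CommRing S] [IsRegularLocalRing S]
    (e : MvPowerSeries (Fin n) V ≃+* S) (d : ℕ) (hd : ringKrullDim S = d) : SerreAll S d := by
  let _ : Algebra S (MvPowerSeries (Fin n) V) := e.symm.toRingHom.toAlgebra
  let eA : S ≃ₐ[S] MvPowerSeries (Fin n) V := AlgEquiv.ofRingEquiv (f := e.symm) fun _ => rfl
  have hfl : Module.Flat S (MvPowerSeries (Fin n) V) :=
    Module.Flat.of_linearEquiv eA.symm.toLinearEquiv
  have hreg := mvPowerSeries_regular_fin V n
  refine serreAll_formal 4 locPos_four V (by exact_mod_cast hV) n S ?_ d hd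
  exact map_maximalIdeal_of_surjective _ e.symm.surjective

theorem charZero_of_injective_algebraMap_aux {S : Type u} [CommRing S] [IsLocalRing S]
    [CharZero (ResidueField S)] {I : Ideal S} (hle : I ≤ maximalIdeal S) : CharZero (S ⧸ I) := by
  refine ⟨fun a b hab => ?_⟩
  have h := congrArg (Ideal.Quotient.factor hle) hab
  rw [map_natCast, map_natCast] at h
  exact Nat.cast_injective (R := ResidueField S) h

theorem exists_rsp_fun (S : Type u) [CommRing S] [IsRegularLocalRing S] {d : ℕ}
    (hd : ringKrullDim S = d) : ∃ x : Fin d → S, Ideal.span (Set.range x) = maximalIdeal S := by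
  obtain ⟨rs, hrs, hl, -⟩ := exists_rsp S hd
  subst hl
  refine ⟨fun i => rs.get i, ?_⟩
  rw [← hrs, Ideal.ofList]
  congr 1
  ext y
  simp only [Set.mem_range, Set.mem_ofPred_eq, List.mem_iff_get]

/-- A complete regular local ring with a field over which it has trivial residue extension. -/
theorem serreAll_of_field {S k : Type u} [CommRing S] [IsRegularLocalRing S]
    [IsAdicComplete (maximalIdeal S) S] [Field k] (σ : k →+* S)
    (hσ : Function.Surjective (fun x => residue S (σ x))) (d : ℕ) (hd : ringKrullDim S = d) :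
    SerreAll S d := by
  obtain ⟨x, hx⟩ := exists_rsp_fun S hd
  obtain ⟨φ, hφ⟩ := exists_powerSeries_surjective S k σ hσ d x hx
  have hreg : IsRegularLocalRing (MvPowerSeries (Fin d) k) := mvPowerSeries_isRegularLocalRing _ _
  have hdim : ringKrullDim (MvPowerSeries (Fin d) k) = d := by
    rw [mvPowerSeries_ringKrullDim]
    simp
  have hinj : RingHom.ker φ = ⊥ := ker_eq_bot_of_dim_eq φ hφ (by rw [hd, hdim])
  have hk : ringKrullDim k ≤ 4 := by
    rw [ringKrullDim_eq_zero_of_field]
    norm_num
  exact serreAll_of_powerSeries_equiv hk d (RingEquiv.ofBijective φ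
    ⟨(RingHom.injective_iff_ker_eq_bot φ).2 hinj, hφ⟩) d hd

/-- Residue characteristic zero. -/
theorem serreAll_charZero (R : Type u) [CommRing R] [IsRegularLocalRing R]
    [CharZero (ResidueField R)] (d : ℕ) (hd : ringKrullDim R = d) : SerreAll R d := by
  obtain ⟨S, _, _, _, hflat, hm, hdS, hcomp, hres⟩ := exists_completion_residue R hd
  refine SerreAll.descend hm ?_
  have hloc : IsLocalHom (algebraMap R S) := ((local_hom_TFAE (algebraMap R S)).out 0 2).2 hm.le
  have hcz : CharZero (ResidueField S) :=
    charZero_of_injective_ringHom (f := ResidueField.map (algebraMap R S)) (RingHom.injective _)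
  obtain ⟨hQ⟩ : Nonempty (Algebra ℚ S) := by
    refine (EqualCharZero.nonempty_algebraRat_iff S).2 fun I hI => ?_
    have hle : I ≤ maximalIdeal S := le_maximalIdeal hI
    exact charZero_of_injective_algebraMap_aux hle
  let _ := hQ
  obtain ⟨s, hs⟩ := exists_isTranscendenceBasis ℚ (ResidueField S)
  have halg := hs.isAlgebraic_field
  have hfs : Algebra.FormallySmooth ℚ (ResidueField S) :=
    Algebra.FormallySmooth.of_algebraicIndependent_of_isSeparable hs.1
  let f : ResidueField S →ₐ[ℚ] S ⧸ maximalIdeal S :=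
    { (RingHom.id (ResidueField S) : ResidueField S →+* S ⧸ maximalIdeal S) with
      commutes' := fun r => RingHom.congr_fun (Subsingleton.elim
        ((RingHom.id (ResidueField S) : ResidueField S →+* S ⧸ maximalIdeal S).comp
          (algebraMap ℚ (ResidueField S))) (algebraMap ℚ (S ⧸ maximalIdeal S))) r }
  obtain ⟨g, hg⟩ := @Algebra.FormallySmooth.exists_mkₐ_comp_eq_of_isAdicComplete
    ℚ (ResidueField S) _ _ _ S _ _ hfs (maximalIdeal S) _ f
  exact serreAll_of_field g.toRingHom (fun x => ⟨x, congr($hg x)⟩) d hdS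

/-- Equal characteristic `p`. -/
theorem serreAll_charP (p : ℕ) [Fact p.Prime] (R : Type u) [CommRing R] [IsRegularLocalRing R]
    (hp : (p : R) = 0) (d : ℕ) (hd : ringKrullDim R = d) : SerreAll R d := by
  obtain ⟨S, _, _, _, hflat, hm, hdS, hcomp, hres⟩ := exists_completion_residue R hd
  refine SerreAll.descend hm ?_
  have hpS : (p : S) = 0 := by rw [← map_natCast (algebraMap R S), hp, map_zero]
  have hch : CharP S p := (CharP.charP_iff_prime_eq_zero Fact.out).2 hpS
  obtain ⟨σ, hσ⟩ := exists_coefficientField S p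
  exact serreAll_of_field σ (fun x => ⟨x, hσ x⟩) d hdS

/-- The unramified case. -/
theorem serreAll_unramified (p : ℕ) [Fact p.Prime] (R : Type u) [CommRing R]
    [IsRegularLocalRing R] [CharP (ResidueField R) p] (hp2 : (p : R) ∉ maximalIdeal R ^ 2)
    (d : ℕ) (hd : ringKrullDim R = d) : SerreAll R d := by
  obtain ⟨S, _, _, _, hflat, hm, hdS, hcomp, hch, hperf⟩ := exists_gonflement R p hd
  have hloc : IsLocalHom (algebraMap R S) := ((local_hom_TFAE (algebraMap R S)).out 0 2).2 hm.le
  have hff : Module.FaithfullyFlat R S := Module.FaithfullyFlat.of_flat_of_isLocalHom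
  refine SerreAll.descend hm ?_
  have hpm : (p : S) ∈ maximalIdeal S := by
    rw [← residue_eq_zero_iff, map_natCast, CharP.cast_eq_zero]
  have hpS : (p : S) ∉ maximalIdeal S ^ 2 := by
    rw [← map_natCast (algebraMap R S), ← hm, ← Ideal.map_pow]
    intro h
    apply hp2
    rw [← Ideal.comap_map_eq_self_of_faithfullyFlat (B := S) (maximalIdeal R ^ 2)]
    exact h
  obtain ⟨hAreg, hAdim⟩ := regular_quotient S (p : S) hpm hpS
  obtain ⟨e, he⟩ := exists_nat_eq_ringKrullDim (S ⧸ Ideal.span {(p : S)})
  have hed : e + 1 = d := by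
    rw [he, hdS] at hAdim
    exact_mod_cast hAdim
  subst hed
  obtain ⟨x', hx'⟩ := exists_rsp_fun (S ⧸ Ideal.span {(p : S)}) he
  choose x hx using fun i => Ideal.Quotient.mk_surjective (x' i)
  have hspan : Ideal.span {(p : S)} ⊔ Ideal.span (Set.range x) = maximalIdeal S := by
    have h1 : (maximalIdeal S).map (Ideal.Quotient.mk (Ideal.span {(p : S)})) =
        maximalIdeal (S ⧸ Ideal.span {(p : S)}) :=
      map_maximalIdeal_of_surjective _ Ideal.Quotient.mk_surjective
    have h2 : (Ideal.span (Set.range x)).map (Ideal.Quotient.mk (Ideal.span {(p : S)})) =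
        (maximalIdeal S).map (Ideal.Quotient.mk (Ideal.span {(p : S)})) := by
      rw [h1, ← hx', Ideal.map_span, ← Set.range_comp]
      congr 2
      ext i
      exact hx i
    have h3 := congrArg (Ideal.comap (Ideal.Quotient.mk (Ideal.span {(p : S)}))) h2
    rw [Ideal.comap_map_of_surjective _ Ideal.Quotient.mk_surjective,
      Ideal.comap_map_of_surjective _ Ideal.Quotient.mk_surjective,
      ← RingHom.ker_eq_comap_bot, Ideal.mk_ker] at h3
    rw [sup_comm, h3, sup_eq_left, Ideal.span_singleton_le_iff_mem]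
    exact hpm
  obtain ⟨σ, hσ⟩ := exists_witt_hom (S := S) p
  obtain ⟨hreg, hmax, hdim⟩ := witt_dim_one (ResidueField S) p
  have hW : IsAdicComplete (maximalIdeal (WittVector p (ResidueField S)))
      (WittVector p (ResidueField S)) := by
    rw [hmax]
    infer_instance
  obtain ⟨φ, hφ, -⟩ := exists_evalHom_surjective_base (L := WittVector p (ResidueField S)) σ
    (fun y => ⟨WittVector.teichmuller p y, by
      change residue S (σ (WittVector.teichmuller p y)) = y
      rw [hσ, WittVector.teichmuller_coeff_zero]⟩) x (fun _ : Fin 1 => (p : WittVector p _))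
    (fun _ => by rw [hmax]; exact Ideal.mem_span_singleton_self _)
    (by
      rw [hmax, Ideal.span_singleton_le_iff_mem, Ideal.mem_comap, map_natCast]
      exact hpm)
    (by
      rw [Set.range_const, map_natCast]
      exact hspan)
  have hregB : IsRegularLocalRing (MvPowerSeries (Fin e) (WittVector p (ResidueField S))) :=
    mvPowerSeries_regular_fin _ e
  have hdB : ringKrullDim (MvPowerSeries (Fin e) (WittVector p (ResidueField S))) =
      ((e + 1 : ℕ) : WithBot ℕ∞) := by
    have h := (mvPowerSeries_regular (A := WittVector p (ResidueField S)) e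
      (Equiv.refl (Fin e)) hdim).2
    rw [h]
    norm_cast
    omega
  have hinj : RingHom.ker φ = ⊥ := ker_eq_bot_of_dim_eq φ hφ (by rw [hdS, hdB])
  exact serreAll_of_powerSeries_equiv (by rw [hdim]; norm_num) e (RingEquiv.ofBijective φ
    ⟨(RingHom.injective_iff_ker_eq_bot φ).2 hinj, hφ⟩) (e + 1) hdS

/-- **The outer shell.** The core statements imply Serre's positivity conjecture for all regular
local rings. -/
theorem serreAll_of_core (h₀ : CoreStmt₀.{u}) (h₁ : CoreStmt₁.{u}) (R : Type u) [CommRing R]
    [IsRegularLocalRing R] (d : ℕ) (hd : ringKrullDim R = d) : SerreAll R d := by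
  obtain ⟨p, hp⟩ := CharP.exists (ResidueField R)
  rcases CharP.char_is_prime_or_zero (ResidueField R) p with hpp | rfl
  · have : Fact p.Prime := ⟨hpp⟩
    by_cases hp0 : (p : R) = 0
    · exact serreAll_charP p R hp0 d hd
    by_cases hp2 : (p : R) ∈ maximalIdeal R ^ 2
    · exact serreAll_ramified_of_core h₀ h₁ p R d hd hp0 hp2
    · exact serreAll_unramified p R hp2 d hd
  · have : CharZero (ResidueField R) := CharP.charP_to_charZero _
    exact serreAll_charZero R d hd

end Vale.Agent.P177
end

section

/-!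
The end of the proof: the flag formula implies Serre's positivity conjecture.
-/

namespace Vale.Agent.P177

open TensorProduct IsLocalRing RingTheory.Sequence Function

universe u

theorem ringKrullDim_le_of_isIntegral {A B : Type*} [CommRing A] [CommRing B] [Algebra A B]
    [Algebra.IsIntegral A B] : ringKrullDim B ≤ ringKrullDim A := by
  refine Order.krullDim_le_of_strictMono
    (fun q : PrimeSpectrum B => PrimeSpectrum.comap (algebraMap A B) q) fun q q' hlt => ?_
  have h1 : q.asIdeal < q'.asIdeal := hlt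
  obtain ⟨x, hx', hx⟩ := SetLike.exists_of_lt h1
  exact Ideal.comap_lt_comap_of_integral_mem_sdiff h1.le ⟨hx', hx⟩
    (Algebra.IsIntegral.isIntegral x)

theorem injective_of_finite_of_dim {Λ S : Type u} [CommRing Λ] [IsRegularLocalRing Λ]
    [CommRing S] [Algebra Λ S] [Module.Finite Λ S] (b : ℕ) (hΛ : ringKrullDim Λ = b)
    (hS : ringKrullDim S = b) : Injective (algebraMap Λ S) := by
  have hdom : IsDomain Λ := regular_isDomain Λ
  rw [injective_iff_map_eq_zero]
  intro x hx
  by_contra hx0
  have hle : ringKrullDim S ≤ ringKrullDim (Λ ⧸ Ideal.span {x}) := by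
    let φ : Λ ⧸ Ideal.span {x} →+* S := Ideal.Quotient.lift _ (algebraMap Λ S) fun a ha => by
      obtain ⟨y, rfl⟩ := Ideal.mem_span_singleton'.1 ha
      rw [map_mul, hx, mul_zero]
    let _ : Algebra (Λ ⧸ Ideal.span {x}) S := φ.toAlgebra
    have : IsScalarTower Λ (Λ ⧸ Ideal.span {x}) S := IsScalarTower.of_algebraMap_eq fun a => rfl
    have : Module.Finite (Λ ⧸ Ideal.span {x}) S := Module.Finite.of_restrictScalars_finite Λ _ S
    have : Algebra.IsIntegral (Λ ⧸ Ideal.span {x}) S := Algebra.IsIntegral.of_finite _ _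
    exact ringKrullDim_le_of_isIntegral
  have h2 := ringKrullDim_quotient_succ_le_of_nonZeroDivisor (mem_nonZeroDivisors_of_ne_zero hx0)
  rw [hS] at hle
  rw [hΛ] at h2
  have h3 : ((b + 1 : ℕ) : WithBot ℕ∞) ≤ b := by
    refine le_trans ?_ h2
    push_cast
    gcongr
  have h4 : b + 1 ≤ b := by exact_mod_cast h3
  omega

theorem nontrivial_tensor_of_injective {Λ S Ω : Type u} [CommRing Λ] [CommRing S] [Algebra Λ S]
    [Field Ω] [Algebra Λ Ω] [Module.Flat Λ Ω] (hinj : Injective (algebraMap Λ S)) :
    Nontrivial (Ω ⊗[Λ] S) := by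
  have h := Algebra.TensorProduct.includeLeft_injective (S := Λ) (A := Ω) (B := S) hinj
  exact h.nontrivial

/-- The modules with effective trace: positivity. -/
theorem pos_of_nice {R : Type u} [CommRing R] {Λ : Type u} [CommRing Λ] [Algebra Λ R]
    {Ω : Type u} [Field Ω] [IsAlgClosed Ω] [CharZero Ω] [Algebra Λ Ω] {d : ℕ}
    {A : Type u} [AddCommGroup A] [Module R A] {hs : List R} {w : (R →ₐ[Λ] Ω) → ℝ}
    {strict : Prop}
    (hw : ∀ σ : R →ₐ[Λ] Ω, (∀ h ∈ hs, σ h = 0) → 0 ≤ w σ ∧ (strict → 0 < w σ))
    {M : Type u} [AddCommGroup M] [Module R M] [Module Λ M] [IsScalarTower Λ R M]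
    [Module.Finite Λ M] (hM : ∀ h ∈ hs, ∀ x : M, h • x = 0) (hnt : Nontrivial (Ω ⊗[Λ] M))
    (h : Nice d A w M) :
    0 ≤ eulerTor R (d + 1) A M ∧ (strict → 0 < eulerTor R (d + 1) A M) := by
  obtain ⟨D, hD, hE⟩ := h
  let ρ : R →+* Module.End Ω (Ω ⊗[Λ] M) :=
    { toFun := fun r => (Algebra.lsmul Λ Λ M r).baseChange Ω
      map_one' := by
        rw [map_one]
        exact LinearMap.baseChange_id
      map_mul' := fun a b => by
        rw [map_mul]
        exact LinearMap.baseChange_comp _ _
      map_zero' := by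
        rw [map_zero]
        exact LinearMap.baseChange_zero
      map_add' := fun a b => by
        rw [map_add]
        exact LinearMap.baseChange_add _ _ }
  obtain ⟨τ, hτ, hτ2⟩ := exists_characters (Module.finrank Ω (Ω ⊗[Λ] M)) (Ω ⊗[Λ] M) ρ rfl
  have hn : 0 < Module.finrank Ω (Ω ⊗[Λ] M) := Module.finrank_pos
  -- the characters are `Λ`-linear
  have hsc : ∀ (x : Λ) (v : Ω ⊗[Λ] M), ρ (algebraMap Λ R x) v = algebraMap Λ Ω x • v := by
    intro x v
    change (Algebra.lsmul Λ Λ M (algebraMap Λ R x)).baseChange Ω v = _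
    have h1 : Algebra.lsmul Λ Λ M (algebraMap Λ R x) = x • LinearMap.id := by
      ext m
      simp
    rw [h1, LinearMap.baseChange_smul, LinearMap.baseChange_id, LinearMap.smul_apply,
      LinearMap.id_apply, algebraMap_smul]
  let σ : Fin (Module.finrank Ω (Ω ⊗[Λ] M)) → (R →ₐ[Λ] Ω) := fun j =>
    { τ j with commutes' := fun x => hτ2 j _ _ (hsc x) }
  have hσ0 : ∀ j, ∀ h ∈ hs, σ j h = 0 := by
    intro j h hh
    refine hτ2 j h 0 fun v => ?_
    change (Algebra.lsmul Λ Λ M h).baseChange Ω v = _
    have h1 : Algebra.lsmul Λ Λ M h = 0 := by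
      ext m
      exact hM h hh m
    rw [h1, LinearMap.baseChange_zero, zero_smul]
    rfl
  have hDeq : D = ∑ j, Finsupp.single (σ j) (1 : ℤ) := by
    refine finsupp_eq_of_sum_eq (fun s : R →ₐ[Λ] Ω => (s : R →+* Ω))
      (fun s t hst => AlgHom.coe_ringHom_injective hst) _ _ fun r => ?_
    have h2 := sum_single_eq (S := Ω) (Module.finrank Ω (Ω ⊗[Λ] M)) σ (fun s => s r)
    exact (hD r).symm.trans ((hτ r).trans h2.symm)
  have hsum : (eulerTor R (d + 1) A M : ℝ) = ∑ j, w (σ j) := by
    rw [hE, hDeq, sum_single_eq]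
  constructor
  · have h3 : (0 : ℝ) ≤ eulerTor R (d + 1) A M := by
      rw [hsum]
      exact Finset.sum_nonneg fun j _ => (hw _ (hσ0 j)).1
    exact_mod_cast h3
  · intro hst
    have h3 : (0 : ℝ) < eulerTor R (d + 1) A M := by
      rw [hsum]
      exact Finset.sum_pos (fun j _ => (hw _ (hσ0 j)).2 hst) ⟨⟨0, hn⟩, Finset.mem_univ _⟩
    exact_mod_cast h3

/-- The core statement from the flag formula. -/
theorem coreStmt_of_flag (hflag : FlagStmt.{u}) :
    CoreStmt.{u} fun p R _ _ Q => (p : R) ∉ Q := by
  intro p _ R _ _ _ _ _ d hd hp0 hp2 P Q hP hQ hpQ hlen a b ha hb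
  by_cases hab : a + b ≤ d
  swap
  · exact ⟨fun h => absurd h.le hab, fun h => absurd h.le hab⟩
  have hpm : (p : R) ∈ maximalIdeal R := Ideal.pow_le_self two_ne_zero hp2
  have hrad : maximalIdeal R ≤ (P ⊔ Q).radical := by
    obtain ⟨k, hk⟩ := exists_pow_le_sup_annihilator (R ⧸ P) (R ⧸ Q) hlen
    rw [Ideal.annihilator_quotient, Ideal.annihilator_quotient] at hk
    exact fun x hx => ⟨k, hk (Ideal.pow_mem_pow hx k)⟩
  obtain ⟨hs, hsQ, hreg, hlen', hrad'⟩ := exists_hs hd P Q (p : R) hpm hp0 hpQ hrad a b
    (by rw [supportDim_quotient_eq, ha]) (by rw [supportDim_quotient_eq, hb]) hab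
  have hb1 : 1 ≤ b := by
    by_contra hb0
    have hb0' : b = 0 := by omega
    subst hb0'
    have h1 := maximalIdeal_le_radical_of_supportDim Q (by
      rw [supportDim_quotient_eq, hb]
      exact_mod_cast le_rfl)
    rw [hQ.radical] at h1
    exact hpQ (h1 hpm)
  have hsm : ∀ h ∈ hs, h ∈ maximalIdeal R := fun h hh => le_maximalIdeal hQ.ne_top (hsQ h hh)
  have hregs : IsWeaklyRegular R hs := ((isWeaklyRegular_append_iff _ _ _).1 hreg).1
  have hdimS : ringKrullDim (R ⧸ Ideal.ofList hs) = b := by
    have h1 := supportDim_quot_of_weaklyRegular hd hs hsm hregs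
    have heq : (Ideal.ofList hs • ⊤ : Submodule R R) = Ideal.ofList hs := by
      rw [smul_eq_mul, Ideal.mul_top]
    rw [Module.supportDim_eq_of_equiv (Submodule.quotEquivOfEq _ _ heq),
      supportDim_quotient_eq] at h1
    rw [h1]
    have h2 : d - hs.length = b := by omega
    rw [h2]
  obtain ⟨Λ, _, _, _, Ω, _, _, _, _, _, hfinΛ, hdimΛ, hF⟩ := hflag p R d hd hp0 hp2 P hP hs hsm
    hreg hrad' a b ha hlen' hb1 hdimS hab
  rw [hdimS] at hdimΛ
  have hdomΛ : IsDomain Λ := regular_isDomain Λ
  have hflat : Module.Flat Λ Ω := flat_field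
  have hfree := free_quotient_ofList hd hs hsm hlen' Λ hdimΛ
  have hfin : ∀ (X : Type u) [AddCommGroup X] [Module R X] [Module.Finite R X],
      (∀ h ∈ hs, ∀ x : X, h • x = 0) → Module.length R (X ⊗[R] (R ⧸ P)) ≠ ⊤ := by
    intro X _ _ _ hX
    refine FL.length_ne_top (?_ : FL ([] : List R) (X ⊗[R] (R ⧸ P)))
    refine hrad'.trans (Ideal.radical_mono (sup_le ?_ ?_))
    · refine le_sup_of_le_left fun x hx => Module.mem_annihilator.2 fun z => ?_
      have h1 : ∀ y : R ⧸ P, x • y = 0 := fun y => by
        obtain ⟨y, rfl⟩ := Ideal.Quotient.mk_surjective y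
        exact Ideal.Quotient.eq_zero_iff_mem.2 (Ideal.mul_mem_right _ _ hx)
      induction z using TensorProduct.induction_on with
      | zero => exact smul_zero _
      | tmul y z => rw [TensorProduct.smul_tmul', TensorProduct.smul_tmul, h1,
          TensorProduct.tmul_zero]
      | add y z hy hz => rw [smul_add, hy, hz, add_zero]
    · refine le_sup_of_le_left fun x hx => Module.mem_annihilator.2 fun z => ?_
      have h1 := smul_eq_zero_of_mem_ofList hX x hx
      exact tensor_smul_eq_zero_left x h1 z
  have hMQ : ∀ h ∈ hs, ∀ x : R ⧸ Q, h • x = 0 := fun h hh x => by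
    obtain ⟨y, rfl⟩ := Ideal.Quotient.mk_surjective x
    exact Ideal.Quotient.eq_zero_iff_mem.2 (Ideal.mul_mem_right _ _ (hsQ h hh))
  have hfQ : Module.Finite Λ (R ⧸ Q) := finite_of_killed (Λ := Λ) (hs := hs) (R ⧸ Q) hMQ
  obtain ⟨L, _, _, _, _, _, hLfree, hL, hw⟩ := exists_last_syzygy hd hs (R ⧸ P) hfin (Λ := Λ)
    (Ω := Ω) b (R ⧸ Q) hMQ fun j hj => regular_tor_vanish Λ b hdimΛ (R ⧸ Q) _ j hj
  obtain ⟨w, hwpos, hw1, hw2⟩ := hF (R ⧸ Ideal.ofList hs) L (smul_quotient_ofList hs) hL
  have hfL : Module.Finite Λ L := finite_of_killed (Λ := Λ) (hs := hs) L hL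
  have hnice : Nice d (R ⧸ P) w (R ⧸ Q) := hw w hw1.nice hw2.nice
  have hinj : Injective (algebraMap Λ (R ⧸ Q)) := injective_of_finite_of_dim b hdimΛ hb
  obtain ⟨h1, h2⟩ := pos_of_nice hwpos hMQ (nontrivial_tensor_of_injective hinj) hnice
  exact ⟨fun _ => h1, fun h => h2 h⟩

/-- The core statements from the flag formula. -/
theorem coreStmt₀_of_flag (hflag : FlagStmt.{u}) : CoreStmt₀.{u} := by
  intro p _ R _ _ _ _ _ d hd hp0 hp2 P Q hP hQ hpQ
  exact coreStmt_of_flag hflag p R d hd hp0 hp2 P Q hP hQ hpQ.2

theorem coreStmt₁_of_flag (hflag : FlagStmt.{u}) : CoreStmt₁.{u} := by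
  intro p _ R _ _ _ _ _ d hd hp0 hp2 P Q hP hQ hpQ hlen a b ha hb
  have h := coreStmt_of_flag hflag p R d hd hp0 hp2 Q P hQ hP hpQ.1 (by
    rwa [(TensorProduct.comm R (R ⧸ Q) (R ⧸ P)).length_eq]) b a hb ha
  rw [eulerTor_symm (R ⧸ P) (R ⧸ Q)]
  exact ⟨fun h' => h.1 (by omega), fun h' => h.2 (by omega)⟩

/-- **Serre's positivity conjecture from the flag formula.** -/
theorem serreAll_of_flag (hflag : FlagStmt.{u}) (R : Type u) [CommRing R] [IsRegularLocalRing R]
    (d : ℕ) (hd : ringKrullDim R = d) : SerreAll R d :=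
  serreAll_of_core (coreStmt₀_of_flag hflag) (coreStmt₁_of_flag hflag) R d hd

end Vale.Agent.P177
end

section

namespace Vale.Agent.P177

open CategoryTheory IsLocalRing TensorProduct

universe u

theorem exists_nat_of_sum_eq (x y : WithBot ℕ∞) (d : ℕ) (h : x + y = (d : WithBot ℕ∞)) :
    ∃ a b : ℕ, x = (a : WithBot ℕ∞) ∧ y = (b : WithBot ℕ∞) ∧ a + b = d := by
  induction x using WithBot.recBotCoe with
  | bot => simp at h
  | coe x =>
    induction y using WithBot.recBotCoe with
    | bot => simp at h
    | coe y =>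
      have h1 : x + y = (d : ℕ∞) := by exact_mod_cast h
      have hx : x ≠ ⊤ := by
        rintro rfl
        rw [top_add] at h1
        exact absurd h1.symm (ENat.natCast_ne_top d)
      have hy : y ≠ ⊤ := by
        rintro rfl
        rw [add_top] at h1
        exact absurd h1.symm (ENat.natCast_ne_top d)
      lift x to ℕ using hx
      lift y to ℕ using hy
      exact ⟨x, y, rfl, rfl, by exact_mod_cast h1⟩

end Vale.Agent.P177
end

section

/-!
The final form of Serre's positivity conjecture.
-/

namespace Vale.Agent.P177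

open CategoryTheory TensorProduct Function IsLocalRing

universe u

/-- The final form of Serre's positivity conjecture. -/
theorem serre_final (hflag : FlagStmt.{u}) (R : Type u) [CommRing R] [IsRegularLocalRing R] (d : ℕ)
    (hd : ringKrullDim R = d) (M N : Type u) [AddCommGroup M] [Module R M] [Module.Finite R M]
    [AddCommGroup N] [Module R N] [Module.Finite R N]
    (hlen : Module.length R (M ⊗[R] N) ≠ ⊤) :
    (∀ i : ℕ, Module.length R
      (((Tor (ModuleCat.{u} R) i).obj (ModuleCat.of R M)).obj (ModuleCat.of R N)) ≠ ⊤) ∧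
    (∀ i : ℕ, d < i → Subsingleton
      (((Tor (ModuleCat.{u} R) i).obj (ModuleCat.of R M)).obj (ModuleCat.of R N))) ∧
    0 ≤ ∑ i ∈ Finset.range (d + 1), (-1 : ℤ) ^ i * ((Module.length R
      (((Tor (ModuleCat.{u} R) i).obj (ModuleCat.of R M)).obj (ModuleCat.of R N))).toNat : ℤ) ∧
    (Module.supportDim R M + Module.supportDim R N = d →
      0 < ∑ i ∈ Finset.range (d + 1), (-1 : ℤ) ^ i * ((Module.length R
        (((Tor (ModuleCat.{u} R) i).obj (ModuleCat.of R M)).obj (ModuleCat.of R N))).toNat : ℤ)) := by
  have h := serreAll_of_flag hflag R d hd M N hlen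
  refine ⟨fun i => tor_length_ne_top i M N hlen,
    fun i hi => regular_tor_vanish R d hd M N i hi, h.1, ?_⟩
  intro hdim
  obtain ⟨m, n, hm, hn, hmn⟩ := exists_nat_of_sum_eq _ _ d hdim
  exact (h.2 m n hm.ge hn.ge).2 hmn.ge

end Vale.Agent.P177
end

section

/-!
P202-MIX, part HON (honest limit module, cycle lifting): definitions.
-/

namespace Vale.Agent.P202.Mix

open Vale.Agent.P202.CharP
open scoped ENNReal

universe u

section

variable {R : Type u} [CommRing R] {n : ℕ}

/-- scalar operators. -/
def sop (V : Type u) [AddCommGroup V] [Module R V] (y : Fin n → R) (l : Fin n) : V →ₗ[R] V :=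
  y l • LinearMap.id

end

section Limit

variable (R : ℕ → Type u) [∀ e, CommRing (R e)] (X : ℕ → Type u) [∀ e, AddCommGroup (X e)]
  [∀ e, Module (R e) (X e)] (p : ℕ)

end Limit

end Vale.Agent.P202.Mix
end

section

/-!
P202-MIX, HON-8: ultralimits of additive lengths.
-/

namespace Vale.Agent.P202.Mix

open Vale.Agent.P202.CharP
open scoped ENNReal Topology

universe u

section UltraAux

variable (R : ℕ → Type u) [∀ e, CommRing (R e)]

variable (e : ℕ) (M : Type u) [AddCommGroup M] [Module (∀ e, R e) M]

variable {M} {N : Type u} [AddCommGroup N] [Module (∀ e, R e) N]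

end UltraAux

end Vale.Agent.P202.Mix
end
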